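import Crest.Agent.R266.Defs

/-!
# Row 266: simply connected spaces
-/

set_option autoImplicit false
set_option linter.unusedSectionVars false
set_option linter.unusedVariables false

open MeasureTheory Metric Set Filter Topology Complex
open scoped ContDiff Manifold Real
open Crest.AlgGeometry.HolSplit

noncomputable section

namespace Crest.Agent.R266


theorem simplyConnectedSpace_prod (Y Z : Type*) [TopologicalSpace Y] [TopologicalSpace Z]
    [SimplyConnectedSpace Y] [SimplyConnectedSpace Z] : SimplyConnectedSpace (Y × Z) := by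
  refine simply_connected_iff_paths_homotopic.2 ⟨⟨inferInstance, fun x y =>
    ⟨(PathConnectedSpace.somePath x.1 y.1).prod (PathConnectedSpace.somePath x.2 y.2)⟩⟩,
    fun x y => ⟨fun p q => ?_⟩⟩
  rw [← Path.Homotopic.prod_projLeft_projRight (a₁ := x.1) (b₁ := x.2) (a₂ := y.1) (b₂ := y.2) p,
    ← Path.Homotopic.prod_projLeft_projRight (a₁ := x.1) (b₁ := x.2) (a₂ := y.1) (b₂ := y.2) q]
  congr 1 <;> exact Subsingleton.elim _ _

/-- a retract of a simply connected space is simply connected -/
theorem simplyConnectedSpace_retract {Y Z : Type*} [TopologicalSpace Y] [TopologicalSpace Z]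
    [SimplyConnectedSpace Z] {i : Y → Z} {r : Z → Y} (hi : Continuous i) (hr : Continuous r)
    (h : ∀ y, r (i y) = y) : SimplyConnectedSpace Y := by
  refine simply_connected_iff_paths_homotopic'.2 ⟨Function.Surjective.pathConnectedSpace
    (fun y => ⟨i y, h y⟩) hr, fun {x y} p q => ?_⟩
  have h1 := ((SimplyConnectedSpace.paths_homotopic (p.map hi) (q.map hi)).map ⟨r, hr⟩).pathCast
    (h x).symm (h y).symm
  convert h1 using 1 <;> ext t <;> exact (h _).symm

end Crest.Agent.R266
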