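import Crest.Agent.R266.Slice
import Crest.Agent.R266.SC

/-!
# Row 266: a holomorphic rectangular band is a product
-/

set_option autoImplicit false
set_option linter.unusedSectionVars false
set_option linter.unusedVariables false

open MeasureTheory Metric Set Filter Topology Complex
open scoped ContDiff Manifold Real
open Crest.AlgGeometry.HolSplit

noncomputable section

namespace Crest.Agent.R266

namespace PAtlas
variable {n n₁ n₂ : ℕ} {Y : Type} [TopologicalSpace Y] [T2Space Y] [ChartedSpace (Model n) Y]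
  [IsManifold (mI n) ω Y] {𝒜 : PAtlas Y n₁ n₂} {m : Y × Y → Y}

theorem band_local (hm : ∀ q, 𝒜.PTm n m q) (hd : ∀ y, m (y, y) = y) {p a : Y}
    (ha : a ∈ (𝒜.chart p).source) : ∀ᶠ q in 𝓝 (a, a), m q = 𝒜.mix p q.1 q.2 := by
  have h := (hm (a, a)).eq_mix_diag (p := p) (by rw [hd]; exact ha)
  filter_upwards [h] with q hq
  rw [hq, hd, hd]

/-- identity principle for analytic self-maps -/
theorem band_ident [ConnectedSpace Y] (hc : 𝒜.Compat n) {f g : Y → Y}
    (hf : ContMDiff (mI n) (mI n) ω f) (hg : ContMDiff (mI n) (mI n) ω g) {a : Y}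
    (h : f =ᶠ[𝓝 a] g) : f = g :=
  Holm.eq_of_eventuallyEq (𝒜 := 𝒜) (n := n) (fun y => (hc.holm_iff).2 (hf y))
    (fun y => (hc.holm_iff).2 (hg y)) h

/-- identity principle in three variables, one variable at a time -/
theorem band_ident3 [ConnectedSpace Y] (hc : 𝒜.Compat n) {F G : Y → Y → Y → Y}
    (hF₁ : ∀ y z, ContMDiff (mI n) (mI n) ω fun x => F x y z)
    (hF₂ : ∀ x z, ContMDiff (mI n) (mI n) ω fun y => F x y z)
    (hF₃ : ∀ x y, ContMDiff (mI n) (mI n) ω fun z => F x y z)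
    (hG₁ : ∀ y z, ContMDiff (mI n) (mI n) ω fun x => G x y z)
    (hG₂ : ∀ x z, ContMDiff (mI n) (mI n) ω fun y => G x y z)
    (hG₃ : ∀ x y, ContMDiff (mI n) (mI n) ω fun z => G x y z)
    {a : Y} {U : Set Y} (hU : U ∈ 𝓝 a) (h : ∀ x ∈ U, ∀ y ∈ U, ∀ z ∈ U, F x y z = G x y z)
    (x y z : Y) : F x y z = G x y z := by
  have s1 : ∀ x, ∀ y ∈ U, ∀ z ∈ U, F x y z = G x y z := by
    intro x y hy z hz
    refine congrFun (band_ident hc (hF₁ y z) (hG₁ y z) (a := a) ?_) x
    filter_upwards [hU] with x hx using h x hx y hy z hz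
  have s2 : ∀ x y, ∀ z ∈ U, F x y z = G x y z := by
    intro x y z hz
    refine congrFun (band_ident hc (hF₂ x z) (hG₂ x z) (a := a) ?_) y
    filter_upwards [hU] with y hy using s1 x y hy z hz
  refine congrFun (band_ident hc (hF₃ x y) (hG₃ x y) (a := a) ?_) z
  filter_upwards [hU] with z hz using s2 x y z hz

theorem band_comp (hc : 𝒜.Compat n) (hm : ∀ q, 𝒜.PTm n m q) {f g : Y → Y}
    (hf : ContMDiff (mI n) (mI n) ω f) (hg : ContMDiff (mI n) (mI n) ω g) :
    ContMDiff (mI n) (mI n) ω fun x => m (f x, g x) := by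
  have h : ContMDiff ((mI n).prod (mI n)) (mI n) ω m := fun q => hc.contMDiffAt_of_ptm (hm q)
  exact h.comp (hf.prodMk hg)

/-- a neighbourhood on which the band is given by `mix` -/
theorem band_nhd (hm : ∀ q, 𝒜.PTm n m q) (hd : ∀ y, m (y, y) = y) (a : Y) :
    ∃ V ∈ 𝓝 a, ∃ U ∈ 𝓝 a, U ⊆ V ∧
      (∀ x ∈ V, ∀ y ∈ V, m (x, y) = 𝒜.mix a x y ∧ 𝒜.MixOK a x y) ∧
      ∀ x ∈ U, ∀ y ∈ U, m (x, y) ∈ V := by
  have h1 : ∀ᶠ q in 𝓝 (a, a), m q = 𝒜.mix a q.1 q.2 ∧ 𝒜.MixOK a q.1 q.2 :=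
    (band_local hm hd (𝒜.mem a)).and
      ((isOpen_mixOK (𝒜 := 𝒜) a).mem_nhds (mixOK_self (𝒜.mem a)))
  rw [nhds_prod_eq] at h1
  obtain ⟨V, hV, hVV⟩ := (Filter.eventually_prod_self_iff
    (r := fun x y => m (x, y) = 𝒜.mix a x y ∧ 𝒜.MixOK a x y)).1 h1
  have h2 : ∀ᶠ q in 𝓝 (a, a), m q ∈ V := by
    refine (hm (a, a)).continuousAt ?_
    rw [hd]; exact hV
  rw [nhds_prod_eq] at h2
  obtain ⟨W, hW, hWW⟩ := (Filter.eventually_prod_self_iff (r := fun x y => m (x, y) ∈ V)).1 h2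
  exact ⟨V, hV, W ∩ V, inter_mem hW hV, inter_subset_right, fun x hx y hy => hVV x hx y hy,
    fun x hx y hy => hWW x hx.1 y hy.1⟩

theorem band_left [ConnectedSpace Y] (hc : 𝒜.Compat n) (hm : ∀ q, 𝒜.PTm n m q)
    (hd : ∀ y, m (y, y) = y) (x y z : Y) : m (m (x, y), z) = m (x, z) := by
  obtain ⟨V, hV, U, hU, hUV, h1, h2⟩ := band_nhd hm hd x
  refine band_ident3 hc (F := fun x y z => m (m (x, y), z)) (G := fun x y z => m (x, z))
    (fun y z => band_comp hc hm (band_comp hc hm contMDiff_id contMDiff_const) contMDiff_const)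
    (fun x z => band_comp hc hm (band_comp hc hm contMDiff_const contMDiff_id) contMDiff_const)
    (fun x y => band_comp hc hm contMDiff_const contMDiff_id)
    (fun y z => band_comp hc hm contMDiff_id contMDiff_const)
    (fun x z => contMDiff_const)
    (fun x y => band_comp hc hm contMDiff_const contMDiff_id) hU ?_ x y z
  intro u hu v hv w hw
  rw [(h1 _ (h2 u hu v hv) w (hUV hw)).1, (h1 u (hUV hu) w (hUV hw)).1,
    (h1 u (hUV hu) v (hUV hv)).1]
  change (𝒜.chart x).symm ((𝒜.chart x (𝒜.mix x u v)).1, _) = _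
  rw [chart_mix (h1 u (hUV hu) v (hUV hv)).2]
  rfl

theorem band_right [ConnectedSpace Y] (hc : 𝒜.Compat n) (hm : ∀ q, 𝒜.PTm n m q)
    (hd : ∀ y, m (y, y) = y) (x y z : Y) : m (x, m (y, z)) = m (x, z) := by
  obtain ⟨V, hV, U, hU, hUV, h1, h2⟩ := band_nhd hm hd x
  refine band_ident3 hc (F := fun x y z => m (x, m (y, z))) (G := fun x y z => m (x, z))
    (fun y z => band_comp hc hm contMDiff_id contMDiff_const)
    (fun x z => band_comp hc hm contMDiff_const (band_comp hc hm contMDiff_id contMDiff_const))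
    (fun x y => band_comp hc hm contMDiff_const (band_comp hc hm contMDiff_const contMDiff_id))
    (fun y z => band_comp hc hm contMDiff_id contMDiff_const)
    (fun x z => contMDiff_const)
    (fun x y => band_comp hc hm contMDiff_const contMDiff_id) hU ?_ x y z
  intro u hu v hv w hw
  rw [(h1 u (hUV hu) _ (h2 v hv w hw)).1, (h1 u (hUV hu) w (hUV hw)).1,
    (h1 v (hUV hv) w (hUV hw)).1]
  change (𝒜.chart x).symm (_, (𝒜.chart x (𝒜.mix x v w)).2) = _
  rw [chart_mix (h1 v (hUV hv) w (hUV hw)).2]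
  rfl

end PAtlas

end Crest.Agent.R266
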