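import Crest.Agent.R266.Band

/-!
# Row 266: the product decomposition
-/

set_option autoImplicit false
set_option linter.unusedSectionVars false
set_option linter.unusedVariables false

open MeasureTheory Metric Set Filter Topology Complex
open scoped ContDiff Manifold Real
open Crest.AlgGeometry.HolSplit

noncomputable section

namespace Crest.Agent.R266

namespace PAtlas
variable {n n₁ n₂ : ℕ} {Y : Type} [TopologicalSpace Y] [T2Space Y] [ChartedSpace (Model n) Y]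
  [IsManifold (mI n) ω Y] {𝒜 : PAtlas Y n₁ n₂} {m : Y × Y → Y}

theorem band2_left [ConnectedSpace Y] (hc : 𝒜.Compat n) (hm : ∀ q, 𝒜.PTm n m q)
    (hd : ∀ y, m (y, y) = y) (x₀ a : Y) (ha : m (a, x₀) = a) :
    ∀ᶠ x in 𝓝 a, m (x, x₀) = x ↔ (𝒜.chart a x).2 = (𝒜.chart a a).2 := by
  have c : Tendsto (fun x : Y => (x, a)) (𝓝 a) (𝓝 (a, a)) :=
    (continuous_id.prodMk continuous_const).tendsto' _ _ rfl
  filter_upwards [c.eventually (band_local hm hd (𝒜.mem a)),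
    c.eventually ((isOpen_mixOK a).mem_nhds (mixOK_self (𝒜.mem a)))] with x h1 h2
  have h3 : m (x, x₀) = 𝒜.mix a x a := by
    rw [← band_right hc hm hd x a x₀, ha, h1]
  rw [h3]
  constructor
  · intro h
    have h4 := chart_mix h2
    rw [h] at h4
    exact (congrArg Prod.snd h4 :)
  · intro h
    unfold mix
    rw [← h]
    exact (𝒜.chart a).left_inv h2.1

theorem band2_right [ConnectedSpace Y] (hc : 𝒜.Compat n) (hm : ∀ q, 𝒜.PTm n m q)
    (hd : ∀ y, m (y, y) = y) (x₀ a : Y) (ha : m (x₀, a) = a) :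
    ∀ᶠ x in 𝓝 a, m (x₀, x) = x ↔ (𝒜.chart a x).1 = (𝒜.chart a a).1 := by
  have c : Tendsto (fun x : Y => (a, x)) (𝓝 a) (𝓝 (a, a)) :=
    (continuous_const.prodMk continuous_id).tendsto' _ _ rfl
  filter_upwards [c.eventually (band_local hm hd (𝒜.mem a)),
    c.eventually ((isOpen_mixOK a).mem_nhds (mixOK_self (𝒜.mem a)))] with x h1 h2
  have h3 : m (x₀, x) = 𝒜.mix a a x := by
    rw [← band_left hc hm hd x₀ a x, ha, h1]
  rw [h3]
  constructor
  · intro h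
    have h4 := chart_mix h2
    rw [h] at h4
    exact (congrArg Prod.fst h4 :)
  · intro h
    unfold mix
    rw [← h]
    exact (𝒜.chart a).left_inv h2.2.1

/-- a map depending only on the second coordinate kills the first foliation -/
theorem band2_deriv (hc : 𝒜.Compat n) {k : ℕ} {Z : Type} [TopologicalSpace Z]
    [ChartedSpace (Model k) Z] {F : Y → Z} {p : Y} (hF : MDifferentiableAt (mI n) (mI k) F p)
    (he : ∀ᶠ x in 𝓝 p, F x = F (𝒜.mix p p x)) (v : TangentSpace (mI n) p)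
    (hv : (mfderiv (mI n) 𝓘(ℂ, MM n₁ n₂) (𝒜.chart p) p v).2 = 0) :
    mfderiv (mI n) (mI k) F p v = 0 := by
  have h1 : MDifferentiableAt (mI n) 𝓘(ℂ, MM n₁ n₂) (𝒜.chart p) p :=
    ((hc p).1.contMDiffAt ((𝒜.chart p).open_source.mem_nhds (𝒜.mem p))).mdifferentiableAt
      (by simp)
  have h2 : MDifferentiableAt 𝓘(ℂ, MM n₁ n₂) (mI n) (𝒜.chart p).symm (𝒜.chart p p) :=
    ((hc p).2.contMDiffAt ((𝒜.chart p).open_target.mem_nhds
      ((𝒜.chart p).map_source (𝒜.mem p)))).mdifferentiableAt (by simp)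
  have h3 : HasMFDerivAt (mI n) (mI n₂) (fun x => (𝒜.chart p x).2) p
      ((ContinuousLinearMap.snd ℂ (Model n₁) (Model n₂)).comp
        (mfderiv (mI n) 𝓘(ℂ, MM n₁ n₂) (𝒜.chart p) p)) :=
    HasMFDerivAt.comp p (ContinuousLinearMap.snd ℂ (Model n₁) (Model n₂)).hasMFDerivAt
      h1.hasMFDerivAt
  have h4 : MDifferentiableAt (mI n₂) 𝓘(ℂ, MM n₁ n₂)
      (fun b : Model n₂ => (((𝒜.chart p p).1, b) : MM n₁ n₂)) (𝒜.chart p p).2 :=
    ((differentiableAt_const _).prodMk differentiableAt_id).mdifferentiableAt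
  have h5 : MDifferentiableAt (mI n₂) (mI n)
      (fun b : Model n₂ => (𝒜.chart p).symm ((𝒜.chart p p).1, b)) (𝒜.chart p p).2 :=
    MDifferentiableAt.comp (g := (𝒜.chart p).symm) _ h2 h4
  have h6 : MDifferentiableAt (mI n₂) (mI k)
      (fun b : Model n₂ => F ((𝒜.chart p).symm ((𝒜.chart p p).1, b))) (𝒜.chart p p).2 := by
    refine MDifferentiableAt.comp (g := F) _ ?_ h5
    rw [show (𝒜.chart p).symm ((𝒜.chart p p).1, (𝒜.chart p p).2) = p from
      (𝒜.chart p).left_inv (𝒜.mem p)]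
    exact hF
  have h7 := (HasMFDerivAt.comp (f := fun x => (𝒜.chart p x).2)
    (g := fun b : Model n₂ => F ((𝒜.chart p).symm ((𝒜.chart p p).1, b))) p
    h6.hasMFDerivAt h3).congr_of_eventuallyEq (f₁ := F) he
  rw [h7.mfderiv]
  change mfderiv (mI n₂) (mI k)
    (fun b : Model n₂ => F ((𝒜.chart p).symm ((𝒜.chart p p).1, b))) (𝒜.chart p p).2
    (mfderiv (mI n) 𝓘(ℂ, MM n₁ n₂) (𝒜.chart p) p v).2 = 0
  rw [hv]
  exact map_zero _

theorem band2_deriv' (hc : 𝒜.Compat n) {k : ℕ} {Z : Type} [TopologicalSpace Z]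
    [ChartedSpace (Model k) Z] {F : Y → Z} {p : Y} (hF : MDifferentiableAt (mI n) (mI k) F p)
    (he : ∀ᶠ x in 𝓝 p, F x = F (𝒜.mix p x p)) (v : TangentSpace (mI n) p)
    (hv : (mfderiv (mI n) 𝓘(ℂ, MM n₁ n₂) (𝒜.chart p) p v).1 = 0) :
    mfderiv (mI n) (mI k) F p v = 0 := by
  refine band2_deriv (𝒜 := 𝒜.swap) hc.swap hF he v ?_
  have h1 : MDifferentiableAt (mI n) 𝓘(ℂ, MM n₁ n₂) (𝒜.chart p) p :=
    ((hc p).1.contMDiffAt ((𝒜.chart p).open_source.mem_nhds (𝒜.mem p))).mdifferentiableAt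
      (by simp)
  have h2 : HasMFDerivAt (mI n) 𝓘(ℂ, MM n₂ n₁) (𝒜.swap.chart p) p
      ((ContinuousLinearEquiv.prodComm ℂ (Model n₁) (Model n₂) :
        MM n₁ n₂ →L[ℂ] MM n₂ n₁).comp (mfderiv (mI n) 𝓘(ℂ, MM n₁ n₂) (𝒜.chart p) p)) :=
    HasMFDerivAt.comp (f := 𝒜.chart p)
      (g := ContinuousLinearEquiv.prodComm ℂ (Model n₁) (Model n₂)) p
      (ContinuousLinearEquiv.prodComm ℂ (Model n₁) (Model n₂)).hasMFDerivAt h1.hasMFDerivAt
  rw [h2.mfderiv]
  exact hv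

theorem exists_product [ConnectedSpace Y] [SimplyConnectedSpace Y] (hc : 𝒜.Compat n)
    (hm : ∀ q, 𝒜.PTm n m q) (hd : ∀ y, m (y, y) = y) :
    ∃ (Y₁ : Type) (Y₂ : Type) (_ : TopologicalSpace Y₁) (_ : TopologicalSpace Y₂)
      (_ : ChartedSpace (Model n₁) Y₁) (_ : ChartedSpace (Model n₂) Y₂)
      (_ : IsManifold (mI n₁) ω Y₁) (_ : IsManifold (mI n₂) ω Y₂),
      ConnectedSpace Y₁ ∧ ConnectedSpace Y₂ ∧ SimplyConnectedSpace Y₁ ∧ SimplyConnectedSpace Y₂ ∧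
      ∃ (Φ : Y → Y₁ × Y₂) (Ψ : Y₁ × Y₂ → Y),
        (∀ p, Ψ (Φ p) = p) ∧ (∀ q, Φ (Ψ q) = q) ∧
        ContMDiff (mI n) ((mI n₁).prod (mI n₂)) ω Φ ∧
        ContMDiff ((mI n₁).prod (mI n₂)) (mI n) ω Ψ ∧
        ∀ (p : Y) (v : TangentSpace (mI n) p),
          ((mfderiv (mI n) 𝓘(ℂ, MM n₁ n₂) (𝒜.chart p) p v).2 = 0 →
            (mfderiv (mI n) ((mI n₁).prod (mI n₂)) Φ p v).2 = 0) ∧
          ((mfderiv (mI n) 𝓘(ℂ, MM n₁ n₂) (𝒜.chart p) p v).1 = 0 →
            (mfderiv (mI n) ((mI n₁).prod (mI n₂)) Φ p v).1 = 0) := by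
  obtain ⟨x₀⟩ : Nonempty Y := inferInstance
  have hL := band_left hc hm hd
  have hR := band_right hc hm hd
  have hM : ContMDiff ((mI n).prod (mI n)) (mI n) ω m := fun q => hc.contMDiffAt_of_ptm (hm q)
  obtain ⟨c₁, i₁, v₁, s₁⟩ := exists_slice_manifold hc {x | m (x, x₀) = x}
    (band2_left hc hm hd x₀)
  obtain ⟨c₂, i₂, v₂, s₂⟩ := exists_slice_manifold (𝒜 := 𝒜.swap) hc.swap {x | m (x₀, x) = x}
    (band2_right hc hm hd x₀)
  let r₁ : Y → {x | m (x, x₀) = x} := fun x => ⟨m (x, x₀), hL x x₀ x₀⟩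
  let r₂ : Y → {x | m (x₀, x) = x} := fun x => ⟨m (x₀, x), hR x₀ x₀ x⟩
  have m₁ : ContMDiff (mI n) (mI n₁) ω r₁ :=
    s₁ r₁ (hM.comp (contMDiff_id.prodMk contMDiff_const))
  have m₂ : ContMDiff (mI n) (mI n₂) ω r₂ :=
    s₂ r₂ (hM.comp (contMDiff_const.prodMk contMDiff_id))
  have sc₁ : SimplyConnectedSpace {x | m (x, x₀) = x} :=
    simplyConnectedSpace_retract continuous_subtype_val m₁.continuous fun y => Subtype.ext y.2
  have sc₂ : SimplyConnectedSpace {x | m (x₀, x) = x} :=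
    simplyConnectedSpace_retract continuous_subtype_val m₂.continuous fun y => Subtype.ext y.2
  refine ⟨_, _, inferInstance, inferInstance, c₁, c₂, i₁, i₂, inferInstance, inferInstance,
    sc₁, sc₂, fun x => (r₁ x, r₂ x), fun q => m (q.1, q.2), fun p => ?_, fun q => ?_,
    m₁.prodMk m₂, hM.comp ((v₁.comp contMDiff_fst).prodMk (v₂.comp contMDiff_snd)),
    fun p v => ?_⟩
  · change m (m (p, x₀), m (x₀, p)) = p
    rw [hL, hR, hd]
  · refine Prod.ext (Subtype.ext ?_) (Subtype.ext ?_)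
    · change m (m (q.1, q.2), x₀) = q.1
      rw [hL]; exact q.1.2
    · change m (x₀, m (q.1, q.2)) = q.2
      rw [hR]; exact q.2.2
  · have d₁ : MDifferentiableAt (mI n) (mI n₁) r₁ p := m₁.mdifferentiableAt (by simp)
    have d₂ : MDifferentiableAt (mI n) (mI n₂) r₂ p := m₂.mdifferentiableAt (by simp)
    have e := (d₁.hasMFDerivAt.prodMk d₂.hasMFDerivAt).mfderiv
    rw [e]
    have t₁ : Tendsto (fun x : Y => (x, p)) (𝓝 p) (𝓝 (p, p)) :=
      (continuous_id.prodMk continuous_const).tendsto' _ _ rfl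
    have t₂ : Tendsto (fun x : Y => (p, x)) (𝓝 p) (𝓝 (p, p)) :=
      (continuous_const.prodMk continuous_id).tendsto' _ _ rfl
    refine ⟨fun hv => band2_deriv hc d₂ ?_ v hv, fun hv => band2_deriv' hc d₁ ?_ v hv⟩
    · filter_upwards [t₂.eventually (band_local hm hd (𝒜.mem p))] with x hx
      refine Subtype.ext ?_
      change m (x₀, x) = m (x₀, 𝒜.mix p p x)
      rw [← hR x₀ p x, hx]
    · filter_upwards [t₁.eventually (band_local hm hd (𝒜.mem p))] with x hx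
      refine Subtype.ext ?_
      change m (x, x₀) = m (𝒜.mix p x p, x₀)
      rw [← hL x p x₀, hx]

end PAtlas

end Crest.Agent.R266
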