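import Crest.Agent.R266.Defs

/-!
# Row 266: basic properties of product type maps
-/

set_option autoImplicit false
set_option linter.unusedSectionVars false
set_option linter.unusedVariables false

open MeasureTheory Metric Set Filter Topology Complex
open scoped ContDiff Manifold Real
open Crest.AlgGeometry.HolSplit

noncomputable section

namespace Crest.Agent.R266

namespace PAtlas
variable {X : Type*} [TopologicalSpace X] {n₁ n₂ : ℕ} {𝒜 : PAtlas X n₁ n₂}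
variable {A B A' B' : Type*} [NormedAddCommGroup A] [NormedSpace ℂ A] [NormedAddCommGroup B]
  [NormedSpace ℂ B] [NormedAddCommGroup A'] [NormedSpace ℂ A'] [NormedAddCommGroup B']
  [NormedSpace ℂ B']

/-! ### independence of the chart -/

theorem aux_an {Φ : A → X} {q : A} (hc : ContinuousAt Φ q) {p p' : X}
    (hp : Φ q ∈ (𝒜.chart p).source) (hp' : Φ q ∈ (𝒜.chart p').source)
    (h : AnalyticAt ℂ (fun r => 𝒜.chart p (Φ r)) q) :
    AnalyticAt ℂ (fun r => 𝒜.chart p' (Φ r)) q := by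
  obtain ⟨h₁, h₂, a₁, a₂, he⟩ := 𝒜.trans p p' (Φ q) hp hp'
  have b₁ : AnalyticAt ℂ (fun r => h₁ (𝒜.chart p (Φ r)).1) q :=
    a₁.comp_of_eq (analyticAt_fst.comp h) rfl
  have b₂ : AnalyticAt ℂ (fun r => h₂ (𝒜.chart p (Φ r)).2) q :=
    a₂.comp_of_eq (analyticAt_snd.comp h) rfl
  refine (b₁.prod b₂).congr ?_
  filter_upwards [hc.eventually he] with r hr
  exact hr.symm

theorem aux_pt {Φ : A × B → X} {q : A × B} (hc : ContinuousAt Φ q) {p p' : X}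
    (hp : Φ q ∈ (𝒜.chart p).source) (hp' : Φ q ∈ (𝒜.chart p').source)
    {k₁ : A → Model n₁} {k₂ : B → Model n₂}
    (h₁ : AnalyticAt ℂ k₁ q.1) (h₂ : AnalyticAt ℂ k₂ q.2)
    (h : ∀ᶠ r in 𝓝 q, 𝒜.chart p (Φ r) = (k₁ r.1, k₂ r.2)) :
    ∃ (k₁ : A → Model n₁) (k₂ : B → Model n₂), AnalyticAt ℂ k₁ q.1 ∧ AnalyticAt ℂ k₂ q.2 ∧
      ∀ᶠ r in 𝓝 q, 𝒜.chart p' (Φ r) = (k₁ r.1, k₂ r.2) := by
  obtain ⟨l₁, l₂, a₁, a₂, he⟩ := 𝒜.trans p p' (Φ q) hp hp'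
  have h0 := h.self_of_nhds
  refine ⟨l₁ ∘ k₁, l₂ ∘ k₂, a₁.comp_of_eq h₁ (by rw [h0]), a₂.comp_of_eq h₂ (by rw [h0]), ?_⟩
  filter_upwards [hc.eventually he, h] with r hr hr'
  rw [hr, hr']; rfl

theorem aux_c2 {f : A → X} {a : A} (hc : ContinuousAt f a) {p p' : X}
    (hp : f a ∈ (𝒜.chart p).source) (hp' : f a ∈ (𝒜.chart p').source)
    (h : ∀ᶠ r in 𝓝 a, (𝒜.chart p (f r)).2 = (𝒜.chart p (f a)).2) :
    ∀ᶠ r in 𝓝 a, (𝒜.chart p' (f r)).2 = (𝒜.chart p' (f a)).2 := by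
  obtain ⟨l₁, l₂, -, -, he⟩ := 𝒜.trans p p' (f a) hp hp'
  have h0 := he.self_of_nhds
  filter_upwards [hc.eventually he, h] with r hr hr'
  rw [hr, h0, hr']

theorem aux_c1 {f : A → X} {a : A} (hc : ContinuousAt f a) {p p' : X}
    (hp : f a ∈ (𝒜.chart p).source) (hp' : f a ∈ (𝒜.chart p').source)
    (h : ∀ᶠ r in 𝓝 a, (𝒜.chart p (f r)).1 = (𝒜.chart p (f a)).1) :
    ∀ᶠ r in 𝓝 a, (𝒜.chart p' (f r)).1 = (𝒜.chart p' (f a)).1 := by
  obtain ⟨l₁, l₂, -, -, he⟩ := 𝒜.trans p p' (f a) hp hp'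
  have h0 := he.self_of_nhds
  filter_upwards [hc.eventually he, h] with r hr hr'
  rw [hr, h0, hr']

theorem aux_ev {Z : Type*} [TopologicalSpace Z] {Φ : Z → X} {q : Z} (hc : ContinuousAt Φ q) {p : X}
    (hp : Φ q ∈ (𝒜.chart p).source) : ∀ᶠ r in 𝓝 q, Φ r ∈ (𝒜.chart p).source :=
  hc.eventually ((𝒜.chart p).open_source.mem_nhds hp)

theorem aux_cont {Z : Type*} [TopologicalSpace Z] {Φ : Z → X} {q : Z} {p : X}
    (hp : ∀ᶠ r in 𝓝 q, Φ r ∈ (𝒜.chart p).source)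
    (h : ContinuousAt (fun r => 𝒜.chart p (Φ r)) q) : ContinuousAt Φ q := by
  have h0 := hp.self_of_nhds
  have h1 : ContinuousAt (fun r => (𝒜.chart p).symm (𝒜.chart p (Φ r))) q :=
    ContinuousAt.comp_of_eq (g := (𝒜.chart p).symm)
      ((𝒜.chart p).continuousAt_symm ((𝒜.chart p).map_source h0)) h rfl
  refine h1.congr ?_
  filter_upwards [hp] with r hr
  exact (𝒜.chart p).left_inv hr

theorem Hol.analyticAt {Φ : A → X} {q : A} (h : 𝒜.Hol Φ q) {p : X} (hp : Φ q ∈ (𝒜.chart p).source) :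
    AnalyticAt ℂ (fun r => 𝒜.chart p (Φ r)) q :=
  aux_an h.1 (𝒜.mem _) hp h.2

theorem hol_of_chart {Φ : A → X} {q : A} (hc : ContinuousAt Φ q) {p : X}
    (hp : Φ q ∈ (𝒜.chart p).source) (h : AnalyticAt ℂ (fun r => 𝒜.chart p (Φ r)) q) :
    𝒜.Hol Φ q :=
  ⟨hc, aux_an hc hp (𝒜.mem _) h⟩

theorem PT.exists_chart {Φ : A × B → X} {q : A × B} (h : 𝒜.PT Φ q) {p : X}
    (hp : Φ q ∈ (𝒜.chart p).source) :
    ∃ (k₁ : A → Model n₁) (k₂ : B → Model n₂), AnalyticAt ℂ k₁ q.1 ∧ AnalyticAt ℂ k₂ q.2 ∧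
      ∀ᶠ r in 𝓝 q, 𝒜.chart p (Φ r) = (k₁ r.1, k₂ r.2) := by
  obtain ⟨hc, k₁, k₂, a₁, a₂, he⟩ := h
  exact aux_pt hc (𝒜.mem _) hp a₁ a₂ he

theorem pt_of_chart {Φ : A × B → X} {q : A × B} (hc : ContinuousAt Φ q) {p : X}
    (hp : Φ q ∈ (𝒜.chart p).source) {k₁ : A → Model n₁} {k₂ : B → Model n₂}
    (h₁ : AnalyticAt ℂ k₁ q.1) (h₂ : AnalyticAt ℂ k₂ q.2)
    (h : ∀ᶠ r in 𝓝 q, 𝒜.chart p (Φ r) = (k₁ r.1, k₂ r.2)) : 𝒜.PT Φ q :=
  ⟨hc, aux_pt hc hp (𝒜.mem _) h₁ h₂ h⟩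

theorem T1.const {f : A → X} {a : A} (h : 𝒜.T1 f a) {p : X} (hp : f a ∈ (𝒜.chart p).source) :
    ∀ᶠ r in 𝓝 a, (𝒜.chart p (f r)).2 = (𝒜.chart p (f a)).2 :=
  aux_c2 h.1.1 (𝒜.mem _) hp h.2

theorem T2.const {g : B → X} {b : B} (h : 𝒜.T2 g b) {p : X} (hp : g b ∈ (𝒜.chart p).source) :
    ∀ᶠ r in 𝓝 b, (𝒜.chart p (g r)).1 = (𝒜.chart p (g b)).1 :=
  aux_c1 h.1.1 (𝒜.mem _) hp h.2

theorem t1_of_chart {f : A → X} {a : A} (h : 𝒜.Hol f a) {p : X} (hp : f a ∈ (𝒜.chart p).source)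
    (hc : ∀ᶠ r in 𝓝 a, (𝒜.chart p (f r)).2 = (𝒜.chart p (f a)).2) : 𝒜.T1 f a :=
  ⟨h, aux_c2 h.1 hp (𝒜.mem _) hc⟩

theorem t2_of_chart {g : B → X} {b : B} (h : 𝒜.Hol g b) {p : X} (hp : g b ∈ (𝒜.chart p).source)
    (hc : ∀ᶠ r in 𝓝 b, (𝒜.chart p (g r)).1 = (𝒜.chart p (g b)).1) : 𝒜.T2 g b :=
  ⟨h, aux_c1 h.1 hp (𝒜.mem _) hc⟩


/-! ### germ properties -/

theorem Hol.eventually {Φ : A → X} {q : A} (h : 𝒜.Hol Φ q) : ∀ᶠ r in 𝓝 q, 𝒜.Hol Φ r := by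
  have h1 := aux_ev h.1 (𝒜.mem (Φ q))
  filter_upwards [h1.eventually_nhds, h.2.eventually_analyticAt] with r hr hr'
  exact hol_of_chart (aux_cont hr hr'.continuousAt) hr.self_of_nhds hr'

theorem PT.eventually {Φ : A × B → X} {q : A × B} (h : 𝒜.PT Φ q) : ∀ᶠ r in 𝓝 q, 𝒜.PT Φ r := by
  obtain ⟨hc, k₁, k₂, a₁, a₂, he⟩ := h
  have h1 := aux_ev hc (𝒜.mem (Φ q))
  filter_upwards [h1.eventually_nhds, he.eventually_nhds,
    continuousAt_fst.eventually a₁.eventually_analyticAt,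
    continuousAt_snd.eventually a₂.eventually_analyticAt] with r hr hr' b₁ b₂
  refine pt_of_chart (aux_cont hr ?_) hr.self_of_nhds b₁ b₂ hr'
  have h2 : ContinuousAt (fun r : A × B => (k₁ r.1, k₂ r.2)) r :=
    (b₁.continuousAt.comp continuousAt_fst).prodMk (b₂.continuousAt.comp continuousAt_snd)
  refine h2.congr ?_
  filter_upwards [hr'] with z hz
  exact hz.symm

theorem T1.eventually {f : A → X} {a : A} (h : 𝒜.T1 f a) : ∀ᶠ r in 𝓝 a, 𝒜.T1 f r := by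
  filter_upwards [h.1.eventually, aux_ev h.1.1 (𝒜.mem (f a)), h.2.eventually_nhds] with r h1 h2 h3
  refine t1_of_chart h1 h2 ?_
  filter_upwards [h3] with z hz
  rw [hz, h3.self_of_nhds]

theorem T2.eventually {g : B → X} {b : B} (h : 𝒜.T2 g b) : ∀ᶠ r in 𝓝 b, 𝒜.T2 g r := by
  filter_upwards [h.1.eventually, aux_ev h.1.1 (𝒜.mem (g b)), h.2.eventually_nhds] with r h1 h2 h3
  refine t2_of_chart h1 h2 ?_
  filter_upwards [h3] with z hz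
  rw [hz, h3.self_of_nhds]

theorem Hol.congr {Φ Ψ : A → X} {q : A} (h : 𝒜.Hol Φ q) (he : Ψ =ᶠ[𝓝 q] Φ) : 𝒜.Hol Ψ q := by
  refine ⟨h.1.congr he.symm, ?_⟩
  rw [he.self_of_nhds]
  refine h.2.congr ?_
  filter_upwards [he] with r hr
  rw [hr]

theorem PT.congr {Φ Ψ : A × B → X} {q : A × B} (h : 𝒜.PT Φ q) (he : Ψ =ᶠ[𝓝 q] Φ) : 𝒜.PT Ψ q := by
  obtain ⟨hc, k₁, k₂, a₁, a₂, h⟩ := h
  refine ⟨hc.congr he.symm, k₁, k₂, a₁, a₂, ?_⟩
  rw [he.self_of_nhds]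
  filter_upwards [he, h] with r hr hr'
  rw [hr, hr']

theorem T1.congr {f f' : A → X} {a : A} (h : 𝒜.T1 f a) (he : f' =ᶠ[𝓝 a] f) : 𝒜.T1 f' a := by
  refine ⟨h.1.congr he, ?_⟩
  rw [he.self_of_nhds]
  filter_upwards [he, h.2] with r hr hr'
  rw [hr, hr']

theorem T2.congr {g g' : B → X} {b : B} (h : 𝒜.T2 g b) (he : g' =ᶠ[𝓝 b] g) : 𝒜.T2 g' b := by
  refine ⟨h.1.congr he, ?_⟩
  rw [he.self_of_nhds]
  filter_upwards [he, h.2] with r hr hr'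
  rw [hr, hr']


/-! ### compositions and slices -/

theorem Hol.comp {Φ : A → X} {k : A' → A} {a : A'} (h : 𝒜.Hol Φ (k a)) (hk : AnalyticAt ℂ k a) :
    𝒜.Hol (fun r => Φ (k r)) a :=
  ⟨h.1.comp hk.continuousAt, h.2.comp hk⟩

theorem T1.comp {f : A → X} {k : A' → A} {a : A'} (h : 𝒜.T1 f (k a)) (hk : AnalyticAt ℂ k a) :
    𝒜.T1 (fun r => f (k r)) a :=
  ⟨h.1.comp hk, hk.continuousAt.eventually h.2⟩

theorem T2.comp {g : B → X} {k : B' → B} {b : B'} (h : 𝒜.T2 g (k b)) (hk : AnalyticAt ℂ k b) :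
    𝒜.T2 (fun r => g (k r)) b :=
  ⟨h.1.comp hk, hk.continuousAt.eventually h.2⟩

theorem PT.comp {Φ : A × B → X} {k : A' → A} {l : B' → B} {q : A' × B'}
    (h : 𝒜.PT Φ (k q.1, l q.2)) (hk : AnalyticAt ℂ k q.1) (hl : AnalyticAt ℂ l q.2) :
    𝒜.PT (fun r => Φ (k r.1, l r.2)) q := by
  obtain ⟨hc, k₁, k₂, a₁, a₂, he⟩ := h
  have h1 : ContinuousAt (fun r : A' × B' => (k r.1, l r.2)) q :=
    (hk.continuousAt.comp continuousAt_fst).prodMk (hl.continuousAt.comp continuousAt_snd)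
  exact ⟨ContinuousAt.comp_of_eq (g := Φ) hc h1 rfl, k₁ ∘ k, k₂ ∘ l,
    AnalyticAt.comp_of_eq (f := k) a₁ hk rfl, AnalyticAt.comp_of_eq (f := l) a₂ hl rfl,
    h1.eventually he⟩

theorem PT.hol {Φ : A × B → X} {q : A × B} (h : 𝒜.PT Φ q) : 𝒜.Hol Φ q := by
  obtain ⟨hc, k₁, k₂, a₁, a₂, he⟩ := h
  refine ⟨hc, ((a₁.comp analyticAt_fst).prod (a₂.comp analyticAt_snd)).congr ?_⟩
  filter_upwards [he] with r hr
  exact hr.symm

theorem PT.t1 {Φ : A × B → X} {a : A} {b : B} (h : 𝒜.PT Φ (a, b)) :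
    𝒜.T1 (fun r => Φ (r, b)) a := by
  have h1 : AnalyticAt ℂ (fun r : A => (r, b)) a := analyticAt_id.prod analyticAt_const
  refine ⟨Hol.comp (k := fun r : A => (r, b)) h.hol h1, ?_⟩
  obtain ⟨hc, k₁, k₂, a₁, a₂, he⟩ := h
  filter_upwards [h1.continuousAt.eventually he] with r hr
  rw [hr, he.self_of_nhds]

theorem PT.t2 {Φ : A × B → X} {a : A} {b : B} (h : 𝒜.PT Φ (a, b)) :
    𝒜.T2 (fun r => Φ (a, r)) b := by
  have h1 : AnalyticAt ℂ (fun r : B => (a, r)) b := analyticAt_const.prod analyticAt_id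
  refine ⟨Hol.comp (k := fun r : B => (a, r)) h.hol h1, ?_⟩
  obtain ⟨hc, k₁, k₂, a₁, a₂, he⟩ := h
  filter_upwards [h1.continuousAt.eventually he] with r hr
  rw [hr, he.self_of_nhds]

theorem hol_symm {p : X} {y : MM n₁ n₂} (hy : y ∈ (𝒜.chart p).target) :
    𝒜.PT (𝒜.chart p).symm y := by
  refine pt_of_chart ((𝒜.chart p).continuousAt_symm hy) ((𝒜.chart p).map_target hy)
    (k₁ := id) (k₂ := id) analyticAt_id analyticAt_id ?_
  filter_upwards [(𝒜.chart p).open_target.mem_nhds hy] with r hr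
  exact (𝒜.chart p).right_inv hr


/-! ### `mix` -/

theorem chart_mix {p x y : X} (h : 𝒜.MixOK p x y) :
    𝒜.chart p (𝒜.mix p x y) = ((𝒜.chart p x).1, (𝒜.chart p y).2) :=
  (𝒜.chart p).right_inv h.2.2

theorem mix_mem {p x y : X} (h : 𝒜.MixOK p x y) : 𝒜.mix p x y ∈ (𝒜.chart p).source :=
  (𝒜.chart p).map_target h.2.2

theorem mix_self {p x : X} (h : x ∈ (𝒜.chart p).source) : 𝒜.mix p x x = x :=
  (𝒜.chart p).left_inv h

theorem mixOK_self {p x : X} (h : x ∈ (𝒜.chart p).source) : 𝒜.MixOK p x x :=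
  ⟨h, h, (𝒜.chart p).map_source h⟩

theorem isOpen_mixOK (p : X) : IsOpen {q : X × X | 𝒜.MixOK p q.1 q.2} := by
  refine isOpen_iff_mem_nhds.2 fun q hq => ?_
  obtain ⟨h1, h2, h3⟩ := hq
  have c : ContinuousAt (fun q : X × X => ((𝒜.chart p q.1).1, (𝒜.chart p q.2).2)) q :=
    (((𝒜.chart p).continuousAt h1).comp continuousAt_fst).fst.prodMk
      (((𝒜.chart p).continuousAt h2).comp continuousAt_snd).snd
  filter_upwards [aux_ev (𝒜 := 𝒜) continuousAt_fst h1, aux_ev (𝒜 := 𝒜) continuousAt_snd h2,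
    c.eventually ((𝒜.chart p).open_target.mem_nhds h3)] with r a b c
  exact ⟨a, b, c⟩

theorem continuousAt_mix {p x y : X} (h : 𝒜.MixOK p x y) :
    ContinuousAt (fun q : X × X => 𝒜.mix p q.1 q.2) (x, y) := by
  obtain ⟨h1, h2, h3⟩ := h
  have c : ContinuousAt (fun q : X × X => ((𝒜.chart p q.1).1, (𝒜.chart p q.2).2)) (x, y) :=
    (ContinuousAt.comp_of_eq ((𝒜.chart p).continuousAt h1) continuousAt_fst rfl).fst.prodMk
      (ContinuousAt.comp_of_eq ((𝒜.chart p).continuousAt h2) continuousAt_snd rfl).snd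
  exact ContinuousAt.comp_of_eq (g := (𝒜.chart p).symm) ((𝒜.chart p).continuousAt_symm h3) c rfl

theorem pt_mix {f : A → X} {g : B → X} {a : A} {b : B} (hf : 𝒜.Hol f a) (hg : 𝒜.Hol g b) {p : X}
    (h : 𝒜.MixOK p (f a) (g b)) : 𝒜.PT (fun q => 𝒜.mix p (f q.1) (g q.2)) (a, b) := by
  have c : ContinuousAt (fun q : A × B => (f q.1, g q.2)) (a, b) :=
    (ContinuousAt.comp_of_eq hf.1 continuousAt_fst rfl).prodMk
      (ContinuousAt.comp_of_eq hg.1 continuousAt_snd rfl)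
  refine pt_of_chart (p := p) (ContinuousAt.comp_of_eq
      (g := fun q : X × X => 𝒜.mix p q.1 q.2) (continuousAt_mix h) c rfl) (mix_mem h)
    (k₁ := fun r => (𝒜.chart p (f r)).1) (k₂ := fun r => (𝒜.chart p (g r)).2)
    (analyticAt_fst.comp (hf.analyticAt h.1)) (analyticAt_snd.comp (hg.analyticAt h.2.1)) ?_
  filter_upwards [c.eventually ((isOpen_mixOK p).mem_nhds h)] with r hr
  exact chart_mix hr

/-- a product type map is determined near `(a,b)` by its two slices -/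
theorem PT.eq_mix {Φ : A × B → X} {a : A} {b : B} (h : 𝒜.PT Φ (a, b)) {p : X}
    (hp : Φ (a, b) ∈ (𝒜.chart p).source) :
    ∀ᶠ q in 𝓝 (a, b), Φ q = 𝒜.mix p (Φ (q.1, b)) (Φ (a, q.2)) := by
  obtain ⟨k₁, k₂, -, -, he⟩ := h.exists_chart hp
  have c₁ : Tendsto (fun q : A × B => (q.1, b)) (𝓝 (a, b)) (𝓝 (a, b)) :=
    (continuous_fst.prodMk continuous_const).tendsto' _ _ rfl
  have c₂ : Tendsto (fun q : A × B => (a, q.2)) (𝓝 (a, b)) (𝓝 (a, b)) :=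
    (continuous_const.prodMk continuous_snd).tendsto' _ _ rfl
  filter_upwards [he, c₁.eventually he, c₂.eventually he, aux_ev h.1 hp] with q h0 h1 h2 h3
  unfold mix
  rw [h1, h2, ← h0, (𝒜.chart p).left_inv h3]

theorem PT.goursat_unique {Φ Ψ : A × B → X} {a : A} {b : B} (h : 𝒜.PT Φ (a, b))
    (h' : 𝒜.PT Ψ (a, b)) (h₁ : (fun r => Φ (r, b)) =ᶠ[𝓝 a] fun r => Ψ (r, b))
    (h₂ : (fun r => Φ (a, r)) =ᶠ[𝓝 b] fun r => Ψ (a, r)) : Φ =ᶠ[𝓝 (a, b)] Ψ := by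
  have h0 : Φ (a, b) = Ψ (a, b) := h₁.self_of_nhds
  have e₁ := h.eq_mix (𝒜.mem _)
  have e₂ := h'.eq_mix (p := Φ (a, b)) (h0 ▸ 𝒜.mem _)
  have c₁ : Tendsto (Prod.fst : A × B → A) (𝓝 (a, b)) (𝓝 a) := continuousAt_fst
  have c₂ : Tendsto (Prod.snd : A × B → B) (𝓝 (a, b)) (𝓝 b) := continuousAt_snd
  filter_upwards [e₁, e₂, c₁.eventually h₁, c₂.eventually h₂] with q a₁ a₂ a₃ a₄
  rw [a₁, a₂, a₃, a₄]

/-- local solution of the Goursat problem -/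
theorem exists_local {f : A → X} {g : B → X} {a : A} {b : B} (hf : 𝒜.T1 f a) (hg : 𝒜.T2 g b)
    (hfg : f a = g b) : ∃ Φ : A × B → X, 𝒜.PT Φ (a, b) ∧ (fun r => Φ (r, b)) =ᶠ[𝓝 a] f ∧
      (fun r => Φ (a, r)) =ᶠ[𝓝 b] g := by
  have hm := 𝒜.mem (f a)
  have hok : 𝒜.MixOK (f a) (f a) (g b) := hfg ▸ mixOK_self hm
  refine ⟨fun q => 𝒜.mix (f a) (f q.1) (g q.2), pt_mix hf.1 hg.1 hok, ?_, ?_⟩
  · filter_upwards [hf.2, aux_ev hf.1.1 hm] with r h1 h2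
    show (𝒜.chart (f a)).symm ((𝒜.chart (f a) (f r)).1, (𝒜.chart (f a) (g b)).2) = f r
    rw [← hfg, ← h1, (𝒜.chart (f a)).left_inv h2]
  · filter_upwards [hg.2, aux_ev hg.1.1 (𝒜.mem (g b))] with r h1 h2
    show (𝒜.chart (f a)).symm ((𝒜.chart (f a) (f a)).1, (𝒜.chart (f a) (g r)).2) = g r
    rw [hfg, ← h1, (𝒜.chart (g b)).left_inv h2]


/-! ### exchanging the factors -/

theorem swap_chart (p x : X) : 𝒜.swap.chart p x = (𝒜.chart p x).swap := rfl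
theorem swap_source (p : X) : (𝒜.swap.chart p).source = (𝒜.chart p).source := rfl
theorem mem_swap_target (p : X) (y : MM n₂ n₁) :
    y ∈ (𝒜.swap.chart p).target ↔ y.swap ∈ (𝒜.chart p).target := Iff.rfl

theorem swap_symm (p : X) (y : MM n₂ n₁) :
    (𝒜.swap.chart p).symm y = (𝒜.chart p).symm y.swap := rfl
theorem hol_swap {Φ : A → X} {q : A} : 𝒜.swap.Hol Φ q ↔ 𝒜.Hol Φ q := by
  refine and_congr_right fun _ => ⟨fun h => ?_, fun h => ?_⟩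
  · exact (analyticAt_snd.comp h).prod (analyticAt_fst.comp h)
  · exact (analyticAt_snd.comp h).prod (analyticAt_fst.comp h)

theorem t1_swap {f : A → X} {a : A} : 𝒜.swap.T1 f a ↔ 𝒜.T2 f a :=
  and_congr hol_swap Iff.rfl

theorem t2_swap {f : A → X} {a : A} : 𝒜.swap.T2 f a ↔ 𝒜.T1 f a :=
  and_congr hol_swap Iff.rfl

theorem pt_swap {Φ : A × B → X} {a : A} {b : B} :
    𝒜.swap.PT (fun q : B × A => Φ (q.2, q.1)) (b, a) ↔ 𝒜.PT Φ (a, b) := by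
  constructor
  · rintro ⟨hc, k₁, k₂, a₁, a₂, he⟩
    have c : ContinuousAt (Prod.swap : A × B → B × A) (a, b) := continuous_swap.continuousAt
    refine ⟨ContinuousAt.comp_of_eq (g := fun q : B × A => Φ (q.2, q.1)) hc c rfl,
      k₂, k₁, a₂, a₁, ?_⟩
    filter_upwards [c.eventually he] with r hr
    exact congrArg Prod.swap hr
  · rintro ⟨hc, k₁, k₂, a₁, a₂, he⟩
    have c : ContinuousAt (Prod.swap : B × A → A × B) (b, a) := continuous_swap.continuousAt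
    refine ⟨ContinuousAt.comp_of_eq hc c rfl, k₂, k₁, a₂, a₁, ?_⟩
    filter_upwards [c.eventually he] with r hr
    exact congrArg Prod.swap hr

theorem mix_swap (p x y : X) : 𝒜.swap.mix p x y = 𝒜.mix p y x := rfl
theorem mixOK_swap {p x y : X} : 𝒜.swap.MixOK p x y ↔ 𝒜.MixOK p y x :=
  ⟨fun h => ⟨h.2.1, h.1, h.2.2⟩, fun h => ⟨h.2.1, h.1, h.2.2⟩⟩


end PAtlas

end Crest.Agent.R266
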