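import Crest.Agent.R266.Ident

/-!
# Row 266: maps from a complex manifold
-/

set_option autoImplicit false
set_option linter.unusedSectionVars false
set_option linter.unusedVariables false

open MeasureTheory Metric Set Filter Topology Complex
open scoped ContDiff Manifold Real
open Crest.AlgGeometry.HolSplit

noncomputable section

namespace Crest.Agent.R266

theorem analyticAt_trans {n : ℕ} {Y : Type*} [TopologicalSpace Y] [ChartedSpace (Model n) Y]
    [IsManifold (mI n) ω Y] {p q y : Y} (hp : y ∈ (chartAt (Model n) p).source)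
    (hq : y ∈ (chartAt (Model n) q).source) :
    AnalyticAt ℂ (fun u => chartAt (Model n) q ((chartAt (Model n) p).symm u))
      (chartAt (Model n) p y) := by
  have h := contDiffWithinAt_ext_coord_change (I := mI n) (n := ω) q p
    (y := chartAt (Model n) p y) (by simp [hp, hq])
  simp only [mfld_simps, contDiffWithinAt_univ] at h
  exact h.analyticAt

namespace Man
variable {Y Z Y' Z' : Type*} [TopologicalSpace Y] [TopologicalSpace Z] [TopologicalSpace Y']
  [TopologicalSpace Z']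

theorem ev_iff (e : OpenPartialHomeomorph Y Z) {y : Y} (hy : y ∈ e.source) {P : Y → Prop} :
    (∀ᶠ z in 𝓝 y, P z) ↔ ∀ᶠ u in 𝓝 (e y), P (e.symm u) := by
  refine ⟨fun h => (e.tendsto_symm hy).eventually h, fun h => ?_⟩
  filter_upwards [(e.continuousAt hy).eventually h, e.eventually_left_inverse hy] with z h1 h2
  rwa [h2] at h1

theorem ev2_iff (e : OpenPartialHomeomorph Y Z) (e' : OpenPartialHomeomorph Y' Z') {x : Y} {y : Y'}
    (hx : x ∈ e.source) (hy : y ∈ e'.source) {P : Y × Y' → Prop} :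
    (∀ᶠ z in 𝓝 (x, y), P z) ↔ ∀ᶠ u in 𝓝 (e x, e' y), P (e.symm u.1, e'.symm u.2) :=
  ev_iff (e.prod e') (y := (x, y)) ⟨hx, hy⟩

theorem ev_trans (e e' : OpenPartialHomeomorph Y Z) {y : Y} (hy : y ∈ e.source)
    (hy' : y ∈ e'.source) : ∀ᶠ u in 𝓝 (e y), e.symm u = e'.symm (e' (e.symm u)) :=
  (ev_iff e hy (P := fun z => z = e'.symm (e' z))).mp
    ((e'.eventually_left_inverse hy').mono fun _ h => h.symm)

theorem continuousAt_of {T : Type*} [TopologicalSpace T] (e : OpenPartialHomeomorph Y Z) {y : Y}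
    (hy : y ∈ e.source) {f : Y → T} (h : ContinuousAt (fun u => f (e.symm u)) (e y)) :
    ContinuousAt f y :=
  (h.comp (e.continuousAt hy)).congr ((e.eventually_left_inverse hy).mono fun z hz => by
    simp only [Function.comp, hz])

end Man

namespace PAtlas
variable {X : Type*} [TopologicalSpace X] {n₁ n₂ : ℕ} {𝒜 : PAtlas X n₁ n₂}
variable {n : ℕ} {Y : Type*} [TopologicalSpace Y] [ChartedSpace (Model n) Y] [IsManifold (mI n) ω Y]

open Man

theorem man_hol_trans {f : Y → X} {p q y : Y} (hp : y ∈ (chartAt (Model n) p).source)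
    (hq : y ∈ (chartAt (Model n) q).source)
    (h : 𝒜.Hol (fun u => f ((chartAt (Model n) q).symm u)) (chartAt (Model n) q y)) :
    𝒜.Hol (fun u => f ((chartAt (Model n) p).symm u)) (chartAt (Model n) p y) :=
  (Hol.comp (k := fun u => chartAt (Model n) q ((chartAt (Model n) p).symm u))
    (by rwa [(chartAt (Model n) p).left_inv hp]) (analyticAt_trans hp hq)).congr
    ((ev_trans _ _ hp hq).mono fun _ hu => congrArg f hu)

theorem man_t1_trans {f : Y → X} {p q y : Y} (hp : y ∈ (chartAt (Model n) p).source)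
    (hq : y ∈ (chartAt (Model n) q).source)
    (h : 𝒜.T1 (fun u => f ((chartAt (Model n) q).symm u)) (chartAt (Model n) q y)) :
    𝒜.T1 (fun u => f ((chartAt (Model n) p).symm u)) (chartAt (Model n) p y) :=
  (T1.comp (k := fun u => chartAt (Model n) q ((chartAt (Model n) p).symm u))
    (by rwa [(chartAt (Model n) p).left_inv hp]) (analyticAt_trans hp hq)).congr
    ((ev_trans _ _ hp hq).mono fun _ hu => congrArg f hu)

theorem man_t2_trans {f : Y → X} {p q y : Y} (hp : y ∈ (chartAt (Model n) p).source)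
    (hq : y ∈ (chartAt (Model n) q).source)
    (h : 𝒜.T2 (fun u => f ((chartAt (Model n) q).symm u)) (chartAt (Model n) q y)) :
    𝒜.T2 (fun u => f ((chartAt (Model n) p).symm u)) (chartAt (Model n) p y) :=
  (T2.comp (k := fun u => chartAt (Model n) q ((chartAt (Model n) p).symm u))
    (by rwa [(chartAt (Model n) p).left_inv hp]) (analyticAt_trans hp hq)).congr
    ((ev_trans _ _ hp hq).mono fun _ hu => congrArg f hu)

theorem man_pt_trans {M : Y × Y → X} {p p' q q' x y : Y} (hp : x ∈ (chartAt (Model n) p).source)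
    (hp' : y ∈ (chartAt (Model n) p').source) (hq : x ∈ (chartAt (Model n) q).source)
    (hq' : y ∈ (chartAt (Model n) q').source)
    (h : 𝒜.PT (fun u : Model n × Model n =>
      M ((chartAt (Model n) q).symm u.1, (chartAt (Model n) q').symm u.2))
      (chartAt (Model n) q x, chartAt (Model n) q' y)) :
    𝒜.PT (fun u : Model n × Model n =>
      M ((chartAt (Model n) p).symm u.1, (chartAt (Model n) p').symm u.2))
      (chartAt (Model n) p x, chartAt (Model n) p' y) := by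
  refine (PT.comp (k := fun u => chartAt (Model n) q ((chartAt (Model n) p).symm u))
    (l := fun u => chartAt (Model n) q' ((chartAt (Model n) p').symm u))
    (q := (chartAt (Model n) p x, chartAt (Model n) p' y))
    (by simpa only [(chartAt (Model n) p).left_inv hp, (chartAt (Model n) p').left_inv hp'] using h)
    (analyticAt_trans hp hq) (analyticAt_trans hp' hq')).congr ?_
  filter_upwards [continuousAt_fst.eventually (ev_trans _ _ hp hq),
    continuousAt_snd.eventually (ev_trans _ _ hp' hq')] with u h1 h2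
  rw [← h1, ← h2]

theorem holm_iff {f : Y → X} {p y : Y} (hp : y ∈ (chartAt (Model n) p).source) :
    𝒜.Holm n f y ↔ 𝒜.Hol (fun u => f ((chartAt (Model n) p).symm u)) (chartAt (Model n) p y) :=
  ⟨man_hol_trans hp (mem_chart_source _ y), man_hol_trans (mem_chart_source _ y) hp⟩
theorem t1m_iff {f : Y → X} {p y : Y} (hp : y ∈ (chartAt (Model n) p).source) :
    𝒜.T1m n f y ↔ 𝒜.T1 (fun u => f ((chartAt (Model n) p).symm u)) (chartAt (Model n) p y) :=
  ⟨man_t1_trans hp (mem_chart_source _ y), man_t1_trans (mem_chart_source _ y) hp⟩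
theorem t2m_iff {f : Y → X} {p y : Y} (hp : y ∈ (chartAt (Model n) p).source) :
    𝒜.T2m n f y ↔ 𝒜.T2 (fun u => f ((chartAt (Model n) p).symm u)) (chartAt (Model n) p y) :=
  ⟨man_t2_trans hp (mem_chart_source _ y), man_t2_trans (mem_chart_source _ y) hp⟩
theorem ptm_iff {M : Y × Y → X} {p p' x y : Y} (hp : x ∈ (chartAt (Model n) p).source)
    (hp' : y ∈ (chartAt (Model n) p').source) :
    𝒜.PTm n M (x, y) ↔ 𝒜.PT (fun u : Model n × Model n =>
      M ((chartAt (Model n) p).symm u.1, (chartAt (Model n) p').symm u.2))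
      (chartAt (Model n) p x, chartAt (Model n) p' y) :=
  ⟨man_pt_trans hp hp' (mem_chart_source _ x) (mem_chart_source _ y),
    man_pt_trans (mem_chart_source _ x) (mem_chart_source _ y) hp hp'⟩

theorem Holm.continuousAt {f : Y → X} {y : Y} (h : 𝒜.Holm n f y) : ContinuousAt f y :=
  continuousAt_of _ (mem_chart_source _ y) h.1
theorem PTm.continuousAt {M : Y × Y → X} {q : Y × Y} (h : 𝒜.PTm n M q) : ContinuousAt M q :=
  continuousAt_of ((chartAt (Model n) q.1).prod (chartAt (Model n) q.2))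
    ⟨mem_chart_source _ q.1, mem_chart_source _ q.2⟩ h.1
theorem Holm.eventually {f : Y → X} {y : Y} (h : 𝒜.Holm n f y) : ∀ᶠ z in 𝓝 y, 𝒜.Holm n f z := by
  filter_upwards [((chartAt (Model n) y).continuousAt (mem_chart_source _ y)).eventually
    (Hol.eventually h), chart_source_mem_nhds (Model n) y] with z h1 h2
  exact (holm_iff h2).mpr h1
theorem Holm.congr {f f' : Y → X} {y : Y} (h : 𝒜.Holm n f y) (he : f' =ᶠ[𝓝 y] f) :
    𝒜.Holm n f' y := Hol.congr h ((ev_iff _ (mem_chart_source _ y)).mp he)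
theorem T1m.congr {f f' : Y → X} {y : Y} (h : 𝒜.T1m n f y) (he : f' =ᶠ[𝓝 y] f) :
    𝒜.T1m n f' y := T1.congr h ((ev_iff _ (mem_chart_source _ y)).mp he)
theorem T2m.congr {f f' : Y → X} {y : Y} (h : 𝒜.T2m n f y) (he : f' =ᶠ[𝓝 y] f) :
    𝒜.T2m n f' y := T2.congr h ((ev_iff _ (mem_chart_source _ y)).mp he)
theorem PTm.congr {M M' : Y × Y → X} {q : Y × Y} (h : 𝒜.PTm n M q) (he : M' =ᶠ[𝓝 q] M) :
    𝒜.PTm n M' q :=
  PT.congr h ((ev2_iff _ _ (mem_chart_source _ q.1) (mem_chart_source _ q.2)).mp he)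
theorem T1m.holm {f : Y → X} {y : Y} (h : 𝒜.T1m n f y) : 𝒜.Holm n f y := h.1
theorem T2m.holm {f : Y → X} {y : Y} (h : 𝒜.T2m n f y) : 𝒜.Holm n f y := h.1
theorem PTm.t1m {M : Y × Y → X} {x y : Y} (h : 𝒜.PTm n M (x, y)) :
    𝒜.T1m n (fun r => M (r, y)) x := by
  have h1 := PT.t1 h
  simp only [(chartAt (Model n) y).left_inv (mem_chart_source _ y)] at h1
  exact h1
theorem PTm.t2m {M : Y × Y → X} {x y : Y} (h : 𝒜.PTm n M (x, y)) :
    𝒜.T2m n (fun r => M (x, r)) y := by
  have h1 := PT.t2 h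
  simp only [(chartAt (Model n) x).left_inv (mem_chart_source _ x)] at h1
  exact h1
theorem ptm_mix {f g : Y → X} {x y : Y} (hf : 𝒜.Holm n f x) (hg : 𝒜.Holm n g y) {p : X}
    (h : 𝒜.MixOK p (f x) (g y)) : 𝒜.PTm n (fun q => 𝒜.mix p (f q.1) (g q.2)) (x, y) :=
  pt_mix hf hg (by
    rwa [(chartAt (Model n) x).left_inv (mem_chart_source _ x),
      (chartAt (Model n) y).left_inv (mem_chart_source _ y)])
theorem PTm.eq_mix {M : Y × Y → X} {x y : Y} (h : 𝒜.PTm n M (x, y)) {p : X}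
    (hp : M (x, y) ∈ (𝒜.chart p).source) :
    ∀ᶠ q in 𝓝 (x, y), M q = 𝒜.mix p (M (q.1, y)) (M (x, q.2)) := by
  have h1 := PT.eq_mix (p := p) h (by
    simpa only [(chartAt (Model n) x).left_inv (mem_chart_source _ x),
      (chartAt (Model n) y).left_inv (mem_chart_source _ y)] using hp)
  simp only [(chartAt (Model n) x).left_inv (mem_chart_source _ x),
    (chartAt (Model n) y).left_inv (mem_chart_source _ y)] at h1
  exact (ev2_iff _ _ (mem_chart_source (Model n) x) (mem_chart_source (Model n) y)).mpr h1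
/-- local uniqueness from the values on the diagonal -/
theorem PTm.eq_mix_diag {M : Y × Y → X} {x : Y} (h : 𝒜.PTm n M (x, x)) {p : X}
    (hp : M (x, x) ∈ (𝒜.chart p).source) :
    ∀ᶠ q in 𝓝 (x, x), M q = 𝒜.mix p (M (q.1, q.1)) (M (q.2, q.2)) := by
  have h1 := h.eq_mix hp
  have hc := h.continuousAt
  have c1 : ContinuousAt (fun q : Y × Y => M (q.1, x)) (x, x) :=
    ContinuousAt.comp (f := fun q : Y × Y => (q.1, x)) hc (by fun_prop)
  have c2 : ContinuousAt (fun q : Y × Y => M (x, q.2)) (x, x) :=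
    ContinuousAt.comp (f := fun q : Y × Y => (x, q.2)) hc (by fun_prop)
  have h2 : ∀ᶠ q : Y × Y in 𝓝 (x, x), 𝒜.MixOK p (M (q.1, x)) (M (x, q.2)) :=
    (c1.prodMk c2).eventually ((isOpen_mixOK p).mem_nhds (mixOK_self hp))
  have h3 : ∀ᶠ q : Y × Y in 𝓝 (x, x), 𝒜.chart p (M q) =
      ((𝒜.chart p (M (q.1, x))).1, (𝒜.chart p (M (x, q.2))).2) := by
    filter_upwards [h1, h2] with q a b
    rw [a, chart_mix b]
  have t1 : Tendsto (fun q : Y × Y => (q.1, q.1)) (𝓝 (x, x)) (𝓝 (x, x)) :=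
    (show ContinuousAt (fun q : Y × Y => (q.1, q.1)) (x, x) by fun_prop)
  have t2 : Tendsto (fun q : Y × Y => (q.2, q.2)) (𝓝 (x, x)) (𝓝 (x, x)) :=
    (show ContinuousAt (fun q : Y × Y => (q.2, q.2)) (x, x) by fun_prop)
  filter_upwards [h1, t1.eventually h3, t2.eventually h3] with q a b c
  rw [a]
  unfold mix
  rw [b, c]
theorem PTm.goursat_unique {M M' : Y × Y → X} {x y : Y} (h : 𝒜.PTm n M (x, y))
    (h' : 𝒜.PTm n M' (x, y)) (h₁ : (fun r => M (r, y)) =ᶠ[𝓝 x] fun r => M' (r, y))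
    (h₂ : (fun r => M (x, r)) =ᶠ[𝓝 y] fun r => M' (x, r)) : M =ᶠ[𝓝 (x, y)] M' := by
  have e : M (x, y) = M' (x, y) := h₁.self_of_nhds
  have a := h.eq_mix (𝒜.mem _)
  have b := h'.eq_mix (p := M (x, y)) (e ▸ 𝒜.mem _)
  filter_upwards [a, b, (continuousAt_fst (p := (x, y))).eventually h₁,
    (continuousAt_snd (p := (x, y))).eventually h₂] with q a b c d
  rw [a, b, c, d]

theorem man_ev_of_freq [T2Space X] {A Y' : Type*} [NormedAddCommGroup A] [NormedSpace ℂ A]
    [TopologicalSpace Y'] (e : OpenPartialHomeomorph Y' A) {f g : Y' → X} {y : Y'}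
    (hy : y ∈ e.source) (hf : 𝒜.Hol (fun u => f (e.symm u)) (e y))
    (hg : 𝒜.Hol (fun u => g (e.symm u)) (e y)) (h : ∃ᶠ z in 𝓝 y, f =ᶠ[𝓝 z] g) :
    f =ᶠ[𝓝 y] g := by
  let : NormedSpace ℝ A := NormedSpace.restrictScalars ℝ ℂ A
  obtain ⟨r, hr, hb⟩ := Metric.eventually_nhds_iff_ball.mp (hf.eventually.and hg.eventually)
  have h1 : ∀ᶠ z in 𝓝 y, z ∈ e.source ∧ e z ∈ ball (e y) r :=
    Filter.Eventually.and (e.open_source.mem_nhds hy)
      ((e.continuousAt hy).eventually (ball_mem_nhds _ hr))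
  obtain ⟨z, hz, hz1, hz2⟩ := (h.and_eventually h1).exists
  refine (ev_iff e hy).mpr ?_
  exact Hol.eventuallyEq_of_preconnected (convex_ball (e y) r).isPreconnected
    (fun q hq => (hb q hq).1) (fun q hq => (hb q hq).2) hz2 ((ev_iff e hz1).mp hz)
    (mem_ball_self hr)

theorem Holm.eventuallyEq_of_frequently [T2Space X] {f g : Y → X} {y : Y} (hf : 𝒜.Holm n f y)
    (hg : 𝒜.Holm n g y) (h : ∃ᶠ z in 𝓝 y, f =ᶠ[𝓝 z] g) : f =ᶠ[𝓝 y] g :=
  man_ev_of_freq _ (mem_chart_source _ y) hf hg h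
theorem PTm.eventuallyEq_of_frequently [T2Space X] {M M' : Y × Y → X} {q : Y × Y}
    (hM : 𝒜.PTm n M q) (hM' : 𝒜.PTm n M' q) (h : ∃ᶠ z in 𝓝 q, M =ᶠ[𝓝 z] M') :
    M =ᶠ[𝓝 q] M' :=
  man_ev_of_freq ((chartAt (Model n) q.1).prod (chartAt (Model n) q.2))
    ⟨mem_chart_source _ q.1, mem_chart_source _ q.2⟩ (PT.hol hM) (PT.hol hM') h
/-- identity principle on a connected manifold -/
theorem Holm.eq_of_eventuallyEq [T2Space X] [PreconnectedSpace Y] {f g : Y → X}
    (hf : ∀ y, 𝒜.Holm n f y) (hg : ∀ y, 𝒜.Holm n g y) {y₀ : Y} (h : f =ᶠ[𝓝 y₀] g) : f = g := by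
  have hc : IsClopen {y | f =ᶠ[𝓝 y] g} := by
    refine ⟨isClosed_iff_frequently.mpr fun y hy => ?_, isOpen_setOfPred_eventually_nhds⟩
    exact (hf y).eventuallyEq_of_frequently (hg y) hy
  have := hc.eq_univ ⟨y₀, h⟩
  funext y
  have hy : y ∈ {y | f =ᶠ[𝓝 y] g} := this ▸ mem_univ y
  exact EventuallyEq.eq_of_nhds hy

theorem IsBall.isOpen {U : Set Y} (h : IsBall n U) : IsOpen U := by
  obtain ⟨p, c, r, hs, rfl⟩ := h
  exact (chartAt (Model n) p).isOpen_image_symm_of_subset_target isOpen_ball hs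
theorem exists_isBall {y : Y} {V : Set Y} (hV : V ∈ 𝓝 y) : ∃ U, IsBall n U ∧ y ∈ U ∧ U ⊆ V := by
  have hy := mem_chart_source (Model n) y
  have h1 := ((ev_iff _ hy (P := fun z => z ∈ V)).mp hV).and
    ((chartAt (Model n) y).open_target.mem_nhds ((chartAt (Model n) y).map_source hy))
  obtain ⟨r, hr, hb⟩ := Metric.eventually_nhds_iff_ball.mp h1
  refine ⟨_, ⟨y, chartAt (Model n) y y, r, fun u hu => (hb u hu).2, rfl⟩,
    ⟨_, mem_ball_self hr, (chartAt (Model n) y).left_inv hy⟩, ?_⟩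
  rintro _ ⟨u, hu, rfl⟩
  exact (hb u hu).1

end PAtlas

end Crest.Agent.R266
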