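import Crest.Agent.R266.BridgeP2
import Crest.Agent.R266.Man

/-!
# Row 266: the chart model of a projective manifold; rational connectedness
-/

set_option autoImplicit false
set_option linter.unusedSectionVars false
set_option linter.unusedVariables false

open MeasureTheory Metric Set Filter Topology Complex
open scoped ContDiff Manifold Real
open Crest.AlgGeometry.HolSplit

noncomputable section

namespace Crest.Agent.R266

variable {n : ℕ} {X : Type} [TopologicalSpace X] [ChartedSpace (Model n) X] [IsManifold (mI n) ω X]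

theorem Bridge404_imm {N : ℕ} (ι : ProjEmbedding n X N) {p x : X}
    (hx : x ∈ (chartAt (Model n) p).source) (hx' : x ∈ ι.nbhd p) (v : Model n) (μ : ℂ)
    (h : fderiv ℂ (fun y => ι.coords p ((chartAt (Model n) p).symm y)) (chartAt (Model n) p x) v =
      μ • ι.coords p x) : v = 0 := by
  have h1 : MDifferentiableAt (mI n) 𝓘(ℂ, Fin (N + 1) → ℂ) (ι.coords p) x :=
    ((ι.holomorphic p x hx').contMDiffAt ((ι.isOpen_nbhd p).mem_nhds hx')).mdifferentiableAt
      (by simp)
  have h2 := mfderiv_comp_of_eq h1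
    ((bp_mdiff (n := n) p).mdifferentiableAt_symm ((chartAt (Model n) p).map_source hx))
    ((chartAt (Model n) p).left_inv hx)
  rw [mfderiv_eq_fderiv] at h2
  have h3 := (congrArg (fun A : Model n →L[ℂ] (Fin (N + 1) → ℂ) => A v) h2).trans
    (congrArg (fun z : X => (mfderiv (mI n) 𝓘(ℂ, Fin (N + 1) → ℂ) (ι.coords p) z :
      Model n →L[ℂ] (Fin (N + 1) → ℂ)) (dS n p (chartAt (Model n) p x) v))
      ((chartAt (Model n) p).left_inv hx))
  have h4 : dS n p (chartAt (Model n) p x) v = 0 :=
    ι.immersive p x hx' _ ⟨μ, h3.symm.trans h⟩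
  rw [← dC_dS hx v, h4, map_zero]

theorem exists_satlas (S : Splitting n X) {N : ℕ} (ι : ProjEmbedding n X N) :
    ∃ 𝒮 : SAtlas X n N, (∀ p, 𝒮.P p = Pc S p ∧ 𝒮.chart p p = chartAt (Model n) p p) ∧
      ∀ g : ℂ → X, ContMDiff 𝓘(ℂ, ℂ) (mI n) ω g → ∀ t, 𝒮.HolC g t := by
  have tgt : ∀ p y, y ∈ ((chartAt (Model n) p).restrOpen (ι.nbhd p) (ι.isOpen_nbhd p)).target →
      ∃ x ∈ (chartAt (Model n) p).source, x ∈ ι.nbhd p ∧ chartAt (Model n) p x = y := fun p y hy =>
    ⟨(chartAt (Model n) p).symm y, (chartAt (Model n) p).map_target hy.1, hy.2,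
      (chartAt (Model n) p).right_inv hy.1⟩
  refine ⟨{
    chart := fun p => (chartAt (Model n) p).restrOpen (ι.nbhd p) (ι.isOpen_nbhd p)
    mem := fun p => ⟨mem_chart_source _ p, ι.mem_nbhd p⟩
    trans := fun p q x hp hq => analyticAt_trans hp.1 hq.1
    P := Pc S
    proj := fun p y hy => projAt_Pc S hy.1
    compat := fun p q x hp hq v => Pc_compat S hp.1 hq.1 v
    c := fun p y => ι.coords p ((chartAt (Model n) p).symm y)
    c_an := fun p y hy => ?_
    c_ne := fun p y hy => ι.ne_zero p _ hy.2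
    c_compat := fun p q x hp hq => ?_
    c_inj := fun p q x y hp hq h => ?_
    c_imm := fun p y hy v h => ?_ }, fun p => ⟨rfl, rfl⟩, fun g hg t => ⟨hg.continuous.continuousAt, ?_⟩⟩
  · obtain ⟨x, hx, hx', rfl⟩ := tgt p y hy
    exact (bp_contDiffAt hx
      ((ι.holomorphic p x hx').contMDiffAt ((ι.isOpen_nbhd p).mem_nhds hx'))).analyticAt
  · change ∃ μ : ℂ, ι.coords q ((chartAt (Model n) q).symm (chartAt (Model n) q x)) =
      μ • ι.coords p ((chartAt (Model n) p).symm (chartAt (Model n) p x))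
    rw [(chartAt (Model n) p).left_inv hp.1, (chartAt (Model n) q).left_inv hq.1]
    exact ι.compatible p q x ⟨hp.2, hq.2⟩
  · change ∃ μ : ℂ, ι.coords q ((chartAt (Model n) q).symm (chartAt (Model n) q y)) =
      μ • ι.coords p ((chartAt (Model n) p).symm (chartAt (Model n) p x)) at h
    rw [(chartAt (Model n) p).left_inv hp.1, (chartAt (Model n) q).left_inv hq.1] at h
    exact ι.injective p q x y hp.2 hq.2 h
  · obtain ⟨x, hx, hx', rfl⟩ := tgt p y hy
    obtain ⟨μ, h⟩ := h
    rw [(chartAt (Model n) p).left_inv hx] at h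
    exact Bridge404_imm ι hx hx' v μ h
  · exact (contMDiffAt_iff_contDiffAt.1 ((contMDiffAt_of_mem_maximalAtlas
      (IsManifold.chart_mem_maximalAtlas (g t)) (mem_chart_source _ (g t))).comp t (hg t))).analyticAt

end Crest.Agent.R266
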