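import Crest.Agent.R266.Man

/-!
# Row 266: comparison with ContMDiffAt
-/

set_option autoImplicit false
set_option linter.unusedSectionVars false
set_option linter.unusedVariables false

open MeasureTheory Metric Set Filter Topology Complex
open scoped ContDiff Manifold Real
open Crest.AlgGeometry.HolSplit

noncomputable section

namespace Crest.Agent.R266

section Aux
variable {n : ℕ} {Y : Type*} [TopologicalSpace Y] [ChartedSpace (Model n) Y] [IsManifold (mI n) ω Y]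

theorem manC_chart (y : Y) : ContMDiffAt (mI n) 𝓘(ℂ, Model n) ω (chartAt (Model n) y) y :=
  (contMDiffOn_chart (I := mI n) (n := ω) (x := y)).contMDiffAt
    ((chartAt (Model n) y).open_source.mem_nhds (mem_chart_source _ y))

theorem manC_chart_symm (y : Y) :
    ContMDiffAt 𝓘(ℂ, Model n) (mI n) ω (chartAt (Model n) y).symm (chartAt (Model n) y y) :=
  (contMDiffOn_chart_symm (I := mI n) (n := ω) (x := y)).contMDiffAt
    ((chartAt (Model n) y).open_target.mem_nhds (mem_chart_target _ y))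

theorem manC_symm_apply (y : Y) : (chartAt (Model n) y).symm (chartAt (Model n) y y) = y :=
  (chartAt (Model n) y).left_inv (mem_chart_source _ y)

theorem manC_ev (y : Y) : ∀ᶠ z in 𝓝 y, (chartAt (Model n) y).symm (chartAt (Model n) y z) = z :=
  (chartAt (Model n) y).eventually_left_inverse (mem_chart_source _ y)

theorem manC_cont (y : Y) : ContinuousAt (chartAt (Model n) y) y :=
  (chartAt (Model n) y).continuousAt (mem_chart_source _ y)

end Aux

namespace PAtlas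
variable {X : Type*} [TopologicalSpace X] {n₁ n₂ : ℕ} {𝒜 : PAtlas X n₁ n₂}
variable {n : ℕ} {Y : Type*} [TopologicalSpace Y] [ChartedSpace (Model n) Y] [IsManifold (mI n) ω Y]

/-! ### comparison with `ContMDiffAt` when the target is a manifold -/

section
variable {m : ℕ} [ChartedSpace (Model m) X] [IsManifold (mI m) ω X]

theorem Compat.manC_chart (hc : 𝒜.Compat m) (p : X) :
    ContMDiffAt (mI m) 𝓘(ℂ, MM n₁ n₂) ω (𝒜.chart p) p :=
  (hc p).1.contMDiffAt ((𝒜.chart p).open_source.mem_nhds (𝒜.mem p))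

theorem Compat.manC_symm (hc : 𝒜.Compat m) (p : X) :
    ContMDiffAt 𝓘(ℂ, MM n₁ n₂) (mI m) ω (𝒜.chart p).symm (𝒜.chart p p) :=
  (hc p).2.contMDiffAt ((𝒜.chart p).open_target.mem_nhds ((𝒜.chart p).map_source (𝒜.mem p)))

/-- a holomorphic map from a normed space is `ContMDiffAt` -/
theorem Compat.manC_of_hol (hc : 𝒜.Compat m) {A : Type*} [NormedAddCommGroup A] [NormedSpace ℂ A]
    [CompleteSpace A] {Φ : A → X} {q : A} (h : 𝒜.Hol Φ q) :
    ContMDiffAt 𝓘(ℂ, A) (mI m) ω Φ q := by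
  have h1 : ContMDiffAt 𝓘(ℂ, A) 𝓘(ℂ, MM n₁ n₂) ω (fun r => 𝒜.chart (Φ q) (Φ r)) q :=
    contMDiffAt_iff_contDiffAt.2 h.2.contDiffAt
  have h2 : ContMDiffAt 𝓘(ℂ, A) (mI m) ω
      ((𝒜.chart (Φ q)).symm ∘ fun r => 𝒜.chart (Φ q) (Φ r)) q :=
    ContMDiffAt.comp q (hc.manC_symm (Φ q)) h1
  refine h2.congr_of_eventuallyEq ?_
  have h3 := h.1.eventually ((𝒜.chart (Φ q)).eventually_left_inverse (𝒜.mem (Φ q)))
  filter_upwards [h3] with r hr
  exact hr.symm

theorem Compat.manC_hol_of (hc : 𝒜.Compat m) {A : Type*} [NormedAddCommGroup A] [NormedSpace ℂ A]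
    {Φ : A → X} {q : A} (h : ContMDiffAt 𝓘(ℂ, A) (mI m) ω Φ q) : 𝒜.Hol Φ q := by
  refine ⟨h.continuousAt, ?_⟩
  have h1 : ContMDiffAt 𝓘(ℂ, A) 𝓘(ℂ, MM n₁ n₂) ω (𝒜.chart (Φ q) ∘ Φ) q :=
    ContMDiffAt.comp q (hc.manC_chart (Φ q)) h
  exact (contMDiffAt_iff_contDiffAt.1 h1).analyticAt

theorem Compat.holm_iff (hc : 𝒜.Compat m) {f : Y → X} {y : Y} :
    𝒜.Holm n f y ↔ ContMDiffAt (mI n) (mI m) ω f y := by
  constructor
  · intro h
    have h1 := hc.manC_of_hol h
    have h2 := ContMDiffAt.comp y h1 (Crest.Agent.R266.manC_chart (n := n) y)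
    refine h2.congr_of_eventuallyEq ?_
    filter_upwards [manC_ev (n := n) y] with z hz
    simp only [Function.comp, hz]
  · intro h
    apply hc.manC_hol_of
    have h' : ContMDiffAt (mI n) (mI m) ω f
        ((chartAt (Model n) y).symm (chartAt (Model n) y y)) := by
      rw [manC_symm_apply]; exact h
    exact ContMDiffAt.comp _ h' (manC_chart_symm y)

theorem PT.manC_hol {A B : Type*} [NormedAddCommGroup A] [NormedSpace ℂ A] [NormedAddCommGroup B]
    [NormedSpace ℂ B] {Φ : A × B → X} {q : A × B} (h : 𝒜.PT Φ q) : 𝒜.Hol Φ q := by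
  obtain ⟨hc, k₁, k₂, a₁, a₂, he⟩ := h
  refine ⟨hc, ?_⟩
  have : AnalyticAt ℂ (fun r : A × B => ((k₁ r.1, k₂ r.2) : MM n₁ n₂)) q :=
    (a₁.comp analyticAt_fst).prod (a₂.comp analyticAt_snd)
  exact this.congr (he.mono fun r hr => hr.symm)

theorem Compat.contMDiffAt_of_ptm (hc : 𝒜.Compat m) {M : Y × Y → X} {q : Y × Y}
    (h : 𝒜.PTm n M q) : ContMDiffAt ((mI n).prod (mI n)) (mI m) ω M q := by
  have h1 := hc.manC_of_hol (PT.manC_hol h)
  have h2 : ContMDiffAt ((mI n).prod (mI n)) 𝓘(ℂ, Model n × Model n) ω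
      (fun r : Y × Y => (chartAt (Model n) q.1 r.1, chartAt (Model n) q.2 r.2)) q :=
    ContMDiffAt.prodMk_space
      (ContMDiffAt.comp q (Crest.Agent.R266.manC_chart (n := n) q.1) contMDiffAt_fst)
      (ContMDiffAt.comp q (Crest.Agent.R266.manC_chart (n := n) q.2) contMDiffAt_snd)
  have h3 := ContMDiffAt.comp q h1 h2
  refine h3.congr_of_eventuallyEq ?_
  have e1 := continuousAt_fst.eventually (manC_ev (n := n) q.1)
  have e2 := continuousAt_snd.eventually (manC_ev (n := n) q.2)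
  filter_upwards [e1, e2] with z hz1 hz2
  simp only [Function.comp, hz1, hz2]

theorem Compat.swap (hc : 𝒜.Compat m) : 𝒜.swap.Compat m := by
  intro p
  have s1 : ContMDiff 𝓘(ℂ, MM n₁ n₂) 𝓘(ℂ, MM n₂ n₁) ω (Prod.swap : MM n₁ n₂ → MM n₂ n₁) :=
    contMDiff_iff_contDiff.2 (contDiff_snd.prodMk contDiff_fst)
  have s2 : ContMDiff 𝓘(ℂ, MM n₂ n₁) 𝓘(ℂ, MM n₁ n₂) ω (Prod.swap : MM n₂ n₁ → MM n₁ n₂) :=
    contMDiff_iff_contDiff.2 (contDiff_snd.prodMk contDiff_fst)
  constructor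
  · exact s1.comp_contMDiffOn (hc p).1
  · have : ContMDiffOn 𝓘(ℂ, MM n₂ n₁) (mI m) ω ((𝒜.chart p).symm ∘ Prod.swap)
        (Prod.swap ⁻¹' (𝒜.chart p).target) :=
      (hc p).2.comp s2.contMDiffOn (fun x hx => hx)
    exact this
end

end PAtlas

end Crest.Agent.R266
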