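import Crest.Agent.R266.Frob

/-!
# Row 266: product charts
-/

set_option autoImplicit false
set_option linter.unusedSectionVars false
set_option linter.unusedVariables false

open MeasureTheory Metric Set Filter Topology Complex
open scoped ContDiff Manifold Real
open Crest.AlgGeometry.HolSplit

noncomputable section

namespace Crest.Agent.R266

variable {E : Type*} [NormedAddCommGroup E] [NormedSpace ℂ E] [FiniteDimensional ℂ E]
  {P : E → E →L[ℂ] E} {y₀ : E}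

theorem PChart.finrank_le {p q : E →L[ℂ] E} (hp : ∀ v, p (p v) = p v) (h : ‖p - q‖ < 1) :
    Module.finrank ℂ (LinearMap.range (p : E →ₗ[ℂ] E))
      ≤ Module.finrank ℂ (LinearMap.range (q : E →ₗ[ℂ] E)) := by
  refine LinearMap.finrank_le_finrank_of_injective
    (f := (q : E →ₗ[ℂ] E).rangeRestrict.comp (LinearMap.range (p : E →ₗ[ℂ] E)).subtype) ?_
  rw [injective_iff_map_eq_zero]
  rintro ⟨v, w, hw⟩ hv
  have h1 : q v = 0 := congrArg Subtype.val hv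
  have h2 : p v = v := by
    rw [← hw]
    exact hp w
  have h3 : ‖v‖ ≤ ‖p - q‖ * ‖v‖ := by
    have h4 := (p - q).le_opNorm v
    rwa [sub_apply, h1, h2, sub_zero] at h4
  have h5 : ‖v‖ = 0 := by
    by_contra h6
    have h7 : 0 < ‖v‖ := lt_of_le_of_ne (norm_nonneg _) (Ne.symm h6)
    nlinarith
  exact Subtype.ext (norm_eq_zero.1 h5)

/-- the rank of a field of projections is locally constant -/
theorem ProjAt.eventually_finrank (hP : ProjAt P y₀) :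
    ∀ᶠ y in 𝓝 y₀, Module.finrank ℂ (LinearMap.range (P y : E →ₗ[ℂ] E))
        = Module.finrank ℂ (LinearMap.range (P y₀ : E →ₗ[ℂ] E)) ∧
      Module.finrank ℂ (LinearMap.ker (P y : E →ₗ[ℂ] E))
        = Module.finrank ℂ (LinearMap.ker (P y₀ : E →ₗ[ℂ] E)) := by
  have h1 : ∀ᶠ y in 𝓝 y₀, P y ∈ ball (P y₀) 1 :=
    hP.1.continuousAt.eventually (ball_mem_nhds _ one_pos)
  filter_upwards [h1, hP.2] with y hy hy2
  rw [mem_ball, dist_eq_norm] at hy
  have h2 := le_antisymm (PChart.finrank_le hy2 hy)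
    (PChart.finrank_le hP.2.self_of_nhds (by rwa [norm_sub_rev]))
  refine ⟨h2, ?_⟩
  have h3 := LinearMap.finrank_range_add_finrank_ker (P y : E →ₗ[ℂ] E)
  have h4 := LinearMap.finrank_range_add_finrank_ker (P y₀ : E →ₗ[ℂ] E)
  omega

theorem PChart.exists_equiv {n₁ n₂ : ℕ} {p : E →L[ℂ] E} (hp : ∀ v, p (p v) = p v)
    (hn₁ : Module.finrank ℂ (LinearMap.range (p : E →ₗ[ℂ] E)) = n₁)
    (hn₂ : Module.finrank ℂ (LinearMap.ker (p : E →ₗ[ℂ] E)) = n₂) :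
    ∃ (i₁ : Model n₁ →L[ℂ] E) (i₂ : Model n₂ →L[ℂ] E) (e : MM n₁ n₂ ≃L[ℂ] E),
      (∀ u, p (i₁ u) = i₁ u) ∧ (∀ v, p (i₂ v) = 0) ∧ ∀ w, e w = i₁ w.1 + i₂ w.2 := by
  let a₁ : Model n₁ ≃ₗ[ℂ] LinearMap.range (p : E →ₗ[ℂ] E) :=
    LinearEquiv.ofFinrankEq _ _ (by rw [hn₁, finrank_euclideanSpace_fin])
  let a₂ : Model n₂ ≃ₗ[ℂ] LinearMap.ker (p : E →ₗ[ℂ] E) :=
    LinearEquiv.ofFinrankEq _ _ (by rw [hn₂, finrank_euclideanSpace_fin])
  let i₁ : Model n₁ →ₗ[ℂ] E := (LinearMap.range (p : E →ₗ[ℂ] E)).subtype.comp a₁.toLinearMap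
  let i₂ : Model n₂ →ₗ[ℂ] E := (LinearMap.ker (p : E →ₗ[ℂ] E)).subtype.comp a₂.toLinearMap
  have k₁ : ∀ u, p (i₁ u) = i₁ u := fun u => by
    obtain ⟨w, hw⟩ := (a₁ u).2
    change p (a₁ u) = a₁ u
    rw [← hw]
    exact hp w
  have k₂ : ∀ v, p (i₂ v) = 0 := fun v => (a₂ v).2
  have hb : Function.Bijective (i₁.coprod i₂) := by
    constructor
    · rw [injective_iff_map_eq_zero]
      rintro ⟨u, v⟩ h
      have h1 : i₁ u + i₂ v = 0 := h
      have h2 : i₁ u = 0 := by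
        have h3 := congrArg p h1
        rwa [map_add, k₁, k₂, add_zero, map_zero] at h3
      have h4 : i₂ v = 0 := by rwa [h2, zero_add] at h1
      have h5 : a₁ u = 0 := Subtype.ext h2
      have h6 : a₂ v = 0 := Subtype.ext h4
      rw [a₁.map_eq_zero_iff] at h5
      rw [a₂.map_eq_zero_iff] at h6
      rw [h5, h6]
      rfl
    · intro X
      refine ⟨(a₁.symm ⟨p X, X, rfl⟩, a₂.symm ⟨X - p X, ?_⟩), ?_⟩
      · change p (X - p X) = 0
        rw [map_sub, hp, sub_self]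
      · simp [i₁, i₂]
  exact ⟨LinearMap.toContinuousLinearMap i₁, LinearMap.toContinuousLinearMap i₂,
    (LinearEquiv.ofBijective _ hb).toContinuousLinearEquiv, k₁, k₂, fun w => rfl⟩

theorem exists_pchart {n₁ n₂ : ℕ} (hP : ProjAt P y₀) (h₁ : ∀ᶠ y in 𝓝 y₀, IntAt P y)
    (h₂ : ∀ᶠ y in 𝓝 y₀, IntAt (coP P) y)
    (hn₁ : Module.finrank ℂ (LinearMap.range (P y₀ : E →ₗ[ℂ] E)) = n₁)
    (hn₂ : Module.finrank ℂ (LinearMap.ker (P y₀ : E →ₗ[ℂ] E)) = n₂) {V : Set E} (hV : V ∈ 𝓝 y₀) :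
    ∃ φ : OpenPartialHomeomorph E (MM n₁ n₂), y₀ ∈ φ.source ∧ φ.source ⊆ V ∧
      AnalyticOnNhd ℂ φ φ.source ∧ AnalyticOnNhd ℂ φ.symm φ.target ∧
      ∀ y ∈ φ.source, ∀ X, fderiv ℂ φ y (P y X) = ((fderiv ℂ φ y X).1, 0) := by
  have : CompleteSpace E := FiniteDimensional.complete ℂ E
  obtain ⟨m, hm, hd, hw⟩ := exists_swap hP h₁ h₂
  obtain ⟨i₁, i₂, e, k₁, k₂, he⟩ := PChart.exists_equiv hP.2.self_of_nhds hn₁ hn₂
  have hm0 : m (y₀, y₀) = y₀ := hd.self_of_nhds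
  -- the derivative of `m` on the diagonal
  have hD : ∀ X, fderiv ℂ m (y₀, y₀) (X, X) = X := fun X => by
    have h1 : HasFDerivAt (fun y : E => (y, y))
        ((ContinuousLinearMap.id ℂ E).prod (ContinuousLinearMap.id ℂ E)) y₀ :=
      (hasFDerivAt_id y₀).prodMk (hasFDerivAt_id y₀)
    have h2 := HasFDerivAt.comp (g := m) (f := fun y : E => (y, y)) y₀
      hm.differentiableAt.hasFDerivAt h1
    have h3 : HasFDerivAt (m ∘ fun y : E => (y, y)) (ContinuousLinearMap.id ℂ E) y₀ :=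
      (hasFDerivAt_id y₀).congr_of_eventuallyEq hd
    exact congrArg (fun L : E →L[ℂ] E => L X) (h2.unique h3)
  have hs : ∀ (q : E × E) (X Y : E), fderiv ℂ m q (X, Y)
      = fderiv ℂ m q (X, 0) + fderiv ℂ m q (0, Y) := fun q X Y => by
    rw [← map_add]
    simp
  have hw0 := hw.self_of_nhds
  rw [hm0] at hw0
  have hD1 : ∀ X, fderiv ℂ m (y₀, y₀) (X, 0) = P y₀ X := fun X => by
    have h1 := congrArg (P y₀) (hD X)
    rw [hs, map_add, (hw0 X).1, (hw0 X).2, add_zero] at h1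
    exact h1
  have hD2 : ∀ X, fderiv ℂ m (y₀, y₀) (0, X) = X - P y₀ X := fun X => by
    have h1 := hD X
    rw [hs, hD1] at h1
    exact eq_sub_of_add_eq' h1
  -- the parametrisation
  let j : MM n₁ n₂ →L[ℂ] E × E := i₁.prodMap i₂
  let a : MM n₁ n₂ → E × E := fun w => (y₀, y₀) + j w
  have ha0 : a 0 = (y₀, y₀) := by simp [a]
  have haa : ∀ w, AnalyticAt ℂ a w := fun w => analyticAt_const.add (j.analyticAt w)
  have had : ∀ w, HasFDerivAt a j w := fun w => j.hasFDerivAt.const_add _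
  let ψ : MM n₁ n₂ → E := fun w => m (a w)
  have hψ0 : ψ 0 = y₀ := by simp only [ψ, ha0, hm0]
  have hψd : ∀ w, AnalyticAt ℂ m (a w) → fderiv ℂ ψ w = (fderiv ℂ m (a w)).comp j := fun w h =>
    (HasFDerivAt.comp (g := m) w h.differentiableAt.hasFDerivAt (had w)).fderiv
  have hma : AnalyticAt ℂ m (a 0) := by rwa [ha0]
  have hψa : AnalyticAt ℂ ψ 0 := AnalyticAt.comp (g := m) hma (haa 0)
  have hψe : fderiv ℂ ψ 0 = e := by
    rw [hψd 0 hma, ha0]
    refine ContinuousLinearMap.ext fun w => ?_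
    change fderiv ℂ m (y₀, y₀) (i₁ w.1, i₂ w.2) = e w
    rw [hs, hD1, hD2, k₁, k₂, sub_zero, he]
  have hst : HasStrictFDerivAt ψ (e : MM n₁ n₂ →L[ℂ] E) 0 := hψe ▸ hψa.hasStrictFDerivAt
  let g := hst.toOpenPartialHomeomorph ψ
  have hg0 : (0 : MM n₁ n₂) ∈ g.source := hst.mem_toOpenPartialHomeomorph_source
  have hgs : AnalyticAt ℂ g.symm (ψ 0) := g.analyticAt_symm' hg0 hψa hψe
  have hta : Tendsto a (𝓝 0) (𝓝 (y₀, y₀)) := ha0 ▸ (haa 0).continuousAt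
  have htψ : Tendsto ψ (𝓝 0) (𝓝 (ψ 0)) := hψa.continuousAt
  have hev : ∀ᶠ w in 𝓝 (0 : MM n₁ n₂), AnalyticAt ℂ m (a w) ∧ AnalyticAt ℂ g.symm (ψ w) ∧
      ψ w ∈ V ∧ ∀ X, P (ψ w) (fderiv ℂ m (a w) (X, 0)) = fderiv ℂ m (a w) (X, 0) ∧
        P (ψ w) (fderiv ℂ m (a w) (0, X)) = 0 :=
    (hta.eventually hm.eventually_analyticAt).and
      ((htψ.eventually hgs.eventually_analyticAt).and
        ((htψ.eventually (hψ0 ▸ hV)).and (hta.eventually hw)))
  obtain ⟨W, hW, hWo, hW0⟩ := _root_.eventually_nhds_iff.1 hev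
  let g' := g.restrOpen W hWo
  have hsrc : ∀ y ∈ g'.target, g.symm y ∈ g.source ∧ g.symm y ∈ W ∧ ψ (g.symm y) = y :=
    fun y hy => ⟨(g'.map_target hy).1, (g'.map_target hy).2, g'.right_inv hy⟩
  refine ⟨g'.symm, ?_, fun y hy => ?_, fun y hy => ?_, fun w hw' => ?_, fun y hy X => ?_⟩
  · rw [← hψ0]
    exact g'.map_source ⟨hg0, hW0⟩
  · obtain ⟨h1, h2, h3⟩ := hsrc y hy
    rw [← h3]
    exact (hW _ h2).2.2.1
  · obtain ⟨h1, h2, h3⟩ := hsrc y hy
    have h4 := (hW _ h2).2.1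
    rw [h3] at h4
    exact h4
  · exact AnalyticAt.comp (g := m) (hW w hw'.2).1 (haa w)
  · obtain ⟨h1, h2, h3⟩ := hsrc y hy
    obtain ⟨b1, b2, -, b4⟩ := hW _ h2
    rw [h3] at b2 b4
    change fderiv ℂ g.symm y (P y X) = ((fderiv ℂ g.symm y X).1, 0)
    set w := g.symm y with hwdef
    have c1 : HasFDerivAt ψ (fderiv ℂ ψ w) w :=
      (AnalyticAt.comp (g := m) b1 (haa w)).differentiableAt.hasFDerivAt
    have c2 : HasFDerivAt g.symm (fderiv ℂ g.symm y) y := b2.differentiableAt.hasFDerivAt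
    have hAB : ∀ z, fderiv ℂ g.symm y (fderiv ℂ ψ w z) = z := fun z => by
      have c3 : HasFDerivAt g.symm (fderiv ℂ g.symm y) (ψ w) := by rw [h3]; exact c2
      have d1 := HasFDerivAt.comp (g := g.symm) (f := ψ) w c3 c1
      have d2 : HasFDerivAt (g.symm ∘ ψ) (ContinuousLinearMap.id ℂ _) w :=
        (hasFDerivAt_id w).congr_of_eventuallyEq (g.eventually_left_inverse h1)
      exact congrArg (fun L : MM n₁ n₂ →L[ℂ] MM n₁ n₂ => L z) (d1.unique d2)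
    have hBA : ∀ z, fderiv ℂ ψ w (fderiv ℂ g.symm y z) = z := fun z => by
      have d1 := HasFDerivAt.comp (g := ψ) (f := g.symm) y c1 c2
      have d2 : HasFDerivAt (ψ ∘ g.symm) (ContinuousLinearMap.id ℂ _) y :=
        (hasFDerivAt_id y).congr_of_eventuallyEq (g.eventually_right_inverse hy.1)
      exact congrArg (fun L : E →L[ℂ] E => L z) (d1.unique d2)
    have hB : ∀ z : MM n₁ n₂, fderiv ℂ ψ w z = fderiv ℂ m (a w) (i₁ z.1, i₂ z.2) := fun z => by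
      rw [hψd w b1]
      rfl
    have hPX : P y X = fderiv ℂ ψ w ((fderiv ℂ g.symm y X).1, 0) := by
      conv_lhs => rw [← hBA X, hB, hs, map_add, (b4 _).1, (b4 _).2, add_zero]
      rw [hB, map_zero]
    rw [hPX, hAB]

end Crest.Agent.R266
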