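import Crest.Agent.R266.Defs

/-!
# Row 266: block diagonal maps
-/

set_option autoImplicit false
set_option linter.unusedSectionVars false
set_option linter.unusedVariables false

open MeasureTheory Metric Set Filter Topology Complex
open scoped ContDiff Manifold Real
open Crest.AlgGeometry.HolSplit

noncomputable section

namespace Crest.Agent.R266

variable {E : Type*} [NormedAddCommGroup E] [NormedSpace ℂ E] [FiniteDimensional ℂ E]
  {P : E → E →L[ℂ] E} {y₀ : E}

/-- a function with zero derivative on a ball is constant -/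
theorem eq_of_hasFDerivAt_zero {B A' : Type*} [NormedAddCommGroup B] [NormedSpace ℂ B]
    [NormedAddCommGroup A'] [NormedSpace ℂ A'] {g : B → A'} {b₀ : B} {ε : ℝ}
    (h : ∀ b ∈ ball b₀ ε, HasFDerivAt g (0 : B →L[ℂ] A') b) {b : B} (hb : b ∈ ball b₀ ε) :
    g b = g b₀ := by
  let _ : NormedSpace ℝ B := NormedSpace.restrictScalars ℝ ℂ B
  exact isOpen_ball.is_const_of_fderiv_eq_zero (𝕜 := ℂ) (convex_ball b₀ ε).isPreconnected
    (fun x hx => (h x hx).differentiableAt.differentiableWithinAt)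
    (fun x hx => (h x hx).fderiv) hb (mem_ball_self (pos_of_mem_ball hb))

/-- an analytic map with block diagonal derivative is locally a product -/
theorem exists_prod_of_block {A B A' B' : Type*} [NormedAddCommGroup A] [NormedSpace ℂ A]
    [NormedAddCommGroup B] [NormedSpace ℂ B] [NormedAddCommGroup A'] [NormedSpace ℂ A']
    [NormedAddCommGroup B'] [NormedSpace ℂ B'] [CompleteSpace A'] [CompleteSpace B']
    {τ : A × B → A' × B'} {q : A × B}
    (hτ : AnalyticAt ℂ τ q)
    (hb : ∀ᶠ r in 𝓝 q, (∀ u, (fderiv ℂ τ r (u, 0)).2 = 0) ∧ ∀ v, (fderiv ℂ τ r (0, v)).1 = 0) :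
    ∃ (h₁ : A → A') (h₂ : B → B'), AnalyticAt ℂ h₁ q.1 ∧ AnalyticAt ℂ h₂ q.2 ∧
      ∀ᶠ r in 𝓝 q, τ r = (h₁ r.1, h₂ r.2) := by
  obtain ⟨a₀, b₀⟩ := q
  refine ⟨fun a => (τ (a, b₀)).1, fun b => (τ (a₀, b)).2,
    analyticAt_fst.comp (hτ.comp_of_eq (analyticAt_id.prod analyticAt_const) rfl),
    analyticAt_snd.comp (hτ.comp_of_eq (analyticAt_const.prod analyticAt_id) rfl), ?_⟩
  obtain ⟨ε, hε, h⟩ := Metric.eventually_nhds_iff_ball.1 (hb.and hτ.eventually_analyticAt)
  have hm : ∀ {a b}, a ∈ ball a₀ ε → b ∈ ball b₀ ε → (a, b) ∈ ball (a₀, b₀) ε := by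
    intro a b ha hb
    rw [← ball_prod_same]
    exact ⟨ha, hb⟩
  filter_upwards [ball_mem_nhds (a₀, b₀) hε] with r hr
  rw [← ball_prod_same] at hr
  obtain ⟨a, b⟩ := r
  obtain ⟨ha, hb⟩ : a ∈ ball a₀ ε ∧ b ∈ ball b₀ ε := hr
  refine Prod.ext ?_ ?_
  · refine eq_of_hasFDerivAt_zero (g := fun b => (τ (a, b)).1) (fun b' hb' => ?_) hb
    have h1 := h _ (hm ha hb')
    have h2 := (h1.2.differentiableAt.hasFDerivAt.comp b' (hasFDerivAt_prodMk_right a b')).fst
    refine h2.congr_fderiv (ContinuousLinearMap.ext fun v => ?_)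
    simpa using h1.1.2 v
  · refine eq_of_hasFDerivAt_zero (g := fun a => (τ (a, b)).2) (fun a' ha' => ?_) ha
    have h1 := h _ (hm ha' hb)
    have h2 := (HasFDerivAt.comp (f := fun a : A => (a, b)) a' h1.2.differentiableAt.hasFDerivAt
      (hasFDerivAt_prodMk_left a' b)).snd
    refine h2.congr_fderiv (ContinuousLinearMap.ext fun v => ?_)
    simpa using h1.1.1 v

end Crest.Agent.R266
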