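import Crest.Agent.R266.BridgeI
import Crest.Agent.R266.PChart
import Crest.Agent.R266.PChart2
import Crest.Agent.R266.ManC

/-!
# Row 266: product atlas and Kaehler metric of a split Kaehler manifold
-/

set_option autoImplicit false
set_option linter.unusedSectionVars false
set_option linter.unusedVariables false

open MeasureTheory Metric Set Filter Topology Complex
open scoped ContDiff Manifold Real
open Crest.AlgGeometry.HolSplit

noncomputable section

namespace Crest.Agent.R266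

variable {n : ℕ} {X : Type} [TopologicalSpace X] [ChartedSpace (Model n) X] [IsManifold (mI n) ω X]

namespace B405

theorem conj_rank {E : Type*} [NormedAddCommGroup E] [NormedSpace ℂ E] (A B P Q : E →L[ℂ] E)
    (hAB : ∀ v, A (B v) = v) (hBA : ∀ v, B (A v) = v) (h : ∀ v, Q (A v) = A (P v)) :
    Module.finrank ℂ (LinearMap.range (Q : E →ₗ[ℂ] E))
      = Module.finrank ℂ (LinearMap.range (P : E →ₗ[ℂ] E)) := by
  let e : E ≃ₗ[ℂ] E := LinearEquiv.ofLinearMap (A : E →ₗ[ℂ] E) (B : E →ₗ[ℂ] E)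
    (LinearMap.ext hAB) (LinearMap.ext hBA)
  suffices H : LinearMap.range (Q : E →ₗ[ℂ] E)
      = (LinearMap.range (P : E →ₗ[ℂ] E)).map (e : E →ₗ[ℂ] E) by
    rw [H, e.finrank_map_eq]
  ext w
  constructor
  · rintro ⟨v, rfl⟩
    refine ⟨P (B v), ⟨B v, rfl⟩, ?_⟩
    change A (P (B v)) = Q v
    rw [← h, hAB]
  · rintro ⟨_, ⟨v, rfl⟩, rfl⟩
    exact ⟨A v, h v⟩

/-- the projection as an endomorphism of the model space -/
def pr (S : Splitting n X) (x : X) : Model n →L[ℂ] Model n := S.proj x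

/-- the rank of the first summand -/
def rk (S : Splitting n X) (x : X) : ℕ :=
  Module.finrank ℂ (LinearMap.range (pr S x : Model n →ₗ[ℂ] Model n))

theorem rk_eq (S : Splitting n X) {p x : X} (hx : x ∈ (chartAt (Model n) p).source) :
    Module.finrank ℂ (LinearMap.range (Pc S p (chartAt (Model n) p x) : Model n →ₗ[ℂ] Model n))
      = rk S x :=
  conj_rank (dC n p x) (dS n p (chartAt (Model n) p x)) (pr S x) _ (dC_dS hx) (dS_dC hx)
    (Pc_dC S hx)

theorem rk_const [ConnectedSpace X] (S : Splitting n X) (x y : X) : rk S x = rk S y := by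
  refine IsLocallyConstant.apply_eq_of_preconnectedSpace ?_ x y
  refine (IsLocallyConstant.iff_eventually_eq _).2 fun p => ?_
  have hp := mem_chart_source (Model n) p
  have h1 := (projAt_Pc S ((chartAt (Model n) p).map_source hp)).eventually_finrank
  filter_upwards [((chartAt (Model n) p).continuousAt hp).eventually h1,
    (chartAt (Model n) p).open_source.mem_nhds hp] with z hz hz'
  rw [← rk_eq S hz', hz.1, rk_eq S hp]

/-- a holomorphic chart adapted to the splitting -/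
structure Good (S : Splitting n X) {n₁ n₂ : ℕ} (c : OpenPartialHomeomorph X (MM n₁ n₂)) :
    Prop where
  hol : ContMDiffOn (mI n) 𝓘(ℂ, MM n₁ n₂) ω c c.source
  hol' : ContMDiffOn 𝓘(ℂ, MM n₁ n₂) (mI n) ω c.symm c.target
  adapt : ∀ x ∈ c.source, ∀ v : TangentSpace (mI n) x,
    mfderiv (mI n) 𝓘(ℂ, MM n₁ n₂) c x (S.proj x v)
      = ((mfderiv (mI n) 𝓘(ℂ, MM n₁ n₂) c x v).1, 0)

theorem exists_good (S : Splitting n X) (h₁ : S.FirstIntegrable) (h₂ : S.SecondIntegrable)
    {n₁ : ℕ} (p : X) (hn : rk S p = n₁) :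
    ∃ c : OpenPartialHomeomorph X (MM n₁ (n - n₁)), p ∈ c.source ∧
      c.source ⊆ (chartAt (Model n) p).source ∧ Good S c := by
  have hp := mem_chart_source (Model n) p
  have ht := (chartAt (Model n) p).map_source hp
  have hV := (chartAt (Model n) p).open_target.mem_nhds ht
  have r₁ := (rk_eq S hp).trans hn
  have r₂ : Module.finrank ℂ (LinearMap.ker
      (Pc S p (chartAt (Model n) p p) : Model n →ₗ[ℂ] Model n)) = n - n₁ := by
    have h := LinearMap.finrank_range_add_finrank_ker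
      (Pc S p (chartAt (Model n) p p) : Model n →ₗ[ℂ] Model n)
    rw [r₁, finrank_euclideanSpace_fin] at h
    omega
  obtain ⟨φ, h0, hs, a₁, a₂, hd⟩ := exists_pchart (projAt_Pc S ht)
    (by filter_upwards [hV] with y hy using intAt_of_firstIntegrable S h₁ hy)
    (by filter_upwards [hV] with y hy using intAt_of_secondIntegrable S h₂ hy) r₁ r₂ hV
  have m₁ : ContMDiffOn (mI n) 𝓘(ℂ, MM n₁ (n - n₁)) ω φ φ.source :=
    contMDiffOn_iff_contDiffOn.2 a₁.contDiffOn_of_completeSpace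
  have m₂ : ContMDiffOn 𝓘(ℂ, MM n₁ (n - n₁)) (mI n) ω φ.symm φ.target :=
    contMDiffOn_iff_contDiffOn.2 a₂.contDiffOn_of_completeSpace
  refine ⟨(chartAt (Model n) p).trans φ, ⟨hp, h0⟩, inter_subset_left, ?_, ?_, ?_⟩
  · exact m₁.comp (contMDiffOn_chart.mono inter_subset_left) fun x hx => hx.2
  · exact contMDiffOn_chart_symm.comp (m₂.mono inter_subset_left) fun y hy => hy.2
  · intro x hx v
    have e : HasMFDerivAt (mI n) 𝓘(ℂ, MM n₁ (n - n₁)) ((chartAt (Model n) p).trans φ) x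
        ((fderiv ℂ φ (chartAt (Model n) p x)).comp (dC n p x)) :=
      HasMFDerivAt.comp (f := chartAt (Model n) p) (g := φ) x
        (a₁ _ hx.2).differentiableAt.hasFDerivAt.hasMFDerivAt
        ((bp_mdiff (n := n) p).mdifferentiableAt hx.1).hasMFDerivAt
    rw [e.mfderiv]
    change fderiv ℂ φ (chartAt (Model n) p x) (dC n p x (S.proj x v)) =
      ((fderiv ℂ φ (chartAt (Model n) p x) (dC n p x v)).1, 0)
    exact (congrArg _ (Pc_dC S hx.1 v).symm).trans (hd (chartAt (Model n) p x) hx.2 _)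

theorem Good.trans {S : Splitting n X} {n₁ n₂ : ℕ} {c c' : OpenPartialHomeomorph X (MM n₁ n₂)}
    (h : Good S c) (h' : Good S c') {x : X} (hx : x ∈ c.source) (hx' : x ∈ c'.source) :
    ∃ (h₁ : Model n₁ → Model n₁) (h₂ : Model n₂ → Model n₂),
      AnalyticAt ℂ h₁ (c x).1 ∧ AnalyticAt ℂ h₂ (c x).2 ∧
      ∀ᶠ y in 𝓝 x, c' y = (h₁ (c y).1, h₂ (c y).2) := by
  have md : c.MDifferentiable (mI n) 𝓘(ℂ, MM n₁ n₂) :=
    ⟨h.hol.mdifferentiableOn (by simp), h.hol'.mdifferentiableOn (by simp)⟩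
  have md' : c'.MDifferentiable (mI n) 𝓘(ℂ, MM n₁ n₂) :=
    ⟨h'.hol.mdifferentiableOn (by simp), h'.hol'.mdifferentiableOn (by simp)⟩
  have ht := c.map_source hx
  have an : AnalyticAt ℂ (fun y => c' (c.symm y)) (c x) := by
    have h1 : ContMDiffAt 𝓘(ℂ, MM n₁ n₂) 𝓘(ℂ, MM n₁ n₂) ω (fun y => c' (c.symm y)) (c x) :=
      (h'.hol.contMDiffAt (c'.open_source.mem_nhds hx')).comp_of_eq
        (h.hol'.contMDiffAt (c.open_target.mem_nhds ht)) (c.left_inv hx)
    exact (contMDiffAt_iff_contDiffAt.1 h1).analyticAt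
  have ev : ∀ᶠ r in 𝓝 (c x), c.symm r ∈ c'.source := by
    refine c.continuousAt_symm ht ?_
    rw [c.left_inv hx]
    exact c'.open_source.mem_nhds hx'
  obtain ⟨h₁, h₂, a₁, a₂, he⟩ := exists_prod_of_block an (by
    filter_upwards [c.open_target.mem_nhds ht, ev] with r hr hr'
    have hz := c.map_target hr
    have e : ∀ w, fderiv ℂ (fun y => c' (c.symm y)) r w =
        mfderiv (mI n) 𝓘(ℂ, MM n₁ n₂) c' (c.symm r)
          (mfderiv 𝓘(ℂ, MM n₁ n₂) (mI n) c.symm r w) := fun w => by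
      rw [← mfderiv_eq_fderiv]
      exact mfderiv_comp_apply (f := c.symm) (g := c') r (md'.mdifferentiableAt hr')
        (md.mdifferentiableAt_symm hr) w
    have inv : ∀ w : MM n₁ n₂, mfderiv (mI n) 𝓘(ℂ, MM n₁ n₂) c (c.symm r)
        (mfderiv 𝓘(ℂ, MM n₁ n₂) (mI n) c.symm r w) = w := fun w =>
      congrArg (fun A : MM n₁ n₂ →L[ℂ] MM n₁ n₂ => A w) (md.comp_symm_deriv hr)
    have inj := md.mfderiv_injective hz
    refine ⟨fun u => ?_, fun w => ?_⟩ <;> rw [e]
    · have k₁ := h.adapt _ hz (mfderiv 𝓘(ℂ, MM n₁ n₂) (mI n) c.symm r (u, 0))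
      rw [inv] at k₁
      have k₂ := inj (k₁.trans (inv (u, 0)).symm)
      have k₃ := h'.adapt _ hr' (mfderiv 𝓘(ℂ, MM n₁ n₂) (mI n) c.symm r (u, 0))
      rw [k₂] at k₃
      exact (congrArg Prod.snd k₃ :)
    · have k₁ := h.adapt _ hz (mfderiv 𝓘(ℂ, MM n₁ n₂) (mI n) c.symm r (0, w))
      rw [inv] at k₁
      have k₂ := inj (k₁.trans (map_zero _).symm)
      have k₃ := h'.adapt _ hr' (mfderiv 𝓘(ℂ, MM n₁ n₂) (mI n) c.symm r (0, w))
      rw [k₂, map_zero] at k₃
      exact (congrArg Prod.fst k₃ :).symm)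
  refine ⟨h₁, h₂, a₁, a₂, ?_⟩
  filter_upwards [(c.continuousAt hx).eventually he, c.open_source.mem_nhds hx] with y hy hy'
  rwa [c.left_inv hy'] at hy

end B405

theorem exists_patlas [ConnectedSpace X] (S : Splitting n X) (h₁ : S.FirstIntegrable)
    (h₂ : S.SecondIntegrable) :
    ∃ (n₁ n₂ : ℕ) (𝒜 : PAtlas X n₁ n₂), 𝒜.Compat n ∧
      (∀ p, (𝒜.chart p).source ⊆ (chartAt (Model n) p).source) ∧
      ∀ (p : X) (v : TangentSpace (mI n) p),
        mfderiv (mI n) 𝓘(ℂ, MM n₁ n₂) (𝒜.chart p) p (S.proj p v)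
          = ((mfderiv (mI n) 𝓘(ℂ, MM n₁ n₂) (𝒜.chart p) p v).1, 0) := by
  obtain ⟨x₀⟩ : Nonempty X := inferInstance
  choose c h0 hs hg using fun p => B405.exists_good S h₁ h₂ p (B405.rk_const S p x₀)
  exact ⟨_, _, ⟨c, h0, fun p q x hp hq => (hg p).trans (hg q) hp hq⟩,
    fun p => ⟨(hg p).hol, (hg p).hol'⟩, hs, fun p v => (hg p).adapt p (h0 p) v⟩

end Crest.Agent.R266
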