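import Crest.Agent.R266.BridgeP2

/-!
# Row 266: integrability and the O'Neill tensor
-/

set_option autoImplicit false
set_option linter.unusedSectionVars false
set_option linter.unusedVariables false

open MeasureTheory Metric Set Filter Topology Complex
open scoped ContDiff Manifold Real
open Crest.AlgGeometry.HolSplit

noncomputable section

namespace Crest.Agent.R266

variable {n : ℕ} {X : Type} [TopologicalSpace X] [ChartedSpace (Model n) X] [IsManifold (mI n) ω X]

theorem bi_dC_dS {p : X} {y : Model n} (hy : y ∈ (chartAt (Model n) p).target) (v : Model n) :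
    dC n p ((chartAt (Model n) p).symm y) (dS n p y v) = v := by
  have h := dC_dS (n := n) ((chartAt (Model n) p).map_target hy) v
  rwa [(chartAt (Model n) p).right_inv hy] at h

theorem bi_dS_dC {p : X} {y : Model n} (hy : y ∈ (chartAt (Model n) p).target) (v : Model n) :
    dS n p y (dC n p ((chartAt (Model n) p).symm y) v) = v := by
  have h := dS_dC (n := n) ((chartAt (Model n) p).map_target hy) v
  rwa [(chartAt (Model n) p).right_inv hy] at h

theorem bi_inverse_dS {p : X} {y : Model n} (hy : y ∈ (chartAt (Model n) p).target) :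
    (dS n p y).inverse = dC n p ((chartAt (Model n) p).symm y) :=
  ContinuousLinearMap.inverse_eq (ContinuousLinearMap.ext fun v => bi_dS_dC hy v)
    (ContinuousLinearMap.ext fun v => bi_dC_dS hy v)

set_option backward.isDefEq.respectTransparency false in
theorem bi_pullback (V : (x : X) → TangentSpace (mI n) x) {p : X} {y : Model n}
    (hy : y ∈ (chartAt (Model n) p).target) :
    (VectorField.mpullbackWithin 𝓘(ℂ, Model n) (mI n) (extChartAt (mI n) p).symm V
      (range (mI n)) y : Model n) = bpV p V y := by
  have hr : range (mI n) = univ := by simp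
  rw [hr, VectorField.mpullbackWithin_apply, mfderivWithin_univ]
  exact congrArg (fun A : Model n →L[ℂ] Model n => A (V ((chartAt (Model n) p).symm y)))
    (bi_inverse_dS hy)

set_option backward.isDefEq.respectTransparency false in
/-- the Lie bracket at `p` in the chart at `p` -/
theorem mlieBracket_chart (V W : (x : X) → TangentSpace (mI n) x) (p : X) :
    (VectorField.mlieBracket (mI n) V W p : Model n) = VectorField.lieBracket ℂ
      (fun y => dC n p ((chartAt (Model n) p).symm y) (V ((chartAt (Model n) p).symm y)))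
      (fun y => dC n p ((chartAt (Model n) p).symm y) (W ((chartAt (Model n) p).symm y)))
      (chartAt (Model n) p p) := by
  have ht : (chartAt (Model n) p).target ∈ 𝓝 (chartAt (Model n) p p) :=
    (chartAt (Model n) p).open_target.mem_nhds
      ((chartAt (Model n) p).map_source (mem_chart_source (Model n) p))
  have hs : (extChartAt (mI n) p).symm ⁻¹' (univ : Set X) ∩ range (mI n) = univ := by simp
  rw [← VectorField.mlieBracketWithin_univ, VectorField.mlieBracketWithin_apply,
    mfderiv_extChartAt_self, hs, VectorField.lieBracketWithin_univ,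
    ContinuousLinearMap.inverse_id]
  refine Filter.EventuallyEq.lieBracket_vectorField_eq (𝕜 := ℂ) (x := chartAt (Model n) p p) ?_ ?_
  · filter_upwards [ht] with y hy using bi_pullback V hy
  · filter_upwards [ht] with y hy using bi_pullback W hy

/-- the bracket of two sections of `im P`, modulo `im P`, is the O'Neill tensor -/
theorem bi_lie_Nij {E : Type*} [NormedAddCommGroup E] [NormedSpace ℂ E] [CompleteSpace E]
    {P : E → E →L[ℂ] E} {V W : E → E} {y : E} (hP : ProjAt P y)
    (hV : AnalyticAt ℂ V y) (hW : AnalyticAt ℂ W y)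
    (hPV : ∀ᶠ z in 𝓝 y, P z (V z) = V z) (hPW : ∀ᶠ z in 𝓝 y, P z (W z) = W z) :
    VectorField.lieBracket ℂ V W y - P y (VectorField.lieBracket ℂ V W y)
      = Nij P y (V y) (W y) := by
  have key : ∀ {U : E → E}, AnalyticAt ℂ U y → (∀ᶠ z in 𝓝 y, P z (U z) = U z) → ∀ v,
      fderiv ℂ U y v = fderiv ℂ P y v (U y) + P y (fderiv ℂ U y v) := by
    intro U hU hPU v
    have h1 := hP.1.differentiableAt.hasFDerivAt.clm_apply hU.differentiableAt.hasFDerivAt
    have he : U =ᶠ[𝓝 y] fun z => P z (U z) := by
      filter_upwards [hPU] with z hz using hz.symm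
    have h3 := DFunLike.congr_fun (h1.congr_of_eventuallyEq he).fderiv v
    simp only [_root_.add_apply, ContinuousLinearMap.comp_apply,
      ContinuousLinearMap.flip_apply] at h3
    rw [add_comm]
    exact h3
  have h1 := key hW hPW (V y)
  have h2 := key hV hPV (W y)
  have hi := hP.2.self_of_nhds
  have h1' : P y (fderiv ℂ P y (V y) (W y)) = 0 := by
    have := congrArg (P y) h1
    rw [map_add, hi] at this
    exact (add_eq_right.1 this.symm)
  have h2' : P y (fderiv ℂ P y (W y) (V y)) = 0 := by
    have := congrArg (P y) h2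
    rw [map_add, hi] at this
    exact (add_eq_right.1 this.symm)
  unfold Nij Gam VectorField.lieBracket
  rw [map_sub, map_sub, h1', h2']
  have e1 := sub_eq_of_eq_add h1
  have e2 := sub_eq_of_eq_add h2
  rw [← e1, ← e2]
  abel

theorem bi_Pc_self (S : Splitting n X) (p : X) (v : Model n) :
    Pc S p (chartAt (Model n) p p) v = S.proj p v := by
  have h := Pc_dC S (mem_chart_source (Model n) p) v
  rwa [dC_self, dC_self] at h

theorem bi_Pc_bpV (S : Splitting n X) {p : X} {y : Model n}
    (hy : y ∈ (chartAt (Model n) p).target) (V : (x : X) → TangentSpace (mI n) x) :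
    Pc S p y (bpV p V y) = bpV p (fun x => S.proj x (V x)) y := by
  have h := Pc_dC S ((chartAt (Model n) p).map_target hy) (V ((chartAt (Model n) p).symm y))
  rwa [(chartAt (Model n) p).right_inv hy] at h

/-- the bracket of two holomorphic sections of the first summand, modulo the first summand -/
theorem bi_bracket (S : Splitting n X) {U : Set X} (hU : IsOpen U)
    {V W : (x : X) → TangentSpace (mI n) x} (hV : IsHolVectorFieldOn U V)
    (hW : IsHolVectorFieldOn U W) (hPV : ∀ x ∈ U, S.proj x (V x) = V x)
    (hPW : ∀ x ∈ U, S.proj x (W x) = W x) {p : X} (hp : p ∈ U) :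
    (VectorField.mlieBracket (mI n) V W p : Model n)
        - (S.proj p (VectorField.mlieBracket (mI n) V W p) : Model n)
      = Nij (Pc S p) (chartAt (Model n) p p) (V p) (W p) := by
  have hm := mem_chart_source (Model n) p
  have ht := (chartAt (Model n) p).map_source hm
  have hev : ∀ᶠ y in 𝓝 (chartAt (Model n) p p),
      y ∈ (chartAt (Model n) p).target ∧ (chartAt (Model n) p).symm y ∈ U := by
    refine Filter.Eventually.and ((chartAt (Model n) p).open_target.mem_nhds ht) ?_
    refine (chartAt (Model n) p).continuousAt_symm ht ?_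
    rw [(chartAt (Model n) p).left_inv hm]
    exact hU.mem_nhds hp
  have key : ∀ {Z : (x : X) → TangentSpace (mI n) x}, (∀ x ∈ U, S.proj x (Z x) = Z x) →
      ∀ᶠ y in 𝓝 (chartAt (Model n) p p), Pc S p y (bpV p Z y) = bpV p Z y := by
    intro Z hZ
    filter_upwards [hev] with y hy
    rw [bi_Pc_bpV S hy.1]
    exact congrArg (dC n p ((chartAt (Model n) p).symm y)) (hZ _ hy.2)
  have h := bi_lie_Nij (V := bpV p V) (W := bpV p W) (projAt_Pc S ht)
    ((isHol_iff hU).1 hV p p hp hm) ((isHol_iff hU).1 hW p p hp hm) (key hPV) (key hPW)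
  rw [bpV_self hm, bpV_self hm, dC_self, dC_self, bi_Pc_self] at h
  rw [← h]
  have e := mlieBracket_chart V W p
  exact congrArg (fun u : TangentSpace (mI n) p => u - S.proj p u) e

theorem firstIntegrable_iff (S : Splitting n X) :
    S.FirstIntegrable ↔ ∀ p : X, IntAt (Pc S p) (chartAt (Model n) p p) := by
  constructor
  · intro h p ξ ξ' hξ hξ'
    have hm := mem_chart_source (Model n) p
    have hU := (chartAt (Model n) p).open_source
    have hol : ∀ v : Model n, IsHolVectorFieldOn (chartAt (Model n) p).source
        (fun x => (dS n p (chartAt (Model n) p x) v : TangentSpace (mI n) x)) := by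
      intro v
      refine isHol_of_chart hU (p := p) subset_rfl fun x hx => ?_
      refine (analyticAt_const (v := v)).congr ?_
      filter_upwards [(chartAt (Model n) p).open_target.mem_nhds
        ((chartAt (Model n) p).map_source hx)] with y hy
      exact (dC_dS ((chartAt (Model n) p).map_target hy) v).symm
    have hval : ∀ v : Model n, Pc S p (chartAt (Model n) p p) v = v →
        (S.proj p (dS n p (chartAt (Model n) p p) v) : Model n) = v := by
      intro v hv
      have e := dS_dC hm v
      rw [dC_self] at e
      rw [e, ← bi_Pc_self, hv]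
    have h1 := S.holomorphic _ hU _ (hol ξ)
    have h2 := S.holomorphic _ hU _ (hol ξ')
    have hb := bi_bracket S hU h1 h2 (fun x _ => S.idem x _) (fun x _ => S.idem x _) hm
    have h0 := h _ hU _ _ h1 h2 (fun x _ => S.idem x _) (fun x _ => S.idem x _) p hm
    rw [hval ξ hξ, hval ξ' hξ', h0, sub_self] at hb
    exact hb.symm
  · intro h U hU V W hV hW hPV hPW p hp
    have hb := bi_bracket S hU hV hW hPV hPW hp
    rw [h p _ _ ((bi_Pc_self S p _).trans (hPV p hp)) ((bi_Pc_self S p _).trans (hPW p hp))] at hb
    exact (sub_eq_zero.1 hb).symm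

/-- integrability at every point of every preferred chart -/
theorem intAt_of_firstIntegrable (S : Splitting n X) (h : S.FirstIntegrable) {p : X} {y : Model n}
    (hy : y ∈ (chartAt (Model n) p).target) : IntAt (Pc S p) y := by
  obtain ⟨x, hx, rfl⟩ : ∃ x ∈ (chartAt (Model n) p).source, chartAt (Model n) p x = y :=
    ⟨_, (chartAt (Model n) p).map_target hy, (chartAt (Model n) p).right_inv hy⟩
  have hm := mem_chart_source (Model n) x
  have h0 := (firstIntegrable_iff S).1 h x
  intro ξ ξ' hξ hξ'
  set τ : Model n → Model n := fun u => chartAt (Model n) p ((chartAt (Model n) x).symm u) with hτ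
  have hτx : τ (chartAt (Model n) x x) = chartAt (Model n) p x := by
    simp only [hτ, (chartAt (Model n) x).left_inv hm]
  have hD : ∀ v, fderiv ℂ τ (chartAt (Model n) x x) v = dC n p x v := by
    intro v
    have e := dS_dC hm v
    rw [dC_self] at e
    rw [hτ, fderiv_trans hm hx, e]
  have hc : ∀ᶠ z in 𝓝 (chartAt (Model n) x x), ∀ v,
      fderiv ℂ τ z (Pc S x z v) = Pc S p (τ z) (fderiv ℂ τ z v) := by
    filter_upwards [bp_eventually_tr hm hx] with z ⟨w, hw, e⟩ v
    have := Pc_compat S hw.1 hw.2 v
    rw [← e]
    simp only [hτ, (chartAt (Model n) x).left_inv hw.1]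
    exact this
  have hfix : ∀ v, Pc S p (chartAt (Model n) p x) v = v →
      Pc S x (chartAt (Model n) x x) (dS n p (chartAt (Model n) p x) v)
        = dS n p (chartAt (Model n) p x) v := by
    intro v hv
    have e := Pc_dC S hx (dS n p (chartAt (Model n) p x) v)
    rw [dC_dS hx, hv] at e
    rw [bi_Pc_self]
    conv_rhs => rw [e, dS_dC hx]
  have hN := Nij_chart (P := Pc S x) (P' := Pc S p) (τ := τ)
    (projAt_Pc S ((chartAt (Model n) x).map_source hm)) (hτx ▸ projAt_Pc S hy)
    (bp_tr hm hx).analyticAt hc (hfix ξ hξ) (hfix ξ' hξ')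
  rw [h0 _ _ (hfix ξ hξ) (hfix ξ' hξ'), map_zero, hD, hD, dC_dS hx, dC_dS hx, hτx] at hN
  exact hN

theorem intAt_of_secondIntegrable (S : Splitting n X) (h : S.SecondIntegrable) {p : X} {y : Model n}
    (hy : y ∈ (chartAt (Model n) p).target) : IntAt (coP (Pc S p)) y := by
  obtain ⟨S', hS', hiff⟩ := exists_swap_splitting S
  have h1 := intAt_of_firstIntegrable S' (hiff.2 h) hy
  have he : ∀ z ∈ (chartAt (Model n) p).target, Pc S' p z = coP (Pc S p) z := by
    intro z hz
    refine ContinuousLinearMap.ext fun v => ?_
    have e := congrArg (dC n p ((chartAt (Model n) p).symm z))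
      (hS' ((chartAt (Model n) p).symm z) (dS n p z v))
    have e2 := map_sub (dC n p ((chartAt (Model n) p).symm z)) (dS n p z v)
      (S.proj ((chartAt (Model n) p).symm z) (dS n p z v))
    rw [bi_dC_dS hz] at e2
    exact e.trans e2
  have hev : Pc S' p =ᶠ[𝓝 y] coP (Pc S p) := by
    filter_upwards [(chartAt (Model n) p).open_target.mem_nhds hy] with z hz using he z hz
  intro ξ ξ' hξ hξ'
  have h2 := h1 ξ ξ' (by rw [he y hy]; exact hξ) (by rw [he y hy]; exact hξ')
  unfold Nij Gam at h2 ⊢
  rwa [hev.fderiv_eq, he y hy] at h2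

end Crest.Agent.R266
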