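import Crest.Agent.R266.KAlg
import Crest.Agent.R266.ManC

/-!
# Row 266: the Kaehler metric in a product atlas
-/

set_option autoImplicit false
set_option linter.unusedSectionVars false
set_option linter.unusedVariables false

open MeasureTheory Metric Set Filter Topology Complex
open scoped ContDiff Manifold Real
open Crest.AlgGeometry.HolSplit

noncomputable section

namespace Crest.Agent.R266

variable {n : ℕ} {X : Type} [TopologicalSpace X] [ChartedSpace (Model n) X] [IsManifold (mI n) ω X]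

namespace BridgeK
variable {A A' : Type*} [NormedAddCommGroup A] [NormedSpace ℝ A] [NormedSpace ℂ A]
  [IsScalarTower ℝ ℂ A] [NormedAddCommGroup A'] [NormedSpace ℝ A'] [NormedSpace ℂ A']
  [IsScalarTower ℝ ℂ A']

variable (n) in
/-- the differential of a map into `X` -/
def mD (φ : A → X) (a : A) : A →L[ℂ] Model n := mfderiv 𝓘(ℂ, A) (mI n) φ a

/-- the pulled back metric -/
def pullG (g : KahlerMetric n X) (φ : A → X) (a : A) : Bil A :=
  (g.g (φ a)).bilinearComp ((mD n φ a).restrictScalars ℝ) ((mD n φ a).restrictScalars ℝ)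

theorem pullG_apply (g : KahlerMetric n X) (φ : A → X) (a u v : A) :
    pullG g φ a u v = g.g (φ a) (mD n φ a u) (mD n φ a v) := rfl

theorem mD_comp {φ : A → X} {ψ : A' → X} {σ : A → A'} {a : A} (he : φ =ᶠ[𝓝 a] fun r => ψ (σ r))
    (hψ : MDifferentiableAt 𝓘(ℂ, A') (mI n) ψ (σ a)) (hσ : AnalyticAt ℂ σ a) (u : A) :
    mD n φ a u = mD n ψ (σ a) (fderiv ℝ σ a u) := by
  have h1 : MDifferentiableAt 𝓘(ℂ, A) 𝓘(ℂ, A') σ a := hσ.differentiableAt.mdifferentiableAt
  have h2 := mfderiv_comp a hψ h1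
  rw [mfderiv_eq_fderiv] at h2
  rw [fderiv_real_eq hσ]
  unfold mD
  rw [he.mfderiv_eq]
  exact congrArg (fun L : A →L[ℂ] Model n => L u) h2

theorem pullG_comp (g : KahlerMetric n X) {φ : A → X} {ψ : A' → X} {σ : A → A'} {a : A}
    (he : φ =ᶠ[𝓝 a] fun r => ψ (σ r)) (hψ : MDifferentiableAt 𝓘(ℂ, A') (mI n) ψ (σ a))
    (hσ : AnalyticAt ℂ σ a) (u v : A) :
    pullG g φ a u v = pullG g ψ (σ a) (fderiv ℝ σ a u) (fderiv ℝ σ a v) := by
  rw [pullG_apply, pullG_apply, mD_comp he hψ hσ, mD_comp he hψ hσ, he.self_of_nhds]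

theorem kat_chart (g : KahlerMetric n X) (p : X) {z : Model n}
    (hz : z ∈ (chartAt (Model n) p).target) : KAt (pullG g (chartAt (Model n) p).symm) z := by
  refine ⟨?_, fun u v => g.symm _ _ _, fun u => ?_, fun u v => ?_, g.closed p z hz⟩
  · exact ((g.smooth p).contDiffAt ((chartAt (Model n) p).open_target.mem_nhds hz)).of_le
      (by exact_mod_cast le_top)
  · rw [pullG_apply]
    by_cases h : mD n (chartAt (Model n) p).symm z u = 0
    · rw [h, map_zero]
    · exact (g.pos _ _ h).le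
  · rw [pullG_apply, pullG_apply, (mD n _ z).map_smul, (mD n _ z).map_smul, g.herm]

variable {n₁ n₂ : ℕ} {𝒜 : PAtlas X n₁ n₂}

theorem symm_at (hc : 𝒜.Compat n) {p : X} {y : MM n₁ n₂} (hy : y ∈ (𝒜.chart p).target) :
    ContMDiffAt 𝓘(ℂ, MM n₁ n₂) (mI n) ω (𝒜.chart p).symm y :=
  (hc p).2.contMDiffAt ((𝒜.chart p).open_target.mem_nhds hy)

theorem chart_at (hc : 𝒜.Compat n) {p x : X} (hx : x ∈ (𝒜.chart p).source) :
    ContMDiffAt (mI n) 𝓘(ℂ, MM n₁ n₂) ω (𝒜.chart p) x :=
  (hc p).1.contMDiffAt ((𝒜.chart p).open_source.mem_nhds hx)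

theorem mD_ne (hc : 𝒜.Compat n) {p : X} {y : MM n₁ n₂} (hy : y ∈ (𝒜.chart p).target)
    {u : MM n₁ n₂} (hu : u ≠ 0) : mD n (𝒜.chart p).symm y u ≠ 0 := by
  intro h
  have h1 := mfderiv_comp y
    ((chart_at hc ((𝒜.chart p).map_target hy)).mdifferentiableAt (by simp))
    ((symm_at hc hy).mdifferentiableAt (by simp))
  have h2 : (𝒜.chart p ∘ (𝒜.chart p).symm) =ᶠ[𝓝 y] id :=
    (𝒜.chart p).eventually_right_inverse hy
  rw [h2.mfderiv_eq, mfderiv_id] at h1
  have h3 : u = mfderiv (mI n) 𝓘(ℂ, MM n₁ n₂) (𝒜.chart p) ((𝒜.chart p).symm y)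
      (mD n (𝒜.chart p).symm y u) := congrArg (fun L : MM n₁ n₂ →L[ℂ] MM n₁ n₂ => L u) h1
  rw [h] at h3
  exact hu (h3.trans (map_zero _))

end BridgeK

open BridgeK in
theorem exists_kae {n₁ n₂ : ℕ} {𝒜 : PAtlas X n₁ n₂} (hc : 𝒜.Compat n)
    (hs : ∀ p, (𝒜.chart p).source ⊆ (chartAt (Model n) p).source) (g : KahlerMetric n X) :
    Nonempty 𝒜.Kae := by
  refine ⟨⟨fun p => pullG g (𝒜.chart p).symm, fun p y hy => ?_,
    fun p y hy u hu => g.pos _ _ (mD_ne hc hy hu), fun p q x hp hq u v => ?_⟩⟩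
  · have hσ : ∀ z ∈ (𝒜.chart p).target,
        AnalyticAt ℂ (fun r => chartAt (Model n) p ((𝒜.chart p).symm r)) z := fun z hz =>
      (contMDiffAt_iff_contDiffAt.1 (((contMDiffOn_chart (I := mI n) (n := ω) (x := p)).contMDiffAt
        ((chartAt (Model n) p).open_source.mem_nhds (hs p ((𝒜.chart p).map_target hz)))).comp z
        (symm_at hc hz))).analyticAt
    have ht : ∀ z ∈ (𝒜.chart p).target,
        chartAt (Model n) p ((𝒜.chart p).symm z) ∈ (chartAt (Model n) p).target := fun z hz =>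
      (chartAt (Model n) p).map_source (hs p ((𝒜.chart p).map_target hz))
    refine (KAt.pull (σ := fun r => chartAt (Model n) p ((𝒜.chart p).symm r))
      (kat_chart g p (ht y hy)) (hσ y hy)).congr ?_
    filter_upwards [(𝒜.chart p).open_target.mem_nhds hy] with z hz
    refine ContinuousLinearMap.ext fun u => ContinuousLinearMap.ext fun v => ?_
    refine pullG_comp g (σ := fun r => chartAt (Model n) p ((𝒜.chart p).symm r)) ?_ (((contMDiffOn_chart_symm (I := mI n) (n := ω) (x := p)).contMDiffAt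
      ((chartAt (Model n) p).open_target.mem_nhds (ht z hz))).mdifferentiableAt (by simp))
      (hσ z hz) u v
    filter_upwards [(𝒜.chart p).open_target.mem_nhds hz] with r hr
    exact ((chartAt (Model n) p).left_inv (hs p ((𝒜.chart p).map_target hr))).symm
  · have e := (𝒜.chart p).left_inv hp
    have hσ : AnalyticAt ℂ (fun r => 𝒜.chart q ((𝒜.chart p).symm r)) (𝒜.chart p x) :=
      (contMDiffAt_iff_contDiffAt.1 ((chart_at hc (e.symm ▸ hq)).comp _
        (symm_at hc ((𝒜.chart p).map_source hp)))).analyticAt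
    have h := pullG_comp g (φ := (𝒜.chart p).symm) (ψ := (𝒜.chart q).symm)
      (Man.ev_trans _ _ hp hq)
      ((symm_at hc ((𝒜.chart q).map_source (e.symm ▸ hq))).mdifferentiableAt (by simp)) hσ u v
    rwa [e] at h

end Crest.Agent.R266
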