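import Crest.Agent.R266.SolT
import Crest.Agent.R266.Man

/-!
# Row 266: the splitting in the preferred charts
-/

set_option autoImplicit false
set_option linter.unusedSectionVars false
set_option linter.unusedVariables false

open MeasureTheory Metric Set Filter Topology Complex
open scoped ContDiff Manifold Real
open Crest.AlgGeometry.HolSplit

noncomputable section

namespace Crest.Agent.R266

variable {n : ℕ} {X : Type} [TopologicalSpace X] [ChartedSpace (Model n) X] [IsManifold (mI n) ω X]

/-- derivative of the chart at `p`, at the point `x` -/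
def dC (n : ℕ) {X : Type} [TopologicalSpace X] [ChartedSpace (Model n) X] (p x : X) :
    Model n →L[ℂ] Model n := mfderiv (mI n) 𝓘(ℂ, Model n) (chartAt (Model n) p) x

/-- derivative of the inverse of the chart at `p`, at the point `y` of the model -/
def dS (n : ℕ) {X : Type} [TopologicalSpace X] [ChartedSpace (Model n) X] (p : X) (y : Model n) :
    Model n →L[ℂ] Model n := mfderiv 𝓘(ℂ, Model n) (mI n) (chartAt (Model n) p).symm y

/-- the projection read in the chart at `p` -/
def Pc (S : Splitting n X) (p : X) (y : Model n) : Model n →L[ℂ] Model n :=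
  (dC n p ((chartAt (Model n) p).symm y)).comp
    ((S.proj ((chartAt (Model n) p).symm y) : Model n →L[ℂ] Model n).comp (dS n p y))

theorem bp_mdiff (p : X) : (chartAt (Model n) p).MDifferentiable (mI n) (mI n) :=
  mdifferentiable_chart p

theorem dC_dS {p x : X} (hx : x ∈ (chartAt (Model n) p).source) (v : Model n) :
    dC n p x (dS n p (chartAt (Model n) p x) v) = v := by
  have h := congrArg (fun A : Model n →L[ℂ] Model n => A v)
    ((bp_mdiff (n := n) p).comp_symm_deriv ((chartAt (Model n) p).map_source hx))
  exact (congrArg (fun q : X => dC n p q (dS n p (chartAt (Model n) p x) v))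
    ((chartAt (Model n) p).left_inv hx)).symm.trans h
theorem dS_dC {p x : X} (hx : x ∈ (chartAt (Model n) p).source) (v : Model n) :
    dS n p (chartAt (Model n) p x) (dC n p x v) = v :=
  congrArg (fun A : Model n →L[ℂ] Model n => A v) ((bp_mdiff (n := n) p).symm_comp_deriv hx)

theorem bp_triv_clm {p q : X} (hq : q ∈ (chartAt (Model n) p).source) :
    (trivializationAt (Model n) (TangentSpace (mI n)) p).continuousLinearMapAt ℂ q = dC n p q :=
  TangentBundle.continuousLinearMapAt_trivializationAt hq

theorem dC_self (p : X) (v : Model n) : dC n p p v = v := by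
  have h : mfderiv (mI n) 𝓘(ℂ, Model n) (extChartAt (mI n) p) p
      = ContinuousLinearMap.id ℂ (TangentSpace (mI n) p) := mfderiv_extChartAt_self
  exact congrArg (fun A : Model n →L[ℂ] Model n => A v) h
theorem fderiv_trans {p q x : X} (hp : x ∈ (chartAt (Model n) p).source)
    (hq : x ∈ (chartAt (Model n) q).source) (v : Model n) :
    fderiv ℂ (fun u => chartAt (Model n) q ((chartAt (Model n) p).symm u)) (chartAt (Model n) p x) v
      = dC n q x (dS n p (chartAt (Model n) p x) v) := by
  have h := mfderiv_comp_of_eq ((bp_mdiff (n := n) q).mdifferentiableAt hq)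
    ((bp_mdiff (n := n) p).mdifferentiableAt_symm ((chartAt (Model n) p).map_source hp))
    ((chartAt (Model n) p).left_inv hp)
  rw [mfderiv_eq_fderiv] at h
  exact (congrArg (fun A : Model n →L[ℂ] Model n => A v) h).trans
    (congrArg (fun z : X => dC n q z (dS n p (chartAt (Model n) p x) v))
      ((chartAt (Model n) p).left_inv hp))

theorem bp_contDiffAt {F : Type*} [NormedAddCommGroup F] [NormedSpace ℂ F]
    {p x : X} (hp : x ∈ (chartAt (Model n) p).source) {f : X → F}
    (hf : ContMDiffAt (mI n) 𝓘(ℂ, F) ω f x) :
    ContDiffAt ℂ ω (fun y => f ((chartAt (Model n) p).symm y)) (chartAt (Model n) p x) := by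
  rw [← contMDiffAt_iff_contDiffAt]
  exact hf.comp_of_eq (contMDiffAt_symm_of_mem_maximalAtlas (IsManifold.chart_mem_maximalAtlas p)
    ((chartAt (Model n) p).map_source hp)) ((chartAt (Model n) p).left_inv hp)

theorem bp_chart_iff {F : Type*} [NormedAddCommGroup F] [NormedSpace ℂ F]
    {p x : X} (hp : x ∈ (chartAt (Model n) p).source) {f : Model n → F} :
    ContMDiffAt (mI n) 𝓘(ℂ, F) ω (fun q => f (chartAt (Model n) p q)) x ↔
      ContDiffAt ℂ ω f (chartAt (Model n) p x) := by
  refine ⟨fun h => (bp_contDiffAt hp h).congr_of_eventuallyEq ?_, fun h =>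
    (contMDiffAt_iff_contDiffAt.2 h).comp x
      (contMDiffAt_of_mem_maximalAtlas (IsManifold.chart_mem_maximalAtlas p) hp)⟩
  filter_upwards [(chartAt (Model n) p).open_target.mem_nhds
    ((chartAt (Model n) p).map_source hp)] with y hy
  rw [(chartAt (Model n) p).right_inv hy]

theorem bp_eventually_tr {p q x : X} (hp : x ∈ (chartAt (Model n) p).source)
    (hq : x ∈ (chartAt (Model n) q).source) :
    ∀ᶠ y in 𝓝 (chartAt (Model n) p x),
      ∃ z ∈ (chartAt (Model n) p).source ∩ (chartAt (Model n) q).source,
        chartAt (Model n) p z = y := by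
  have h1 : (chartAt (Model n) p).symm ⁻¹' (chartAt (Model n) q).source
      ∈ 𝓝 (chartAt (Model n) p x) := by
    refine (chartAt (Model n) p).continuousAt_symm ((chartAt (Model n) p).map_source hp) ?_
    rw [(chartAt (Model n) p).left_inv hp]
    exact (chartAt (Model n) q).open_source.mem_nhds hq
  filter_upwards [(chartAt (Model n) p).open_target.mem_nhds
    ((chartAt (Model n) p).map_source hp), h1] with y hy hy'
  exact ⟨(chartAt (Model n) p).symm y, ⟨(chartAt (Model n) p).map_target hy, hy'⟩,
    (chartAt (Model n) p).right_inv hy⟩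

theorem bp_tr {p q x : X} (hp : x ∈ (chartAt (Model n) p).source)
    (hq : x ∈ (chartAt (Model n) q).source) :
    ContDiffAt ℂ ω (fun u => chartAt (Model n) q ((chartAt (Model n) p).symm u))
      (chartAt (Model n) p x) :=
  bp_contDiffAt hp (contMDiffAt_of_mem_maximalAtlas (IsManifold.chart_mem_maximalAtlas q) hq)

/-- a vector field read in the chart at `p` -/
def bpV (p : X) (V : (x : X) → TangentSpace (mI n) x) (y : Model n) : Model n :=
  dC n p ((chartAt (Model n) p).symm y) (V ((chartAt (Model n) p).symm y))

theorem bpV_self {p x : X} (hp : x ∈ (chartAt (Model n) p).source)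
    (V : (x : X) → TangentSpace (mI n) x) :
    bpV p V (chartAt (Model n) p x) = dC n p x (V x) :=
  congrArg (fun z : X => dC n p z (V z)) ((chartAt (Model n) p).left_inv hp)

theorem bpV_tr {p q x : X} (hp : x ∈ (chartAt (Model n) p).source)
    (hq : x ∈ (chartAt (Model n) q).source) (V : (x : X) → TangentSpace (mI n) x) :
    fderiv ℂ (fun u => chartAt (Model n) q ((chartAt (Model n) p).symm u)) (chartAt (Model n) p x)
      (bpV p V (chartAt (Model n) p x)) = bpV q V (chartAt (Model n) q x) := by
  rw [fderiv_trans hp hq, bpV_self hp, bpV_self hq]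
  exact congrArg (dC n q x) (dS_dC hp _)

theorem bpV_transfer {p q x : X} (hp : x ∈ (chartAt (Model n) p).source)
    (hq : x ∈ (chartAt (Model n) q).source) {V : (x : X) → TangentSpace (mI n) x}
    (h : ContDiffAt ℂ ω (bpV q V) (chartAt (Model n) q x)) :
    ContDiffAt ℂ ω (bpV p V) (chartAt (Model n) p x) := by
  have hc : ∀ {F : Type} [NormedAddCommGroup F] [NormedSpace ℂ F] {f : Model n → F},
      ContDiffAt ℂ ω f (chartAt (Model n) q x) →
      ContDiffAt ℂ ω (fun y => f (chartAt (Model n) q ((chartAt (Model n) p).symm y)))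
        (chartAt (Model n) p x) := fun hf => bp_contDiffAt hp ((bp_chart_iff hq).2 hf)
  have hd : ContDiffAt ℂ ω (fderiv ℂ fun u => chartAt (Model n) p ((chartAt (Model n) q).symm u))
      (chartAt (Model n) q x) := (bp_tr hq hp).fderiv_right (by simp)
  refine ((hc hd).clm_apply (hc h)).congr_of_eventuallyEq ?_
  filter_upwards [bp_eventually_tr hp hq] with y ⟨z, hz, e⟩
  rw [← e, (chartAt (Model n) p).left_inv hz.1]
  exact (bpV_tr hz.2 hz.1 V).symm

theorem bp_vec_iff {V : (x : X) → TangentSpace (mI n) x} {p : X} :
    ContMDiffAt (mI n) (mI n).tangent ω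
      (fun x => (Bundle.TotalSpace.mk' (Model n) x (V x) : TangentBundle (mI n) X)) p ↔
      ContDiffAt ℂ ω (bpV p V) (chartAt (Model n) p p) := by
  rw [← bp_chart_iff (mem_chart_source (Model n) p)]
  refine (Bundle.contMDiffAt_section p).trans (Filter.EventuallyEq.contMDiffAt_iff ?_)
  filter_upwards [(chartAt (Model n) p).open_source.mem_nhds (mem_chart_source (Model n) p)]
    with q hq
  rw [bpV_self hq, ← bp_triv_clm hq]
  exact (Bundle.Trivialization.continuousLinearMapAt_apply_of_mem ℂ _ hq _).symm

/-- a vector field is holomorphic iff its expression in the chart is -/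
theorem isHol_iff {U : Set X} (hU : IsOpen U) {V : (x : X) → TangentSpace (mI n) x} :
    IsHolVectorFieldOn U V ↔ ∀ p : X, ∀ x ∈ U, x ∈ (chartAt (Model n) p).source →
      AnalyticAt ℂ (fun y => dC n p ((chartAt (Model n) p).symm y) (V ((chartAt (Model n) p).symm y)))
        (chartAt (Model n) p x) := by
  constructor
  · intro h p x hx hp
    have h1 := bp_vec_iff.1 ((h x hx).contMDiffAt (hU.mem_nhds hx))
    exact (bpV_transfer hp (mem_chart_source (Model n) x) h1).analyticAt
  · intro h x hx
    have h1 : ContDiffAt ℂ ω (bpV x V) (chartAt (Model n) x x) :=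
      (h x x hx (mem_chart_source (Model n) x)).contDiffAt
    exact (bp_vec_iff.2 h1).contMDiffWithinAt

/-- it is enough to use one chart -/
theorem isHol_of_chart {U : Set X} (hU : IsOpen U) {V : (x : X) → TangentSpace (mI n) x} {p : X}
    (hp : U ⊆ (chartAt (Model n) p).source) (h : ∀ x ∈ U,
      AnalyticAt ℂ (fun y => dC n p ((chartAt (Model n) p).symm y) (V ((chartAt (Model n) p).symm y)))
        (chartAt (Model n) p x)) : IsHolVectorFieldOn U V := by
  intro x hx
  have h1 : ContDiffAt ℂ ω (bpV p V) (chartAt (Model n) p x) := (h x hx).contDiffAt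
  exact (bp_vec_iff.2 (bpV_transfer (mem_chart_source (Model n) x) (hp hx) h1)).contMDiffWithinAt

end Crest.Agent.R266
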