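import Crest.Agent.R266.BridgeP

/-!
# Row 266: the projection in charts
-/

set_option autoImplicit false
set_option linter.unusedSectionVars false
set_option linter.unusedVariables false

open MeasureTheory Metric Set Filter Topology Complex
open scoped ContDiff Manifold Real
open Crest.AlgGeometry.HolSplit

noncomputable section

namespace Crest.Agent.R266

variable {n : ℕ} {X : Type} [TopologicalSpace X] [ChartedSpace (Model n) X] [IsManifold (mI n) ω X]

/-- the splitting with the two summands exchanged -/
theorem exists_swap_splitting (S : Splitting n X) :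
    ∃ S' : Splitting n X, (∀ x v, S'.proj x v = v - S.proj x v) ∧
      (S'.FirstIntegrable ↔ S.SecondIntegrable) := by
  have e : ∀ (x : X) (v : TangentSpace (mI n) x), v - S.proj x v = v ↔ S.proj x v = 0 :=
    fun x v => sub_eq_self
  refine ⟨⟨fun x => ContinuousLinearMap.id ℂ _ - S.proj x, fun x v => ?_, fun U hU V hV => ?_,
    fun x h => S.second_ne_zero x (sub_eq_zero.1 h).symm,
    fun x h => S.first_ne_zero x (sub_eq_self.1 h)⟩, fun x v => rfl, ?_⟩
  · change (v - S.proj x v) - S.proj x (v - S.proj x v) = v - S.proj x v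
    rw [map_sub, S.idem, sub_self, sub_zero]
  · have h1 := (isHol_iff hU).1 hV
    have h2 := (isHol_iff hU).1 (S.holomorphic U hU V hV)
    refine (isHol_iff hU).2 fun p x hx hp => ?_
    refine ((h1 p x hx hp).sub (h2 p x hx hp)).congr (Eventually.of_forall fun y => ?_)
    exact ((dC n p ((chartAt (Model n) p).symm y)).map_sub _ _).symm
  · constructor
    · intro h U hU V W hV hW h1 h2 x hx
      exact (e _ _).1 (h U hU V W hV hW (fun x hx => (e _ _).2 (h1 x hx))
        (fun x hx => (e _ _).2 (h2 x hx)) x hx)
    · intro h U hU V W hV hW h1 h2 x hx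
      exact (e _ _).2 (h U hU V W hV hW (fun x hx => (e _ _).1 (h1 x hx))
        (fun x hx => (e _ _).1 (h2 x hx)) x hx)

theorem Pc_chart (S : Splitting n X) {p x : X} (hx : x ∈ (chartAt (Model n) p).source)
    (v : Model n) : Pc S p (chartAt (Model n) p x) v =
      dC n p x (S.proj x (dS n p (chartAt (Model n) p x) v)) :=
  congrArg (fun z : X => dC n p z (S.proj z (dS n p (chartAt (Model n) p x) v)))
    ((chartAt (Model n) p).left_inv hx)

theorem Pc_dC (S : Splitting n X) {p x : X} (hx : x ∈ (chartAt (Model n) p).source) (v : Model n) :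
    Pc S p (chartAt (Model n) p x) (dC n p x v) = dC n p x (S.proj x v) :=
  (Pc_chart S hx _).trans (congrArg (fun w : Model n => dC n p x (S.proj x w)) (dS_dC hx v))

theorem bp2_analytic_clm {P : Model n → Model n →L[ℂ] Model n} {y : Model n}
    (h : ∀ v, AnalyticAt ℂ (fun z => P z v) y) : AnalyticAt ℂ P y := by
  have e : P = fun z => ∑ i, ContinuousLinearMap.smulRightL ℂ (Model n) (Model n)
      (EuclideanSpace.proj i) (P z (EuclideanSpace.single i 1)) := by
    funext z
    ext1 v
    conv_lhs => rw [← (EuclideanSpace.basisFun (Fin n) ℂ).sum_repr v]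
    simp
  rw [e]
  exact Finset.analyticAt_fun_sum _ fun i _ =>
    (ContinuousLinearMap.analyticAt _ _).comp (h _)

theorem projAt_Pc (S : Splitting n X) {p : X} {y : Model n} (hy : y ∈ (chartAt (Model n) p).target) :
    ProjAt (Pc S p) y := by
  obtain ⟨x, hx, rfl⟩ : ∃ x ∈ (chartAt (Model n) p).source, chartAt (Model n) p x = y :=
    ⟨_, (chartAt (Model n) p).map_target hy, (chartAt (Model n) p).right_inv hy⟩
  have hU := (chartAt (Model n) p).open_source
  have hT := (chartAt (Model n) p).open_target
  refine ⟨bp2_analytic_clm fun ξ => ?_, ?_⟩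
  · have h1 : IsHolVectorFieldOn (n := n) (chartAt (Model n) p).source
        (fun z : X => dS n p (chartAt (Model n) p z) ξ) := by
      refine isHol_of_chart hU subset_rfl fun z hz => ?_
      refine (analyticAt_const (v := ξ)).congr ?_
      filter_upwards [hT.mem_nhds ((chartAt (Model n) p).map_source hz)] with u hu
      exact (dC_dS ((chartAt (Model n) p).map_target hu) ξ).symm
    refine ((isHol_iff hU).1 (S.holomorphic _ hU _ h1) p x hx hx).congr ?_
    filter_upwards [hT.mem_nhds hy] with u hu
    exact congrArg (fun w : Model n => dC n p ((chartAt (Model n) p).symm u)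
      (S.proj ((chartAt (Model n) p).symm u) (dS n p w ξ))) ((chartAt (Model n) p).right_inv hu)
  · filter_upwards [hT.mem_nhds hy] with u hu v
    obtain ⟨z, hz, rfl⟩ : ∃ z ∈ (chartAt (Model n) p).source, chartAt (Model n) p z = u :=
      ⟨_, (chartAt (Model n) p).map_target hu, (chartAt (Model n) p).right_inv hu⟩
    rw [Pc_chart S hz v, Pc_dC S hz]
    exact congrArg (dC n p z) (S.idem z _)

theorem Pc_compat (S : Splitting n X) {p q x : X} (hp : x ∈ (chartAt (Model n) p).source)
    (hq : x ∈ (chartAt (Model n) q).source) (v : Model n) :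
    fderiv ℂ (fun u => chartAt (Model n) q ((chartAt (Model n) p).symm u)) (chartAt (Model n) p x)
        (Pc S p (chartAt (Model n) p x) v)
      = Pc S q (chartAt (Model n) q x)
        (fderiv ℂ (fun u => chartAt (Model n) q ((chartAt (Model n) p).symm u))
          (chartAt (Model n) p x) v) := by
  rw [fderiv_trans hp hq, fderiv_trans hp hq, Pc_dC S hq, Pc_chart S hp]
  exact congrArg (dC n q x) (dS_dC hp _)

end Crest.Agent.R266
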