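import Crest.Agent.R266.KAlg
import Crest.Agent.R266.Basic

/-!
# Row 266: the pulled back metric
-/

set_option autoImplicit false
set_option linter.unusedSectionVars false
set_option linter.unusedVariables false

open MeasureTheory Metric Set Filter Topology Complex
open scoped ContDiff Manifold Real
open Crest.AlgGeometry.HolSplit

noncomputable section

namespace Crest.Agent.R266

namespace PAtlas.Kae
variable {X : Type*} [TopologicalSpace X] {n₁ n₂ : ℕ} {𝒜 : PAtlas X n₁ n₂} (𝒦 : 𝒜.Kae)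
variable {A A' : Type*} [NormedAddCommGroup A] [NormedSpace ℝ A] [NormedSpace ℂ A]
  [IsScalarTower ℝ ℂ A] [NormedAddCommGroup A'] [NormedSpace ℝ A'] [NormedSpace ℂ A']
  [IsScalarTower ℝ ℂ A']

theorem pb_eq {Φ : A → X} {q : A} (h : 𝒜.Hol Φ q) {p : X} (hp : Φ q ∈ (𝒜.chart p).source)
    (u v : A) : 𝒦.pb Φ q u v = 𝒦.g p (𝒜.chart p (Φ q))
      (fderiv ℂ (fun r => 𝒜.chart p (Φ r)) q u) (fderiv ℂ (fun r => 𝒜.chart p (Φ r)) q v) := by
  have h0 := 𝒜.mem (Φ q)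
  have hT : AnalyticAt ℂ (fun y => 𝒜.chart p ((𝒜.chart (Φ q)).symm y)) (𝒜.chart (Φ q) (Φ q)) :=
    (hol_symm ((𝒜.chart (Φ q)).map_source h0)).hol.analyticAt
      (by rw [(𝒜.chart (Φ q)).left_inv h0]; exact hp)
  have key : ∀ w : A, fderiv ℝ (fun y => 𝒜.chart p ((𝒜.chart (Φ q)).symm y)) (𝒜.chart (Φ q) (Φ q))
      (fderiv ℝ (fun r => 𝒜.chart (Φ q) (Φ r)) q w) = fderiv ℂ (fun r => 𝒜.chart p (Φ r)) q w := by
    intro w
    rw [fderiv_real_eq hT, fderiv_real_eq h.2]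
    have e : (fun r => 𝒜.chart p (Φ r)) =ᶠ[𝓝 q]
        (fun y => 𝒜.chart p ((𝒜.chart (Φ q)).symm y)) ∘ fun r => 𝒜.chart (Φ q) (Φ r) := by
      filter_upwards [aux_ev h.1 h0] with r hr
      simp only [Function.comp, (𝒜.chart (Φ q)).left_inv hr]
    rw [e.fderiv_eq, fderiv_comp q hT.differentiableAt h.2.differentiableAt]
    rfl
  rw [← key, ← key, ← 𝒦.compat (Φ q) p (Φ q) h0 hp]
  rfl

theorem kat_pb {Φ : A → X} {q : A} (h : 𝒜.Hol Φ q) : KAt (𝒦.pb Φ) q := by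
  have h0 := 𝒜.mem (Φ q)
  have h1 := KAt.pull (σ := fun r => 𝒜.chart (Φ q) (Φ r)) (a := q)
    (𝒦.kat (Φ q) _ ((𝒜.chart (Φ q)).map_source h0)) h.2
  refine h1.congr ?_
  filter_upwards [h.eventually, aux_ev h.1 h0] with r hr hr'
  ext u v
  rw [𝒦.pb_eq hr hr', ← fderiv_real_eq (hr.analyticAt hr'), ← fderiv_real_eq (hr.analyticAt hr')]
  rfl

theorem pb_congr {Φ Ψ : A → X} {q : A} (h : Φ =ᶠ[𝓝 q] Ψ) : 𝒦.pb Φ q = 𝒦.pb Ψ q := by
  have e : (fun r => 𝒜.chart (Ψ q) (Φ r)) =ᶠ[𝓝 q] fun r => 𝒜.chart (Ψ q) (Ψ r) := by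
    filter_upwards [h] with r hr
    rw [hr]
  unfold pb
  rw [h.self_of_nhds, e.fderiv_eq]

theorem pb_comp {Φ : A → X} {k : A' → A} {a : A'} (h : 𝒜.Hol Φ (k a)) (hk : AnalyticAt ℂ k a)
    (u v : A') : 𝒦.pb (fun r => Φ (k r)) a u v
      = 𝒦.pb Φ (k a) (fderiv ℂ k a u) (fderiv ℂ k a v) := by
  have h0 := 𝒜.mem (Φ (k a))
  rw [𝒦.pb_eq (h.comp hk) h0, 𝒦.pb_eq h h0]
  have e : fderiv ℂ (fun r => 𝒜.chart (Φ (k a)) (Φ (k r))) a =
      (fderiv ℂ (fun r => 𝒜.chart (Φ (k a)) (Φ r)) (k a)).comp (fderiv ℂ k a) :=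
    fderiv_comp a (g := fun r => 𝒜.chart (Φ (k a)) (Φ r)) h.2.differentiableAt hk.differentiableAt
  rw [e]
  rfl

theorem analyticAt_swap {E F : Type*} [NormedAddCommGroup E] [NormedSpace ℂ E]
    [NormedAddCommGroup F] [NormedSpace ℂ F] (y : E × F) :
    AnalyticAt ℂ (Prod.swap : E × F → F × E) y := analyticAt_snd.prod analyticAt_fst

theorem fderiv_swap {E F : Type*} [NormedAddCommGroup E] [NormedSpace ℝ E]
    [NormedAddCommGroup F] [NormedSpace ℝ F] (y u : E × F) :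
    fderiv ℝ (Prod.swap : E × F → F × E) y u = u.swap := by
  have h := (ContinuousLinearEquiv.prodComm ℝ E F).toContinuousLinearMap.hasFDerivAt (x := y)
  have e : fderiv ℝ (Prod.swap : E × F → F × E) y =
      (ContinuousLinearEquiv.prodComm ℝ E F).toContinuousLinearMap := h.fderiv
  rw [e]; rfl

theorem fderiv_swap_comp {Z E F : Type*} [NormedAddCommGroup Z] [NormedSpace ℝ Z]
    [NormedAddCommGroup E] [NormedSpace ℝ E] [NormedAddCommGroup F] [NormedSpace ℝ F]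
    (f : Z → E × F) (z u : Z) :
    (fderiv ℝ (fun r => (f r).swap) z u).swap = fderiv ℝ f z u := by
  have h := (ContinuousLinearEquiv.prodComm ℝ E F).comp_fderiv (f := f) (x := z)
  have e : fderiv ℝ (fun r => (f r).swap) z =
      ((ContinuousLinearEquiv.prodComm ℝ E F : E × F →L[ℝ] F × E)).comp (fderiv ℝ f z) := h
  rw [e]; rfl

theorem fderiv_comp_swap {Z E F : Type*} [NormedAddCommGroup Z] [NormedSpace ℝ Z]
    [NormedAddCommGroup E] [NormedSpace ℝ E] [NormedAddCommGroup F] [NormedSpace ℝ F]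
    (f : E × F → Z) (y u : F × E) :
    fderiv ℝ (fun r : F × E => f r.swap) y u = fderiv ℝ f y.swap u.swap := by
  have h := (ContinuousLinearEquiv.prodComm ℝ F E).comp_right_fderiv (f := f) (x := y)
  have e : fderiv ℝ (fun r : F × E => f r.swap) y =
      (fderiv ℝ f y.swap).comp (ContinuousLinearEquiv.prodComm ℝ F E : F × E →L[ℝ] E × F) := h
  rw [e]; rfl

/-- the Kaehler metric in the exchanged atlas -/
theorem exists_swap : ∃ 𝒦' : 𝒜.swap.Kae, ∀ (f : ℂ → X) (z : ℂ), 𝒜.Hol f z →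
    𝒦'.pb f z 1 1 = 𝒦.pb f z 1 1 := by
  refine ⟨⟨fun p y => (𝒦.g p y.swap).bilinearComp (fderiv ℝ Prod.swap y) (fderiv ℝ Prod.swap y),
    fun p y hy => KAt.pull (σ := Prod.swap) (𝒦.kat p y.swap hy) (analyticAt_swap y),
    fun p y hy u hu => ?_, fun p q x hp hq u v => ?_⟩, fun f z hf => ?_⟩
  · simp only [ContinuousLinearMap.bilinearComp_apply, fderiv_swap]
    exact 𝒦.pos p y.swap hy u.swap fun h => hu (by simpa using congrArg Prod.swap h)
  · simp only [ContinuousLinearMap.bilinearComp_apply, fderiv_swap, swap_chart, swap_symm,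
      Prod.swap_swap, fderiv_swap_comp]
    rw [𝒦.compat p q x hp hq,
      fderiv_comp_swap (fun y => 𝒜.chart q ((𝒜.chart p).symm y)),
      fderiv_comp_swap (fun y => 𝒜.chart q ((𝒜.chart p).symm y))]
    rfl
  · simp only [pb, ContinuousLinearMap.bilinearComp_apply, fderiv_swap, swap_chart,
      Prod.swap_swap, fderiv_swap_comp]

/-- the metric along an affine line -/
theorem pb_affine {Φ : A → X} {p τ : A} (c z : ℂ) (h : 𝒜.Hol Φ (p + (c * z) • τ)) :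
    𝒦.pb (fun z => Φ (p + (c * z) • τ)) z 1 1 = ‖c‖ ^ 2 * 𝒦.pb Φ (p + (c * z) • τ) τ τ := by
  have hd : HasDerivAt (fun z : ℂ => p + (c * z) • τ) (c • τ) z := by
    simpa using (((hasDerivAt_id z).const_mul c).smul_const τ).const_add p
  have hk : AnalyticAt ℂ (fun z : ℂ => p + (c * z) • τ) z := by fun_prop
  rw [𝒦.pb_comp (k := fun z : ℂ => p + (c * z) • τ) h hk, fderiv_apply_one_eq_deriv, hd.deriv,
    (𝒦.kat_pb h).smul_smul]

theorem area_eq_dar₁ {B : Type*} [NormedAddCommGroup B] [NormedSpace ℝ B] [NormedSpace ℂ B]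
    [IsScalarTower ℝ ℂ B] {Φ : ℂ × B → X} {b : B}
    (h : ∀ z ∈ ball (0 : ℂ) 1, 𝒜.Hol Φ (z, b)) :
    𝒦.area (fun z => Φ (z, b)) = dar (𝒦.pb Φ) (0, b) (1, 0) 1 := by
  have e : ∀ z : ℂ, ((0, b) : ℂ × B) + z • ((1, 0) : ℂ × B) = (z, b) := fun z => by simp
  have e' : ∀ z : ℂ, ((0, b) : ℂ × B) + ((1 : ℂ) * z) • ((1, 0) : ℂ × B) = (z, b) :=
    fun z => by simp
  unfold area dar
  refine setIntegral_congr_fun measurableSet_ball fun z hz => ?_
  have h1 := 𝒦.pb_affine (Φ := Φ) (p := (0, b)) (τ := (1, 0)) 1 z (by rw [e']; exact h z hz)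
  simp only [e'] at h1
  simp only [e]
  rw [h1]; simp

/-- the area of an affinely parametrised disc -/
theorem area_affine {Φ : A → X} {p τ : A} {ρ : ℝ} (hρ : 0 < ρ)
    (h : ∀ z ∈ ball (0 : ℂ) ρ, 𝒜.Hol Φ (p + z • τ)) :
    𝒦.area (fun z => Φ (p + ((ρ : ℂ) * z) • τ)) = dar (𝒦.pb Φ) p τ ρ := by
  have hn : ∀ z : ℂ, ‖(ρ : ℂ) * z‖ = ρ * ‖z‖ := fun z => by
    rw [norm_mul, Complex.norm_real, Real.norm_of_nonneg hρ.le]
  have hm : ∀ z : ℂ, (ρ : ℂ) * z ∈ ball (0 : ℂ) ρ ↔ z ∈ ball (0 : ℂ) 1 := fun z => by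
    rw [mem_ball_zero_iff, mem_ball_zero_iff, hn, mul_lt_iff_lt_one_right hρ]
  set G : ℂ → ℝ := fun t => 𝒦.pb Φ (p + t • τ) τ τ with hG
  have e1 : 𝒦.area (fun z => Φ (p + ((ρ : ℂ) * z) • τ)) =
      ∫ z in ball (0 : ℂ) 1, ρ ^ 2 * G ((ρ : ℂ) * z) := by
    refine setIntegral_congr_fun measurableSet_ball fun z hz => ?_
    have h1 := 𝒦.pb_affine (Φ := Φ) (p := p) (τ := τ) ρ z (h _ ((hm z).2 hz))
    rw [Complex.norm_real, Real.norm_of_nonneg hρ.le] at h1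
    exact h1
  have e2 : ∫ z in ball (0 : ℂ) 1, G ((ρ : ℂ) * z) =
      ∫ z : ℂ, (ball (0 : ℂ) ρ).indicator G (ρ • z) := by
    rw [← integral_indicator measurableSet_ball]
    refine integral_congr_ae (Eventually.of_forall fun z => ?_)
    simp only [Complex.real_smul]
    by_cases hz : z ∈ ball (0 : ℂ) 1
    · rw [indicator_of_mem hz, indicator_of_mem ((hm z).2 hz)]
    · rw [indicator_of_notMem hz, indicator_of_notMem fun h' => hz ((hm z).1 h')]
  rw [e1, integral_const_mul, e2, Measure.integral_comp_smul, integral_indicator measurableSet_ball,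
    Complex.finrank_real_complex, abs_of_pos (by positivity), smul_eq_mul, ← mul_assoc,
    mul_inv_cancel₀ (by positivity), one_mul]
  rfl

theorem len_affine {Φ : A → X} {p τ : A} {ρ : ℝ} (hρ : 0 < ρ)
    (h : ∀ z ∈ sphere (0 : ℂ) ρ, 𝒜.Hol Φ (p + z • τ)) :
    𝒦.len (fun z => Φ (p + ((ρ : ℂ) * z) • τ))
      = ∫ θ in (0 : ℝ)..2 * π, ρ * √(𝒦.pb Φ (p + ((ρ : ℂ) * ci θ) • τ) τ τ) := by
  unfold len
  refine intervalIntegral.integral_congr fun θ _ => ?_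
  have hs : (ρ : ℂ) * ci θ ∈ sphere (0 : ℂ) ρ := by
    rw [mem_sphere_zero_iff_norm, norm_mul, norm_ci, mul_one, Complex.norm_real,
      Real.norm_of_nonneg hρ.le]
  have h1 := 𝒦.pb_affine (Φ := Φ) (p := p) (τ := τ) ρ (ci θ) (h _ hs)
  rw [Complex.norm_real, Real.norm_of_nonneg hρ.le] at h1
  simp only [h1]
  rw [Real.sqrt_mul (by positivity), Real.sqrt_sq hρ.le]

end PAtlas.Kae

end Crest.Agent.R266
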