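import Crest.Agent.R266.Disc
import Crest.Agent.R266.KPull

/-!
# Row 266: the area of a transported disc with small boundary hardly changes
-/

set_option autoImplicit false
set_option linter.unusedSectionVars false
set_option linter.unusedVariables false

open MeasureTheory Metric Set Filter Topology Complex
open scoped ContDiff Manifold Real
open Crest.AlgGeometry.HolSplit

noncomputable section

namespace Crest.Agent.R266

section CapAux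
variable {V : Type*} [NormedAddCommGroup V] [NormedSpace ℝ V] [NormedSpace ℂ V]
  [IsScalarTower ℝ ℂ V] [CompleteSpace V] {u : ℂ → V}

theorem Cap_ci_mem (θ : ℝ) : ci θ ∈ sphere (0 : ℂ) 1 := by
  rw [mem_sphere_zero_iff_norm, norm_ci]

theorem Cap_hasDerivAt (hu : ∀ z ∈ sphere (0 : ℂ) 1, AnalyticAt ℂ u z) (θ : ℝ) :
    HasDerivAt (fun t : ℝ => u (ci t)) ((I * ci θ) • deriv u (ci θ)) θ := by
  have h1 := (hu _ (Cap_ci_mem θ)).differentiableAt.hasDerivAt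
  have h2 := (h1.hasFDerivAt.restrictScalars ℝ).comp_hasDerivAt θ (hasDerivAt_ci θ)
  simpa [Function.comp_def] using h2

theorem Cap_contDiff (hu : ∀ z ∈ sphere (0 : ℂ) 1, AnalyticAt ℂ u z) :
    ContDiff ℝ 2 (fun t : ℝ => u (ci t)) := by
  rw [contDiff_iff_contDiffAt]
  intro θ
  have h1 : ContDiffAt ℝ 2 u (ci θ) :=
    ((hu _ (Cap_ci_mem θ)).contDiffAt (n := 2)).restrict_scalars ℝ
  exact h1.comp θ (contDiff_ci.of_le (by norm_cast)).contDiffAt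

/-- the cone over the boundary curve -/
def Cap_c (u : ℂ → V) (w₀ δ : ℂ) (p : ℝ × ℝ × ℝ) : V × ℂ := (p.1 • u (ci p.2.1), w₀ + p.2.2 • δ)

theorem Cap_c_contDiff (hu : ∀ z ∈ sphere (0 : ℂ) 1, AnalyticAt ℂ u z) (w₀ δ : ℂ) :
    ContDiff ℝ 2 (Cap_c u w₀ δ) := by
  unfold Cap_c
  exact (contDiff_fst.smul ((Cap_contDiff hu).comp contDiff_snd.fst)).prodMk
    (contDiff_const.add (contDiff_snd.snd.smul contDiff_const))

theorem Cap_fderiv_c (hu : ∀ z ∈ sphere (0 : ℂ) 1, AnalyticAt ℂ u z) (w₀ δ : ℂ) (r θ l a b d : ℝ) :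
    fderiv ℝ (Cap_c u w₀ δ) (r, θ, l) (a, b, d)
      = (a • u (ci θ) + (r * b) • (I * ci θ) • deriv u (ci θ), d • δ) := by
  have h0 : HasFDerivAt (fun p : ℝ × ℝ × ℝ => p.2.1)
      ((ContinuousLinearMap.fst ℝ ℝ ℝ).comp (ContinuousLinearMap.snd ℝ ℝ (ℝ × ℝ))) (r, θ, l) :=
    hasFDerivAt_fst.comp (r, θ, l) hasFDerivAt_snd
  have h1 : HasFDerivAt (fun p : ℝ × ℝ × ℝ => u (ci p.2.1)) _ (r, θ, l) :=
    HasFDerivAt.comp (r, θ, l) (g := fun t : ℝ => u (ci t)) (f := fun p : ℝ × ℝ × ℝ => p.2.1)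
      (Cap_hasDerivAt hu θ).hasFDerivAt h0
  have h2 : HasFDerivAt (fun p : ℝ × ℝ × ℝ => p.2.2)
      ((ContinuousLinearMap.snd ℝ ℝ ℝ).comp (ContinuousLinearMap.snd ℝ ℝ (ℝ × ℝ))) (r, θ, l) :=
    hasFDerivAt_snd.comp (r, θ, l) hasFDerivAt_snd
  have h3 : HasFDerivAt (Cap_c u w₀ δ) _ (r, θ, l) :=
    (hasFDerivAt_fst.smul h1).prodMk ((h2.smul_const δ).const_add w₀)
  rw [h3.fderiv]
  simp [mul_smul, add_comm]

theorem Cap_fderiv_k {z w : ℂ} (hu : AnalyticAt ℂ u z) (a b : ℂ) :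
    fderiv ℂ (fun q : ℂ × ℂ => (u q.1, q.2)) (z, w) (a, b) = (a • deriv u z, b) := by
  have h1 : HasFDerivAt (fun q : ℂ × ℂ => (u q.1, q.2)) _ (z, w) :=
    (hu.differentiableAt.hasDerivAt.hasFDerivAt.comp (z, w) hasFDerivAt_fst).prodMk
      hasFDerivAt_snd
  rw [h1.fderiv]
  simp

/-- the area of the cap is small -/
theorem Cap_bound {G : V × ℂ → Bil (V × ℂ)} {w : ℂ} {η C D L : ℝ} (hC0 : 0 ≤ C)
    (hu : ∀ z ∈ sphere (0 : ℂ) 1, AnalyticAt ℂ u z ∧ ‖u z‖ ≤ D) (hD : D < η)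
    (hL : ∫ θ in (0 : ℝ)..2 * π, ‖deriv u (ci θ)‖ ≤ L)
    (hG : ∀ v ∈ ball (0 : V) η, KAt G (v, w))
    (hC : ∀ v ∈ ball (0 : V) η, ∀ ξ : V, G (v, w) (ξ, 0) (ξ, 0) ≤ C * ‖ξ‖ ^ 2) :
    |∫ r in (0 : ℝ)..1, ∫ θ in (0 : ℝ)..2 * π, om G (r • u (ci θ), w) (u (ci θ), 0)
      (r • (I * ci θ) • deriv u (ci θ), 0)| ≤ C * D * L := by
  have hD0 : 0 ≤ D := (norm_nonneg _).trans (hu _ (Cap_ci_mem 0)).2
  have hcont : Continuous fun θ : ℝ => C * D * ‖deriv u (ci θ)‖ := by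
    refine continuous_const.mul (Continuous.norm (continuous_iff_continuousAt.2 fun θ => ?_))
    exact ((hu _ (Cap_ci_mem θ)).1.deriv.continuousAt).comp contDiff_ci.continuous.continuousAt
  have h := intervalIntegral.norm_integral_le_of_norm_le_const (a := 0) (b := 1) (C := C * D * L)
    (f := fun r : ℝ => ∫ θ in (0 : ℝ)..2 * π, om G (r • u (ci θ), w) (u (ci θ), 0)
      (r • (I * ci θ) • deriv u (ci θ), 0)) ?_
  · simpa using h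
  intro r hr
  rw [uIoc_of_le zero_le_one] at hr
  refine (intervalIntegral.norm_integral_le_of_norm_le (by positivity)
    (Eventually.of_forall fun θ _ => ?_) (hcont.intervalIntegrable _ _)).trans ?_
  · have h1 := (hu _ (Cap_ci_mem θ)).2
    have hv : r • u (ci θ) ∈ ball (0 : V) η := by
      rw [mem_ball_zero_iff, norm_smul, Real.norm_of_nonneg hr.1.le]
      nlinarith [norm_nonneg (u (ci θ)), hr.1, hr.2]
    have key : ∀ ξ : V, √(G (r • u (ci θ), w) (ξ, 0) (ξ, 0)) ≤ √C * ‖ξ‖ := by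
      intro ξ
      refine (Real.sqrt_le_sqrt (hC _ hv ξ)).trans (le_of_eq ?_)
      rw [Real.sqrt_mul hC0, Real.sqrt_sq (norm_nonneg _)]
    rw [Real.norm_eq_abs]
    refine ((hG _ hv).abs_om_le _ _).trans
      ((mul_le_mul (key _) (key _) (Real.sqrt_nonneg _) (by positivity)).trans ?_)
    have h2 : ‖r • (I * ci θ) • deriv u (ci θ)‖ ≤ ‖deriv u (ci θ)‖ := by
      rw [norm_smul, norm_smul, norm_mul, norm_I, norm_ci, Real.norm_of_nonneg hr.1.le]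
      nlinarith [norm_nonneg (deriv u (ci θ)), hr.1, hr.2]
    calc √C * ‖u (ci θ)‖ * (√C * ‖r • (I * ci θ) • deriv u (ci θ)‖)
        = (√C * √C) * (‖u (ci θ)‖ * ‖r • (I * ci θ) • deriv u (ci θ)‖) := by ring
      _ ≤ C * (D * ‖deriv u (ci θ)‖) := by
          rw [Real.mul_self_sqrt hC0]
          gcongr
      _ = _ := by ring
  · rw [intervalIntegral.integral_const_mul]
    exact mul_le_mul_of_nonneg_left hL (by positivity)

end CapAux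

namespace PAtlas.Kae
variable {X : Type*} [TopologicalSpace X] {n₁ n₂ : ℕ} {𝒜 : PAtlas X n₁ n₂} (𝒦 : 𝒜.Kae)

theorem area_le_of_cap {M : ℂ × ℂ → X} {H : Model n₁ × ℂ → X} {u : ℂ → Model n₁} {w₀ w₁ : ℂ}
    {η C D L : ℝ} (hC0 : 0 ≤ C)
    (hM : ∀ z ∈ closedBall (0 : ℂ) 1, ∀ w ∈ segment ℝ w₀ w₁, 𝒜.PT M (z, w))
    (hH : ∀ v ∈ ball (0 : Model n₁) η, ∀ w ∈ segment ℝ w₀ w₁, 𝒜.PT H (v, w))
    (hu : ∀ z ∈ sphere (0 : ℂ) 1, AnalyticAt ℂ u z ∧ ‖u z‖ ≤ D) (hD : D < η)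
    (hL : ∫ θ in (0 : ℝ)..2 * π, ‖deriv u (ci θ)‖ ≤ L)
    (hMH : ∀ z ∈ sphere (0 : ℂ) 1, ∀ w ∈ segment ℝ w₀ w₁,
      M =ᶠ[𝓝 (z, w)] fun q => H (u q.1, q.2))
    (hC : ∀ w, w = w₀ ∨ w = w₁ → ∀ v ∈ ball (0 : Model n₁) η, ∀ ξ : Model n₁,
      𝒦.pb H (v, w) (ξ, 0) (ξ, 0) ≤ C * ‖ξ‖ ^ 2) :
    𝒦.area (fun z => M (z, w₁)) ≤ 𝒦.area (fun z => M (z, w₀)) + 2 * C * D * L := by
  have hseg : ∀ l ∈ Icc (0 : ℝ) 1, w₀ + l • (w₁ - w₀) ∈ segment ℝ w₀ w₁ := fun l hl => by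
    rw [segment_eq_image']
    exact ⟨l, hl, rfl⟩
  have hu1 : ∀ z ∈ sphere (0 : ℂ) 1, AnalyticAt ℂ u z := fun z hz => (hu z hz).1
  rw [𝒦.area_eq_dar₁ fun z hz => (hM z (ball_subset_closedBall hz) w₁
      (right_mem_segment _ _ _)).hol,
    𝒦.area_eq_dar₁ fun z hz => (hM z (ball_subset_closedBall hz) w₀
      (left_mem_segment _ _ _)).hol]
  have hpt : ∀ (l : ℝ) (t : ℂ), ((0, w₀) : ℂ × ℂ) + l • ((0, w₁ - w₀) : ℂ × ℂ)
      + t • ((1, 0) : ℂ × ℂ) = (t, w₀ + l • (w₁ - w₀)) := by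
    intro l t
    simp
  have h1 := dar_sub (G := 𝒦.pb M) (p := (0, w₀)) (ν := (0, w₁ - w₀)) (τ := (1, 0)) (R₀ := 1)
    (R₁ := 0) zero_le_one (by norm_num) fun l hl t ht => by
      rw [hpt]
      exact 𝒦.kat_pb (hM t (by simpa using ht) _ (hseg l hl)).hol
  have hp1 : ((0, w₀) : ℂ × ℂ) + (0, w₁ - w₀) = (0, w₁) := by simp
  simp only [hpt, hp1, mul_zero, add_zero, zero_mul, zero_add, one_mul, ofReal_one] at h1
  have hball : ∀ r ∈ Icc (0 : ℝ) 1, ∀ θ : ℝ, r • u (ci θ) ∈ ball (0 : Model n₁) η := by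
    intro r hr θ
    have h1 := (hu _ (Cap_ci_mem θ)).2
    rw [mem_ball_zero_iff, norm_smul, Real.norm_of_nonneg hr.1]
    nlinarith [norm_nonneg (u (ci θ)), hr.1, hr.2]
  have h2 := stokes_cube (G := 𝒦.pb H) (Cap_c_contDiff hu1 w₀ (w₁ - w₀))
    (fun p hp => 𝒦.kat_pb (hH _ (hball _ hp.1 _) _ (hseg _ hp.2.2)).hol)
    (fun r θ l => by simp only [Cap_c, ci_add_two_pi]) (fun θ l => by simp [Cap_c])
  simp only [Cap_fderiv_c hu1, Cap_c, one_smul, zero_smul, mul_zero, mul_one, add_zero, zero_add,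
    add_sub_cancel] at h2
  have h3 : (∫ l in (0 : ℝ)..1, ∫ θ in (0 : ℝ)..2 * π,
      om (𝒦.pb M) (ci θ, w₀ + l • (w₁ - w₀)) (0, w₁ - w₀) ((I * ci θ) • ((1, 0) : ℂ × ℂ)))
      = ∫ l in (0 : ℝ)..1, ∫ θ in (0 : ℝ)..2 * π,
      om (𝒦.pb H) (u (ci θ), w₀ + l • (w₁ - w₀)) (0, w₁ - w₀)
        ((I * ci θ) • deriv u (ci θ), 0) := by
    refine intervalIntegral.integral_congr fun l hl => ?_
    rw [uIcc_of_le zero_le_one] at hl
    refine intervalIntegral.integral_congr fun θ _ => ?_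
    have hk : AnalyticAt ℂ (fun q : ℂ × ℂ => (u q.1, q.2)) (ci θ, w₀ + l • (w₁ - w₀)) :=
      ((hu1 _ (Cap_ci_mem θ)).comp_of_eq analyticAt_fst rfl).prod analyticAt_snd
    have hv := hball 1 ⟨zero_le_one, le_rfl⟩ θ
    rw [one_smul] at hv
    have h4 := 𝒦.pb_comp (Φ := H) (k := fun q : ℂ × ℂ => (u q.1, q.2))
      (a := (ci θ, w₀ + l • (w₁ - w₀))) (hH _ hv _ (hseg l hl)).hol hk
      (0, I • (w₁ - w₀)) (I * ci θ, 0)
    rw [Cap_fderiv_k (hu1 _ (Cap_ci_mem θ)), Cap_fderiv_k (hu1 _ (Cap_ci_mem θ))] at h4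
    unfold om
    rw [𝒦.pb_congr (hMH _ (Cap_ci_mem θ) _ (hseg l hl))]
    simpa using h4
  have h5 := Cap_bound (G := 𝒦.pb H) (w := w₀) hC0 hu hD hL
    (fun v hv => 𝒦.kat_pb (hH v hv _ (left_mem_segment _ _ _)).hol) (hC w₀ (Or.inl rfl))
  have h6 := Cap_bound (G := 𝒦.pb H) (w := w₁) hC0 hu hD hL
    (fun v hv => 𝒦.kat_pb (hH v hv _ (right_mem_segment _ _ _)).hol) (hC w₁ (Or.inr rfl))
  rw [h3, ← h2] at h1
  linarith [(abs_le.1 h5).1, (abs_le.1 h6).2]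

end PAtlas.Kae

end Crest.Agent.R266
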