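import Crest.Agent.R266.Defs

/-!
# Row 266: lower bound for the area of a proper holomorphic curve in a ball

Proof (Alexander, Taylor, Ullman): if the coordinate projections of the curve lie in an open set `U`
of small area, the Cauchy transform of the indicator of `D \ U` is holomorphic on `U` and close to
`π (R² - |w|²)`; this contradicts the maximum principle.
-/

set_option autoImplicit false
set_option linter.unusedSectionVars false
set_option linter.unusedVariables false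

open MeasureTheory Metric Set Filter Topology Complex
open scoped ContDiff Manifold Real
open Crest.AlgGeometry.HolSplit

noncomputable section

namespace Crest.Agent.R266

namespace LelongAux

theorem polar_symm (p : ℝ × ℝ) : Complex.polarCoord.symm p = circleMap 0 p.1 p.2 := by
  rw [Complex.polarCoord_symm_apply, circleMap, zero_add, Complex.exp_mul_I]
  simp

theorem polar (g : ℂ → ℂ) (hm : Measurable g) (hg : Integrable g) :
    ∫ z, g z = ∫ ρ in Ioi (0 : ℝ), ∫ θ in Ioo (-π) π, ρ • g (circleMap 0 ρ θ) := by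
  have h1 : polarCoord.target = Ioi (0 : ℝ) ×ˢ Ioo (-π) π := rfl
  have hc : Continuous fun q : ℝ × ℝ => circleMap 0 q.1 q.2 := by unfold circleMap; fun_prop
  have h2 := hg.2
  rw [HasFiniteIntegral, ← Complex.lintegral_comp_polarCoord_symm] at h2
  rw [← Complex.integral_comp_polarCoord_symm]
  simp only [polar_symm] at h2 ⊢
  rw [h1] at h2
  rw [h1, Measure.volume_eq_prod, setIntegral_prod]
  refine ⟨(measurable_fst.smul (hm.comp hc.measurable)).aestronglyMeasurable, ?_⟩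
  rw [HasFiniteIntegral, ← Measure.volume_eq_prod]
  refine lt_of_eq_of_lt (setLIntegral_congr_fun (measurableSet_Ioi.prod measurableSet_Ioo)
    fun p hp => ?_) h2
  simp only [enorm_smul, smul_eq_mul]
  rw [Real.enorm_eq_ofReal (le_of_lt hp.1)]

theorem circ {w : ℂ} {ρ : ℝ} (h0 : 0 < ρ) (hne : ρ ≠ ‖w‖) :
    ∫ θ in Ioo (-π) π, circleMap 0 ρ θ / (circleMap 0 ρ θ - w) =
      if ‖w‖ < ρ then 2 * (π : ℂ) else 0 := by
  have hp : Function.Periodic (fun θ : ℝ => circleMap 0 ρ θ / (circleMap 0 ρ θ - w)) (2 * π) :=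
    fun θ => by simp only [periodic_circleMap 0 ρ θ]
  have h1 := hp.intervalIntegral_add_eq (-π) 0
  rw [show -π + 2 * π = π by ring, zero_add,
    intervalIntegral.integral_of_le (by linarith [Real.pi_pos]), integral_Ioc_eq_integral_Ioo] at h1
  have h2 : (∮ z in C(0, ρ), (z - w)⁻¹) =
      I * ∫ θ in (0 : ℝ)..2 * π, circleMap 0 ρ θ / (circleMap 0 ρ θ - w) := by
    rw [circleIntegral, ← intervalIntegral.integral_const_mul]
    congr 1
    ext θ
    rw [deriv_circleMap, smul_eq_mul]; ring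
  rw [h1]
  apply mul_left_cancel₀ I_ne_zero
  rw [← h2]
  split_ifs with h
  · rw [circleIntegral.integral_sub_inv_of_mem_ball (by simpa using h)]; ring
  · have h3 : ∀ z ∈ closedBall (0 : ℂ) ρ, z - w ≠ 0 := by
      intro z hz he
      rw [sub_eq_zero] at he
      rw [he, mem_closedBall_zero_iff] at hz
      exact h (lt_of_le_of_ne hz hne.symm)
    rw [mul_zero]
    exact circleIntegral_eq_zero_of_differentiable_on_off_countable h0.le countable_empty
      ((continuousOn_id.sub continuousOn_const).inv₀ h3)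
      fun z hz => (differentiableAt_id.sub_const w).inv (h3 z (ball_subset_closedBall hz.1))

theorem intOn_ball (w : ℂ) (t : ℝ) : IntegrableOn (fun ζ : ℂ => ‖ζ - w‖⁻¹) (ball w t) := by
  have h1 : IntegrableOn (fun ζ : ℂ => ‖ζ‖⁻¹) (ball 0 t) :=
    integrableOn_ball_of_norm_le_rpow (C := 1) (α := 1) (by simp) (by simp)
      (Eventually.of_forall fun x => by simp [Real.rpow_neg_one])
      (measurable_norm.inv.aestronglyMeasurable)
  rw [← integrable_indicator_iff measurableSet_ball] at h1 ⊢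
  refine (h1.comp_sub_right w).congr (Eventually.of_forall fun ζ => ?_)
  simp only [indicator, mem_ball, dist_eq_norm, sub_zero]

theorem intOn_inv (w : ℂ) {R : ℝ} {s : Set ℂ} (hs : s ⊆ ball 0 R) :
    IntegrableOn (fun ζ : ℂ => ‖ζ - w‖⁻¹) s := by
  refine (intOn_ball w (R + ‖w‖)).mono_set fun ζ h => ?_
  have h1 := mem_ball_zero_iff.1 (hs h)
  rw [mem_ball, dist_eq_norm]
  linarith [norm_sub_le ζ w]

theorem int_ball (w : ℂ) {t : ℝ} (ht : 0 < t) : ∫ ζ in ball w t, ‖ζ - w‖⁻¹ = 2 * π * t := by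
  have h1 := integral_fun_norm_addHaar (volume : Measure ℂ) ((Iio t).indicator fun y : ℝ => y⁻¹)
  have h2 : ∫ y in Ioi (0 : ℝ), y ^ (Module.finrank ℝ ℂ - 1) •
      (Iio t).indicator (fun y : ℝ => y⁻¹) y = t := by
    rw [setIntegral_congr_fun (g := (Iio t).indicator fun _ => (1 : ℝ)) measurableSet_Ioi]
    · rw [integral_indicator measurableSet_Iio, Measure.restrict_restrict measurableSet_Iio,
        Iio_inter_Ioi]
      simp [ht.le]
    · intro y hy
      have : y ≠ 0 := ne_of_gt hy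
      simp only [Complex.finrank_real_complex, indicator]
      split_ifs <;> simp [this]
  rw [h2, ← integral_sub_right_eq_self _ w] at h1
  rw [← integral_indicator measurableSet_ball]
  refine Eq.trans ?_ (h1.trans ?_)
  · simp only [indicator, mem_ball, dist_eq_norm, mem_Iio]
  · simp [Measure.real, mul_assoc]

theorem int_inv_le (w : ℂ) {R t A : ℝ} (ht : 0 < t) {s : Set ℂ} (hm : MeasurableSet s)
    (hs : s ⊆ ball 0 R) (hA : volume.real s ≤ A) :
    ∫ ζ in s, ‖ζ - w‖⁻¹ ≤ 2 * π * t + A / t := by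
  have hf : volume s ≠ ⊤ := ((measure_mono hs).trans_lt measure_ball_lt_top).ne
  have h1 : Integrable ((ball w t).indicator fun ζ : ℂ => ‖ζ - w‖⁻¹) :=
    (integrable_indicator_iff measurableSet_ball).2 (intOn_ball w t)
  have h2 : IntegrableOn (fun _ : ℂ => t⁻¹) s := integrableOn_const hf
  calc ∫ ζ in s, ‖ζ - w‖⁻¹ ≤ ∫ ζ in s, ((ball w t).indicator (fun ζ : ℂ => ‖ζ - w‖⁻¹) ζ + t⁻¹) := by
        refine setIntegral_mono_on (intOn_inv w hs) (h1.integrableOn.add h2) hm fun ζ _ => ?_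
        by_cases h : ζ ∈ ball w t
        · rw [indicator_of_mem h]
          exact le_add_of_nonneg_right (by positivity)
        · rw [indicator_of_notMem h, zero_add]
          rw [mem_ball, dist_eq_norm, not_lt] at h
          exact inv_anti₀ ht h
    _ ≤ _ := by
        rw [integral_add h1.integrableOn h2]
        refine add_le_add ?_ ?_
        · rw [← int_ball w ht, ← integral_indicator measurableSet_ball]
          exact setIntegral_le_integral h1 (Eventually.of_forall fun ζ =>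
            indicator_nonneg (fun _ _ => by positivity) ζ)
        · rw [setIntegral_const, smul_eq_mul, div_eq_mul_inv]
          gcongr

theorem meas_ker (w : ℂ) : Measurable fun ζ : ℂ => ζ / (ζ - w) := by fun_prop

theorem norm_ker_le (w : ℂ) {R : ℝ} {ζ : ℂ} (h : ζ ∈ ball (0 : ℂ) R) :
    ‖ζ / (ζ - w)‖ ≤ R * ‖ζ - w‖⁻¹ := by
  rw [norm_div, div_eq_mul_inv]
  gcongr
  exact (mem_ball_zero_iff.1 h).le

theorem intOn_ker (w : ℂ) {R : ℝ} {s : Set ℂ} (hm : MeasurableSet s) (hs : s ⊆ ball 0 R) :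
    IntegrableOn (fun ζ : ℂ => ζ / (ζ - w)) s :=
  ((intOn_inv w hs).const_mul R).mono' (meas_ker w).aestronglyMeasurable
    ((ae_restrict_iff' hm).2 (Eventually.of_forall fun ζ h => norm_ker_le w (hs h)))

theorem cauchy_disc {w : ℂ} {R : ℝ} (hw : ‖w‖ < R) :
    ∫ ζ in ball (0 : ℂ) R, ζ / (ζ - w) = (π * (R ^ 2 - ‖w‖ ^ 2) : ℝ) := by
  rw [← integral_indicator measurableSet_ball,
    polar _ ((meas_ker w).indicator measurableSet_ball)
      ((integrable_indicator_iff measurableSet_ball).2 (intOn_ker w measurableSet_ball subset_rfl))]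
  have h1 : ∀ᵐ ρ : ℝ, ρ ≠ ‖w‖ := by
    simp [ae_iff]
  rw [setIntegral_congr_ae (g := (Ioo ‖w‖ R).indicator fun ρ : ℝ => ((2 * π * ρ : ℝ) : ℂ))
    measurableSet_Ioi]
  · rw [integral_indicator measurableSet_Ioo, Measure.restrict_restrict measurableSet_Ioo,
      inter_eq_left.2 (show Ioo ‖w‖ R ⊆ Ioi 0 from fun ρ h => (norm_nonneg w).trans_lt h.1),
      integral_complex_ofReal,
      ← integral_Ioc_eq_integral_Ioo, ← intervalIntegral.integral_of_le hw.le,
      intervalIntegral.integral_const_mul, integral_id]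
    congr 1; ring
  · filter_upwards [h1] with ρ hne h0
    have h0 : 0 < ρ := h0
    have hn : ∀ θ, ‖circleMap 0 ρ θ‖ = ρ := fun θ => by simp [abs_of_pos h0]
    rw [integral_smul]
    by_cases hR : ρ < R
    · simp only [indicator, mem_ball_zero_iff, hn, hR, if_true, mem_Ioo, and_true]
      rw [circ h0 hne]
      split_ifs
      · simp; ring
      · simp
    · simp [indicator, hn, hR]

theorem diff_ker {U : Set ℂ} (hU : IsOpen U) (R : ℝ) {w : ℂ} (hw : w ∈ U) :
    DifferentiableAt ℂ (fun w => ∫ ζ in ball (0 : ℂ) R \ U, ζ / (ζ - w)) w := by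
  obtain ⟨δ, hδ, hb⟩ := Metric.isOpen_iff.1 hU w hw
  have hm : MeasurableSet (ball (0 : ℂ) R \ U) := measurableSet_ball.diff hU.measurableSet
  have hd : ∀ ζ ∈ ball (0 : ℂ) R \ U, ∀ x ∈ ball w (δ / 2), δ / 2 ≤ ‖ζ - x‖ := by
    intro ζ hζ x hx
    have h1 : δ ≤ dist ζ w := not_lt.1 fun h => hζ.2 (hb h)
    have h2 := dist_triangle ζ x w
    rw [mem_ball] at hx
    rw [← dist_eq_norm]; linarith
  refine (hasDerivAt_integral_of_dominated_loc_of_deriv_le (s := ball w (δ / 2))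
    (F := fun x ζ => ζ / (ζ - x)) (F' := fun x ζ => ζ / (ζ - x) ^ 2)
    (bound := fun _ => R / (δ / 2) ^ 2) (ball_mem_nhds w (by positivity))
    (Eventually.of_forall fun x => (meas_ker x).aestronglyMeasurable)
    (intOn_ker w hm sdiff_subset) (Measurable.aestronglyMeasurable (by fun_prop))
    ((ae_restrict_iff' hm).2 (Eventually.of_forall fun ζ hζ x hx => ?_))
    (integrableOn_const ((measure_mono sdiff_subset).trans_lt measure_ball_lt_top).ne)
    ((ae_restrict_iff' hm).2 (Eventually.of_forall fun ζ hζ x hx => ?_))).2.differentiableAt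
  · have h1 := (mem_ball_zero_iff.1 hζ.1).le
    rw [norm_div, norm_pow]
    gcongr
    · exact (norm_nonneg _).trans h1
    · exact hd ζ hζ x hx
  · have h1 : ζ - x ≠ 0 := norm_pos_iff.1 (lt_of_lt_of_le (by positivity) (hd ζ hζ x hx))
    have h2 := (hasDerivAt_const x ζ).fun_div ((hasDerivAt_id' x).const_sub ζ) h1
    simpa using h2

theorem approx {U : Set ℂ} (hU : IsOpen U) {R t A : ℝ} (ht : 0 < t) (hA : 0 ≤ A)
    (hv : volume U ≤ ENNReal.ofReal A) {w : ℂ} (hw : ‖w‖ < R) :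
    |(∫ ζ in ball (0 : ℂ) R \ U, ζ / (ζ - w)).re - π * (R ^ 2 - ‖w‖ ^ 2)| ≤
      R * (2 * π * t + A / t) := by
  have hm : MeasurableSet (ball (0 : ℂ) R ∩ U) := measurableSet_ball.inter hU.measurableSet
  have h1 := integral_inter_add_sdiff hU.measurableSet
    (intOn_ker w (R := R) measurableSet_ball subset_rfl)
  rw [cauchy_disc hw] at h1
  have h2 : (∫ ζ in ball (0 : ℂ) R \ U, ζ / (ζ - w)).re - π * (R ^ 2 - ‖w‖ ^ 2) =
      -(∫ ζ in ball (0 : ℂ) R ∩ U, ζ / (ζ - w)).re := by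
    have := congrArg re h1
    rw [add_re, ofReal_re] at this
    linarith
  rw [h2, abs_neg]
  refine (abs_re_le_norm _).trans ((norm_integral_le_of_norm_le
    ((intOn_inv w inter_subset_left).const_mul R)
    ((ae_restrict_iff' hm).2 (Eventually.of_forall fun ζ h => norm_ker_le w h.1))).trans ?_)
  rw [integral_const_mul]
  refine mul_le_mul_of_nonneg_left (int_inv_le w ht hm inter_subset_left ?_)
    ((norm_nonneg _).trans hw.le)
  exact ENNReal.toReal_le_of_le_ofReal hA ((measure_mono inter_subset_right).trans hv)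

theorem det_mul (c : ℂ) :
    |((ContinuousLinearMap.toSpanSingleton ℂ c).restrictScalars ℝ).det| = ‖c‖ ^ 2 := by
  rw [ContinuousLinearMap.det, ← LinearMap.det_toMatrix basisOneI, Matrix.det_fin_two]
  simp only [LinearMap.toMatrix_apply]
  rw [Complex.sq_norm, normSq_apply, ← abs_of_nonneg (add_nonneg (mul_self_nonneg c.re)
    (mul_self_nonneg c.im))]
  simp

theorem area_le {K : Set ℂ} (hK : MeasurableSet K) {g g' : ℂ → ℂ} {b : ℂ → ℝ}
    (hg : ∀ z ∈ K, HasDerivAt g (g' z) z) (hb : IntegrableOn b K) (h : ∀ z ∈ K, ‖g' z‖ ^ 2 ≤ b z) :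
    volume (g '' K) ≤ ENNReal.ofReal (∫ z in K, b z) := by
  refine (addHaar_image_le_lintegral_abs_det_fderiv volume hK
    fun z hz => ((hg z hz).hasFDerivAt.restrictScalars ℝ).hasFDerivWithinAt).trans ?_
  rw [ofReal_integral_eq_lintegral_ofReal hb ((ae_restrict_iff' hK).2
    (Eventually.of_forall fun z hz => (sq_nonneg _).trans (h z hz)))]
  refine setLIntegral_mono' hK fun z hz => ENNReal.ofReal_le_ofReal ?_
  rw [det_mul]
  exact h z hz

theorem sq_norm_le {n : ℕ} (y : Fin n → ℂ) : ‖y‖ ^ 2 ≤ ∑ j, ‖y j‖ ^ 2 := by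
  have h0 : 0 ≤ ∑ j, ‖y j‖ ^ 2 := Finset.sum_nonneg fun _ _ => sq_nonneg _
  rw [← Real.le_sqrt (norm_nonneg _) h0, pi_norm_le_iff_of_nonneg (Real.sqrt_nonneg _)]
  intro j
  rw [Real.le_sqrt (norm_nonneg _) h0]
  exact Finset.single_le_sum (f := fun j => ‖y j‖ ^ 2) (fun _ _ => sq_nonneg _) (Finset.mem_univ j)

end LelongAux

open LelongAux in
/-- weak form of Lelong's monotonicity inequality -/
theorem exists_lelong (F : Type*) [NormedAddCommGroup F] [NormedSpace ℂ F] [FiniteDimensional ℂ F] :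
    ∃ c > 0, ∀ (Ω : Set ℂ) (u : ℂ → F) (z₀ : ℂ) (r : ℝ), IsOpen Ω → DifferentiableOn ℂ u Ω → z₀ ∈ Ω →
      0 < r → IsCompact {z | z ∈ Ω ∧ ‖u z - u z₀‖ ≤ r} →
      c * r ^ 2 ≤ ∫ z in {z | z ∈ Ω ∧ ‖u z - u z₀‖ ≤ r}, ‖deriv u z‖ ^ 2 := by
  obtain ⟨n, e, -⟩ : ∃ (n : ℕ) (e : F ≃L[ℂ] (Fin n → ℂ)), True :=
    ⟨_, (Module.finBasis ℂ F).equivFunL, trivial⟩
  obtain ⟨M, hM, hM1, hM2⟩ : ∃ M : ℝ, 1 ≤ M ∧ (∀ x, ‖e x‖ ≤ M * ‖x‖) ∧ ∀ x, ‖x‖ ≤ M * ‖e x‖ := by
    have a1 := norm_nonneg (e : F →L[ℂ] (Fin n → ℂ))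
    have a2 := norm_nonneg (e.symm : (Fin n → ℂ) →L[ℂ] F)
    refine ⟨1 + ‖(e : F →L[ℂ] (Fin n → ℂ))‖ + ‖(e.symm : (Fin n → ℂ) →L[ℂ] F)‖, by linarith,
      fun x => ?_, fun x => ?_⟩
    · refine ((e : F →L[ℂ] (Fin n → ℂ)).le_opNorm x).trans ?_
      gcongr; linarith
    · have := (e.symm : (Fin n → ℂ) →L[ℂ] F).le_opNorm (e x)
      simp only [ContinuousLinearEquiv.coe_coe, ContinuousLinearEquiv.symm_apply_apply] at this
      refine this.trans ?_
      gcongr; linarith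
  have : CompleteSpace F := FiniteDimensional.complete ℂ F
  obtain ⟨N, hN⟩ : ∃ N : ℝ, N = n + 1 := ⟨_, rfl⟩
  have hN0 : 0 < N := by rw [hN]; positivity
  have hM0 : 0 < M := by linarith
  refine ⟨1 / (64 * N ^ 3 * M ^ 8), by positivity, fun Ω u z₀ r hΩ hu hz hr hK => ?_⟩
  have hfr : ∀ z ∈ frontier {z | z ∈ Ω ∧ ‖u z - u z₀‖ ≤ r}, r ≤ ‖u z - u z₀‖ := by
    intro z hz
    by_contra hlt
    have h1 : z ∈ Ω := (hK.isClosed.frontier_subset hz).1
    have h2 : ContinuousAt (fun z => ‖u z - u z₀‖) z :=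
      ((hu.differentiableAt (hΩ.mem_nhds h1)).continuousAt.sub continuousAt_const).norm
    refine hz.2 (mem_interior_iff_mem_nhds.2 ?_)
    filter_upwards [hΩ.mem_nhds h1, h2.eventually_lt continuousAt_const (not_le.1 hlt)] with y a b
    exact ⟨a, b.le⟩
  have hKΩ : ∀ z ∈ {z | z ∈ Ω ∧ ‖u z - u z₀‖ ≤ r}, z ∈ Ω ∧ ‖u z - u z₀‖ ≤ r := fun z h => h
  have hz₀ : z₀ ∈ {z | z ∈ Ω ∧ ‖u z - u z₀‖ ≤ r} := ⟨hz, by simpa using hr.le⟩
  generalize {z | z ∈ Ω ∧ ‖u z - u z₀‖ ≤ r} = K at hK hfr hKΩ hz₀ ⊢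
  by_contra hlt
  rw [not_le] at hlt
  have hv : ∀ j, ∀ z ∈ K, HasDerivAt (fun z => e (u z - u z₀) j) (e (deriv u z) j) z := by
    intro j z hz
    exact ((ContinuousLinearMap.proj j).comp (e : F →L[ℂ] (Fin n → ℂ))).hasFDerivAt.comp_hasDerivAt
      z ((hu.differentiableAt (hΩ.mem_nhds (hKΩ z hz).1)).hasDerivAt.sub_const (u z₀))
  have hb : IntegrableOn (fun z => ‖deriv u z‖ ^ 2) K :=
    ((((hu.deriv hΩ).continuousOn.mono fun z hz => (hKΩ z hz).1).norm).pow 2).integrableOn_compact hK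
  have hI : 0 ≤ ∫ z in K, ‖deriv u z‖ ^ 2 := integral_nonneg fun _ => sq_nonneg _
  have h1 : volume (⋃ j, (fun z => e (u z - u z₀) j) '' K) <
      ENNReal.ofReal (N * M ^ 2 * (1 / (64 * N ^ 3 * M ^ 8) * r ^ 2)) := by
    refine ((measure_iUnion_fintype_le _ _).trans (Finset.sum_le_sum fun j _ =>
      area_le hK.measurableSet (hv j) (hb.const_mul (M ^ 2)) fun z _ => ?_)).trans_lt ?_
    · rw [← mul_pow]
      gcongr
      exact (norm_le_pi_norm _ j).trans (hM1 _)
    · rw [Finset.sum_const, Finset.card_univ, Fintype.card_fin, nsmul_eq_mul, integral_const_mul,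
        ← ENNReal.ofReal_natCast, ← ENNReal.ofReal_mul (by positivity),
        ENNReal.ofReal_lt_ofReal_iff (by positivity)]
      calc _ ≤ N * M ^ 2 * ∫ z in K, ‖deriv u z‖ ^ 2 := by
            rw [← mul_assoc]; gcongr; linarith
        _ < _ := by gcongr
  obtain ⟨U, hSU, hU, hvU⟩ := Set.exists_isOpen_lt_of_lt _ _ h1
  have hmem : ∀ j, ∀ z ∈ K, e (u z - u z₀) j ∈ U := fun j z hz =>
    hSU (mem_iUnion.2 ⟨j, z, hz, rfl⟩)
  have hR : ∀ j, ∀ z ∈ K, ‖e (u z - u z₀) j‖ < 2 * M * r := by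
    intro j z hz
    have := (norm_le_pi_norm _ j).trans ((hM1 _).trans
      (mul_le_mul_of_nonneg_left (hKΩ z hz).2 hM0.le))
    nlinarith [mul_pos hM0 hr]
  have hap := fun j z hz => approx hU (t := r / (16 * N * M ^ 3)) (by positivity) (by positivity)
    hvU.le (hR j z hz)
  have hE : 2 * M * r * (2 * π * (r / (16 * N * M ^ 3)) +
      N * M ^ 2 * (1 / (64 * N ^ 3 * M ^ 8) * r ^ 2) / (r / (16 * N * M ^ 3))) =
      (π / 2 + 1) * (r / M) ^ 2 / (2 * N) := by
    field_simp; ring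
  rw [hE] at hap
  obtain ⟨h, hh⟩ : ∃ h : ℂ → ℂ, h = fun w => ∫ ζ in ball (0 : ℂ) (2 * M * r) \ U, ζ / (ζ - w) :=
    ⟨_, rfl⟩
  have hd : ∀ w ∈ U, DifferentiableAt ℂ h w := fun w hw => hh ▸ diff_ker hU _ hw
  replace hap : ∀ j, ∀ z ∈ K, |(h (e (u z - u z₀) j)).re -
      π * ((2 * M * r) ^ 2 - ‖e (u z - u z₀) j‖ ^ 2)| ≤ (π / 2 + 1) * (r / M) ^ 2 / (2 * N) := by
    rw [hh]; exact hap
  have hq : 0 < (r / M) ^ 2 := by positivity
  have hnE : n * ((π / 2 + 1) * (r / M) ^ 2 / (2 * N)) ≤ (π / 2 + 1) * (r / M) ^ 2 / 2 := by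
    calc _ ≤ N * ((π / 2 + 1) * (r / M) ^ 2 / (2 * N)) := by gcongr; linarith
      _ = _ := by field_simp
  generalize (π / 2 + 1) * (r / M) ^ 2 / (2 * N) = E at hap hnE
  have hf : ∀ z ∈ K, DifferentiableAt ℂ (fun z => cexp (∑ j, h (e (u z - u z₀) j))) z :=
    fun z hz => (DifferentiableAt.fun_sum fun j _ =>
      (hd _ (hmem j z hz)).comp z (hv j z hz).differentiableAt).cexp
  have h2 := Complex.norm_le_of_forall_mem_frontier_norm_le hK.isBounded
    (f := fun z => cexp (∑ j, h (e (u z - u z₀) j)))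
    (C := Real.exp (n * (π * (2 * M * r) ^ 2 + E) - π * (r / M) ^ 2))
    ⟨fun z hz => (hf z hz).differentiableWithinAt, fun z hz =>
      (hf z (hK.isClosed.closure_subset hz)).continuousAt.continuousWithinAt⟩
    (fun z hz => ?_) (subset_closure hz₀)
  · rw [Complex.norm_exp, Real.exp_le_exp, re_sum] at h2
    have h3 : ∑ j : Fin n, (π * (2 * M * r) ^ 2 - E) ≤ ∑ j, (h (e (u z₀ - u z₀) j)).re := by
      refine Finset.sum_le_sum fun j _ => ?_
      have h4 := (abs_le.1 (hap j z₀ hz₀)).1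
      have h5 : ‖e (u z₀ - u z₀) j‖ = 0 := by simp
      rw [h5] at h4
      linarith
    rw [Finset.sum_const, Finset.card_univ, Fintype.card_fin, nsmul_eq_mul] at h3
    nlinarith [Real.pi_gt_three]
  · have hzK := hK.isClosed.frontier_subset hz
    rw [Complex.norm_exp, Real.exp_le_exp, re_sum]
    have h3 : ∑ j, (h (e (u z - u z₀) j)).re ≤
        ∑ j : Fin n, (π * (2 * M * r) ^ 2 + E - π * ‖e (u z - u z₀) j‖ ^ 2) := by
      refine Finset.sum_le_sum fun j _ => ?_
      have h4 := (abs_le.1 (hap j z hzK)).2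
      linarith
    rw [Finset.sum_sub_distrib, Finset.sum_const, Finset.card_univ, Fintype.card_fin, nsmul_eq_mul,
      ← Finset.mul_sum] at h3
    have h4 : (r / M) ^ 2 ≤ ∑ j, ‖e (u z - u z₀) j‖ ^ 2 := by
      refine le_trans ?_ (sq_norm_le _)
      gcongr
      rw [div_le_iff₀' hM0]
      exact (hfr z hz).trans (hM2 _)
    nlinarith [Real.pi_pos]

end Crest.Agent.R266
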