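import Crest.Agent.R266.Const2
import Crest.Agent.R266.Lelong

/-!
# Row 266: a disc of bounded area is crossed by a bounded chain of boxes
-/

set_option autoImplicit false
set_option linter.unusedSectionVars false
set_option linter.unusedVariables false

open MeasureTheory Metric Set Filter Topology Complex
open scoped ContDiff Manifold Real
open Crest.AlgGeometry.HolSplit

noncomputable section

namespace Crest.Agent.R266

namespace PAtlas.Boxes
variable {X : Type*} [MetricSpace X] [CompactSpace X] {n₁ n₂ : ℕ} {𝒜 : PAtlas X n₁ n₂}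
  (β : 𝒜.Boxes) (𝒦 : 𝒜.Kae)

/-- a component of the preimage of a box which reaches the inner box and not the circle has
definite area -/
theorem exists_area_component : ∃ c > 0, ∀ (f : ℂ → X), (∀ z ∈ closedBall (0 : ℂ) 1, 𝒜.Hol f z) →
    ∀ j ∈ β.J, ∀ z₀ ∈ closedBall (0 : ℂ) 1, f z₀ ∈ β.box j 0 →
      connectedComponentIn (closedBall 0 1 ∩ f ⁻¹' β.box j β.δ) z₀ ⊆ ball 0 1 →
      c ≤ ∫ z in connectedComponentIn (closedBall 0 1 ∩ f ⁻¹' β.box j β.δ) z₀, 𝒦.pb f z 1 1 := by
  obtain ⟨c₀, hc₀, hL⟩ := exists_lelong (MM n₁ n₂)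
  obtain ⟨c₁, hc₁, C₁, -, hcomp⟩ := β.exists_comparable 𝒦
  have hδ := β.δ_pos
  refine ⟨c₁ * (c₀ * (β.δ / 2) ^ 2), by positivity, fun f hf j hj z₀ hz₀ hf₀ hsub => ?_⟩
  set F : Set ℂ := closedBall 0 1 ∩ f ⁻¹' β.box j β.δ with hF
  set C : Set ℂ := connectedComponentIn F z₀ with hC
  set u : ℂ → MM n₁ n₂ := fun z => 𝒜.chart j (f z) with hu
  have hz₀F : z₀ ∈ F := ⟨hz₀, β.box_mono j hδ.le hf₀⟩
  have hz₀C : z₀ ∈ C := mem_connectedComponentIn hz₀F
  have hCF : C ⊆ F := connectedComponentIn_subset _ _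
  have hCpre : IsPreconnected C := isPreconnected_connectedComponentIn
  -- the component is open
  have hU : IsOpen (ball (0 : ℂ) 1 ∩ f ⁻¹' β.box j β.δ) :=
    ContinuousOn.isOpen_inter_preimage
      (fun z hz => (hf z (ball_subset_closedBall hz)).1.continuousWithinAt) isOpen_ball
      (β.isOpen_box j β.δ)
  have hCopen : IsOpen C := by
    have h1 : C = connectedComponentIn (ball (0 : ℂ) 1 ∩ f ⁻¹' β.box j β.δ) z₀ :=
      Subset.antisymm
        (hCpre.subset_connectedComponentIn hz₀C fun z hz => ⟨hsub hz, (hCF hz).2⟩)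
        (connectedComponentIn_mono _ (inter_subset_inter_left _ ball_subset_closedBall))
    rw [h1]
    exact hU.connectedComponentIn
  have hdiff : DifferentiableOn ℂ u C := fun z hz =>
    ((hf z (hCF hz).1).analyticAt (β.box_source (hCF hz).2)).differentiableAt.differentiableWithinAt
  -- the compact piece
  set K : Set ℂ := {z | z ∈ C ∧ ‖u z - u z₀‖ ≤ β.δ / 2} with hK
  have hu₀ : dist (u z₀) (𝒜.chart j j) < β.r j := by
    have := hf₀.2
    rwa [mem_ball, add_zero] at this
  have hball : closedBall (u z₀) (β.δ / 2) ⊆ ball (𝒜.chart j j) (β.r j + β.δ) := by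
    intro y hy
    rw [mem_closedBall] at hy
    rw [mem_ball]
    linarith [dist_triangle y (u z₀) (𝒜.chart j j)]
  have htgt : closedBall (u z₀) (β.δ / 2) ⊆ (𝒜.chart j).target :=
    hball.trans (ball_subset_closedBall.trans
      ((closedBall_subset_closedBall (by linarith)).trans (β.sub j hj)))
  have hLc : IsCompact ((𝒜.chart j).symm '' closedBall (u z₀) (β.δ / 2)) :=
    (isCompact_closedBall _ _).image_of_continuousOn ((𝒜.chart j).continuousOn_symm.mono htgt)
  have hKB : K ⊆ closedBall (0 : ℂ) 1 := fun z hz => (hCF hz.1).1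
  have hKclosed : IsClosed K := by
    refine isClosed_of_closure_subset fun z hz => ?_
    have hzB : z ∈ closedBall (0 : ℂ) 1 := closure_minimal hKB isClosed_closedBall hz
    have h1 : f z ∈ closure (f '' K) :=
      (hf z hzB).1.continuousWithinAt.mem_closure_image hz
    have h2 : f '' K ⊆ (𝒜.chart j).symm '' closedBall (u z₀) (β.δ / 2) := by
      rintro _ ⟨w, hw, rfl⟩
      exact ⟨u w, by rw [mem_closedBall, dist_eq_norm]; exact hw.2,
        (𝒜.chart j).left_inv (β.box_source (hCF hw.1).2)⟩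
    obtain ⟨y, hy, hyz⟩ := closure_minimal h2 hLc.isClosed h1
    have h3 : f z ∈ β.box j β.δ := hyz ▸ β.symm_mem_box hj (by linarith) (hball hy)
    have h4 : u z = y := by
      show 𝒜.chart j (f z) = y
      rw [← hyz, (𝒜.chart j).right_inv (htgt hy)]
    have h5 : z ∈ closure C := closure_mono (fun w hw => hw.1) hz
    have h6 : IsPreconnected (insert z C) :=
      hCpre.subset_closure (subset_insert _ _) (insert_subset h5 subset_closure)
    have h7 : insert z C ⊆ C :=
      h6.subset_connectedComponentIn (mem_insert_of_mem _ hz₀C) (insert_subset ⟨hzB, h3⟩ hCF)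
    refine ⟨h7 (mem_insert _ _), ?_⟩
    rw [h4, ← dist_eq_norm]
    exact hy
  have hKc : IsCompact K := (isCompact_closedBall _ _).of_isClosed_subset hKclosed hKB
  have h1 := hL C u z₀ (β.δ / 2) hCopen hdiff hz₀C (by positivity) hKc
  -- comparison of the integrals
  have hcont : ContinuousOn (fun z => 𝒦.pb f z 1 1) (closedBall (0 : ℂ) 1) := fun z hz =>
    (((𝒦.kat_pb (hf z hz)).smooth.continuousAt.clm_apply continuousAt_const).clm_apply
      continuousAt_const).continuousWithinAt
  have hint : IntegrableOn (fun z => 𝒦.pb f z 1 1) C :=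
    (hcont.integrableOn_compact (isCompact_closedBall _ _)).mono_set fun z hz => (hCF hz).1
  have h2 : ∫ z in K, c₁ * ‖deriv u z‖ ^ 2 ≤ ∫ z in K, 𝒦.pb f z 1 1 := by
    refine integral_mono_of_nonneg (Eventually.of_forall fun z => by positivity)
      (hint.mono_set fun z hz => hz.1) ?_
    refine (ae_restrict_iff' hKclosed.measurableSet).2 (Eventually.of_forall fun z hz => ?_)
    have h3 := (hCF hz.1).2
    show c₁ * ‖deriv u z‖ ^ 2 ≤ 𝒦.pb f z 1 1
    rw [𝒦.pb_eq (hf z (hKB hz)) (β.box_source h3)]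
    exact (hcomp j hj (f z) (β.box_mono j (by linarith) h3) _).1
  have h3 : ∫ z in K, 𝒦.pb f z 1 1 ≤ ∫ z in C, 𝒦.pb f z 1 1 := by
    refine setIntegral_mono_set hint ?_ (Eventually.of_forall fun z hz => hz.1)
    exact (ae_restrict_iff' hCopen.measurableSet).2
      (Eventually.of_forall fun z hz => (𝒦.kat_pb (hf z (hCF hz).1)).nonneg 1)
  rw [integral_const_mul] at h2
  exact (mul_le_mul_of_nonneg_left h1 hc₁.le).trans (h2.trans h3)

end PAtlas.Boxes

end Crest.Agent.R266
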