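import Crest.Agent.R266.Chain

/-!
# Row 266: chains of boxes
-/

set_option autoImplicit false
set_option linter.unusedSectionVars false
set_option linter.unusedVariables false

open MeasureTheory Metric Set Filter Topology Complex
open scoped ContDiff Manifold Real
open Crest.AlgGeometry.HolSplit

noncomputable section

namespace Crest.Agent.R266

/-- abstract form: a cover of the closed disc by relatively open pieces, few of which avoid the
circle -/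
theorem chain2_abstract {𝓒 : Set (Set ℂ)} {n : ℕ} {P : ℕ → ℂ → Prop}
    (hop : ∀ C ∈ 𝓒, ∀ z ∈ C, C ∈ 𝓝[closedBall (0 : ℂ) 1] z)
    (hsub : ∀ C ∈ 𝓒, C ⊆ closedBall (0 : ℂ) 1)
    (hcov : ∀ z ∈ closedBall (0 : ℂ) 1, ∃ C ∈ 𝓒, z ∈ C)
    (hP : ∀ i, ∀ C ∈ 𝓒, ∀ z ∈ C, ∀ z' ∈ C, P i z → P (i + 1) z')
    (hs : ∀ z ∈ sphere (0 : ℂ) 1, P 1 z)
    (hn : ∀ s : Finset (Set ℂ), (∀ C ∈ s, C ∈ 𝓒 ∧ C ⊆ ball 0 1) → s.card ≤ n) :
    ∀ z ∈ closedBall (0 : ℂ) 1, P (n + 3) z := by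
  classical
  have hmono : ∀ i, ∀ z ∈ closedBall (0 : ℂ) 1, P i z → P (i + 1) z := by
    intro i z hz h
    obtain ⟨C, hC, hzC⟩ := hcov z hz
    exact hP i C hC z hzC z hzC h
  have hbd : ∀ k, ∀ C ∈ 𝓒, ¬ C ⊆ ball 0 1 → ∀ z ∈ C, P (k + 2) z := by
    intro k C hC hnb z hz
    induction k with
    | zero =>
      obtain ⟨w, hw, hw'⟩ := not_subset.1 hnb
      have h1 : w ∈ sphere (0 : ℂ) 1 := by
        rw [mem_sphere]
        exact le_antisymm (mem_closedBall.1 (hsub C hC hw)) (not_lt.1 fun h => hw' (mem_ball.2 h))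
      exact hP 1 C hC w hw z hz (hs w h1)
    | succ k ih => exact hmono _ z (hsub C hC hz) ih
  have hstep : ∀ k, (¬ ∀ z ∈ closedBall (0 : ℂ) 1, P (k + 2) z) →
      ∃ C ∈ 𝓒, C ⊆ ball 0 1 ∧ (¬ ∀ z ∈ C, P (k + 2) z) ∧ ∀ z ∈ C, P (k + 3) z := by
    intro k hk
    haveI : PreconnectedSpace (closedBall (0 : ℂ) 1) :=
      Subtype.preconnectedSpace (convex_closedBall (0 : ℂ) 1).isPreconnected
    have hopen : ∀ Q : Set ℂ → Prop,
        IsOpen {z : closedBall (0 : ℂ) 1 | ∃ C ∈ 𝓒, Q C ∧ (z : ℂ) ∈ C} := by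
      intro Q
      rw [isOpen_iff_mem_nhds]
      rintro z ⟨C, hC, hQ, hz⟩
      have := preimage_coe_mem_nhds_subtype.2 (hop C hC z hz)
      exact mem_of_superset this fun w hw => ⟨C, hC, hQ, hw⟩
    have h1 : (1 : ℂ) ∈ closedBall (0 : ℂ) 1 := by simp
    obtain ⟨w, ⟨C, hC, hCP, hwC⟩, ⟨C', hC', hCP', hwC'⟩⟩ := nonempty_inter
      (hopen fun C => ∀ z ∈ C, P (k + 2) z) (hopen fun C => ¬ ∀ z ∈ C, P (k + 2) z)
      (by
        refine eq_univ_of_forall fun z => ?_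
        obtain ⟨C, hC, hzC⟩ := hcov z z.2
        by_cases h : ∀ z ∈ C, P (k + 2) z
        · exact Or.inl ⟨C, hC, h, hzC⟩
        · exact Or.inr ⟨C, hC, h, hzC⟩)
      (by
        obtain ⟨C, hC, hzC⟩ := hcov 1 h1
        refine ⟨⟨1, h1⟩, C, hC, hbd k C hC (fun h => ?_), hzC⟩
        simpa using h hzC)
      (by
        obtain ⟨z, hz⟩ := not_forall.1 hk
        obtain ⟨hz, hz'⟩ := Classical.not_imp.1 hz
        obtain ⟨C, hC, hzC⟩ := hcov z hz
        exact ⟨⟨z, hz⟩, C, hC, fun h => hz' (h z hzC), hzC⟩)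
    refine ⟨C', hC', ?_, hCP', fun z hz => hP _ C' hC' w hwC' z hz (hCP w hwC)⟩
    by_contra h
    exact hCP' (hbd k C' hC' h)
  have key : ∀ k, (∀ z ∈ closedBall (0 : ℂ) 1, P (k + 2) z) ∨ ∃ s : Finset (Set ℂ), s.card = k ∧
      ∀ C ∈ s, (C ∈ 𝓒 ∧ C ⊆ ball 0 1) ∧ ∀ z ∈ C, P (k + 2) z := by
    intro k
    induction k with
    | zero => exact Or.inr ⟨∅, rfl, by simp⟩
    | succ k ih =>
      by_cases hk : ∀ z ∈ closedBall (0 : ℂ) 1, P (k + 2) z
      · exact Or.inl fun z hz => hmono _ z hz (hk z hz)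
      · obtain ⟨s, hs1, hs2⟩ := ih.resolve_left hk
        obtain ⟨C, hC, hCb, hC1, hC2⟩ := hstep k hk
        refine Or.inr ⟨insert C s, ?_, fun C' hC' => ?_⟩
        · rw [Finset.card_insert_of_notMem (fun h => hC1 (hs2 C h).2), hs1]
        · rcases Finset.mem_insert.1 hC' with rfl | h
          · exact ⟨⟨hC, hCb⟩, hC2⟩
          · exact ⟨(hs2 C' h).1, fun z hz =>
              hmono _ z (hsub C' (hs2 C' h).1.1 hz) ((hs2 C' h).2 z hz)⟩
  rcases key (n + 1) with h | ⟨s, hs1, hs2⟩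
  · exact h
  · have := hn s fun C hC => (hs2 C hC).1
    omega

theorem chain2_nhds {X : Type*} [TopologicalSpace X] {f : ℂ → X} {U : Set X} (hU : IsOpen U)
    (hf : ∀ z ∈ closedBall (0 : ℂ) 1, ContinuousAt f z) {z₀ z : ℂ}
    (hz : z ∈ connectedComponentIn (closedBall 0 1 ∩ f ⁻¹' U) z₀) :
    connectedComponentIn (closedBall 0 1 ∩ f ⁻¹' U) z₀ ∈ 𝓝[closedBall (0 : ℂ) 1] z := by
  have hz' := connectedComponentIn_subset _ _ hz
  obtain ⟨ε, hε, hb⟩ := Metric.mem_nhds_iff.1 ((hf z hz'.1).preimage_mem_nhds (hU.mem_nhds hz'.2))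
  rw [connectedComponentIn_eq hz]
  refine mem_of_superset (inter_mem_nhdsWithin _ (ball_mem_nhds z hε)) ?_
  exact ((convex_closedBall (0 : ℂ) 1).inter (convex_ball z ε)).isPreconnected.subset_connectedComponentIn
    ⟨hz'.1, mem_ball_self hε⟩ (inter_subset_inter_right _ hb)

theorem chain2_count {h : ℂ → ℝ} (hc : ContinuousOn h (closedBall 0 1))
    (h0 : ∀ z ∈ closedBall (0 : ℂ) 1, 0 ≤ h z) {a c : ℝ} (hc0 : 0 < c)
    (ha : ∫ z in ball (0 : ℂ) 1, h z ≤ a) (s : Finset (Set ℂ))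
    (hs : ∀ C ∈ s, IsOpen C ∧ C ⊆ ball 0 1 ∧ c ≤ ∫ z in C, h z)
    (hd : (s : Set (Set ℂ)).Pairwise Disjoint) : s.card ≤ ⌈a / c⌉₊ := by
  have hi : IntegrableOn h (ball (0 : ℂ) 1) :=
    (hc.integrableOn_compact (isCompact_closedBall 0 1)).mono_set ball_subset_closedBall
  have h1 : (s.card : ℝ) * c ≤ a := by
    calc (s.card : ℝ) * c = ∑ _C ∈ s, c := by rw [Finset.sum_const, nsmul_eq_mul]
      _ ≤ ∑ C ∈ s, ∫ z in C, h z := Finset.sum_le_sum fun C hC => (hs C hC).2.2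
      _ = ∫ z in ⋃ C ∈ s, C, h z :=
          (integral_biUnion_finset (s := fun C : Set ℂ => C) s
            (fun C hC => (hs C hC).1.measurableSet) hd
            (fun C hC => hi.mono_set (hs C hC).2.1)).symm
      _ ≤ ∫ z in ball (0 : ℂ) 1, h z := by
          refine setIntegral_mono_set hi ?_ (HasSubset.Subset.eventuallyLE ?_)
          · exact (ae_restrict_iff' measurableSet_ball).2
              (Eventually.of_forall fun z hz => h0 z (ball_subset_closedBall hz))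
          · exact iUnion₂_subset fun C hC => (hs C hC).2.1
      _ ≤ a := ha
  have h2 : (s.card : ℝ) ≤ (⌈a / c⌉₊ : ℝ) := ((le_div_iff₀ hc0).2 h1).trans (Nat.le_ceil _)
  exact_mod_cast h2

namespace PAtlas.Boxes
variable {X : Type*} [MetricSpace X] [CompactSpace X] {n₁ n₂ : ℕ} {𝒜 : PAtlas X n₁ n₂}
  (β : 𝒜.Boxes) (𝒦 : 𝒜.Kae)

theorem exists_chain (a : ℝ) : ∃ N : ℕ, ∀ (f : ℂ → X), (∀ z ∈ closedBall (0 : ℂ) 1, 𝒜.Hol f z) →
    𝒦.area f ≤ a → (∃ j ∈ β.J, ∀ z ∈ sphere (0 : ℂ) 1, f z ∈ β.box j β.δ) →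
    ∀ P : ℕ → ℂ → Prop, P 0 1 →
      (∀ (i : ℕ) (z z' : ℂ) (K : Set ℂ) (j : X), P i z → j ∈ β.J → IsPreconnected K →
        K ⊆ closedBall 0 1 → (∀ x ∈ K, f x ∈ β.box j β.δ) → z ∈ K → z' ∈ K → P (i + 1) z') →
      ∀ z ∈ closedBall (0 : ℂ) 1, P N z := by
  classical
  obtain ⟨c, hc, hcomp⟩ := β.exists_area_component 𝒦
  refine ⟨β.J.card * ⌈a / c⌉₊ + 3, fun f hf ha hsph P hP0 hP => ?_⟩
  have hfc : ∀ z ∈ closedBall (0 : ℂ) 1, ContinuousAt f z := fun z hz => (hf z hz).1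
  refine chain2_abstract (𝓒 := {C | ∃ j ∈ β.J, ∃ z₀ ∈ closedBall (0 : ℂ) 1, f z₀ ∈ β.box j 0 ∧
    C = connectedComponentIn (closedBall 0 1 ∩ f ⁻¹' β.box j β.δ) z₀}) ?_ ?_ ?_ ?_ ?_ ?_
  · rintro C ⟨j, -, z₀, -, -, rfl⟩ z hz
    exact chain2_nhds (β.isOpen_box j β.δ) hfc hz
  · rintro C ⟨j, -, z₀, -, -, rfl⟩
    exact (connectedComponentIn_subset _ _).trans inter_subset_left
  · intro z hz
    obtain ⟨j, hj, hzj⟩ := β.cover (f z)
    exact ⟨_, ⟨j, hj, z, hz, hzj, rfl⟩,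
      mem_connectedComponentIn ⟨hz, β.box_mono j β.δ_pos.le hzj⟩⟩
  · rintro i C ⟨j, hj, z₀, -, -, rfl⟩ z hz z' hz' h
    exact hP i z z' _ j h hj isPreconnected_connectedComponentIn
      ((connectedComponentIn_subset _ _).trans inter_subset_left)
      (fun x hx => (connectedComponentIn_subset _ _ hx).2) hz hz'
  · intro z hz
    obtain ⟨j, hj, hs⟩ := hsph
    refine hP 0 1 z (sphere 0 1) j hP0 hj ?_ sphere_subset_closedBall hs (by simp) hz
    exact isPreconnected_sphere (by rw [Complex.rank_real_complex]; norm_num) 0 1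
  · intro s hs
    have hsub : s ⊆ β.J.biUnion fun j => s.filter fun C => ∃ z₀ ∈ closedBall (0 : ℂ) 1,
        f z₀ ∈ β.box j 0 ∧ C = connectedComponentIn (closedBall 0 1 ∩ f ⁻¹' β.box j β.δ) z₀ := by
      intro C hC
      obtain ⟨⟨j, hj, h⟩, -⟩ := hs C hC
      exact Finset.mem_biUnion.2 ⟨j, hj, Finset.mem_filter.2 ⟨hC, h⟩⟩
    refine (Finset.card_le_card hsub).trans (Finset.card_biUnion_le_card_mul _ _ _ fun j hj => ?_)
    refine chain2_count (h := fun z => 𝒦.pb f z 1 1) (fun z hz => ?_)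
      (fun z hz => (𝒦.kat_pb (hf z hz)).nonneg 1) hc ha _ (fun C hC => ?_) ?_
    · exact (((𝒦.kat_pb (hf z hz)).smooth.continuousAt.clm_apply continuousAt_const).clm_apply
        continuousAt_const).continuousWithinAt
    · obtain ⟨hCs, z₀, hz₀, hfz, rfl⟩ := Finset.mem_filter.1 hC
      have hb := (hs _ hCs).2
      refine ⟨?_, hb, hcomp f hf j hj z₀ hz₀ hfz hb⟩
      rw [isOpen_iff_mem_nhds]
      intro z hz
      have h1 := chain2_nhds (β.isOpen_box j β.δ) hfc hz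
      rwa [nhdsWithin_eq_nhds.2 (mem_of_superset (isOpen_ball.mem_nhds (hb hz))
        ball_subset_closedBall)] at h1
    · intro C hC C' hC' hne
      obtain ⟨-, z₀, -, -, rfl⟩ := Finset.mem_filter.1 (Finset.mem_coe.1 hC)
      obtain ⟨-, z₁, -, -, rfl⟩ := Finset.mem_filter.1 (Finset.mem_coe.1 hC')
      rw [Set.disjoint_left]
      intro w h1 h2
      exact hne ((connectedComponentIn_eq h1).trans (connectedComponentIn_eq h2).symm)

end PAtlas.Boxes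

end Crest.Agent.R266
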