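import Crest.Agent.R266.Defs

/-!
# Row 266: several complex variables
-/

set_option autoImplicit false
set_option linter.unusedSectionVars false
set_option linter.unusedVariables false

open MeasureTheory Metric Set Filter Topology Complex
open scoped ContDiff Manifold Real
open Crest.AlgGeometry.HolSplit

noncomputable section

namespace Crest.Agent.R266

variable {E F : Type*} [NormedAddCommGroup E] [NormedSpace ℂ E] [NormedAddCommGroup F]
  [NormedSpace ℂ F] [CompleteSpace F]

/-- Cauchy estimate -/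
theorem norm_fderiv_le_of_ball {f : E → F} {x : E} {r C : ℝ} (hr : 0 < r)
    (hf : DifferentiableOn ℂ f (ball x r)) (hC : ∀ y ∈ ball x r, ‖f y‖ ≤ C) :
    ‖fderiv ℂ f x‖ ≤ 2 * C / r := by
  refine Complex.norm_fderiv_le_div_of_mapsTo_ball hf (fun y hy => ?_) hr
  rw [mem_closedBall, dist_eq_norm]
  have h1 := hC y hy
  have h2 := hC x (mem_ball_self hr)
  linarith [norm_sub_le (f y) (f x)]

/-- Cauchy estimate for a difference -/
theorem SCV_norm_fderiv_sub_le {f g : E → F} {x : E} {r C : ℝ} (hr : 0 < r)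
    (hf : DifferentiableOn ℂ f (ball x r)) (hg : DifferentiableOn ℂ g (ball x r))
    (hC : ∀ y ∈ ball x r, ‖f y - g y‖ ≤ C) :
    ‖fderiv ℂ f x - fderiv ℂ g x‖ ≤ 2 * C / r := by
  have h := norm_fderiv_le_of_ball (f := fun y => f y - g y) hr (hf.sub hg) hC
  rwa [fderiv_fun_sub (hf.differentiableAt (ball_mem_nhds x hr))
    (hg.differentiableAt (ball_mem_nhds x hr))] at h

theorem SCV_ball_half {x y : E} {r : ℝ} (hy : y ∈ ball x (r / 2)) : ball y (r / 2) ⊆ ball x r := by
  intro z hz
  rw [mem_ball] at hy hz ⊢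
  linarith [dist_triangle z y x]

/-- Weierstrass -/
theorem differentiableOn_of_tendstoUniformlyOn {u : ℕ → E → F} {f : E → F} {U : Set E}
    [FiniteDimensional ℂ E] (hU : IsOpen U) (hu : ∀ k, DifferentiableOn ℂ (u k) U)
    (h : TendstoUniformlyOn u f atTop U) : DifferentiableOn ℂ f U := by
  intro x hx
  obtain ⟨r, hr, hrU⟩ := Metric.isOpen_iff.1 hU x hx
  have hr2 : 0 < r / 2 := by linarith
  have hsub : ball x (r / 2) ⊆ U := (ball_subset_ball (by linarith)).trans hrU
  have hC : UniformCauchySeqOn (fun k y => fderiv ℂ (u k) y) atTop (ball x (r / 2)) := by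
    rw [Metric.uniformCauchySeqOn_iff]
    intro ε hε
    obtain ⟨N, hN⟩ := Metric.uniformCauchySeqOn_iff.1 h.uniformCauchySeqOn (ε * r / 8)
      (by positivity)
    refine ⟨N, fun m hm n hn y hy => ?_⟩
    have hyU : ball y (r / 2) ⊆ U := (SCV_ball_half hy).trans hrU
    have h1 := SCV_norm_fderiv_sub_le (C := ε * r / 8) hr2 ((hu m).mono hyU) ((hu n).mono hyU)
      fun z hz => by
        rw [← dist_eq_norm]
        exact (hN m hm n hn z (hyU hz)).le
    rw [dist_eq_norm]
    refine lt_of_le_of_lt h1 ?_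
    have : 2 * (ε * r / 8) / (r / 2) = ε / 2 := by field_simp; ring
    rw [this]
    linarith
  have hT : TendstoUniformlyOn (fun k y => fderiv ℂ (u k) y)
      (fun y => limUnder atTop fun k => fderiv ℂ (u k) y) atTop (ball x (r / 2)) :=
    hC.tendstoUniformlyOn_of_tendsto fun y hy => (hC.cauchySeq hy).tendsto_limUnder
  exact (hasFDerivAt_of_tendstoUniformlyOn isOpen_ball hT
    (fun k y hy => ((hu k).differentiableAt (hU.mem_nhds (hsub hy))).hasFDerivAt)
    (fun y hy => h.tendsto_at (hsub hy))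
    (mem_ball_self hr2)).differentiableAt.differentiableWithinAt

/-- holomorphic dependence of integrals on parameters -/
theorem differentiableOn_intervalIntegral [FiniteDimensional ℂ E] {G : E → ℝ → F} {U : Set E}
    (hU : IsOpen U) (hc : ContinuousOn (fun p : E × ℝ => G p.1 p.2) (U ×ˢ Icc 0 1))
    (hd : ∀ t ∈ Icc (0 : ℝ) 1, DifferentiableOn ℂ (fun x => G x t) U) :
    DifferentiableOn ℂ (fun x => ∫ t in (0 : ℝ)..1, G x t) U := by
  intro x hx
  have : ProperSpace E := FiniteDimensional.proper ℂ E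
  obtain ⟨r, hr, hrU⟩ := nhds_basis_closedBall.mem_iff.1 (hU.mem_nhds hx)
  have hr2 : 0 < r / 2 := by linarith
  have hbU : ball x r ⊆ U := ball_subset_closedBall.trans hrU
  have hK : IsCompact (closedBall x r ×ˢ Icc (0 : ℝ) 1) := (isCompact_closedBall x r).prod isCompact_Icc
  have hcK : ContinuousOn (fun p : E × ℝ => G p.1 p.2) (closedBall x r ×ˢ Icc 0 1) :=
    hc.mono (prod_mono hrU Subset.rfl)
  obtain ⟨M, hM⟩ := hK.exists_bound_of_continuousOn hcK
  have huc := hK.uniformContinuousOn_of_continuous hcK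
  have hI : uIoc (0 : ℝ) 1 ⊆ Icc 0 1 := by
    rw [uIoc_of_le zero_le_one]
    exact Ioc_subset_Icc_self
  have hcy : ∀ y ∈ U, ContinuousOn (G y) (Icc 0 1) := fun y hy =>
    hc.comp (f := fun t : ℝ => (y, t)) (by fun_prop) fun t ht => ⟨hy, ht⟩
  have hc' : ContinuousOn (fun t => fderiv ℂ (fun y => G y t) x) (Icc 0 1) := by
    rw [Metric.continuousOn_iff]
    intro t ht ε hε
    obtain ⟨δ, hδ, hδ'⟩ := Metric.uniformContinuousOn_iff.1 huc (ε * r / 4) (by positivity)
    refine ⟨δ, hδ, fun s hs hst => ?_⟩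
    have h1 := SCV_norm_fderiv_sub_le (C := ε * r / 4) hr ((hd s hs).mono hbU) ((hd t ht).mono hbU)
      fun z hz => by
        rw [← dist_eq_norm]
        refine (hδ' (z, s) ⟨ball_subset_closedBall hz, hs⟩ (z, t)
          ⟨ball_subset_closedBall hz, ht⟩ ?_).le
        rw [Prod.dist_eq, dist_self]
        exact max_lt hδ hst
    rw [dist_eq_norm]
    refine lt_of_le_of_lt h1 ?_
    have : 2 * (ε * r / 4) / r = ε / 2 := by field_simp; ring
    rw [this]
    linarith
  refine (intervalIntegral.hasFDerivAt_integral_of_dominated_of_fderiv_le (𝕜 := ℂ) (μ := volume)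
    (F := G) (F' := fun y t => fderiv ℂ (fun z => G z t) y) (bound := fun _ => 2 * M / (r / 2))
    (ball_mem_nhds x hr2) ?_ ?_ ?_ ?_ ?_ ?_).differentiableAt.differentiableWithinAt
  · filter_upwards [hU.mem_nhds hx] with y hy
    exact ((hcy y hy).mono hI).aestronglyMeasurable measurableSet_uIoc
  · refine ContinuousOn.intervalIntegrable ?_
    rw [uIcc_of_le zero_le_one]
    exact hcy x hx
  · exact (hc'.mono hI).aestronglyMeasurable measurableSet_uIoc
  · refine Eventually.of_forall fun t ht y hy => ?_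
    refine norm_fderiv_le_of_ball hr2 ((hd t (hI ht)).mono ((SCV_ball_half hy).trans hbU))
      fun z hz => ?_
    exact hM (z, t) ⟨ball_subset_closedBall (SCV_ball_half hy hz), hI ht⟩
  · exact intervalIntegrable_const
  · refine Eventually.of_forall fun t ht y hy => ?_
    exact ((hd t (hI ht)).differentiableAt
      (hU.mem_nhds (hbU (ball_subset_ball (by linarith) hy)))).hasFDerivAt

end Crest.Agent.R266
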