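import Crest.Agent.R266.KPull
import Crest.Agent.R266.SCV

/-!
# Row 266: uniform constants on a compact space
-/

set_option autoImplicit false
set_option linter.unusedSectionVars false
set_option linter.unusedVariables false

open MeasureTheory Metric Set Filter Topology Complex
open scoped ContDiff Manifold Real
open Crest.AlgGeometry.HolSplit

noncomputable section

namespace Crest.Agent.R266

namespace PAtlas
variable {X : Type*} [MetricSpace X] [CompactSpace X] {n₁ n₂ : ℕ} {𝒜 : PAtlas X n₁ n₂}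

theorem isOpen_boxOf (𝒜 : PAtlas X n₁ n₂) (r : X → ℝ) (j : X) (s : ℝ) : IsOpen (𝒜.boxOf r j s) :=
  (𝒜.chart j).isOpen_inter_preimage isOpen_ball

/-- a positive constant which is small enough for finitely many conditions -/
theorem exists_pos_finset {ι : Type*} (J : Finset ι) {Q : ι → ℝ → Prop}
    (h : ∀ j ∈ J, ∃ η > 0, ∀ η' > 0, η' ≤ η → Q j η') : ∃ η > 0, ∀ j ∈ J, Q j η := by
  have h1 : ∀ᶠ η in 𝓝[>] (0 : ℝ), ∀ j ∈ J, Q j η := by
    refine (eventually_all_finset J).2 fun j hj => ?_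
    obtain ⟨η, hη, hQ⟩ := h j hj
    filter_upwards [Ioc_mem_nhdsGT hη] with η' h' using hQ η' h'.1 h'.2
  obtain ⟨η, h2, h3⟩ := (h1.and self_mem_nhdsWithin).exists
  exact ⟨η, h3, h2⟩

theorem exists_boxes (𝒜 : PAtlas X n₁ n₂) : Nonempty 𝒜.Boxes := by
  have h1 : ∀ x, ∃ r > 0, closedBall (𝒜.chart x x) (2 * r) ⊆ (𝒜.chart x).target := fun x => by
    obtain ⟨ρ, hρ, h⟩ := nhds_basis_closedBall.mem_iff.1
      ((𝒜.chart x).open_target.mem_nhds ((𝒜.chart x).map_source (𝒜.mem x)))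
    exact ⟨ρ / 2, by linarith, by rwa [mul_div_cancel₀ _ (two_ne_zero' ℝ)]⟩
  choose r hr hsub using h1
  obtain ⟨J, hJ⟩ := CompactSpace.elim_nhds_subcover (fun x => 𝒜.boxOf r x 0) fun x =>
    (𝒜.isOpen_boxOf r x 0).mem_nhds ⟨𝒜.mem x, mem_ball_self (by linarith [hr x])⟩
  obtain ⟨δ, hδ, hδ'⟩ := exists_pos_finset J (Q := fun j δ => 3 * δ ≤ r j) fun j _ =>
    ⟨r j / 3, by linarith [hr j], fun η' _ h => by linarith⟩
  refine ⟨⟨J, r, δ, hδ, fun j _ => hr j, fun j hj =>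
    (closedBall_subset_closedBall (by linarith [hδ' j hj])).trans (hsub j), fun x => ?_⟩⟩
  have hx : x ∈ ⋃ j ∈ J, 𝒜.boxOf r j 0 := by rw [hJ]; trivial
  simpa only [mem_iUnion, exists_prop] using hx

namespace Boxes
variable (β : 𝒜.Boxes)

theorem isOpen_box (j : X) (s : ℝ) : IsOpen (β.box j s) := 𝒜.isOpen_boxOf _ j s
theorem box_mono (j : X) {s s' : ℝ} (h : s ≤ s') : β.box j s ⊆ β.box j s' :=
  fun _ hx => ⟨hx.1, ball_subset_ball (by linarith) hx.2⟩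
theorem box_source {j x : X} {s : ℝ} (h : x ∈ β.box j s) : x ∈ (𝒜.chart j).source := h.1
theorem closedBall_sub {j : X} (hj : j ∈ β.J) {s : ℝ} (hs : s ≤ 3 * β.δ) :
    closedBall (𝒜.chart j j) (β.r j + s) ⊆ (𝒜.chart j).target :=
  (closedBall_subset_closedBall (by linarith)).trans (β.sub j hj)
theorem symm_mem_box {j : X} (hj : j ∈ β.J) {s : ℝ} (hs : s ≤ 3 * β.δ) {y : MM n₁ n₂}
    (hy : y ∈ ball (𝒜.chart j j) (β.r j + s)) : (𝒜.chart j).symm y ∈ β.box j s := by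
  have ht := β.closedBall_sub hj hs (ball_subset_closedBall hy)
  refine ⟨(𝒜.chart j).map_target ht, ?_⟩
  rwa [(𝒜.chart j).right_inv ht]
theorem mixOK_box {j x y : X} (hj : j ∈ β.J) {s : ℝ} (hs : s ≤ 3 * β.δ) (hx : x ∈ β.box j s)
    (hy : y ∈ β.box j s) : 𝒜.MixOK j x y ∧ 𝒜.mix j x y ∈ β.box j s := by
  have hb : ((𝒜.chart j x).1, (𝒜.chart j y).2) ∈ ball (𝒜.chart j j) (β.r j + s) := by
    have h1 := hx.2
    have h2 := hy.2
    rw [mem_ball, Prod.dist_eq, max_lt_iff] at h1 h2 ⊢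
    exact ⟨h1.1, h2.2⟩
  exact ⟨⟨hx.1, hy.1, β.closedBall_sub hj hs (ball_subset_closedBall hb)⟩, β.symm_mem_box hj hs hb⟩

/-- points close to a box lie in the slightly larger box and have close coordinates -/
theorem exists_near {s s' : ℝ} (hs : s < s') (hs' : s' ≤ 3 * β.δ) {η' : ℝ} (hη' : 0 < η') :
    ∃ η > 0, ∀ j ∈ β.J, ∀ x ∈ β.box j s, ∀ y, dist y x < η →
      y ∈ β.box j s' ∧ ‖𝒜.chart j y - 𝒜.chart j x‖ < η' := by
  refine exists_pos_finset β.J (Q := fun j η => ∀ x ∈ β.box j s, ∀ y, dist y x < η →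
    y ∈ β.box j s' ∧ ‖𝒜.chart j y - 𝒜.chart j x‖ < η') fun j hj => ?_
  have ht := β.closedBall_sub hj (hs.le.trans hs')
  have hK : IsCompact ((𝒜.chart j).symm '' closedBall (𝒜.chart j j) (β.r j + s)) :=
    (isCompact_closedBall _ _).image_of_continuousOn ((𝒜.chart j).continuousOn_symm.mono ht)
  have hKs : (𝒜.chart j).symm '' closedBall (𝒜.chart j j) (β.r j + s) ⊆ (𝒜.chart j).source := by
    rintro _ ⟨y, hy, rfl⟩
    exact (𝒜.chart j).map_target (ht hy)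
  obtain ⟨η₁, h₁, hη₁⟩ := hK.exists_thickening_subset_open (𝒜.chart j).open_source hKs
  obtain ⟨η₂, h₂, hη₂⟩ := Metric.mem_uniformity_dist.1
    (hK.uniformContinuousAt_of_continuousAt (𝒜.chart j)
      (fun a ha => (𝒜.chart j).continuousAt (hKs ha))
      (Metric.dist_mem_uniformity (lt_min hη' (sub_pos.2 hs))))
  refine ⟨min η₁ η₂, lt_min h₁ h₂, fun η _ hη x hx y hy => ?_⟩
  have hxK : x ∈ (𝒜.chart j).symm '' closedBall (𝒜.chart j j) (β.r j + s) :=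
    ⟨_, ball_subset_closedBall hx.2, (𝒜.chart j).left_inv hx.1⟩
  have h3 : dist (𝒜.chart j x) (𝒜.chart j y) < min η' (s' - s) :=
    hη₂ (a := x) (b := y) (by rw [dist_comm]; exact hy.trans_le (hη.trans (min_le_right _ _))) hxK
  rw [dist_comm, lt_min_iff] at h3
  refine ⟨⟨hη₁ (mem_thickening_iff.2 ⟨x, hxK, hy.trans_le (hη.trans (min_le_left _ _))⟩), ?_⟩,
    by rw [← dist_eq_norm]; exact h3.1⟩
  have h4 := mem_ball.1 hx.2
  rw [mem_ball]
  linarith [dist_triangle (𝒜.chart j y) (𝒜.chart j x) (𝒜.chart j j), h3.2]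

/-- points of a box with close coordinates are close -/
theorem exists_near' {η' : ℝ} (hη' : 0 < η') :
    ∃ η > 0, ∀ j ∈ β.J, ∀ x ∈ β.box j (3 * β.δ), ∀ y ∈ β.box j (3 * β.δ),
      ‖𝒜.chart j y - 𝒜.chart j x‖ < η → dist y x < η' := by
  refine exists_pos_finset β.J (Q := fun j η => ∀ x ∈ β.box j (3 * β.δ), ∀ y ∈ β.box j (3 * β.δ),
    ‖𝒜.chart j y - 𝒜.chart j x‖ < η → dist y x < η') fun j hj => ?_
  obtain ⟨η₁, h₁, hη₁⟩ := Metric.uniformContinuousOn_iff.1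
    ((isCompact_closedBall _ _).uniformContinuousOn_of_continuous
      ((𝒜.chart j).continuousOn_symm.mono (β.sub j hj))) η' hη'
  refine ⟨η₁, h₁, fun η _ hη x hx y hy hxy => ?_⟩
  have h := hη₁ _ (ball_subset_closedBall hy.2) _ (ball_subset_closedBall hx.2)
    (by rw [dist_eq_norm]; exact hxy.trans_le hη)
  rwa [(𝒜.chart j).left_inv hx.1, (𝒜.chart j).left_inv hy.1] at h

/-- the boxes of the exchanged atlas -/
theorem exists_swap : ∃ β' : 𝒜.swap.Boxes, β'.J = β.J ∧ β'.δ = β.δ ∧ ∀ j s, β'.box j s = β.box j s := by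
  have hb : ∀ j s, 𝒜.swap.boxOf β.r j s = 𝒜.boxOf β.r j s := fun j s => by
    ext x
    simp only [boxOf, mem_ofPred_eq, swap_source, swap_chart, mem_ball, Prod.dist_eq, Prod.fst_swap,
      Prod.snd_swap, max_comm]
  refine ⟨⟨β.J, β.r, β.δ, β.δ_pos, β.r_pos, fun j hj y hy => (mem_swap_target j y).2
    (β.sub j hj ?_), fun x => ?_⟩, rfl, rfl, hb⟩
  · simpa only [swap_chart, mem_closedBall, Prod.dist_eq, Prod.fst_swap, Prod.snd_swap, max_comm]
      using hy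
  · simpa only [hb] using β.cover x

variable (𝒦 : 𝒜.Kae)

theorem exists_comparable : ∃ c > 0, ∃ C > 0, ∀ j ∈ β.J, ∀ x ∈ β.box j (3 * β.δ), ∀ u,
    c * ‖u‖ ^ 2 ≤ 𝒦.g j (𝒜.chart j x) u u ∧ 𝒦.g j (𝒜.chart j x) u u ≤ C * ‖u‖ ^ 2 := by
  obtain ⟨c, hc, h⟩ := exists_pos_finset β.J (Q := fun j c => ∀ x ∈ β.box j (3 * β.δ), ∀ u,
      c * ‖u‖ ^ 2 ≤ 𝒦.g j (𝒜.chart j x) u u ∧ 𝒦.g j (𝒜.chart j x) u u ≤ c⁻¹ * ‖u‖ ^ 2)
      fun j hj => by
    have hK := isCompact_closedBall (𝒜.chart j j) (β.r j + 3 * β.δ)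
    have hg : ContinuousOn (𝒦.g j) (closedBall (𝒜.chart j j) (β.r j + 3 * β.δ)) :=
      fun y hy => (𝒦.kat j y (β.sub j hj hy)).smooth.continuousAt.continuousWithinAt
    obtain ⟨M, hM⟩ := hK.exists_bound_of_continuousOn (E := Bil (MM n₁ n₂)) (f := 𝒦.g j) hg
    have hg2 : ContinuousOn (fun q : MM n₁ n₂ × MM n₁ n₂ => 𝒦.g j q.1 q.2 q.2)
        (closedBall (𝒜.chart j j) (β.r j + 3 * β.δ) ×ˢ sphere 0 1) :=
      ((hg.comp continuousOn_fst fun q hq => hq.1).clm_apply continuousOn_snd).clm_apply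
        continuousOn_snd
    obtain ⟨m, hm, hm'⟩ := (hK.prod (isCompact_sphere (0 : MM n₁ n₂) 1)).exists_forall_le' hg2
      (a := 0) fun q hq => 𝒦.pos j q.1 (β.sub j hj hq.1) q.2 fun h0 => by
        have h1 := hq.2
        rw [h0, mem_sphere_zero_iff_norm, norm_zero] at h1
        exact zero_ne_one h1
    have hM1 : 0 < max M 1 := lt_max_of_lt_right one_pos
    refine ⟨min m (max M 1)⁻¹, lt_min hm (inv_pos.2 hM1), fun c hc hcm x hx u => ⟨?_, ?_⟩⟩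
    · rcases eq_or_ne u 0 with rfl | hu
      · simp
      · have hn : 0 < ‖u‖ := norm_pos_iff.2 hu
        have h1 := hm' (𝒜.chart j x, ‖u‖⁻¹ • u) ⟨ball_subset_closedBall hx.2, by
          rw [mem_sphere_zero_iff_norm, norm_smul, norm_inv, norm_norm, inv_mul_cancel₀ hn.ne']⟩
        simp only [map_smul, smul_apply, smul_eq_mul] at h1
        have h2 : c ≤ ‖u‖⁻¹ * (‖u‖⁻¹ * 𝒦.g j (𝒜.chart j x) u u) :=
          (hcm.trans (min_le_left _ _)).trans h1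
        calc c * ‖u‖ ^ 2 ≤ ‖u‖⁻¹ * (‖u‖⁻¹ * 𝒦.g j (𝒜.chart j x) u u) * ‖u‖ ^ 2 :=
              mul_le_mul_of_nonneg_right h2 (by positivity)
          _ = _ := by field_simp
    · have h1 := (𝒦.g j (𝒜.chart j x)).le_opNorm₂ u u
      have h2 : ‖𝒦.g j (𝒜.chart j x)‖ ≤ c⁻¹ :=
        (hM _ (ball_subset_closedBall hx.2)).trans ((le_max_left M 1).trans
          ((le_inv_comm₀ hM1 hc).2 (hcm.trans (min_le_right _ _))))
      calc 𝒦.g j (𝒜.chart j x) u u ≤ ‖𝒦.g j (𝒜.chart j x)‖ * ‖u‖ * ‖u‖ :=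
            (Real.le_norm_self _).trans h1
        _ = ‖𝒦.g j (𝒜.chart j x)‖ * ‖u‖ ^ 2 := by ring
        _ ≤ _ := mul_le_mul_of_nonneg_right h2 (by positivity)
  exact ⟨c, hc, c⁻¹, inv_pos.2 hc, h⟩

end Boxes

end PAtlas

end Crest.Agent.R266
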