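import Crest.Agent.R266.Const

/-!
# Row 266: uniform constants, II
-/

set_option autoImplicit false
set_option linter.unusedSectionVars false
set_option linter.unusedVariables false

open MeasureTheory Metric Set Filter Topology Complex
open scoped ContDiff Manifold Real
open Crest.AlgGeometry.HolSplit

noncomputable section

namespace Crest.Agent.R266

namespace PAtlas
variable {X : Type*} [MetricSpace X] [CompactSpace X] {n₁ n₂ : ℕ} {𝒜 : PAtlas X n₁ n₂}

namespace Boxes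
variable (β : 𝒜.Boxes) (𝒦 : 𝒜.Kae)

/-- Cauchy estimate for holomorphic maps into a box -/
theorem exists_pb_bound {A : Type*} [NormedAddCommGroup A] [NormedSpace ℝ A] [NormedSpace ℂ A]
    [IsScalarTower ℝ ℂ A] {η : ℝ} (hη : 0 < η) :
    ∃ C > 0, ∀ (h : A → X) (j : X), j ∈ β.J → (∀ u ∈ ball (0 : A) η, 𝒜.Hol h u ∧ h u ∈ β.box j β.δ) →
      ∀ u ∈ ball (0 : A) (η / 2), ∀ v, 𝒦.pb h u v v ≤ C * ‖v‖ ^ 2 := by
  obtain ⟨c, hc, C, hC, hcomp⟩ := β.exists_comparable 𝒦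
  have hδ := β.δ_pos
  set R : ℝ := ∑ j ∈ β.J, β.r j + β.δ with hR
  have hs : 0 ≤ ∑ j ∈ β.J, β.r j := Finset.sum_nonneg fun j hj => (β.r_pos j hj).le
  have hR0 : 0 < R := by linarith
  refine ⟨C * (2 * R / (η / 2)) ^ 2, by positivity, fun h j hj hh u hu v => ?_⟩
  have hsub : ball u (η / 2) ⊆ ball (0 : A) η := SCV_ball_half hu
  have hu' := hh u (hsub (mem_ball_self (by linarith)))
  have hD : ‖fderiv ℂ (fun r => 𝒜.chart j (h r) - 𝒜.chart j j) u‖ ≤ 2 * R / (η / 2) := by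
    refine norm_fderiv_le_of_ball (by linarith) (fun y hy => ?_) fun y hy => ?_
    · exact ((((hh y (hsub hy)).1.analyticAt (hh y (hsub hy)).2.1).differentiableAt).sub_const
        _).differentiableWithinAt
    · have h1 := (hh y (hsub hy)).2.2
      rw [mem_ball, dist_eq_norm] at h1
      have h2 : β.r j ≤ ∑ j ∈ β.J, β.r j :=
        Finset.single_le_sum (fun j hj => (β.r_pos j hj).le) hj
      linarith
  rw [fderiv_sub_const] at hD
  rw [𝒦.pb_eq hu'.1 hu'.2.1]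
  refine (hcomp j hj _ (β.box_mono j (by linarith) hu'.2) _).2.trans ?_
  rw [mul_assoc, ← mul_pow]
  refine mul_le_mul_of_nonneg_left (pow_le_pow_left₀ (norm_nonneg _) ?_ _) hC.le
  exact (ContinuousLinearMap.le_opNorm _ _).trans (mul_le_mul_of_nonneg_right hD (norm_nonneg _))

/-- a short loop lies in a box and is short in coordinates -/
theorem exists_small_loop : ∃ C > 0, ∃ ε₀ > 0, ∀ f : ℂ → X, (∀ z ∈ sphere (0 : ℂ) 1, 𝒜.Hol f z) →
    𝒦.len f ≤ ε₀ → ∃ j ∈ β.J, f 1 ∈ β.box j 0 ∧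
      (∀ z ∈ sphere (0 : ℂ) 1, f z ∈ β.box j β.δ ∧
        ‖𝒜.chart j (f z) - 𝒜.chart j (f 1)‖ ≤ C * 𝒦.len f) ∧
      ∫ θ in (0 : ℝ)..2 * π, ‖deriv (fun z => 𝒜.chart j (f z)) (ci θ)‖ ≤ C * 𝒦.len f := by
  obtain ⟨c, hc, C, hC, hcomp⟩ := β.exists_comparable 𝒦
  have hδ := β.δ_pos
  have hsc : 0 < √c := Real.sqrt_pos.2 hc
  refine ⟨1 / √c, by positivity, β.δ * √c / 4, by positivity, fun f hf hlen => ?_⟩
  obtain ⟨j, hj, h1⟩ : ∃ j ∈ β.J, f 1 ∈ β.box j 0 := β.cover (f 1)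
  have hci : ∀ θ, 𝒜.Hol f (ci θ) := fun θ => hf _ (by simp [norm_ci])
  have cci : Continuous ci := contDiff_ci.continuous
  set F : ℂ → MM n₁ n₂ := fun z => 𝒜.chart j (f z) with hF
  set ℓ : ℝ → ℝ := fun θ => √(𝒦.pb f (ci θ) 1 1) with hℓ
  have hℓc : Continuous ℓ := by
    refine Real.continuous_sqrt.comp (continuous_iff_continuousAt.2 fun θ => ?_)
    have h2 : ContinuousAt (fun θ => 𝒦.pb f (ci θ)) θ :=
      ContinuousAt.comp (g := 𝒦.pb f) (𝒦.kat_pb (hci θ)).smooth.continuousAt cci.continuousAt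
    exact (h2.clm_apply continuousAt_const).clm_apply continuousAt_const
  have hπ : (0 : ℝ) ≤ 2 * π := by positivity
  have hlenC : 1 / √c * 𝒦.len f ≤ β.δ / 4 := by
    rw [one_div_mul_eq_div, div_le_iff₀ hsc]
    linarith
  have key : ∀ t ∈ Icc (0 : ℝ) (2 * π), (∀ s ∈ Icc (0 : ℝ) t, f (ci s) ∈ β.box j β.δ) →
      ‖F (ci t) - F 1‖ ≤ 1 / √c * 𝒦.len f ∧
        ∫ θ in (0 : ℝ)..t, ‖deriv F (ci θ)‖ ≤ 1 / √c * 𝒦.len f := by
    intro t ht hbox
    have han : ∀ s ∈ Icc (0 : ℝ) t, AnalyticAt ℂ F (ci s) := fun s hs =>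
      (hci s).analyticAt (hbox s hs).1
    have hdc : ContinuousOn (fun s => deriv F (ci s)) (Icc 0 t) := fun s hs =>
      (ContinuousAt.comp (g := deriv F) (han s hs).deriv.continuousAt
        cci.continuousAt).continuousWithinAt
    have hle : ∀ s ∈ Icc (0 : ℝ) t, ‖deriv F (ci s)‖ ≤ 1 / √c * ℓ s := by
      intro s hs
      have h2 := (hcomp j hj _ (β.box_mono j (by linarith) (hbox s hs))
        (fderiv ℂ F (ci s) 1)).1
      rw [← 𝒦.pb_eq (hci s) (hbox s hs).1, fderiv_apply_one_eq_deriv] at h2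
      rw [one_div_mul_eq_div, le_div_iff₀ hsc]
      refine Real.le_sqrt_of_sq_le ?_
      rw [mul_pow, Real.sq_sqrt hc.le]
      linarith
    have h2 : ∫ θ in (0 : ℝ)..t, ‖deriv F (ci θ)‖ ≤ 1 / √c * 𝒦.len f := by
      calc ∫ θ in (0 : ℝ)..t, ‖deriv F (ci θ)‖ ≤ ∫ θ in (0 : ℝ)..t, 1 / √c * ℓ θ :=
            intervalIntegral.integral_mono_on ht.1
              (hdc.norm.intervalIntegrable_of_Icc ht.1)
              ((continuous_const.mul hℓc).intervalIntegrable _ _) hle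
        _ = 1 / √c * ∫ θ in (0 : ℝ)..t, ℓ θ := intervalIntegral.integral_const_mul _ _
        _ ≤ 1 / √c * 𝒦.len f := by
            refine mul_le_mul_of_nonneg_left ?_ (by positivity)
            exact intervalIntegral.integral_mono_interval le_rfl ht.1 ht.2
              (Eventually.of_forall fun θ => Real.sqrt_nonneg _) (hℓc.intervalIntegrable _ _)
    refine ⟨le_trans ?_ h2, h2⟩
    have hd : ∀ s ∈ uIcc (0 : ℝ) t,
        HasDerivAt (fun s => F (ci s)) ((I * ci s) • deriv F (ci s)) s := by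
      intro s hs
      rw [uIcc_of_le ht.1] at hs
      exact HasDerivAt.scomp s (han s hs).differentiableAt.hasDerivAt (hasDerivAt_ci s)
    have hint : IntervalIntegrable (fun s => (I * ci s) • deriv F (ci s)) volume 0 t :=
      ((continuous_const.mul cci).continuousOn.smul hdc).intervalIntegrable_of_Icc ht.1
    have h3 := intervalIntegral.integral_eq_sub_of_hasDerivAt hd hint
    rw [ci_zero] at h3
    rw [← h3]
    refine (intervalIntegral.norm_integral_le_integral_norm ht.1).trans (le_of_eq ?_)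
    refine intervalIntegral.integral_congr fun s _ => ?_
    simp only [norm_smul, norm_mul, Complex.norm_I, norm_ci, one_mul]
  set K : Set X := (𝒜.chart j).symm '' closedBall (𝒜.chart j j) (β.r j + β.δ / 2) with hK
  have hKt : closedBall (𝒜.chart j j) (β.r j + β.δ / 2) ⊆ (𝒜.chart j).target :=
    (closedBall_subset_closedBall (by linarith)).trans (β.sub j hj)
  have hKc : IsClosed K :=
    ((isCompact_closedBall _ _).image_of_continuousOn
      ((𝒜.chart j).continuousOn_symm.mono hKt)).isClosed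
  have hKb : K ⊆ β.box j β.δ := by
    rintro _ ⟨y, hy, rfl⟩
    exact β.symm_mem_box hj (by linarith) (closedBall_subset_ball (by linarith) hy)
  have hbK : β.box j (β.δ / 2) ⊆ K := fun x hx =>
    ⟨_, ball_subset_closedBall hx.2, (𝒜.chart j).left_inv hx.1⟩
  have hfc : Continuous fun θ => f (ci θ) := continuous_iff_continuousAt.2 fun θ =>
    ContinuousAt.comp (g := f) (hci θ).1 cci.continuousAt
  have hall : Icc (0 : ℝ) (2 * π) ⊆ (fun θ => f (ci θ)) ⁻¹' K := by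
    refine IsClosed.Icc_subset_of_forall_mem_nhdsGT_of_Icc_subset
      ((hKc.preimage hfc).inter isClosed_Icc) ?_ fun t ht hsub => ?_
    · show f (ci 0) ∈ K
      rw [ci_zero]
      exact hbK (β.box_mono j (by linarith) h1)
    · have h2 := (key t (Ico_subset_Icc_self ht) fun s hs => hKb (hsub hs)).1
      have h3 : f (ci t) ∈ β.box j (β.δ / 2) := by
        refine ⟨(hKb (hsub ⟨ht.1, le_rfl⟩)).1, ?_⟩
        have h4 := h1.2
        rw [mem_ball] at h4 ⊢
        have h5 := dist_triangle (F (ci t)) (F 1) (𝒜.chart j j)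
        rw [dist_eq_norm (F (ci t)) (F 1)] at h5
        change dist (F (ci t)) _ < _
        change dist (F 1) _ < _ at h4
        linarith
      refine mem_nhdsWithin_of_mem_nhds (mem_of_superset
        (hfc.continuousAt.preimage_mem_nhds ((β.isOpen_box j _).mem_nhds h3)) ?_)
      exact preimage_mono hbK
  have hall' : ∀ s ∈ Icc (0 : ℝ) (2 * π), f (ci s) ∈ β.box j β.δ := fun s hs => hKb (hall hs)
  refine ⟨j, hj, h1, fun z hz => ?_, (key _ ⟨hπ, le_rfl⟩ hall').2⟩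
  obtain ⟨θ, hθ, rfl⟩ := exists_ci (z := z) (by simpa using hz)
  exact ⟨hall' θ hθ, (key θ hθ fun s hs => hall' s ⟨hs.1, hs.2.trans hθ.2⟩).1⟩

end Boxes

/-- the angle between the two foliations is bounded below -/
theorem Kae.exists_angle (𝒦 : 𝒜.Kae) : ∃ C₀ > 0, ∀ (Φ : ℂ × ℂ → X) (q : ℂ × ℂ), 𝒜.PT Φ q →
    ∀ u v : ℂ, 𝒦.pb Φ q (u, 0) (u, 0) + 𝒦.pb Φ q (0, v) (0, v) ≤ C₀ * 𝒦.pb Φ q (u, v) (u, v) := by
  obtain ⟨β⟩ := exists_boxes 𝒜
  obtain ⟨c, hc, C, hC, hcomp⟩ := β.exists_comparable 𝒦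
  have hδ := β.δ_pos
  refine ⟨2 * C / c, by positivity, fun Φ q hq u v => ?_⟩
  obtain ⟨j, hj, h1⟩ : ∃ j ∈ β.J, Φ q ∈ β.box j 0 := β.cover (Φ q)
  have h3 : Φ q ∈ β.box j (3 * β.δ) := β.box_mono j (by linarith) h1
  obtain ⟨k₁, k₂, a₁, a₂, he⟩ := hq.exists_chart h1.1
  have hD : fderiv ℂ (fun r => 𝒜.chart j (Φ r)) q =
      (fderiv ℂ k₁ q.1).prodMap (fderiv ℂ k₂ q.2) := by
    refine HasFDerivAt.fderiv (HasFDerivAt.congr_of_eventuallyEq (f := Prod.map k₁ k₂) ?_ he)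
    exact HasFDerivAt.prodMap q a₁.differentiableAt.hasFDerivAt a₂.differentiableAt.hasFDerivAt
  rw [𝒦.pb_eq hq.hol h1.1, 𝒦.pb_eq hq.hol h1.1, 𝒦.pb_eq hq.hol h1.1, hD]
  simp only [ContinuousLinearMap.coe_prodMap', Prod.map_apply, map_zero]
  set a := fderiv ℂ k₁ q.1 u
  set b := fderiv ℂ k₂ q.2 v
  have e1 := (hcomp j hj _ h3 (a, 0)).2
  have e2 := (hcomp j hj _ h3 (0, b)).2
  have e3 := (hcomp j hj _ h3 (a, b)).1
  have n1 : ‖((a, 0) : MM n₁ n₂)‖ ^ 2 ≤ ‖((a, b) : MM n₁ n₂)‖ ^ 2 :=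
    pow_le_pow_left₀ (norm_nonneg _) (by simp) _
  have n2 : ‖((0, b) : MM n₁ n₂)‖ ^ 2 ≤ ‖((a, b) : MM n₁ n₂)‖ ^ 2 :=
    pow_le_pow_left₀ (norm_nonneg _) (by simp) _
  have e4 : 2 * C / c * (c * ‖((a, b) : MM n₁ n₂)‖ ^ 2) = 2 * C * ‖((a, b) : MM n₁ n₂)‖ ^ 2 := by
    field_simp
  have e5 := mul_le_mul_of_nonneg_left e3 (show 0 ≤ 2 * C / c by positivity)
  nlinarith [mul_le_mul_of_nonneg_left n1 hC.le, mul_le_mul_of_nonneg_left n2 hC.le]

end PAtlas

end Crest.Agent.R266
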