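import Mathlib
import Crest.Prelude.Def_TangentSplitting

/-!
# Row 266: definitions (S0404 Hoering, S0405 Beauville)
-/

set_option autoImplicit false
set_option linter.unusedSectionVars false
set_option linter.unusedVariables false

open MeasureTheory Metric Set Filter Topology Complex
open scoped ContDiff Manifold Real
open Crest.AlgGeometry.HolSplit

noncomputable section

namespace Crest.Agent.R266

/-! ## A. A splitting in coordinates: a field `P` of projections on a complex normed space -/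

section Local
variable {E : Type*} [NormedAddCommGroup E] [NormedSpace ℂ E]

/-- `P` is an analytic field of projections near `y` -/
def ProjAt (P : E → E →L[ℂ] E) (y : E) : Prop :=
  AnalyticAt ℂ P y ∧ ∀ᶠ z in 𝓝 y, ∀ v, P z (P z v) = P z v

/-- the complementary projection field -/
def coP (P : E → E →L[ℂ] E) (y : E) : E →L[ℂ] E := ContinuousLinearMap.id ℂ E - P y

/-- `Gam P y ξ v = dP(v) ξ - dP(ξ) v` -/
def Gam (P : E → E →L[ℂ] E) (y ξ v : E) : E := fderiv ℂ P y v ξ - fderiv ℂ P y ξ v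

/-- O'Neill tensor of `im P` (for `ξ, ξ' ∈ im P`): `(1 - P) (dP(ξ) ξ' - dP(ξ') ξ)` -/
def Nij (P : E → E →L[ℂ] E) (y ξ ξ' : E) : E := Gam P y ξ' ξ - P y (Gam P y ξ' ξ)

/-- the O'Neill tensor of `im P` vanishes at `y` -/
def IntAt (P : E → E →L[ℂ] E) (y : E) : Prop :=
  ∀ ξ ξ', P y ξ = ξ → P y ξ' = ξ' → Nij P y ξ ξ' = 0

/-- partial derivative in the first variable -/
def da {V : Type*} [NormedAddCommGroup V] [NormedSpace ℂ V] (F : ℂ × ℂ → V) (z : ℂ × ℂ) : V :=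
  fderiv ℂ F z (1, 0)

/-- partial derivative in the second variable -/
def db {V : Type*} [NormedAddCommGroup V] [NormedSpace ℂ V] (F : ℂ × ℂ → V) (z : ℂ × ℂ) : V :=
  fderiv ℂ F z (0, 1)

/-- `F` is of product type near `z`: `∂_a F ∈ im P`, `∂_b F ∈ ker P` -/
def WaveAt (P : E → E →L[ℂ] E) (F : ℂ × ℂ → E) (z : ℂ × ℂ) : Prop :=
  AnalyticAt ℂ F z ∧ ∀ᶠ r in 𝓝 z, P (F r) (da F r) = da F r ∧ P (F r) (db F r) = 0

/-- `ξ` is a section of `F^* im P` which is parallel in the `b` direction (Bott connection) -/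
def ParAt (P : E → E →L[ℂ] E) (F ξ : ℂ × ℂ → E) (z : ℂ × ℂ) : Prop :=
  AnalyticAt ℂ ξ z ∧ ∀ᶠ r in 𝓝 z, P (F r) (ξ r) = ξ r ∧
    P (F r) (db ξ r) + fderiv ℂ P (F r) (ξ r) (db F r) = 0

/-- `ϑ` is a covector killing `im P` which is parallel in the `a` direction -/
def CoAt (P : E → E →L[ℂ] E) (F : ℂ × ℂ → E) (ϑ : ℂ × ℂ → E →L[ℂ] ℂ) (z : ℂ × ℂ) : Prop :=
  AnalyticAt ℂ ϑ z ∧ ∀ᶠ r in 𝓝 z, (∀ X, ϑ r (P (F r) X) = 0) ∧
    ∀ η, P (F r) η = 0 → da ϑ r η = - ϑ r (fderiv ℂ P (F r) η (da F r))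

/-- a solution near `(t,t)` of the Cauchy problem with data on the diagonal -/
structure Sol (P : E → E →L[ℂ] E) (γ σ σ' : ℂ → E) (θ : ℂ → E →L[ℂ] ℂ) (t : ℂ)
    (F ξ ξ' : ℂ × ℂ → E) (ϑ : ℂ × ℂ → E →L[ℂ] ℂ) : Prop where
  proj : ProjAt P (γ t)
  wave : WaveAt P F (t, t)
  par : ParAt P F ξ (t, t)
  par' : ParAt P F ξ' (t, t)
  co : CoAt P F ϑ (t, t)
  dF : ∀ᶠ s in 𝓝 t, F (s, s) = γ s
  dξ : ∀ᶠ s in 𝓝 t, ξ (s, s) = P (γ s) (σ s)
  dξ' : ∀ᶠ s in 𝓝 t, ξ' (s, s) = P (γ s) (σ' s)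
  dϑ : ∀ᶠ s in 𝓝 t, ∀ X, ϑ (s, s) X = θ s (X - P (γ s) X)

/-- the scalar function `ϑ (N (ξ, ξ'))` -/
def Sfun (P : E → E →L[ℂ] E) (F ξ ξ' : ℂ × ℂ → E) (ϑ : ℂ × ℂ → E →L[ℂ] ℂ) (z : ℂ × ℂ) : ℂ :=
  ϑ z (Nij P (F z) (ξ z) (ξ' z))

end Local

/-! ## B. Kähler-like tensor fields on a complex normed space -/

section KForm
variable {A : Type*} [NormedAddCommGroup A] [NormedSpace ℝ A] [NormedSpace ℂ A]

/-- real bilinear forms -/
abbrev Bil (A : Type*) [NormedAddCommGroup A] [NormedSpace ℝ A] : Type _ := A →L[ℝ] A →L[ℝ] ℝ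

/-- `G` is `C¹` at `y`, `G y` is a semi-positive hermitian form and `ω = G (I ·) ·` is closed at `y` -/
structure KAt (G : A → Bil A) (y : A) : Prop where
  smooth : ContDiffAt ℝ 1 G y
  symm : ∀ u v, G y u v = G y v u
  nonneg : ∀ u, 0 ≤ G y u u
  herm : ∀ u v, G y (I • u) (I • v) = G y u v
  closed : ∀ u v w, fderiv ℝ (fun z => G z (I • v) w) y u - fderiv ℝ (fun z => G z (I • u) w) y v
    + fderiv ℝ (fun z => G z (I • u) v) y w = 0

/-- the Kähler form -/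
def om (G : A → Bil A) (y u v : A) : ℝ := G y (I • u) v

/-- area of the affine disc `t ↦ p + t • τ`, `|t| < R` -/
def dar (G : A → Bil A) (p τ : A) (R : ℝ) : ℝ := ∫ t in ball (0 : ℂ) R, G (p + t • τ) τ τ

end KForm

/-- the point `e^{iθ}` -/
def ci (θ : ℝ) : ℂ := Complex.exp (θ * I)

/-- the model domain touching the origin -/
def Om (K r₀ : ℝ) : Set (ℂ × ℂ) :=
  {q | ‖q.1‖ < r₀ ∧ ‖q.2‖ < r₀ ∧ K * (‖q.1‖ ^ 2 + ‖q.2‖ ^ 2) < (q.1 + q.2).re}

/-- half of a closed bidisc -/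
def Cs (m : ℂ) (ρ : ℝ) : Set (ℂ × ℂ) :=
  {q | ‖q.1 - m‖ ≤ ρ ∧ ‖q.2 - m‖ ≤ ρ ∧ 2 * m.re ≤ (q.1 + q.2).re}

/-! ## C. Spaces with a local product structure -/

/-- the model of a product chart -/
abbrev MM (n₁ n₂ : ℕ) : Type := Model n₁ × Model n₂

/-- an atlas (one chart for each point) whose transition maps are locally products of analytic maps -/
structure PAtlas (X : Type*) [TopologicalSpace X] (n₁ n₂ : ℕ) where
  chart : X → OpenPartialHomeomorph X (MM n₁ n₂)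
  mem : ∀ x, x ∈ (chart x).source
  trans : ∀ p q x, x ∈ (chart p).source → x ∈ (chart q).source →
    ∃ (h₁ : Model n₁ → Model n₁) (h₂ : Model n₂ → Model n₂),
      AnalyticAt ℂ h₁ (chart p x).1 ∧ AnalyticAt ℂ h₂ (chart p x).2 ∧
      ∀ᶠ y in 𝓝 x, chart q y = (h₁ (chart p y).1, h₂ (chart p y).2)

namespace PAtlas
variable {X : Type*} [TopologicalSpace X] {n₁ n₂ : ℕ} (𝒜 : PAtlas X n₁ n₂)
variable {A B : Type*} [NormedAddCommGroup A] [NormedSpace ℂ A] [NormedAddCommGroup B] [NormedSpace ℂ B]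

/-- the same atlas with the two factors exchanged -/
def swap : PAtlas X n₂ n₁ where
  chart x := (𝒜.chart x).transHomeomorph (Homeomorph.prodComm _ _)
  mem x := 𝒜.mem x
  trans p q x hp hq := by
    obtain ⟨h₁, h₂, a₁, a₂, h⟩ := 𝒜.trans p q x hp hq
    refine ⟨h₂, h₁, a₂, a₁, ?_⟩
    filter_upwards [h] with y hy
    change Prod.swap (𝒜.chart q y) = _
    rw [hy]; rfl

/-- `Φ` is holomorphic at `q` -/
def Hol (Φ : A → X) (q : A) : Prop :=
  ContinuousAt Φ q ∧ AnalyticAt ℂ (fun r => 𝒜.chart (Φ q) (Φ r)) q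

/-- `Φ` is holomorphic and of product type at `q` -/
def PT (Φ : A × B → X) (q : A × B) : Prop :=
  ContinuousAt Φ q ∧ ∃ (k₁ : A → Model n₁) (k₂ : B → Model n₂),
    AnalyticAt ℂ k₁ q.1 ∧ AnalyticAt ℂ k₂ q.2 ∧
    ∀ᶠ r in 𝓝 q, 𝒜.chart (Φ q) (Φ r) = (k₁ r.1, k₂ r.2)

/-- `f` is holomorphic and tangent to the first foliation at `a` -/
def T1 (f : A → X) (a : A) : Prop :=
  𝒜.Hol f a ∧ ∀ᶠ r in 𝓝 a, (𝒜.chart (f a) (f r)).2 = (𝒜.chart (f a) (f a)).2

/-- `g` is holomorphic and tangent to the second foliation at `b` -/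
def T2 (g : B → X) (b : B) : Prop :=
  𝒜.Hol g b ∧ ∀ᶠ r in 𝓝 b, (𝒜.chart (g b) (g r)).1 = (𝒜.chart (g b) (g b)).1

/-- the point with first coordinate that of `x` and second coordinate that of `y` (chart `p`) -/
def mix (p x y : X) : X := (𝒜.chart p).symm ((𝒜.chart p x).1, (𝒜.chart p y).2)

/-- `mix p x y` makes sense -/
def MixOK (p x y : X) : Prop :=
  x ∈ (𝒜.chart p).source ∧ y ∈ (𝒜.chart p).source ∧
    ((𝒜.chart p x).1, (𝒜.chart p y).2) ∈ (𝒜.chart p).target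

/-- the rectangle spanned by the base point `o` and `q` -/
def _root_.Crest.Agent.R266.Rect {A B : Type*} [AddCommGroup A] [Module ℝ A] [AddCommGroup B]
    [Module ℝ B] (o q : A × B) : Set (A × B) := segment ℝ o.1 q.1 ×ˢ segment ℝ o.2 q.2

/-- the maximal bi-star-shaped domain of continuation of the germ of `Φ₀` at `o` -/
def Dom [NormedSpace ℝ A] [NormedSpace ℝ B] (Φ₀ : A × B → X) (o : A × B) : Set (A × B) :=
  {q | ∃ Φ : A × B → X, (∀ r ∈ Rect o q, 𝒜.PT Φ r) ∧ Φ =ᶠ[𝓝 o] Φ₀}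

/-- the point of `X` with coordinates within `r j + s` of the centre of chart `j` -/
def boxOf (r : X → ℝ) (j : X) (s : ℝ) : Set X :=
  {x | x ∈ (𝒜.chart j).source ∧ 𝒜.chart j x ∈ ball (𝒜.chart j j) (r j + s)}

/-- a finite system of boxes with a uniform margin -/
structure Boxes where
  J : Finset X
  r : X → ℝ
  δ : ℝ
  δ_pos : 0 < δ
  r_pos : ∀ j ∈ J, 0 < r j
  sub : ∀ j ∈ J, closedBall (𝒜.chart j j) (r j + 3 * δ) ⊆ (𝒜.chart j).target
  cover : ∀ x, ∃ j ∈ J, x ∈ 𝒜.boxOf r j 0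

/-- the box `j` enlarged by `s` -/
def Boxes.box {𝒜 : PAtlas X n₁ n₂} (β : 𝒜.Boxes) (j : X) (s : ℝ) : Set X := 𝒜.boxOf β.r j s

/-- a Kähler metric given in the charts of a product atlas -/
structure Kae where
  g : X → MM n₁ n₂ → Bil (MM n₁ n₂)
  kat : ∀ p, ∀ y ∈ (𝒜.chart p).target, KAt (g p) y
  pos : ∀ p, ∀ y ∈ (𝒜.chart p).target, ∀ u, u ≠ 0 → 0 < g p y u u
  compat : ∀ p q x, x ∈ (𝒜.chart p).source → x ∈ (𝒜.chart q).source → ∀ u v,
    g p (𝒜.chart p x) u v = g q (𝒜.chart q x)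
      (fderiv ℝ (fun y => 𝒜.chart q ((𝒜.chart p).symm y)) (𝒜.chart p x) u)
      (fderiv ℝ (fun y => 𝒜.chart q ((𝒜.chart p).symm y)) (𝒜.chart p x) v)

namespace Kae
variable {𝒜} (𝒦 : 𝒜.Kae)

/-- the pulled back metric -/
def pb {A : Type*} [NormedAddCommGroup A] [NormedSpace ℝ A] (Φ : A → X) (q : A) : Bil A :=
  (𝒦.g (Φ q) (𝒜.chart (Φ q) (Φ q))).bilinearComp
    (fderiv ℝ (fun r => 𝒜.chart (Φ q) (Φ r)) q) (fderiv ℝ (fun r => 𝒜.chart (Φ q) (Φ r)) q)

/-- area of the image of the unit disc -/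
def area (f : ℂ → X) : ℝ := ∫ z in ball (0 : ℂ) 1, 𝒦.pb f z 1 1

/-- length of the image of the unit circle (for holomorphic `f`) -/
def len (f : ℂ → X) : ℝ := ∫ θ in (0 : ℝ)..2 * π, √(𝒦.pb f (ci θ) 1 1)

end Kae

/-! ### maps from a complex manifold `Y` -/

section Man
variable {n : ℕ} {Y : Type*} [TopologicalSpace Y] [ChartedSpace (Model n) Y]

/-- holomorphic at `y` -/
def Holm (n : ℕ) {Y : Type*} [TopologicalSpace Y] [ChartedSpace (Model n) Y] (f : Y → X) (y : Y) : Prop :=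
  𝒜.Hol (fun u => f ((chartAt (Model n) y).symm u)) (chartAt (Model n) y y)

/-- tangent to the first foliation -/
def T1m (n : ℕ) {Y : Type*} [TopologicalSpace Y] [ChartedSpace (Model n) Y] (f : Y → X) (y : Y) : Prop :=
  𝒜.T1 (fun u => f ((chartAt (Model n) y).symm u)) (chartAt (Model n) y y)

/-- tangent to the second foliation -/
def T2m (n : ℕ) {Y : Type*} [TopologicalSpace Y] [ChartedSpace (Model n) Y] (f : Y → X) (y : Y) : Prop :=
  𝒜.T2 (fun u => f ((chartAt (Model n) y).symm u)) (chartAt (Model n) y y)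

/-- product type -/
def PTm (n : ℕ) {Y : Type*} [TopologicalSpace Y] [ChartedSpace (Model n) Y] (M : Y × Y → X) (q : Y × Y) : Prop :=
  𝒜.PT (fun u : Model n × Model n =>
      M ((chartAt (Model n) q.1).symm u.1, (chartAt (Model n) q.2).symm u.2))
    (chartAt (Model n) q.1 q.1, chartAt (Model n) q.2 q.2)

/-- `U` is a coordinate ball -/
def IsBall (n : ℕ) {Y : Type*} [TopologicalSpace Y] [ChartedSpace (Model n) Y] (U : Set Y) : Prop :=
  ∃ (p : Y) (c : Model n) (r : ℝ), ball c r ⊆ (chartAt (Model n) p).target ∧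
    U = (chartAt (Model n) p).symm '' ball c r

/-- the charts of `𝒜` are biholomorphic for the manifold structure of `X` -/
def Compat (n : ℕ) [ChartedSpace (Model n) X] : Prop :=
  ∀ p, ContMDiffOn (mI n) 𝓘(ℂ, MM n₁ n₂) ω (𝒜.chart p) (𝒜.chart p).source ∧
    ContMDiffOn 𝓘(ℂ, MM n₁ n₂) (mI n) ω (𝒜.chart p).symm (𝒜.chart p).target

end Man

end PAtlas

/-! ## D. A projective manifold with a splitting, in charts -/

/-- homogeneous coordinates -/
abbrev HV (N : ℕ) : Type := Fin (N + 1) → ℂ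

/-- charts, the projection field `P` and homogeneous coordinates `c` read in the charts -/
structure SAtlas (X : Type*) [TopologicalSpace X] (n N : ℕ) where
  chart : X → OpenPartialHomeomorph X (Model n)
  mem : ∀ x, x ∈ (chart x).source
  trans : ∀ p q x, x ∈ (chart p).source → x ∈ (chart q).source →
    AnalyticAt ℂ (fun y => chart q ((chart p).symm y)) (chart p x)
  P : X → Model n → Model n →L[ℂ] Model n
  proj : ∀ p, ∀ y ∈ (chart p).target, ProjAt (P p) y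
  compat : ∀ p q x, x ∈ (chart p).source → x ∈ (chart q).source → ∀ v,
    fderiv ℂ (fun y => chart q ((chart p).symm y)) (chart p x) (P p (chart p x) v)
      = P q (chart q x) (fderiv ℂ (fun y => chart q ((chart p).symm y)) (chart p x) v)
  c : X → Model n → HV N
  c_an : ∀ p, ∀ y ∈ (chart p).target, AnalyticAt ℂ (c p) y
  c_ne : ∀ p, ∀ y ∈ (chart p).target, c p y ≠ 0
  c_compat : ∀ p q x, x ∈ (chart p).source → x ∈ (chart q).source →
    ∃ μ : ℂ, c q (chart q x) = μ • c p (chart p x)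
  c_inj : ∀ p q x y, x ∈ (chart p).source → y ∈ (chart q).source →
    (∃ μ : ℂ, c q (chart q y) = μ • c p (chart p x)) → x = y
  c_imm : ∀ p, ∀ y ∈ (chart p).target, ∀ v, (∃ μ : ℂ, fderiv ℂ (c p) y v = μ • c p y) → v = 0

namespace SAtlas
variable {X : Type*} [TopologicalSpace X] {n N : ℕ} (𝒮 : SAtlas X n N)

/-- derivative of the transition map from chart `p` to chart `q` at `x` -/
def D (p q x : X) : Model n →L[ℂ] Model n :=
  fderiv ℂ (fun y => 𝒮.chart q ((𝒮.chart p).symm y)) (𝒮.chart p x)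

/-- `g` is holomorphic at `t` -/
def HolC (g : ℂ → X) (t : ℂ) : Prop :=
  ContinuousAt g t ∧ AnalyticAt ℂ (fun s => 𝒮.chart (g t) (g s)) t

/-- a rational curve -/
structure Curve (g₀ g₁ : ℂ → X) : Prop where
  hol₀ : ∀ t, 𝒮.HolC g₀ t
  hol₁ : ∀ t, 𝒮.HolC g₁ t
  glue : ∀ z : ℂ, z ≠ 0 → g₁ z = g₀ z⁻¹

/-- `w` is a nonzero vector on the line of `x` -/
def On (x : X) (w : HV N) : Prop := w ≠ 0 ∧ ∃ μ : ℂ, w = μ • 𝒮.c x (𝒮.chart x x)

/-- `q` lies in the affine tangent space at `x` -/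
def Tan (x : X) (q : HV N) : Prop :=
  ∃ (v : Model n) (μ : ℂ), q = fderiv ℂ (𝒮.c x) (𝒮.chart x x) v + μ • 𝒮.c x (𝒮.chart x x)

open Classical in
/-- the factor `l` with `w = l • c p x` -/
def lam (p x : X) (w : HV N) : ℂ :=
  if h : ∃ l : ℂ, w = l • 𝒮.c p (𝒮.chart p x) then h.choose else 0

open Classical in
/-- the tangent vector (in chart `p`) at `x` defined by the variation `q` of the lift `w` -/
def vec (p x : X) (w q : HV N) : Model n :=
  if h : ∃ (v : Model n) (μ : ℂ), q = 𝒮.lam p x w • fderiv ℂ (𝒮.c p) (𝒮.chart p x) v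
      + μ • 𝒮.c p (𝒮.chart p x) then h.choose else 0

/-- the covector `w_i dw_j - w_j dw_i` (in chart `p`) -/
def cov (p x : X) (w : HV N) (i j : Fin (N + 1)) : Model n →L[ℂ] ℂ :=
  (𝒮.lam p x w) ^ 2 •
    (𝒮.c p (𝒮.chart p x) i • (ContinuousLinearMap.proj j).comp (fderiv ℂ (𝒮.c p) (𝒮.chart p x))
      - 𝒮.c p (𝒮.chart p x) j • (ContinuousLinearMap.proj i).comp (fderiv ℂ (𝒮.c p) (𝒮.chart p x)))

end SAtlas

/-- a vector valued polynomial of degree `< d` -/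
def ev {N d : ℕ} (a : Fin d → HV N) (t : ℂ) : HV N := ∑ k : Fin d, t ^ (k : ℕ) • a k

/-- a vector valued polynomial of degree `d` with top coefficient `w` -/
def evT {N d : ℕ} (w : HV N) (a : Fin d → HV N) (t : ℂ) : HV N := ev a t + t ^ d • w

namespace SAtlas
variable {X : Type*} [TopologicalSpace X] {n N : ℕ} (𝒮 : SAtlas X n N)

/-- the Zariski tangent space at `a` of the space of polynomial lifts with top coefficient `w` -/
def TanP {d : ℕ} (w : HV N) (a : Fin d → HV N) (q : Fin d → HV N) : Prop :=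
  ∀ (t : ℂ) (x : X), 𝒮.On x (evT w a t) → 𝒮.Tan x (ev q t)

end SAtlas

end Crest.Agent.R266
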