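import Crest.Agent.R266.Stokes

/-!
# Row 266: moving affine discs: finite speed of propagation
-/

set_option autoImplicit false
set_option linter.unusedSectionVars false
set_option linter.unusedVariables false

open MeasureTheory Metric Set Filter Topology Complex
open scoped ContDiff Manifold Real
open Crest.AlgGeometry.HolSplit

noncomputable section

namespace Crest.Agent.R266

variable {A : Type*} [NormedAddCommGroup A] [NormedSpace ℝ A] [NormedSpace ℂ A]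
  [IsScalarTower ℝ ℂ A] {G : A → Bil A} {p ν τ : A} {R₀ R₁ κ : ℝ}

namespace DiscAux

theorem real_smul (a : ℝ) (c : ℂ) (v : A) : ((a : ℂ) * c) • v = a • c • v := by
  rw [mul_smul]
  exact algebraMap_smul ℂ a _

theorem om_right (y u : A) (b : ℝ) (c : ℂ) (v : A) :
    om G y u (((b : ℂ) * c) • v) = b * om G y u (c • v) := by
  rw [real_smul, om, om, map_smul, smul_eq_mul]

theorem om_left (y : A) (a : ℝ) (c : ℂ) (u v : A) :
    om G y (((a : ℂ) * c) • u) v = a * om G y (c • u) v := by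
  rw [om, om, smul_smul, mul_left_comm, real_smul, map_smul, smul_smul]
  rfl

theorem om_add (y u u' v : A) : om G y (u + u') v = om G y u v + om G y u' v := by
  rw [om, om, om, smul_add, map_add]
  rfl

theorem om_ci {y : A} (h : KAt G y) (θ : ℝ) :
    om G y (ci θ • τ) ((I * ci θ) • τ) = G y τ τ := by
  rw [mul_smul, h.om_I, h.smul_smul, norm_ci, one_pow, one_mul]

theorem fderiv_dir {Z : Type*} [NormedAddCommGroup Z] [NormedSpace ℝ Z] {c : Z → A} {γ : ℝ → Z}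
    {t : ℝ} {v : Z} {w : A} (hc : Differentiable ℝ c) (hγ : HasDerivAt γ v t)
    (h : HasDerivAt (fun s => c (γ s)) w t) : fderiv ℝ c (γ t) v = w :=
  ((hc (γ t)).hasFDerivAt.comp_hasDerivAt t hγ).unique h

/-- the family of discs in polar coordinates -/
def cc (p ν τ : A) (R₀ R₁ : ℝ) (z : ℝ × ℝ × ℝ) : A :=
  p + z.2.2 • ν + ((((R₀ + z.2.2 * R₁) * z.1 : ℝ) : ℂ) * ci z.2.1) • τ

theorem contDiff_cc : ContDiff ℝ 2 (cc p ν τ R₀ R₁) := by
  have h1 : ContDiff ℝ 2 fun z : ℝ × ℝ × ℝ => ci z.2.1 :=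
    (contDiff_ci.of_le (WithTop.coe_le_coe.2 (le_top : (2 : ℕ∞) ≤ ⊤))).comp (by fun_prop)
  have h2 : ContDiff ℝ 2 fun z : ℝ × ℝ × ℝ => (((R₀ + z.2.2 * R₁) * z.1 : ℝ) : ℂ) :=
    ofRealCLM.contDiff.comp
      (by fun_prop : ContDiff ℝ 2 fun z : ℝ × ℝ × ℝ => (R₀ + z.2.2 * R₁) * z.1)
  exact (contDiff_const.add ((by fun_prop : ContDiff ℝ 2 fun z : ℝ × ℝ × ℝ => z.2.2).smul
    contDiff_const)).add ((h2.mul h1).smul contDiff_const)

theorem diff_cc : Differentiable ℝ (cc p ν τ R₀ R₁) := contDiff_cc.differentiable (by norm_num)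

theorem cc_r (r θ l : ℝ) : fderiv ℝ (cc p ν τ R₀ R₁) (r, θ, l) (1, 0, 0) =
    (((R₀ + l * R₁ : ℝ) : ℂ) * ci θ) • τ := by
  refine fderiv_dir (γ := fun s => (s, θ, l)) diff_cc
    ((hasDerivAt_id r).prodMk (hasDerivAt_const r (θ, l))) ?_
  have h := ((((hasDerivAt_id r).const_mul (R₀ + l * R₁)).ofReal_comp.mul_const
    (ci θ)).smul_const τ).const_add (p + l • ν)
  rw [mul_one] at h
  exact h

theorem cc_θ (r θ l : ℝ) : fderiv ℝ (cc p ν τ R₀ R₁) (r, θ, l) (0, 1, 0) =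
    ((((R₀ + l * R₁) * r : ℝ) : ℂ) * (I * ci θ)) • τ := by
  refine fderiv_dir (γ := fun s => (r, s, l)) diff_cc
    ((hasDerivAt_const θ r).prodMk ((hasDerivAt_id θ).prodMk (hasDerivAt_const θ l))) ?_
  exact (((hasDerivAt_ci θ).const_mul (((R₀ + l * R₁) * r : ℝ) : ℂ)).smul_const τ).const_add
    (p + l • ν)

theorem cc_l (r θ l : ℝ) : fderiv ℝ (cc p ν τ R₀ R₁) (r, θ, l) (0, 0, 1) =
    ν + (((R₁ * r : ℝ) : ℂ) * ci θ) • τ := by
  refine fderiv_dir (γ := fun s => (r, θ, s)) diff_cc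
    ((hasDerivAt_const l r).prodMk ((hasDerivAt_const l θ).prodMk (hasDerivAt_id l))) ?_
  have h := (((hasDerivAt_id l).smul_const ν).const_add p).add
    (((((((hasDerivAt_id l).mul_const R₁).const_add R₀).mul_const r).ofReal_comp).mul_const
      (ci θ)).smul_const τ)
  rw [one_smul, one_mul] at h
  exact h

theorem mem_closedBall_ci {R r : ℝ} (h0 : 0 ≤ r) (h : r ≤ R) (θ : ℝ) :
    (r : ℂ) * ci θ ∈ closedBall (0 : ℂ) R := by
  rw [mem_closedBall_zero_iff, norm_mul, norm_ci, mul_one, Complex.norm_real, Real.norm_of_nonneg h0]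
  exact h

theorem continuousOn_G {s : Set ℂ} (hG : ∀ t ∈ s, KAt G (p + t • τ)) :
    ContinuousOn (fun t : ℂ => G (p + t • τ) τ τ) s := fun t ht => by
  have h : ContinuousAt (fun t : ℂ => G (p + t • τ)) t :=
    ContinuousAt.comp (f := fun t : ℂ => p + t • τ) (hG t ht).smooth.continuousAt (by fun_prop)
  exact ((h.clm_apply continuousAt_const).clm_apply continuousAt_const).continuousWithinAt

theorem abs_om_le {y : A} (h : KAt G y) (hκ : 0 ≤ κ) (h' : G y ν ν ≤ κ ^ 2 * G y τ τ) (θ : ℝ) :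
    |om G y ν ((I * ci θ) • τ)| ≤ κ * G y τ τ := by
  refine (h.abs_om_le _ _).trans ?_
  rw [h.smul_smul, norm_mul, norm_ci, Complex.norm_I, one_mul, one_pow, one_mul]
  have h1 : √(G y ν ν) ≤ κ * √(G y τ τ) := by
    refine (Real.sqrt_le_sqrt h').trans_eq ?_
    rw [Real.sqrt_mul (sq_nonneg κ), Real.sqrt_sq hκ]
  refine (mul_le_mul_of_nonneg_right h1 (Real.sqrt_nonneg _)).trans_eq ?_
  rw [mul_assoc, Real.mul_self_sqrt (h.nonneg τ)]

theorem radius_nonneg (h₀ : 0 ≤ R₀) (h₁ : 0 ≤ R₀ + R₁) {l : ℝ} (hl : l ∈ Icc (0 : ℝ) 1) :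
    0 ≤ R₀ + l * R₁ := by
  nlinarith [mul_nonneg hl.1 h₁, mul_nonneg (sub_nonneg.2 hl.2) h₀]

end DiscAux

open DiscAux

theorem dar_nonneg {R : ℝ} (hG : ∀ t ∈ ball (0 : ℂ) R, KAt G (p + t • τ)) : 0 ≤ dar G p τ R :=
  setIntegral_nonneg measurableSet_ball fun t ht => (hG t ht).nonneg τ

theorem dar_mono {R R' : ℝ} (h : R ≤ R') (hG : ∀ t ∈ closedBall (0 : ℂ) R', KAt G (p + t • τ)) :
    dar G p τ R ≤ dar G p τ R' := by
  have hi : IntegrableOn (fun t : ℂ => G (p + t • τ) τ τ) (ball 0 R') :=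
    ((continuousOn_G hG).integrableOn_compact (isCompact_closedBall _ _)).mono_set
      ball_subset_closedBall
  refine setIntegral_mono_set hi ?_ (ball_subset_ball h).eventuallyLE
  filter_upwards [ae_restrict_mem measurableSet_ball] with t ht
  exact (hG t (ball_subset_closedBall ht)).nonneg τ

theorem dar_polar {R : ℝ} (hR : 0 ≤ R) (hG : ∀ t ∈ closedBall (0 : ℂ) R, KAt G (p + t • τ)) :
    dar G p τ R = ∫ r in (0 : ℝ)..R, ∫ θ in (0 : ℝ)..2 * π,
      r * G (p + ((r : ℂ) * ci θ) • τ) τ τ :=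
  integral_ball_polar hR (continuousOn_G hG)

theorem DiscAux.dar_eq (h₀ : 0 ≤ R₀) (h₁ : 0 ≤ R₀ + R₁) {l : ℝ} (hl : l ∈ Icc (0 : ℝ) 1)
    (hG : ∀ t ∈ closedBall (0 : ℂ) (R₀ + l * R₁), KAt G (p + l • ν + t • τ)) :
    (∫ r in (0 : ℝ)..1, ∫ θ in (0 : ℝ)..2 * π, om G (cc p ν τ R₀ R₁ (r, θ, l))
      (fderiv ℝ (cc p ν τ R₀ R₁) (r, θ, l) (1, 0, 0))
      (fderiv ℝ (cc p ν τ R₀ R₁) (r, θ, l) (0, 1, 0))) = dar G (p + l • ν) τ (R₀ + l * R₁) := by
  have hR := radius_nonneg h₀ h₁ hl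
  rw [dar_polar hR hG]
  have h := intervalIntegral.smul_integral_comp_mul_left (a := 0) (b := 1)
    (fun r : ℝ => ∫ θ in (0 : ℝ)..2 * π, r * G (p + l • ν + ((r : ℂ) * ci θ) • τ) τ τ) (R₀ + l * R₁)
  rw [mul_zero, mul_one] at h
  rw [← h, smul_eq_mul, ← intervalIntegral.integral_const_mul]
  refine intervalIntegral.integral_congr fun r hr => ?_
  rw [uIcc_of_le zero_le_one] at hr
  rw [← intervalIntegral.integral_const_mul]
  refine intervalIntegral.integral_congr fun θ _ => ?_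
  have hK : KAt G (cc p ν τ R₀ R₁ (r, θ, l)) :=
    hG _ (mem_closedBall_ci (mul_nonneg hR hr.1) (mul_le_of_le_one_right hR hr.2) θ)
  rw [cc_r, cc_θ, om_left, om_right, om_ci hK]
  rfl

/-- variation of the area of the discs with centre `p + l ν` and radius `R₀ + l R₁` -/
theorem dar_sub (h₀ : 0 ≤ R₀) (h₁ : 0 ≤ R₀ + R₁)
    (hG : ∀ l ∈ Icc (0 : ℝ) 1, ∀ t ∈ closedBall (0 : ℂ) (R₀ + l * R₁), KAt G (p + l • ν + t • τ)) :
    dar G (p + ν) τ (R₀ + R₁) - dar G p τ R₀ = ∫ l in (0 : ℝ)..1, ∫ θ in (0 : ℝ)..2 * π,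
      (R₀ + l * R₁) * (R₁ * G (p + l • ν + (((R₀ + l * R₁ : ℝ) : ℂ) * ci θ) • τ) τ τ
        + om G (p + l • ν + (((R₀ + l * R₁ : ℝ) : ℂ) * ci θ) • τ) ν ((I * ci θ) • τ)) := by
  have h := stokes_cube (G := G) (contDiff_cc (p := p) (ν := ν) (τ := τ) (R₀ := R₀) (R₁ := R₁))
    (fun z hz => hG _ hz.2.2 _ (mem_closedBall_ci
      (mul_nonneg (radius_nonneg h₀ h₁ hz.2.2) hz.1.1)
      (mul_le_of_le_one_right (radius_nonneg h₀ h₁ hz.2.2) hz.1.2) _))
    (fun r θ l => by simp only [cc, ci_add_two_pi]) (fun θ l => by simp [cc])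
  rw [dar_eq h₀ h₁ (right_mem_Icc.2 zero_le_one) (hG _ (right_mem_Icc.2 zero_le_one)),
    dar_eq h₀ h₁ (left_mem_Icc.2 zero_le_one) (hG _ (left_mem_Icc.2 zero_le_one)), one_smul,
    one_mul, zero_smul, zero_mul, add_zero, add_zero] at h
  rw [h]
  refine intervalIntegral.integral_congr fun l hl => ?_
  rw [uIcc_of_le zero_le_one] at hl
  refine intervalIntegral.integral_congr fun θ _ => ?_
  have e : cc p ν τ R₀ R₁ (1, θ, l) = p + l • ν + (((R₀ + l * R₁ : ℝ) : ℂ) * ci θ) • τ := by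
    simp only [cc, mul_one]
  have hK := hG l hl _ (mem_closedBall_ci (radius_nonneg h₀ h₁ hl) le_rfl θ)
  rw [cc_l, cc_θ, e, om_right, om_add, om_left, om_ci hK, mul_one, mul_one, add_comm (om _ _ _ _)]

/-- shrinking discs lose area -/
theorem dar_le_of_shrink (h₀ : 0 ≤ R₀) (h₁ : 0 ≤ R₀ + R₁) (hκ : 0 ≤ κ) (hR : R₁ ≤ -κ)
    (hG : ∀ l ∈ Icc (0 : ℝ) 1, ∀ t ∈ closedBall (0 : ℂ) (R₀ + l * R₁), KAt G (p + l • ν + t • τ) ∧
      G (p + l • ν + t • τ) ν ν ≤ κ ^ 2 * G (p + l • ν + t • τ) τ τ) :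
    dar G (p + ν) τ (R₀ + R₁) ≤ dar G p τ R₀ := by
  rw [← sub_nonpos, dar_sub h₀ h₁ fun l hl t ht => (hG l hl t ht).1, ← neg_nonneg,
    ← intervalIntegral.integral_neg]
  refine intervalIntegral.integral_nonneg zero_le_one fun l hl => ?_
  rw [← intervalIntegral.integral_neg]
  refine intervalIntegral.integral_nonneg (by positivity) fun θ _ => ?_
  have hR' := radius_nonneg h₀ h₁ hl
  obtain ⟨hK, hb⟩ := hG l hl _ (mem_closedBall_ci hR' le_rfl θ)
  have h1 := (abs_le.1 (abs_om_le hK hκ hb θ)).2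
  have h2 := mul_le_mul_of_nonneg_right hR (hK.nonneg τ)
  rw [neg_nonneg]
  exact mul_nonpos_of_nonneg_of_nonpos hR' (by linarith)

/-- growing discs gain area -/
theorem dar_le_of_grow (h₀ : 0 ≤ R₀) (hκ : 0 ≤ κ) (hR : κ ≤ R₁)
    (hG : ∀ l ∈ Icc (0 : ℝ) 1, ∀ t ∈ closedBall (0 : ℂ) (R₀ + l * R₁), KAt G (p + l • ν + t • τ) ∧
      G (p + l • ν + t • τ) ν ν ≤ κ ^ 2 * G (p + l • ν + t • τ) τ τ) :
    dar G p τ R₀ ≤ dar G (p + ν) τ (R₀ + R₁) := by
  have h₁ : 0 ≤ R₀ + R₁ := by linarith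
  rw [← sub_nonneg, dar_sub h₀ h₁ fun l hl t ht => (hG l hl t ht).1]
  refine intervalIntegral.integral_nonneg zero_le_one fun l hl => ?_
  refine intervalIntegral.integral_nonneg (by positivity) fun θ _ => ?_
  have hR' := radius_nonneg h₀ h₁ hl
  obtain ⟨hK, hb⟩ := hG l hl _ (mem_closedBall_ci hR' le_rfl θ)
  have h1 := (abs_le.1 (abs_om_le hK hκ hb θ)).1
  have h2 := mul_le_mul_of_nonneg_right hR (hK.nonneg τ)
  exact mul_nonneg hR' (by linarith)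

end Crest.Agent.R266
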