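import Crest.Agent.R266.Ident

/-!
# Row 266: the maximal bi-star-shaped domain of continuation
-/

set_option autoImplicit false
set_option linter.unusedSectionVars false
set_option linter.unusedVariables false

open MeasureTheory Metric Set Filter Topology Complex
open scoped ContDiff Manifold Real
open Crest.AlgGeometry.HolSplit

noncomputable section

namespace Crest.Agent.R266

section
variable {A B : Type*} [NormedAddCommGroup A] [NormedSpace ℝ A] [NormedAddCommGroup B]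
  [NormedSpace ℝ B]
theorem left_mem_Rect (o q : A × B) : o ∈ Rect o q :=
  ⟨left_mem_segment _ _ _, left_mem_segment _ _ _⟩
theorem right_mem_Rect (o q : A × B) : q ∈ Rect o q :=
  ⟨right_mem_segment _ _ _, right_mem_segment _ _ _⟩
theorem convex_Rect (o q : A × B) : Convex ℝ (Rect o q) :=
  (convex_segment _ _).prod (convex_segment _ _)
theorem isCompact_Rect (o q : A × B) : IsCompact (Rect o q) := by
  refine IsCompact.prod ?_ ?_ <;> rw [segment_eq_image] <;>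
    exact isCompact_Icc.image (by fun_prop)
theorem Rect_mono {o q r : A × B} (h : r ∈ Rect o q) : Rect o r ⊆ Rect o q :=
  prod_mono ((convex_segment _ _).segment_subset (left_mem_segment _ _ _) h.1)
    ((convex_segment _ _).segment_subset (left_mem_segment _ _ _) h.2)
theorem isOpen_Rect_subset (o : A × B) {U : Set (A × B)} (hU : IsOpen U) :
    IsOpen {q | Rect o q ⊆ U} := by
  let F : (A × B) × (ℝ × ℝ) → A × B := fun z =>
    ((1 - z.2.1) • o.1 + z.2.1 • z.1.1, (1 - z.2.2) • o.2 + z.2.2 • z.1.2)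
  have hF : Continuous F := by fun_prop
  have key : ∀ q, Rect o q ⊆ U ↔ ∀ t ∈ Icc (0 : ℝ) 1 ×ˢ Icc (0 : ℝ) 1, F (q, t) ∈ U := fun q => by
    rw [Rect, segment_eq_image, segment_eq_image]
    constructor
    · exact fun h t ht => h ⟨⟨_, ht.1, rfl⟩, ⟨_, ht.2, rfl⟩⟩
    · rintro h ⟨a, b⟩ ⟨⟨s, hs, rfl⟩, ⟨t, ht, rfl⟩⟩
      exact h (s, t) ⟨hs, ht⟩
  simp only [key]
  refine isOpen_iff_mem_nhds.2 fun q hq => ?_
  exact (isCompact_Icc.prod isCompact_Icc).eventually_forall_of_forall_eventually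
    (P := fun q t => F (q, t) ∈ U) fun t ht => hF.continuousAt.preimage_mem_nhds
      (hU.mem_nhds (hq t ht))
end

namespace PAtlas
variable {X : Type*} [TopologicalSpace X] {n₁ n₂ : ℕ} {𝒜 : PAtlas X n₁ n₂}
variable {A B A' B' : Type*} [NormedAddCommGroup A] [NormedSpace ℂ A] [NormedAddCommGroup B]
  [NormedSpace ℂ B] [NormedAddCommGroup A'] [NormedSpace ℂ A'] [NormedAddCommGroup B']
  [NormedSpace ℂ B']

variable [NormedSpace ℝ A] [NormedSpace ℝ B] [T2Space X] {Φ₀ : A × B → X} {o : A × B}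

theorem isOpen_setOf_pt_domL (Φ : A × B → X) : IsOpen {r | 𝒜.PT Φ r} :=
  isOpen_iff_mem_nhds.2 fun _ hr => PT.eventually hr
theorem isOpen_dom : IsOpen (𝒜.Dom Φ₀ o) := by
  refine isOpen_iff_mem_nhds.2 fun q ⟨Φ, hΦ, h₀⟩ => ?_
  filter_upwards [(isOpen_Rect_subset o (isOpen_setOf_pt_domL Φ)).mem_nhds hΦ] with r hr
  exact ⟨Φ, hr, h₀⟩
theorem Rect_subset_dom {q : A × B} (hq : q ∈ 𝒜.Dom Φ₀ o) : Rect o q ⊆ 𝒜.Dom Φ₀ o := fun _ hr =>
  hq.imp fun _ hΦ => ⟨fun s hs => hΦ.1 s (Rect_mono hr hs), hΦ.2⟩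
theorem mem_dom_self (h : 𝒜.PT Φ₀ o) : o ∈ 𝒜.Dom Φ₀ o := by
  refine ⟨Φ₀, fun r hr => ?_, EventuallyEq.rfl⟩
  rw [Rect, segment_same, segment_same] at hr
  rwa [show r = o from Prod.ext hr.1 hr.2]

/-- the maximal continuation -/
theorem exists_max (h : 𝒜.PT Φ₀ o) :
    ∃ Φ : A × B → X, (∀ q ∈ 𝒜.Dom Φ₀ o, 𝒜.PT Φ q) ∧ Φ =ᶠ[𝓝 o] Φ₀ := by
  classical
  have key : ∀ q ∈ 𝒜.Dom Φ₀ o, ∀ Ψ : A × B → X, (∀ r ∈ Rect o q, 𝒜.PT Ψ r) → Ψ =ᶠ[𝓝 o] Φ₀ →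
      (fun r => if hr : r ∈ 𝒜.Dom Φ₀ o then hr.choose r else Φ₀ r) =ᶠ[𝓝 q] Ψ := by
    intro q hq Ψ hΨ h₀
    filter_upwards [(isOpen_Rect_subset o (isOpen_setOf_pt_domL Ψ)).mem_nhds hΨ] with r hr
    have hr' : r ∈ 𝒜.Dom Φ₀ o := ⟨Ψ, hr, h₀⟩
    rw [dif_pos hr']
    exact (Hol.eventuallyEq_of_preconnected (convex_Rect o r).isPreconnected
      (fun s hs => (hr'.choose_spec.1 s hs).hol) (fun s hs => PT.hol (hr hs)) (left_mem_Rect o r)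
      (hr'.choose_spec.2.trans h₀.symm) (right_mem_Rect o r)).eq_of_nhds
  refine ⟨_, fun q hq => ?_, key o (mem_dom_self h) Φ₀ (fun r hr => ?_) EventuallyEq.rfl⟩
  · obtain ⟨Ψ, hΨ, h₀⟩ := id hq
    exact (hΨ q (right_mem_Rect o q)).congr (key q hq Ψ hΨ h₀)
  · rw [Rect, segment_same, segment_same] at hr
    rwa [show r = o from Prod.ext hr.1 hr.2]

theorem mem_dom_of_glue {Φ₁ Φ₂ : A × B → X} {K₁ K₂ : Set (A × B)} {q : A × B}
    (h₁ : IsCompact K₁) (h₂ : IsCompact K₂) (hK : Rect o q ⊆ K₁ ∪ K₂) (ho : o ∈ K₁)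
    (hΦ₁ : ∀ r ∈ K₁, 𝒜.PT Φ₁ r) (hΦ₂ : ∀ r ∈ K₂, 𝒜.PT Φ₂ r) (h₀ : Φ₁ =ᶠ[𝓝 o] Φ₀)
    (h : ∀ r ∈ K₁ ∩ K₂, Φ₁ =ᶠ[𝓝 r] Φ₂) : q ∈ 𝒜.Dom Φ₀ o := by
  obtain ⟨Φ, e₁, e₂⟩ := exists_glue h₁ h₂ h
  exact ⟨Φ, fun r hr => (hK hr).elim (fun hr => (hΦ₁ r hr).congr (e₁ r hr))
    fun hr => (hΦ₂ r hr).congr (e₂ r hr), (e₁ o ho).trans h₀⟩

end PAtlas

end Crest.Agent.R266
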