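import Crest.Agent.R266.DomL

/-!
# Row 266: continuation along leaves and over corners
-/

set_option autoImplicit false
set_option linter.unusedSectionVars false
set_option linter.unusedVariables false

open MeasureTheory Metric Set Filter Topology Complex
open scoped ContDiff Manifold Real
open Crest.AlgGeometry.HolSplit

noncomputable section

namespace Crest.Agent.R266

namespace DomX
variable {E : Type*} [NormedAddCommGroup E] [NormedSpace ℝ E]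

theorem seg_lineMap (x a : E) (s t : ℝ) :
    segment ℝ (AffineMap.lineMap x a s) (AffineMap.lineMap x a t) =
      AffineMap.lineMap x a '' uIcc s t := by
  rw [← segment_eq_uIcc, image_segment]

theorem seg_sub {x a u v : E} (hu : u ∈ segment ℝ x a) (hv : v ∈ segment ℝ x a) :
    segment ℝ x v ⊆ segment ℝ x u ∪ segment ℝ u v := by
  rw [segment_eq_image_lineMap] at hu hv
  obtain ⟨s, -, rfl⟩ := hu
  obtain ⟨t, -, rfl⟩ := hv
  have h1 := seg_lineMap x a 0 t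
  have h2 := seg_lineMap x a 0 s
  rw [AffineMap.lineMap_apply_zero] at h1 h2
  rw [h1, h2, seg_lineMap, ← image_union]
  exact image_mono uIcc_subset_uIcc_union_uIcc

theorem exists_near {x y : E} (h : y ≠ x) {δ : ℝ} (hδ : 0 < δ) :
    ∃ z ∈ segment ℝ x y, z ∈ ball y δ ∧ y ∉ segment ℝ x z := by
  have hc : Tendsto (AffineMap.lineMap x y : ℝ → E) (𝓝 1) (𝓝 y) :=
    (AffineMap.lineMap_continuous (p := x) (q := y)).tendsto' _ _ (AffineMap.lineMap_apply_one _ _)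
  have h1 : ∀ᶠ s in 𝓝[<] (1 : ℝ), AffineMap.lineMap x y s ∈ ball y δ :=
    nhdsWithin_le_nhds (hc.eventually (ball_mem_nhds y hδ))
  obtain ⟨s, hs, hs0, hs1⟩ := (h1.and (Ioo_mem_nhdsLT (zero_lt_one' ℝ))).exists
  refine ⟨_, ?_, hs, ?_⟩
  · rw [segment_eq_image_lineMap]
    exact ⟨s, ⟨hs0.le, hs1.le⟩, rfl⟩
  · have h2 := seg_lineMap x y 0 s
    rw [AffineMap.lineMap_apply_zero] at h2
    rw [h2]
    rintro ⟨t, ht, h3⟩
    have h4 : t = 1 := AffineMap.lineMap_injective ℝ h.symm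
      (h3.trans (AffineMap.lineMap_apply_one x y).symm)
    rw [uIcc_of_le hs0.le, h4] at ht
    linarith [ht.2]

end DomX

namespace PAtlas
variable {X : Type*} [TopologicalSpace X] {n₁ n₂ : ℕ} {𝒜 : PAtlas X n₁ n₂}
variable {A B A' B' : Type*} [NormedAddCommGroup A] [NormedSpace ℂ A] [NormedAddCommGroup B]
  [NormedSpace ℂ B] [NormedAddCommGroup A'] [NormedSpace ℂ A'] [NormedAddCommGroup B']
  [NormedSpace ℂ B']

variable [NormedSpace ℝ A] [NormedSpace ℝ B] [T2Space X] {Φ₀ : A × B → X} {o : A × B}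

/-- one step of the continuation along a leaf -/
theorem cross_step {f : A → X} {a : A} (hf : ∀ r ∈ segment ℝ o.1 a, 𝒜.T1 f r)
    (h₀ : (fun r => Φ₀ (r, o.2)) =ᶠ[𝓝 o.1] f) {p : X} {N : Set A} (hN : Convex ℝ N)
    {c : Model n₂} (hp : ∀ r ∈ N, f r ∈ (𝒜.chart p).source ∧ (𝒜.chart p (f r)).2 = c)
    {u v : A} (hu : u ∈ segment ℝ o.1 a) (hv : v ∈ segment ℝ o.1 a) (huN : u ∈ N) (hvN : v ∈ N)
    (hD : (u, o.2) ∈ 𝒜.Dom Φ₀ o) : (v, o.2) ∈ 𝒜.Dom Φ₀ o := by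
  obtain ⟨Φ, hΦ, he⟩ := hD
  have hsub : segment ℝ o.1 u ⊆ segment ℝ o.1 a :=
    (convex_segment _ _).segment_subset (left_mem_segment _ _ _) hu
  have hΦu : 𝒜.PT Φ (u, o.2) := hΦ _ (right_mem_Rect _ _)
  have c₁ : Tendsto (fun r : A => (r, o.2)) (𝓝 o.1) (𝓝 o) :=
    (continuous_id.prodMk continuous_const).tendsto' _ _ rfl
  have hfu : (fun r => Φ (r, o.2)) =ᶠ[𝓝 u] f := by
    refine Hol.eventuallyEq_of_preconnected (𝒜 := 𝒜) (convex_segment o.1 u).isPreconnected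
      (fun r hr => (hΦ (r, o.2) ⟨hr, left_mem_segment _ _ _⟩).t1.1) (fun r hr => (hf r (hsub hr)).1)
      (left_mem_segment _ _ _) ?_ (right_mem_segment _ _ _)
    filter_upwards [c₁.eventually he, h₀] with r h1 h2
    rw [← h2]; exact h1
  have h0 : Φ (u, o.2) = f u := hfu.self_of_nhds
  have hK₂ : ∀ r ∈ Rect (u, o.2) (v, o.2),
      𝒜.PT (fun q => 𝒜.mix p (f q.1) (Φ (u, q.2))) r := by
    rintro ⟨w, b⟩ ⟨h1, h2⟩
    rw [segment_same, mem_singleton_iff] at h2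
    simp only at h1 h2
    subst h2
    have h3 := hp w (hN.segment_subset huN hvN h1)
    have h4 := hp u huN
    refine pt_mix (g := fun b => Φ (u, b)) (hf w ((convex_segment _ _).segment_subset hu hv h1)).1
      hΦu.t2.1 ?_
    simp only [h0]
    refine ⟨h3.1, h4.1, ?_⟩
    rw [h4.2, ← h3.2]
    exact (𝒜.chart p).map_source h3.1
  refine mem_dom_of_glue (isCompact_Rect o (u, o.2)) (isCompact_Rect (u, o.2) (v, o.2)) ?_
    (left_mem_Rect _ _) hΦ hK₂ he fun r hr => ?_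
  · rintro ⟨w, b⟩ ⟨h1, h2⟩
    rcases DomX.seg_sub hu hv h1 with h3 | h3
    · exact Or.inl ⟨h3, h2⟩
    · exact Or.inr ⟨h3, h2⟩
  · refine Hol.eventuallyEq_of_preconnected (𝒜 := 𝒜)
      ((convex_Rect o (u, o.2)).inter (convex_Rect (u, o.2) (v, o.2))).isPreconnected
      (fun r hr => (hΦ r hr.1).hol)
      (fun r hr => (hK₂ r hr.2).hol) (q₀ := (u, o.2))
      ⟨right_mem_Rect _ _, left_mem_Rect _ _⟩ ?_ hr
    have c₂ : Tendsto (Prod.fst : A × B → A) (𝓝 (u, o.2)) (𝓝 u) := continuousAt_fst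
    filter_upwards [hΦu.eq_mix (p := p) (h0 ▸ (hp u huN).1), c₂.eventually hfu] with q h1 h2
    rw [h1, h2]

/-- continuation along a leaf of the first foliation -/
theorem cross₁ (h : 𝒜.PT Φ₀ o) {f : A → X} {a : A} (hf : ∀ r ∈ segment ℝ o.1 a, 𝒜.T1 f r)
    (h₀ : (fun r => Φ₀ (r, o.2)) =ᶠ[𝓝 o.1] f) : (a, o.2) ∈ 𝒜.Dom Φ₀ o := by
  have key := (convex_segment o.1 a).isPreconnected.induction₂'
    (fun u v => (u, o.2) ∈ 𝒜.Dom Φ₀ o → (v, o.2) ∈ 𝒜.Dom Φ₀ o) (fun c hc => ?_)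
    (fun _ _ _ _ _ _ h1 h2 h3 => h2 (h1 h3)) (left_mem_segment ℝ o.1 a) (right_mem_segment ℝ o.1 a)
  · exact key (mem_dom_self h)
  · obtain ⟨ε, hε, hb⟩ := Metric.eventually_nhds_iff_ball.1
      ((aux_ev (hf c hc).1.1 (𝒜.mem (f c))).and (hf c hc).2)
    filter_upwards [nhdsWithin_le_nhds (ball_mem_nhds c hε), self_mem_nhdsWithin] with v h1 h2
    exact ⟨cross_step hf h₀ (convex_ball c ε) hb hc h2 (mem_ball_self hε) h1,
      cross_step hf h₀ (convex_ball c ε) hb h2 hc h1 (mem_ball_self hε)⟩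

/-- continuation along a leaf of the second foliation -/
theorem cross₂ (h : 𝒜.PT Φ₀ o) {g : B → X} {b : B} (hg : ∀ r ∈ segment ℝ o.2 b, 𝒜.T2 g r)
    (h₀ : (fun r => Φ₀ (o.1, r)) =ᶠ[𝓝 o.2] g) : (o.1, b) ∈ 𝒜.Dom Φ₀ o := by
  obtain ⟨Φ, hΦ, he⟩ := cross₁ (𝒜 := 𝒜.swap) (Φ₀ := fun q : B × A => Φ₀ (q.2, q.1))
    (o := (o.2, o.1)) (pt_swap.2 h) (f := g) (a := b) (fun r hr => t1_swap.2 (hg r hr)) h₀
  refine ⟨fun r => Φ (r.2, r.1), fun r hr => ?_, ?_⟩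
  · exact (pt_swap (Φ := fun r : A × B => Φ (r.2, r.1))).1 (hΦ (r.2, r.1) ⟨hr.2, hr.1⟩)
  · have c : Tendsto (fun r : A × B => (r.2, r.1)) (𝓝 o) (𝓝 (o.2, o.1)) :=
      continuous_swap.tendsto o
    exact c.eventually he

/-- continuation over a corner at which the map has a limit -/
theorem corner {Φ : A × B → X} {q : A × B} (h₁ : q.1 ≠ o.1) (h₂ : q.2 ≠ o.2)
    (hΦ : ∀ r ∈ Rect o q \ {q}, 𝒜.PT Φ r) (h₀ : Φ =ᶠ[𝓝 o] Φ₀) {x : X}
    (hx : Tendsto Φ (𝓝[Rect o q \ {q}] q) (𝓝 x)) : q ∈ 𝒜.Dom Φ₀ o := by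
  have hm := 𝒜.mem x
  obtain ⟨ε, hε, hb⟩ := Metric.isOpen_iff.1 (𝒜.chart x).open_target _ ((𝒜.chart x).map_source hm)
  have hU : ∀ᶠ y in 𝓝 x, y ∈ (𝒜.chart x).source ∧ 𝒜.chart x y ∈ ball (𝒜.chart x x) ε :=
    Filter.Eventually.and ((𝒜.chart x).open_source.mem_nhds hm)
      (((𝒜.chart x).continuousAt hm).eventually (ball_mem_nhds _ hε))
  obtain ⟨δ, hδ, hd⟩ := Metric.eventually_nhds_iff_ball.1
    (eventually_nhdsWithin_iff.1 (hx.eventually hU))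
  obtain ⟨a₁, ha, ha₁, ha₂⟩ := DomX.exists_near h₁ hδ
  obtain ⟨b₁, hb', hb₁, hb₂⟩ := DomX.exists_near h₂ hδ
  have sa : segment ℝ o.1 a₁ ⊆ segment ℝ o.1 q.1 :=
    (convex_segment _ _).segment_subset (left_mem_segment _ _ _) ha
  have sb : segment ℝ o.2 b₁ ⊆ segment ℝ o.2 q.2 :=
    (convex_segment _ _).segment_subset (left_mem_segment _ _ _) hb'
  have hR₁ : ∀ r ∈ Rect o (a₁, q.2), r ∈ Rect o q \ {q} := fun r hr =>
    ⟨⟨sa hr.1, hr.2⟩, fun h => ha₂ (by have := hr.1; rwa [mem_singleton_iff.1 h] at this)⟩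
  have hR₂ : ∀ r ∈ Rect o (q.1, b₁), r ∈ Rect o q \ {q} := fun r hr =>
    ⟨⟨hr.1, sb hr.2⟩, fun h => hb₂ (by have := hr.2; rwa [mem_singleton_iff.1 h] at this)⟩
  have hK₂ : ∀ r ∈ Rect (a₁, b₁) q,
      𝒜.PT (fun r => 𝒜.mix x (Φ (r.1, b₁)) (Φ (a₁, r.2))) r := by
    rintro ⟨w, z⟩ ⟨h1, h2⟩
    have m₁ : (w, b₁) ∈ Rect o q \ {q} := hR₂ _
      ⟨(convex_segment _ _).segment_subset ha (right_mem_segment _ _ _) h1, right_mem_segment _ _ _⟩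
    have m₂ : (a₁, z) ∈ Rect o q \ {q} := hR₁ _
      ⟨right_mem_segment _ _ _, (convex_segment _ _).segment_subset hb' (right_mem_segment _ _ _) h2⟩
    have n₁ : (w, b₁) ∈ ball q δ := by
      rw [← ball_prod_same]
      exact ⟨(convex_ball _ _).segment_subset ha₁ (mem_ball_self hδ) h1, hb₁⟩
    have n₂ : (a₁, z) ∈ ball q δ := by
      rw [← ball_prod_same]
      exact ⟨ha₁, (convex_ball _ _).segment_subset hb₁ (mem_ball_self hδ) h2⟩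
    obtain ⟨u₁, u₂⟩ := hd _ n₁ m₁
    obtain ⟨v₁, v₂⟩ := hd _ n₂ m₂
    refine pt_mix (f := fun r => Φ (r, b₁)) (g := fun r => Φ (a₁, r)) (hΦ _ m₁).t1.1
      (hΦ _ m₂).t2.1 ⟨u₁, v₁, hb ?_⟩
    rw [← ball_prod_same] at u₂ v₂ ⊢
    exact ⟨u₂.1, v₂.2⟩
  have m₀ : (a₁, b₁) ∈ Rect o q \ {q} := hR₁ _ ⟨right_mem_segment _ _ _, hb'⟩
  have n₀ : (a₁, b₁) ∈ ball q δ := by
    rw [← ball_prod_same]
    exact ⟨ha₁, hb₁⟩
  have e₀ : Φ =ᶠ[𝓝 (a₁, b₁)] fun r => 𝒜.mix x (Φ (r.1, b₁)) (Φ (a₁, r.2)) :=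
    (hΦ _ m₀).eq_mix (hd _ n₀ m₀).1
  refine mem_dom_of_glue ((isCompact_Rect o (a₁, q.2)).union (isCompact_Rect o (q.1, b₁)))
    (isCompact_Rect (a₁, b₁) q) ?_ (Or.inl (left_mem_Rect _ _))
    (fun r hr => hΦ r (hr.elim (hR₁ r) (hR₂ r))) hK₂ h₀ fun r hr => ?_
  · rintro ⟨w, z⟩ ⟨h1, h2⟩
    rcases DomX.seg_sub ha (right_mem_segment _ _ _) h1 with h3 | h3
    · exact Or.inl (Or.inl ⟨h3, h2⟩)
    · rcases DomX.seg_sub hb' (right_mem_segment _ _ _) h2 with h4 | h4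
      · exact Or.inl (Or.inr ⟨h1, h4⟩)
      · exact Or.inr ⟨h3, h4⟩
  · rcases hr.1 with h1 | h1
    · exact Hol.eventuallyEq_of_preconnected (𝒜 := 𝒜)
        ((convex_Rect o (a₁, q.2)).inter (convex_Rect (a₁, b₁) q)).isPreconnected
        (fun r hr => (hΦ r (hR₁ r hr.1)).hol) (fun r hr => (hK₂ r hr.2).hol) (q₀ := (a₁, b₁))
        ⟨⟨right_mem_segment _ _ _, hb'⟩, left_mem_Rect _ _⟩ e₀ ⟨h1, hr.2⟩
    · exact Hol.eventuallyEq_of_preconnected (𝒜 := 𝒜)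
        ((convex_Rect o (q.1, b₁)).inter (convex_Rect (a₁, b₁) q)).isPreconnected
        (fun r hr => (hΦ r (hR₂ r hr.1)).hol) (fun r hr => (hK₂ r hr.2).hol) (q₀ := (a₁, b₁))
        ⟨⟨ha, right_mem_segment _ _ _⟩, left_mem_Rect _ _⟩ e₀ ⟨h1, hr.2⟩

end PAtlas

end Crest.Agent.R266
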