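import Crest.Agent.R266.Global

/-!
# Row 266: the global product type map
-/

set_option autoImplicit false
set_option linter.unusedSectionVars false
set_option linter.unusedVariables false

open MeasureTheory Metric Set Filter Topology Complex
open scoped ContDiff Manifold Real
open Crest.AlgGeometry.HolSplit

noncomputable section

namespace Crest.Agent.R266

namespace PAtlas

namespace G2
variable {X : Type*} [TopologicalSpace X] {n₁ n₂ : ℕ}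
variable {n : ℕ} {Y : Type*} [TopologicalSpace Y] [ChartedSpace (Model n) Y] [IsManifold (mI n) ω Y]

/-- solvability of the Goursat problem on products of coordinate balls -/
def GP (𝒜 : PAtlas X n₁ n₂) (n : ℕ) (Y : Type*) [TopologicalSpace Y] [ChartedSpace (Model n) Y] :
    Prop :=
  ∀ (U U' : Set Y) (f g : Y → X) (x y : Y), IsBall n U → IsBall n U' → x ∈ U → y ∈ U' →
    (∀ a ∈ U, 𝒜.T1m n f a) → (∀ b ∈ U', 𝒜.T2m n g b) → f x = g y →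
    ∃ M : Y × Y → X, (∀ q ∈ U ×ˢ U', 𝒜.PTm n M q) ∧ (∀ a ∈ U, M (a, y) = f a) ∧
      ∀ b ∈ U', M (x, b) = g b

variable {𝒜 : PAtlas X n₁ n₂}

theorem ptm_swap {M : Y × Y → X} {a b : Y} :
    𝒜.swap.PTm n (fun q : Y × Y => M (q.2, q.1)) (b, a) ↔ 𝒜.PTm n M (a, b) :=
  pt_swap (𝒜 := 𝒜) (Φ := fun u : Model n × Model n =>
    M ((chartAt (Model n) a).symm u.1, (chartAt (Model n) b).symm u.2))

theorem GP.swap (h : GP 𝒜 n Y) : GP 𝒜.swap n Y := by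
  intro U U' f g x y hU hU' hx hy hf hg hfg
  obtain ⟨M, hM, h1, h2⟩ := h U' U g f y x hU' hU hy hx (fun a ha => t2_swap.1 (hg a ha))
    (fun b hb => t1_swap.1 (hf b hb)) hfg.symm
  exact ⟨fun q => M (q.2, q.1), fun q hq => ptm_swap.2 (hM (q.2, q.1) ⟨hq.2, hq.1⟩), h2, h1⟩

theorem isPreconnected_ball {U : Set Y} (h : IsBall n U) : IsPreconnected U := by
  obtain ⟨p, c, r, hs, rfl⟩ := h
  exact (convex_ball c r).isPreconnected.image _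
    ((chartAt (Model n) p).continuousOn_symm.mono hs)

theorem ptm_ident [T2Space X] {M M' : Y × Y → X} {K : Set (Y × Y)} (hK : IsPreconnected K)
    (hM : ∀ q ∈ K, 𝒜.PTm n M q) (hM' : ∀ q ∈ K, 𝒜.PTm n M' q) {q₀ : Y × Y} (hq₀ : q₀ ∈ K)
    (h : M =ᶠ[𝓝 q₀] M') {q : Y × Y} (hq : q ∈ K) : M =ᶠ[𝓝 q] M' := by
  have hO : IsOpen {z | M =ᶠ[𝓝 z] M'} := isOpen_setOfPred_eventually_nhds
  exact hK.subset_of_closure_inter_subset hO ⟨q₀, hq₀, h⟩ (fun z hz =>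
    (hM z hz.2).eventuallyEq_of_frequently (hM' z hz.2) (mem_closure_iff_frequently.1 hz.1)) hq

/-- transport of a germ along `U × {y}` -/
theorem transport [T2Space X] {M M' : Y × Y → X} {U : Set Y} (hU : IsBall n U) {x x' y : Y}
    (hx : x ∈ U) (hx' : x' ∈ U) (hM : ∀ a ∈ U, 𝒜.PTm n M (a, y))
    (hM' : ∀ a ∈ U, 𝒜.PTm n M' (a, y)) (h : M =ᶠ[𝓝 (x, y)] M') :
    (fun b => M (x', b)) =ᶠ[𝓝 y] fun b => M' (x', b) := by
  have hK : IsPreconnected (U ×ˢ ({y} : Set Y)) :=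
    (isPreconnected_ball hU).prod isPreconnected_singleton
  have h1 : M =ᶠ[𝓝 (x', y)] M' := by
    refine ptm_ident (𝒜 := 𝒜) (n := n) hK ?_ ?_ (q₀ := (x, y)) ⟨hx, rfl⟩ h ⟨hx', rfl⟩
    · rintro ⟨a, b⟩ ⟨ha, hb⟩
      obtain rfl : b = y := hb
      exact hM a ha
    · rintro ⟨a, b⟩ ⟨ha, hb⟩
      obtain rfl : b = y := hb
      exact hM' a ha
  have c : Tendsto (fun b : Y => (x', b)) (𝓝 y) (𝓝 (x', y)) :=
    (continuous_const.prodMk continuous_id).tendsto' _ _ rfl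
  exact c.eventually h1

/-- slices reachable from the diagonal -/
inductive R2 (𝒜 : PAtlas X n₁ n₂) (n : ℕ) {Y : Type*} [TopologicalSpace Y]
    [ChartedSpace (Model n) Y] (pr : Y → X) : Set Y → (Y → X) → Prop
  | diag (U : Set Y) (j : X) (x : Y) (hU : IsBall n U)
      (hj : ∀ a ∈ U, ∀ b ∈ U, 𝒜.MixOK j (pr a) (pr b)) (hx : x ∈ U) :
      R2 𝒜 n pr U (fun y => 𝒜.mix j (pr x) (pr y))
  | trans (U₀ U : Set Y) (x x' : Y) (M : Y × Y → X) (g : Y → X) (hU₀ : IsBall n U₀)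
      (hx : x ∈ U₀) (hx' : x' ∈ U₀) (hM : ∀ q ∈ U₀ ×ˢ U, 𝒜.PTm n M q) (hg : R2 𝒜 n pr U g)
      (he : ∀ b ∈ U, M (x, b) = g b) : R2 𝒜 n pr U (fun y => M (x', y))

theorem R2.isBall {pr : Y → X} {U : Set Y} {g : Y → X} (h : R2 𝒜 n pr U g) : IsBall n U := by
  induction h with
  | diag U j x hU hj hx => exact hU
  | trans U₀ U x x' M g hU₀ hx hx' hM hg he ih => exact ih

theorem R2.t2m {pr : Y → X} (hpr : ∀ y, 𝒜.Holm n pr y) {U : Set Y} {g : Y → X}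
    (h : R2 𝒜 n pr U g) : ∀ b ∈ U, 𝒜.T2m n g b := by
  cases h with
  | diag _ j x hU hj hx =>
    exact fun b hb => (ptm_mix (hpr x) (hpr b) (hj x hx b hb)).t2m
  | trans U₀ _ x x' M g hU₀ hx hx' hM hg he => exact fun b hb => (hM (x', b) ⟨hx', hb⟩).t2m

theorem R2.ext [T2Space X] (hG : GP 𝒜 n Y) {pr : Y → X} (hpr : ∀ y, 𝒜.Holm n pr y)
    {U : Set Y} {g : Y → X} (h : R2 𝒜 n pr U g) {U' : Set Y} (hU' : IsBall n U') {j' : X}
    (hj' : ∀ a ∈ U', ∀ b ∈ U', 𝒜.MixOK j' (pr a) (pr b)) {y : Y} (hy : y ∈ U) (hy' : y ∈ U') :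
    ∃ g', R2 𝒜 n pr U' g' ∧ g' =ᶠ[𝓝 y] g := by
  induction h with
  | diag U j x hU hj hx =>
    have hM : ∀ a ∈ U, ∀ b ∈ U, 𝒜.PTm n (fun q => 𝒜.mix j (pr q.1) (pr q.2)) (a, b) :=
      fun a ha b hb => ptm_mix (hpr a) (hpr b) (hj a ha b hb)
    have hR := R2.diag (𝒜 := 𝒜) (n := n) (pr := pr) U' j' y hU' hj' hy'
    obtain ⟨M', hM', h1, h2⟩ := hG U U' (fun a => 𝒜.mix j (pr a) (pr y))
      (fun b => 𝒜.mix j' (pr y) (pr b)) y y hU hU' hy hy' (fun a ha => (hM a ha y hy).t1m)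
      (hR.t2m hpr) (by
        simp only [mix_self (hj y hy y hy).1, mix_self (hj' y hy' y hy').1])
    refine ⟨fun b => M' (x, b), R2.trans U U' y x M' _ hU hy hx hM' hR h2, ?_⟩
    refine transport (𝒜 := 𝒜) (M' := fun q => 𝒜.mix j (pr q.1) (pr q.2)) hU hy hx
      (fun a ha => hM' (a, y) ⟨ha, hy'⟩) (fun a ha => hM a ha y hy) ?_
    refine (hM' (y, y) ⟨hy, hy'⟩).goursat_unique (hM y hy y hy) ?_ ?_
    · filter_upwards [hU.isOpen.mem_nhds hy] with a ha using h1 a ha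
    · have h3 := (hM y hy y hy).eq_mix_diag (p := j') (by
        simp only [mix_self (hj y hy y hy).1]; exact (hj' y hy' y hy').1)
      have c : Tendsto (fun b : Y => (y, b)) (𝓝 y) (𝓝 (y, y)) :=
        (continuous_const.prodMk continuous_id).tendsto' _ _ rfl
      filter_upwards [hU.isOpen.mem_nhds hy, hU'.isOpen.mem_nhds hy', c.eventually h3]
        with b hb hb' e
      simp only [mix_self (hj y hy y hy).1, mix_self (hj b hb b hb).1] at e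
      rw [h2 b hb', e]
  | trans U₀ U x x' M g hU₀ hx hx' hM hg he ih =>
    obtain ⟨g'', hR, hg''⟩ := ih hy
    obtain ⟨M', hM', h1, h2⟩ := hG U₀ U' (fun a => M (a, y)) g'' x y hU₀ hU' hx hy'
      (fun a ha => (hM (a, y) ⟨ha, hy⟩).t1m) (hR.t2m hpr)
      (by rw [hg''.self_of_nhds]; exact he y hy)
    refine ⟨fun b => M' (x', b), R2.trans U₀ U' x x' M' _ hU₀ hx hx' hM' hR h2, ?_⟩
    refine transport (𝒜 := 𝒜) hU₀ hx hx'
      (fun a ha => hM' (a, y) ⟨ha, hy'⟩) (fun a ha => hM (a, y) ⟨ha, hy⟩) ?_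
    refine (hM' (x, y) ⟨hx, hy'⟩).goursat_unique (hM (x, y) ⟨hx, hy⟩) ?_ ?_
    · filter_upwards [hU₀.isOpen.mem_nhds hx] with a ha using h1 a ha
    · filter_upwards [hg.isBall.isOpen.mem_nhds hy, hU'.isOpen.mem_nhds hy', hg'']
        with b hb hb' e
      rw [h2 b hb', e, he b hb]

/-- good balls -/
def Good (𝒜 : PAtlas X n₁ n₂) (n : ℕ) {Y : Type*} [TopologicalSpace Y]
    [ChartedSpace (Model n) Y] (pr : Y → X) (U : Set Y) : Prop :=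
  IsBall n U ∧ ∃ j, ∀ a ∈ U, ∀ b ∈ U, 𝒜.MixOK j (pr a) (pr b)

theorem exists_good {pr : Y → X} (hpr : ∀ y, 𝒜.Holm n pr y) (y : Y) :
    ∃ U, Good 𝒜 n pr U ∧ y ∈ U := by
  have c : ContinuousAt (fun q : Y × Y => (pr q.1, pr q.2)) (y, y) :=
    (ContinuousAt.comp_of_eq (hpr y).continuousAt continuousAt_fst rfl).prodMk
      (ContinuousAt.comp_of_eq (hpr y).continuousAt continuousAt_snd rfl)
  have h1 := c.eventually ((isOpen_mixOK (𝒜 := 𝒜) (pr y)).mem_nhds (mixOK_self (𝒜.mem (pr y))))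
  obtain ⟨u, hu, v, hv, huv⟩ := mem_nhds_prod_iff.1 h1
  obtain ⟨U, hU, hyU, hs⟩ := exists_isBall (n := n) (inter_mem hu hv)
  exact ⟨U, ⟨hU, pr y, fun a ha b hb => huv (a := (a, b)) ⟨(hs ha).1, (hs hb).2⟩⟩, hyU⟩

theorem holm_diag {M : Y × Y → X} {x : Y} (h : 𝒜.PTm n M (x, x)) :
    𝒜.Holm n (fun y => M (y, y)) x :=
  Hol.comp (k := fun u : Model n => (u, u)) (a := chartAt (Model n) x x) (PT.hol h)
    (analyticAt_id.prod analyticAt_id)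

theorem exists_global [T2Space X] (hG : GP 𝒜 n Y) [SimplyConnectedSpace Y] {pr : Y → X}
    (hpr : ∀ y, 𝒜.Holm n pr y) :
    ∃ M : Y × Y → X, (∀ q, 𝒜.PTm n M q) ∧ ∀ y, M (y, y) = pr y := by
  have hpr' : ∀ y, 𝒜.swap.Holm n pr y := fun y => hol_swap.2 (hpr y)
  haveI : SimplyConnectedSpace (Y × Y) := simplyConnectedSpace_prod Y Y
  haveI : LocallyPathConnectedSpace (ModelProd (Model n) (Model n)) :=
    inferInstanceAs (LocallyPathConnectedSpace (Model n × Model n))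
  haveI : LocallyPathConnectedSpace (Y × Y) :=
    ChartedSpace.locallyPathConnectedSpace (ModelProd (Model n) (Model n)) (Y × Y)
  obtain ⟨y₀⟩ : Nonempty Y := inferInstance
  obtain ⟨U₀, hU₀, hy₀⟩ := exists_good hpr y₀
  obtain ⟨j₀, hj₀⟩ := hU₀.2
  let ι := {U : Set Y // Good 𝒜 n pr U} × {U : Set Y // Good 𝒜 n pr U}
  let Sec : ι → (Y × Y → X) → Prop := fun i M =>
    (∀ q ∈ i.1.1 ×ˢ i.2.1, 𝒜.PTm n M q) ∧ (∀ x ∈ i.1.1, R2 𝒜 n pr i.2.1 (fun b => M (x, b))) ∧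
      ∀ y ∈ i.2.1, R2 𝒜.swap n pr i.1.1 (fun a => M (a, y))
  obtain ⟨F, hF₀, hF⟩ := exists_global_section (Z := Y × Y) (T := X) (ι := ι)
    (fun i => i.1.1 ×ˢ i.2.1) (fun i => i.1.2.1.isOpen.prod i.2.2.1.isOpen)
    (fun z => by
      obtain ⟨U, hU, hz⟩ := exists_good hpr z.1
      obtain ⟨V, hV, hz'⟩ := exists_good hpr z.2
      exact ⟨(⟨U, hU⟩, ⟨V, hV⟩), hz, hz'⟩) Sec
    (by
      rintro ⟨⟨U, hU⟩, ⟨U', hU'⟩⟩ ⟨⟨V, hV⟩, ⟨V', hV'⟩⟩ M ⟨x, y⟩ ⟨hM, h2, h1⟩ ⟨hx, hy⟩ ⟨hx', hy'⟩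
      obtain ⟨j, hj⟩ := hV.2
      obtain ⟨j', hj'⟩ := hV'.2
      obtain ⟨g, hg, eg⟩ := (h2 x hx).ext hG hpr hV'.1 hj' hy hy'
      obtain ⟨f, hf, ef⟩ := (h1 y hy).ext hG.swap hpr' hV.1 (j' := j)
        (fun a ha b hb => mixOK_swap.2 (hj b hb a ha)) hx hx'
      obtain ⟨M', hM', e1, e2⟩ := hG V V' f g x y hV.1 hV'.1 hx' hy'
        (fun a ha => t2_swap.1 (hf.t2m hpr' a ha)) (hg.t2m hpr)
        (ef.self_of_nhds.trans eg.self_of_nhds.symm)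
      refine ⟨M', ⟨hM', fun a ha => R2.trans V V' x a M' g hV.1 hx' ha hM' hg e2, fun b hb =>
        R2.trans V' V y b (fun q => M' (q.2, q.1)) f hV'.1 hy' hb
          (fun q hq => ptm_swap.2 (hM' (q.2, q.1) ⟨hq.2, hq.1⟩)) hf e1⟩, ?_⟩
      refine (hM' (x, y) ⟨hx', hy'⟩).goursat_unique (hM (x, y) ⟨hx, hy⟩) ?_ ?_
      · filter_upwards [hV.1.isOpen.mem_nhds hx', ef] with a ha e
        rw [e1 a ha, e]
      · filter_upwards [hV'.1.isOpen.mem_nhds hy', eg] with b hb e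
        rw [e2 b hb, e])
    (fun i j s s' z hs hs' hi hj h => (hs.1 z hi).eventuallyEq_of_frequently (hs'.1 z hj) h)
    (i₀ := (⟨U₀, hU₀⟩, ⟨U₀, hU₀⟩)) (s₀ := fun q => 𝒜.mix j₀ (pr q.1) (pr q.2)) (z₀ := (y₀, y₀))
    ⟨fun q hq => ptm_mix (hpr q.1) (hpr q.2) (hj₀ q.1 hq.1 q.2 hq.2),
      fun x hx => R2.diag U₀ j₀ x hU₀.1 hj₀ hx,
      fun y hy => R2.diag (𝒜 := 𝒜.swap) U₀ j₀ y hU₀.1
        (fun a ha b hb => mixOK_swap.2 (hj₀ b hb a ha)) hy⟩ ⟨hy₀, hy₀⟩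
  have hP : ∀ q, 𝒜.PTm n F q := fun q => by
    obtain ⟨i, s, hs, hq, e⟩ := hF q
    exact (hs.1 q hq).congr e
  refine ⟨F, hP, fun y => ?_⟩
  have c : Tendsto (fun b : Y => (b, b)) (𝓝 y₀) (𝓝 (y₀, y₀)) :=
    (continuous_id.prodMk continuous_id).tendsto' _ _ rfl
  have e : (fun y => F (y, y)) = pr := by
    refine Holm.eq_of_eventuallyEq (𝒜 := 𝒜) (n := n) (fun y => holm_diag (hP (y, y))) hpr
      (y₀ := y₀) ?_
    filter_upwards [c.eventually hF₀, hU₀.1.isOpen.mem_nhds hy₀] with b e hb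
    rw [e]; exact mix_self (hj₀ b hb b hb).1
  exact congrFun e y

end G2

variable {X : Type*} [MetricSpace X] [CompactSpace X] {n₁ n₂ : ℕ} {𝒜 : PAtlas X n₁ n₂}
variable {n : ℕ} {Y : Type*} [TopologicalSpace Y] [ChartedSpace (Model n) Y] [IsManifold (mI n) ω Y]

theorem Kae.exists_global (𝒦 : 𝒜.Kae) [SimplyConnectedSpace Y] {pr : Y → X}
    (hpr : ∀ y, 𝒜.Holm n pr y) :
    ∃ M : Y × Y → X, (∀ q, 𝒜.PTm n M q) ∧ ∀ y, M (y, y) = pr y :=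
  G2.exists_global (fun _ _ _ _ _ _ hU hU' hx hy hf hg hfg =>
    𝒦.goursatm hU hU' hx hy hf hg hfg) hpr

end PAtlas

end Crest.Agent.R266
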