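import Crest.Agent.R266.Defs

/-!
# Row 266: an abstract monodromy theorem
-/

set_option autoImplicit false
set_option linter.unusedSectionVars false
set_option linter.unusedVariables false

open MeasureTheory Metric Set Filter Topology Complex
open scoped ContDiff Manifold Real
open Crest.AlgGeometry.HolSplit

noncomputable section

namespace Crest.Agent.R266

namespace MonoAux

/-- path lifting from the existence of enough local sections -/
theorem exists_path_lift {E X ι : Type*} [TopologicalSpace E] [TopologicalSpace X] {p : E → X}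
    (U : ι → Set X) (hU : ∀ i, IsOpen (U i)) (hcov : ∀ z, ∃ i, z ∈ U i)
    (hs : ∀ j e, p e ∈ U j → ∃ σ : X → E, ContinuousOn σ (U j) ∧ (∀ x ∈ U j, p (σ x) = x) ∧
      σ (p e) = e) (γ : C(unitInterval, X)) (e : E) (h0 : γ 0 = p e) :
    ∃ Γ : C(unitInterval, E), Γ 0 = e ∧ p ∘ Γ = γ := by
  obtain ⟨t, t_0, t_mono, ⟨n_max, h_max⟩, t_sub⟩ :=
    exists_monotone_Icc_subset_open_cover_unitInterval
    (fun i => (hU i).preimage γ.continuous) fun t _ => mem_iUnion.2 (hcov (γ t))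
  suffices ∀ n, ∃ Γ : unitInterval → E, ContinuousOn Γ (Icc 0 (t n)) ∧
      (Icc 0 (t n)).EqOn (p ∘ Γ) γ ∧ Γ 0 = e by
    obtain ⟨Γ, cont, eqOn, Γ_0⟩ := this n_max
    rw [h_max _ le_rfl] at cont eqOn
    exact ⟨⟨Γ, continuousOn_univ.mp (cont.mono fun t _ => ⟨bot_le, le_top⟩)⟩, Γ_0,
      funext fun _ => eqOn ⟨bot_le, le_top⟩⟩
  intro n
  induction n with
  | zero =>
    refine ⟨fun _ => e, continuous_const.continuousOn, fun t ht => ?_, rfl⟩
    rw [t_0, Icc_self, mem_singleton_iff] at ht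
    subst ht
    exact h0.symm
  | succ n ih =>
    obtain ⟨Γ, cont, eqOn, Γ_0⟩ := ih
    obtain ⟨j, t_sub⟩ := t_sub n
    have pΓ : p (Γ (t n)) = γ (t n) := eqOn ⟨t_0 ▸ t_mono n.zero_le, le_rfl⟩
    obtain ⟨σ, σc, σp, σe⟩ := hs j (Γ (t n)) (pΓ ▸ t_sub ⟨le_rfl, t_mono n.le_succ⟩)
    refine ⟨fun s => if s ≤ t n then Γ s else σ (γ s),
      .if (fun s hs => ?_) (cont.mono fun _ h => ?_) ?_, fun s hs => ?_, ?_⟩
    · cases frontier_Iic_subset _ hs.2
      rw [← pΓ, σe]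
    · rw [closure_le_eq continuous_id' continuous_const] at h
      exact ⟨h.1.1, h.2⟩
    · refine σc.comp γ.2.continuousOn fun s h => ?_
      simp_rw [not_le] at h
      exact t_sub ⟨closure_lt_subset_le continuous_const continuous_subtype_val h.2, h.1.2⟩
    · rw [Function.comp_apply]
      split_ifs with h
      exacts [eqOn ⟨hs.1, h⟩, σp _ (t_sub ⟨le_of_not_ge h, hs.2⟩)]
    · dsimp only
      rwa [if_pos (t_0 ▸ t_mono n.zero_le)]

/-- a separated local homeomorphism with path lifting over a simply connected base has sections -/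
theorem exists_section {E X : Type*} [TopologicalSpace E] [TopologicalSpace X]
    [SimplyConnectedSpace X] [LocallyPathConnectedSpace X] {p : E → X}
    (homeo : IsLocalHomeomorph p) (sep : IsSeparatedMap p) (e₀ : E)
    (ex : ∀ γ : C(unitInterval, X), γ 0 = p e₀ → ∃ Γ : C(unitInterval, E), Γ 0 = e₀ ∧ p ∘ Γ = γ) :
    ∃ F : C(X, E), F (p e₀) = e₀ ∧ p ∘ F = id := by
  refine (homeo.existsUnique_continuousMap_lifts (ContinuousMap.id X) (p e₀) e₀ rfl ex
    fun γ γ' Γ Γ' γ_0 γ'_0 Γ_0 Γ'_0 Γ_l Γ'_l h1 => ?_).exists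
  let pγ : Path (p e₀) (γ 1) := ⟨γ, γ_0, rfl⟩
  let pγ' : Path (p e₀) (γ 1) := ⟨γ', γ'_0, h1.symm⟩
  obtain ⟨H⟩ : γ.HomotopicRel γ' {0, 1} := SimplyConnectedSpace.paths_homotopic pγ pγ'
  choose G G_0 G_l using fun t : unitInterval => ex (H.toContinuousMap.curry t)
    ((H.eq_fst t (Or.inl rfl)).trans γ_0)
  have hm := homeo.monodromy_theorem sep H G (fun t s => congr_fun (G_l t) s)
    (fun t => (G_0 t).trans (G_0 0).symm) 1
  have e0 : ⇑(G 0) = Γ := sep.eq_of_comp_eq homeo.isLocallyInjective (G 0).continuous Γ.continuous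
    (by rw [G_l, Γ_l]; ext s; exact H.apply_zero s) 0 ((G_0 0).trans Γ_0.symm)
  have e1 : ⇑(G 1) = Γ' := sep.eq_of_comp_eq homeo.isLocallyInjective (G 1).continuous
    Γ'.continuous (by rw [G_l, Γ'_l]; ext s; exact H.apply_one s) 0 ((G_0 1).trans Γ'_0.symm)
  rw [← e0, ← e1, hm]

variable {Z T ι : Type*} [TopologicalSpace Z]

/-- the germ of `s` at `z`, as a set of functions -/
def cls (z : Z) (s : Z → T) : Set (Z → T) := {s' | s' =ᶠ[𝓝 z] s}

theorem cls_eq {z : Z} {s s' : Z → T} (h : s =ᶠ[𝓝 z] s') : cls z s = cls z s' :=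
  Set.ext fun _ => ⟨fun h' => EventuallyEq.trans h' h, fun h' => EventuallyEq.trans h' h.symm⟩

/-- the étale space -/
@[ext] structure Et (U : ι → Set Z) (Sec : ι → (Z → T) → Prop) where
  z : Z
  g : Set (Z → T)
  h : ∃ i s, Sec i s ∧ z ∈ U i ∧ g = cls z s

variable {U : ι → Set Z} {Sec : ι → (Z → T) → Prop}

theorem Et.eq_cls (e : Et U Sec) {s : Z → T} (hs : s ∈ e.g) : e.g = cls e.z s := by
  obtain ⟨i, s', -, -, h⟩ := e.h
  rw [h] at hs ⊢
  exact (cls_eq hs).symm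

open Classical in
/-- the section of the étale space defined by `s` -/
def sec (e₀ : Et U Sec) {i : ι} {s : Z → T} (hs : Sec i s) (z : Z) : Et U Sec :=
  if h : z ∈ U i then ⟨z, cls z s, i, s, hs, h, rfl⟩ else e₀

theorem sec_z (e₀ : Et U Sec) {i : ι} {s : Z → T} (hs : Sec i s) {z : Z} (h : z ∈ U i) :
    (sec e₀ hs z).z = z := by rw [sec, dif_pos h]

theorem sec_g (e₀ : Et U Sec) {i : ι} {s : Z → T} (hs : Sec i s) {z : Z} (h : z ∈ U i) :
    (sec e₀ hs z).g = cls z s := by rw [sec, dif_pos h]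

theorem sec_self (e₀ : Et U Sec) {i : ι} {s : Z → T} (hs : Sec i s) {e : Et U Sec} (h : e.z ∈ U i)
    (h' : s ∈ e.g) : sec e₀ hs e.z = e :=
  Et.ext (sec_z e₀ hs h) ((sec_g e₀ hs h).trans (e.eq_cls h').symm)

/-- the topology of the étale space -/
@[reducible] def top (hU : ∀ i, IsOpen (U i)) (e₀ : Et U Sec) : TopologicalSpace (Et U Sec) where
  IsOpen W := ∀ i s (hs : Sec i s), IsOpen (U i ∩ sec e₀ hs ⁻¹' W)
  isOpen_univ i s hs := by simpa using hU i
  isOpen_inter W W' h h' i s hs := by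
    rw [preimage_inter, inter_inter_distrib_left]
    exact (h i s hs).inter (h' i s hs)
  isOpen_sUnion S h i s hs := by
    rw [preimage_sUnion, inter_iUnion₂]
    exact isOpen_biUnion fun W hW => h W hW i s hs

theorem isOpen_B (hU : ∀ i, IsOpen (U i)) (e₀ : Et U Sec) (s : Z → T) {V : Set Z} (hV : IsOpen V) :
    IsOpen[top hU e₀] {e | e.z ∈ V ∧ s ∈ e.g} := by
  intro j s' hs'
  have : U j ∩ sec e₀ hs' ⁻¹' {e | e.z ∈ V ∧ s ∈ e.g} = U j ∩ (V ∩ {z | s =ᶠ[𝓝 z] s'}) := by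
    ext z
    refine and_congr_right fun hz => ?_
    simp only [mem_preimage, mem_ofPred_eq, sec_z e₀ hs' hz, sec_g e₀ hs' hz, cls, mem_inter_iff]
  rw [this]
  exact (hU j).inter (hV.inter isOpen_setOfPred_eventually_nhds)

theorem continuousOn_sec (hU : ∀ i, IsOpen (U i)) (e₀ : Et U Sec) {i : ι} {s : Z → T}
    (hs : Sec i s) : @ContinuousOn _ _ _ (top hU e₀) (sec e₀ hs) (U i) := by
  let := top hU e₀
  exact (continuousOn_open_iff (hU i)).2 fun W hW => hW i s hs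

theorem continuous_z (hU : ∀ i, IsOpen (U i)) (e₀ : Et U Sec) :
    @Continuous _ _ (top hU e₀) _ Et.z := by
  let := top hU e₀
  refine continuous_def.2 fun V hV j s hs => ?_
  have : U j ∩ sec e₀ hs ⁻¹' (Et.z ⁻¹' V) = U j ∩ V := by
    ext z
    refine and_congr_right fun hz => ?_
    simp only [mem_preimage, sec_z e₀ hs hz]
  rw [this]
  exact (hU j).inter hV

theorem isLocalHomeomorph_z (hU : ∀ i, IsOpen (U i)) (e₀ : Et U Sec) :
    @IsLocalHomeomorph _ _ (top hU e₀) _ Et.z := by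
  let := top hU e₀
  intro e
  obtain ⟨i, s, hs, hz, hg⟩ := e.h
  refine ⟨{ toFun := Et.z
            invFun := sec e₀ hs
            source := {e | e.z ∈ U i ∧ s ∈ e.g}
            target := U i
            map_source' := fun _ h => h.1
            map_target' := fun z h => ⟨by rwa [sec_z e₀ hs h], by
              rw [sec_g e₀ hs h]; exact EventuallyEq.rfl⟩
            left_inv' := fun _ h => sec_self e₀ hs h.1 h.2
            right_inv' := fun _ h => sec_z e₀ hs h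
            open_source := isOpen_B hU e₀ s (hU i)
            open_target := hU i
            continuousOn_toFun := (continuous_z hU e₀).continuousOn
            continuousOn_invFun := continuousOn_sec hU e₀ hs }, ⟨hz, ?_⟩, rfl⟩
  rw [hg]
  exact EventuallyEq.rfl

theorem isSeparatedMap_z (hU : ∀ i, IsOpen (U i)) (e₀ : Et U Sec)
    (ident : ∀ i j s s' z, Sec i s → Sec j s' → z ∈ U i → z ∈ U j →
      (∃ᶠ y in 𝓝 z, s =ᶠ[𝓝 y] s') → s =ᶠ[𝓝 z] s') :
    @IsSeparatedMap _ _ (top hU e₀) Et.z := by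
  let := top hU e₀
  intro e e' hz hne
  obtain ⟨i, s, hs, hi, hg⟩ := e.h
  obtain ⟨j, s', hs', hj, hg'⟩ := e'.h
  rw [← hz] at hj hg'
  have h1 : ¬ s =ᶠ[𝓝 e.z] s' := fun h => hne (Et.ext hz (by rw [hg, hg', cls_eq h]))
  have h2 := not_frequently.1 fun h => h1 (ident i j s s' _ hs hs' hi hj h)
  obtain ⟨V, hV1, hV2, hV3⟩ := eventually_nhds_iff.1 h2
  refine ⟨_, _, isOpen_B hU e₀ s hV2, isOpen_B hU e₀ s' hV2, ⟨hV3, ?_⟩, ⟨hz ▸ hV3, ?_⟩, ?_⟩
  · rw [hg]; exact EventuallyEq.rfl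
  · rw [hg']; exact EventuallyEq.rfl
  · refine Set.disjoint_left.2 fun f hf hf' => hV1 f.z hf.1 ?_
    have := hf.2
    rwa [f.eq_cls hf'.2] at this

end MonoAux

open MonoAux in
/-- `Sec i s` : `s` is an admissible section over the open set `U i`. -/
theorem exists_global_section {Z T ι : Type*} [TopologicalSpace Z] [SimplyConnectedSpace Z]
    [LocallyPathConnectedSpace Z] (U : ι → Set Z) (hU : ∀ i, IsOpen (U i))
    (hcov : ∀ z, ∃ i, z ∈ U i) (Sec : ι → (Z → T) → Prop)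
    (ext : ∀ i j s z, Sec i s → z ∈ U i → z ∈ U j → ∃ s', Sec j s' ∧ s' =ᶠ[𝓝 z] s)
    (ident : ∀ i j s s' z, Sec i s → Sec j s' → z ∈ U i → z ∈ U j →
      (∃ᶠ y in 𝓝 z, s =ᶠ[𝓝 y] s') → s =ᶠ[𝓝 z] s')
    {i₀ : ι} {s₀ : Z → T} {z₀ : Z} (h₀ : Sec i₀ s₀) (hz₀ : z₀ ∈ U i₀) :
    ∃ F : Z → T, F =ᶠ[𝓝 z₀] s₀ ∧ ∀ z, ∃ i s, Sec i s ∧ z ∈ U i ∧ F =ᶠ[𝓝 z] s := by
  let e₀ : Et U Sec := ⟨z₀, cls z₀ s₀, i₀, s₀, h₀, hz₀, rfl⟩
  let := top hU e₀
  obtain ⟨G, hG0, hG⟩ := exists_section (isLocalHomeomorph_z hU e₀) (isSeparatedMap_z hU e₀ ident)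
    e₀ fun γ hγ => exists_path_lift U hU hcov (fun j e hj => by
      obtain ⟨i, s, hs, hi, hg⟩ := e.h
      obtain ⟨s', hs', h'⟩ := ext i j s e.z hs hi hj
      exact ⟨sec e₀ hs', continuousOn_sec hU e₀ hs', fun x hx => sec_z e₀ hs' hx,
        sec_self e₀ hs' hj (by rw [hg]; exact h')⟩) γ e₀ hγ
  have hz : ∀ z, (G z).z = z := fun z => congr_fun hG z
  choose i s hs hi hg using fun z => (G z).h
  have key : ∀ z s', s' ∈ (G z).g → (fun y => s y y) =ᶠ[𝓝 z] s' := by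
    intro z s' h'
    have h1 : G ⁻¹' {e | e.z ∈ univ ∧ s' ∈ e.g} ∈ 𝓝 z :=
      ((isOpen_B hU e₀ s' isOpen_univ).preimage G.continuous).mem_nhds ⟨mem_univ _, h'⟩
    filter_upwards [h1] with y hy
    have h2 := hy.2
    rw [hg, hz] at h2
    exact (EventuallyEq.eq_of_nhds h2).symm
  refine ⟨fun y => s y y, key z₀ s₀ ?_, fun z => ⟨i z, s z, hs z, ?_, key z _ ?_⟩⟩
  · rw [show G z₀ = e₀ from hG0]
    exact EventuallyEq.rfl
  · have := hi z
    rwa [hz] at this
  · rw [hg]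
    exact EventuallyEq.rfl

end Crest.Agent.R266
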