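import Crest.Agent.R266.ManC
import Crest.Agent.R266.Mono
import Crest.Agent.R266.SC

/-!
# Row 266: lifting to the covering space
-/

set_option autoImplicit false
set_option linter.unusedSectionVars false
set_option linter.unusedVariables false

open MeasureTheory Metric Set Filter Topology Complex
open scoped ContDiff Manifold Real
open Crest.AlgGeometry.HolSplit

noncomputable section

namespace Crest.Agent.R266

namespace PAtlas
variable {X : Type*} [TopologicalSpace X] {n₁ n₂ : ℕ} {𝒜 : PAtlas X n₁ n₂}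
variable {n : ℕ} [ChartedSpace (Model n) X] [IsManifold (mI n) ω X]
  {Y : Type*} [TopologicalSpace Y] [ChartedSpace (Model n) Y] [IsManifold (mI n) ω Y]

/-- a local inverse of a holomorphic map with bijective differential is holomorphic -/
theorem contMDiffAt_local_inverse {pr : Y → X} (hpr : ContMDiff (mI n) (mI n) ω pr)
    (hdpr : ∀ p : Y, Function.Bijective (mfderiv (mI n) (mI n) pr p))
    (e : OpenPartialHomeomorph Y X) (he : pr = e) {x : X} (hx : x ∈ e.target) :
    ContMDiffAt (mI n) (mI n) ω e.symm x := by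
  obtain ⟨y, hy, rfl⟩ : ∃ y ∈ e.source, e y = x := ⟨e.symm x, e.map_target hx, e.right_inv hx⟩
  subst he
  rw [contMDiffAt_iff]
  refine ⟨e.continuousAt_symm hx, ?_⟩
  set k : OpenPartialHomeomorph (Model n) (Model n) :=
    (chartAt (Model n) y).symm.trans (e.trans (chartAt (Model n) (e y))) with hk
  have h1 := (contMDiffAt_iff.1 (hpr y)).2
  have h2 := ((hpr y).mdifferentiableAt (by simp)).hasMFDerivAt.2
  simp only [mfld_simps, contDiffWithinAt_univ, hasFDerivWithinAt_univ] at h1 h2 ⊢
  let D : Model n →L[ℂ] Model n := mfderiv (mI n) (mI n) e y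
  let L : Model n ≃L[ℂ] Model n :=
    (LinearEquiv.ofBijective (D : Model n →ₗ[ℂ] Model n) (hdpr y)).toContinuousLinearEquiv
  have ha : chartAt (Model n) (e y) (e y) ∈ k.target := by
    simp [hk, hy]
  have hs : k.symm (chartAt (Model n) (e y) (e y)) = chartAt (Model n) y y := by
    simp [hk, hy]
  have h3 := k.contDiffAt_symm (f₀' := L) (n := ω) ha (by rw [hs]; exact h2) (by rw [hs]; exact h1)
  rw [e.left_inv hy]
  exact h3

/-- the pulled back atlas -/
theorem exists_pull (hc : 𝒜.Compat n) {pr : Y → X} (hcov : IsCoveringMap pr)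
    (hpr : ContMDiff (mI n) (mI n) ω pr)
    (hdpr : ∀ p : Y, Function.Bijective (mfderiv (mI n) (mI n) pr p)) :
    ∃ 𝒜' : PAtlas Y n₁ n₂, 𝒜'.Compat n ∧ ∀ p, ∀ y ∈ (𝒜'.chart p).source,
      pr y ∈ (𝒜.chart (pr p)).source ∧ 𝒜'.chart p y = 𝒜.chart (pr p) (pr y) := by
  choose e he he' using hcov.isLocalHomeomorph
  have ev : ∀ p y, e p y = pr y := fun p y => (congrFun (he' p) y).symm
  have hm : ∀ p y, y ∈ ((e p).trans (𝒜.chart (pr p))).source → pr y ∈ (𝒜.chart (pr p)).source :=
    fun p y hy => ev p y ▸ hy.2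
  refine ⟨⟨fun p => (e p).trans (𝒜.chart (pr p)), fun p => ⟨he p, ?_⟩, fun p q x hp hq => ?_⟩,
    fun p => ⟨?_, ?_⟩, fun p y hy => ⟨hm p y hy, ?_⟩⟩
  · change e p p ∈ (𝒜.chart (pr p)).source
    rw [ev]
    exact 𝒜.mem _
  · obtain ⟨h₁, h₂, a₁, a₂, h⟩ := 𝒜.trans (pr p) (pr q) (pr x) (hm p x hp) (hm q x hq)
    refine ⟨h₁, h₂, ?_, ?_, ?_⟩
    · simpa only [OpenPartialHomeomorph.trans_apply, ev] using a₁
    · simpa only [OpenPartialHomeomorph.trans_apply, ev] using a₂
    · filter_upwards [hcov.continuous.continuousAt.eventually h] with y hy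
      simpa only [OpenPartialHomeomorph.trans_apply, ev] using hy
  · have h := (hc (pr p)).1.comp (hpr.contMDiffOn (s := ((e p).trans (𝒜.chart (pr p))).source))
      (fun y hy => hm p y hy)
    refine h.congr (fun y _ => ?_)
    simp only [OpenPartialHomeomorph.trans_apply, ev, Function.comp]
  · intro z hz
    exact (contMDiffAt_local_inverse hpr hdpr (e p) (he' p) hz.2).comp_contMDiffWithinAt z
      (((hc (pr p)).2 z hz.1).mono fun w hw => hw.1)
  · simp only [OpenPartialHomeomorph.trans_apply, ev]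

end PAtlas

end Crest.Agent.R266
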