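import Crest.Agent.R266.Man
import Crest.Agent.R266.SC

/-!
# Row 266: lifting the band
-/

set_option autoImplicit false
set_option linter.unusedSectionVars false
set_option linter.unusedVariables false

open MeasureTheory Metric Set Filter Topology Complex
open scoped ContDiff Manifold Real
open Crest.AlgGeometry.HolSplit

noncomputable section

namespace Crest.Agent.R266

namespace PAtlas
variable {X : Type*} [TopologicalSpace X] {n₁ n₂ : ℕ} {𝒜 : PAtlas X n₁ n₂}
variable {n : ℕ} [ChartedSpace (Model n) X] [IsManifold (mI n) ω X]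
  {Y : Type*} [TopologicalSpace Y] [ChartedSpace (Model n) Y] [IsManifold (mI n) ω Y]

theorem exists_lift [T2Space Y] [SimplyConnectedSpace Y] {pr : Y → X} (hcov : IsCoveringMap pr)
    {𝒜' : PAtlas Y n₁ n₂} (h : ∀ p, ∀ y ∈ (𝒜'.chart p).source,
      pr y ∈ (𝒜.chart (pr p)).source ∧ 𝒜'.chart p y = 𝒜.chart (pr p) (pr y))
    {M : Y × Y → X} (hM : ∀ q, 𝒜.PTm n M q) (hd : ∀ y, M (y, y) = pr y) :
    ∃ m : Y × Y → Y, (∀ q, 𝒜'.PTm n m q) ∧ ∀ y, m (y, y) = y := by
  have : LocallyPathConnectedSpace Y := ChartedSpace.locallyPathConnectedSpace (Model n) Y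
  have : SimplyConnectedSpace (Y × Y) := simplyConnectedSpace_prod Y Y
  obtain ⟨y₀⟩ : Nonempty Y := inferInstance
  have hMc : Continuous M := continuous_iff_continuousAt.2 fun q => (hM q).continuousAt
  obtain ⟨m, ⟨hm0, hm⟩, -⟩ :=
    hcov.existsUnique_continuousMap_lifts ⟨M, hMc⟩ (y₀, y₀) y₀ (hd y₀).symm
  have hm' : ∀ q, pr (m q) = M q := congrFun hm
  refine ⟨m, fun q => ?_, fun y => ?_⟩
  · obtain ⟨-, k₁, k₂, a₁, a₂, he⟩ := hM q
    have c₁ : ContinuousAt (chartAt (Model n) q.1).symm (chartAt (Model n) q.1 q.1) :=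
      (chartAt (Model n) q.1).continuousAt_symm (mem_chart_target _ _)
    have c₂ : ContinuousAt (chartAt (Model n) q.2).symm (chartAt (Model n) q.2 q.2) :=
      (chartAt (Model n) q.2).continuousAt_symm (mem_chart_target _ _)
    have hc : ContinuousAt (fun u : Model n × Model n =>
        m ((chartAt (Model n) q.1).symm u.1, (chartAt (Model n) q.2).symm u.2))
        (chartAt (Model n) q.1 q.1, chartAt (Model n) q.2 q.2) :=
      m.continuous.continuousAt.comp ((ContinuousAt.comp_of_eq c₁ continuousAt_fst rfl).prodMk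
        (ContinuousAt.comp_of_eq c₂ continuousAt_snd rfl))
    refine ⟨hc, k₁, k₂, a₁, a₂, ?_⟩
    filter_upwards [he, aux_ev hc (𝒜'.mem _)] with r h1 h2
    rw [(h _ _ h2).2, hm', hm']
    exact h1
  · have := hcov.eq_of_comp_eq (g₁ := fun y => m (y, y)) (g₂ := id)
      (m.continuous.comp (continuous_id.prodMk continuous_id)) continuous_id
      (funext fun y => (hm' (y, y)).trans (hd y)) y₀ hm0
    exact congrFun this y

end PAtlas

end Crest.Agent.R266
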