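import Crest.Agent.R266.Man

/-!
# Row 266: proper analytic subsets
-/

set_option autoImplicit false
set_option linter.unusedSectionVars false
set_option linter.unusedVariables false

open MeasureTheory Metric Set Filter Topology Complex
open scoped ContDiff Manifold Real
open Crest.AlgGeometry.HolSplit

noncomputable section

namespace Crest.Agent.R266

variable {n : ℕ} {X : Type} [TopologicalSpace X] [ChartedSpace (Model n) X] [IsManifold (mI n) ω X]

theorem rcBox_identity {f : X × X → ℂ} {p : X × X}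
    (hf : ContMDiffAt ((mI n).prod (mI n)) 𝓘(ℂ, ℂ) ω f p) (h : ∃ᶠ z in 𝓝 p, f =ᶠ[𝓝 z] 0) :
    f =ᶠ[𝓝 p] 0 := by
  have sy : ∀ y : X, ContMDiffAt 𝓘(ℂ, Model n) (mI n) ω (chartAt (Model n) y).symm
      (chartAt (Model n) y y) := fun y =>
    (contMDiffOn_chart_symm (I := mI n) (n := ω) (x := y)).contMDiffAt
      ((chartAt (Model n) y).open_target.mem_nhds (mem_chart_target _ y))
  set e := (chartAt (Model n) p.1).prod (chartAt (Model n) p.2) with he
  have hp : p ∈ e.source := ⟨mem_chart_source _ p.1, mem_chart_source _ p.2⟩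
  have h1 : ContMDiffAt 𝓘(ℂ, Model n × Model n) ((mI n).prod (mI n)) ω e.symm (e p) :=
    ContMDiffAt.prodMk
      (ContMDiffAt.comp (e p) (sy p.1) (contMDiffAt_iff_contDiffAt.2 contDiffAt_fst))
      (ContMDiffAt.comp (e p) (sy p.2) (contMDiffAt_iff_contDiffAt.2 contDiffAt_snd))
  have h2 : AnalyticAt ℂ (f ∘ e.symm) (e p) :=
    (contMDiffAt_iff_contDiffAt.1
      (ContMDiffAt.comp (e p) (by rwa [e.left_inv hp]) h1)).analyticAt
  obtain ⟨r, hr, hb⟩ := Metric.eventually_nhds_iff_ball.mp h2.eventually_analyticAt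
  have h3 : ∀ᶠ z in 𝓝 p, z ∈ e.source ∧ e z ∈ ball (e p) r :=
    Filter.Eventually.and (e.open_source.mem_nhds hp)
      ((e.continuousAt hp).eventually (ball_mem_nhds _ hr))
  obtain ⟨z, hz, hz1, hz2⟩ := (h.and_eventually h3).exists
  have h4 := AnalyticOnNhd.eqOn_zero_of_preconnected_of_eventuallyEq_zero (𝕜 := ℂ) hb
    (convex_ball (e p) r).isPreconnected hz2 ((Man.ev_iff e hz1).mp hz)
  refine (Man.ev_iff e hp).mpr ?_
  filter_upwards [ball_mem_nhds _ hr] with u hu
  exact h4 hu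

/-- a proper analytic subset has empty interior and is closed -/
theorem exists_box_of_analytic [ConnectedSpace X] {A : Set (X × X)}
    (hA : IsAnalyticSubset (n := n) A) (hne : A ≠ univ) {O : Set X} (hO : IsOpen O)
    (hO' : O.Nonempty) :
    ∃ (x : X) (O' : Set X), IsOpen O' ∧ O'.Nonempty ∧ O' ⊆ O ∧ ∀ y ∈ O', (x, y) ∉ A := by
  have hc : IsClosed A := isClosed_iff_frequently.2 fun p hp => by
    obtain ⟨U, k, f, hU, hpU, hf, e⟩ := hA p
    have h : p ∈ A ∩ U := by
      rw [e]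
      refine ⟨hpU, fun i => ?_⟩
      have h1 := ((hf i).contMDiffAt (hU.mem_nhds hpU)).continuousAt
      refine isClosed_singleton.mem_of_frequently_of_tendsto ?_ h1
      refine (hp.and_eventually (hU.mem_nhds hpU)).mono fun z hz => ?_
      have h2 : z ∈ A ∩ U := hz
      rw [e] at h2
      exact h2.2 i
    exact h.1
  have hi : IsClopen (interior A) := by
    refine ⟨isClosed_iff_frequently.2 fun p hp => ?_, isOpen_interior⟩
    obtain ⟨U, k, f, hU, hpU, hf, e⟩ := hA p
    have h1 : ∀ i, f i =ᶠ[𝓝 p] 0 := fun i => by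
      refine rcBox_identity ((hf i).contMDiffAt (hU.mem_nhds hpU)) ?_
      refine (hp.and_eventually (hU.mem_nhds hpU)).mono fun z hz => ?_
      filter_upwards [mem_interior_iff_mem_nhds.1 hz.1, hU.mem_nhds hz.2] with w w1 w2
      have h2 : w ∈ A ∩ U := ⟨w1, w2⟩
      rw [e] at h2
      exact h2.2 i
    rw [mem_interior_iff_mem_nhds]
    filter_upwards [eventually_all.2 h1, hU.mem_nhds hpU] with w w1 w2
    have h2 : w ∈ A ∩ U := by
      rw [e]
      exact ⟨w2, w1⟩
    exact h2.1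
  have he : interior A = ∅ := (isClopen_iff.1 hi).resolve_right fun h =>
    hne (interior_eq_univ.1 h)
  have hd : Dense Aᶜ := interior_eq_empty_iff_dense_compl.1 he
  obtain ⟨y₀, hy₀⟩ := hO'
  obtain ⟨⟨x, y⟩, h1, h2⟩ := hd.inter_open_nonempty (univ ×ˢ O) (isOpen_univ.prod hO)
    ⟨(y₀, y₀), mem_univ _, hy₀⟩
  exact ⟨x, O ∩ Prod.mk x ⁻¹' Aᶜ, hO.inter (hc.isOpen_compl.preimage (by fun_prop)),
    ⟨y, h1.2, h2⟩, inter_subset_left, fun _ hz => hz.2⟩

end Crest.Agent.R266
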