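import Crest.Agent.R266.Main404
import Crest.Agent.R266.BridgeI
import Crest.Agent.R266.Bridge404
import Crest.Agent.R266.RCBox
import Crest.Agent.R266.Bridge405
import Crest.Agent.R266.BridgeK
import Crest.Agent.R266.Global2
import Crest.Agent.R266.Lift
import Crest.Agent.R266.Lift2
import Crest.Agent.R266.Band2

/-!
# Row 266: the two theorems
-/

set_option autoImplicit false
set_option linter.unusedSectionVars false
set_option linter.unusedVariables false

open MeasureTheory Metric Set Filter Topology Complex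
open scoped ContDiff Manifold Real
open Crest.AlgGeometry.HolSplit

noncomputable section

namespace Crest.Agent.R266

theorem firstIntegrable_of_rc (n : ℕ) (hn : 2 ≤ n) (X : Type) [TopologicalSpace X] [T2Space X]
    [CompactSpace X] [ConnectedSpace X] [ChartedSpace (Model n) X] [IsManifold (mI n) ω X]
    (hproj : IsProjective n X) (hrc : IsRationallyConnected n X) (S : Splitting n X) :
    S.FirstIntegrable := by
  obtain ⟨N, ⟨ι⟩⟩ := hproj
  obtain ⟨A, hA, hne, hAc⟩ := hrc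
  obtain ⟨𝒮, h𝒮, hhol⟩ := exists_satlas S ι
  rw [firstIntegrable_iff]
  intro p
  rw [← (h𝒮 p).1, ← (h𝒮 p).2]
  refine 𝒮.intAt_of_curves (by omega) ?_ p
  intro O hO hO'
  obtain ⟨x, O', h1, h2, h3, h4⟩ := exists_box_of_analytic hA hne hO hO'
  refine ⟨x, O', h1, h2, h3, fun y hy hyx => ?_⟩
  obtain ⟨g₀, g₁, hg₀, hg₁, hgl, hx, hy'⟩ := hAc x y (h4 y hy)
  exact SAtlas.Curve.normalize ⟨hhol g₀ hg₀, hhol g₁ hg₁, hgl⟩ hx hy' (Ne.symm hyx)

theorem hoering (n : ℕ) (hn : 2 ≤ n) (X : Type) [TopologicalSpace X] [T2Space X]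
    [CompactSpace X] [ConnectedSpace X] [ChartedSpace (Model n) X] [IsManifold (mI n) ω X]
    (hproj : IsProjective n X) (hrc : IsRationallyConnected n X) (S : Splitting n X) :
    S.FirstIntegrable ∧ S.SecondIntegrable := by
  obtain ⟨S', -, hS'⟩ := exists_swap_splitting S
  exact ⟨firstIntegrable_of_rc n hn X hproj hrc S, hS'.1 (firstIntegrable_of_rc n hn X hproj hrc S')⟩

theorem beauville (n : ℕ) (X : Type) [TopologicalSpace X] [T2Space X] [SecondCountableTopology X]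
    [CompactSpace X] [ConnectedSpace X] [ChartedSpace (Model n) X] [IsManifold (mI n) ω X]
    (hK : Nonempty (KahlerMetric n X)) (S : Splitting n X)
    (h₁ : S.FirstIntegrable) (h₂ : S.SecondIntegrable)
    (X' : Type) [TopologicalSpace X'] [T2Space X']
    [ConnectedSpace X'] [SimplyConnectedSpace X'] [ChartedSpace (Model n) X']
    [IsManifold (mI n) ω X'] (pr : X' → X) (hcov : IsCoveringMap pr)
    (hpr : ContMDiff (mI n) (mI n) ω pr)
    (hdpr : ∀ p : X', Function.Bijective (mfderiv (mI n) (mI n) pr p)) :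
    HasCompatibleProductCover S X' pr := by
  obtain ⟨g⟩ := hK
  obtain ⟨n₁, n₂, 𝒜, hc, hs, hP⟩ := exists_patlas S h₁ h₂
  obtain ⟨𝒦⟩ := exists_kae hc hs g
  obtain ⟨𝒜', hc', h'⟩ := PAtlas.exists_pull hc hcov hpr hdpr
  obtain ⟨M, hM, hd⟩ : ∃ M : X' × X' → X, (∀ q, 𝒜.PTm n M q) ∧ ∀ y, M (y, y) = pr y := by
    letI : MetricSpace X := TopologicalSpace.metrizableSpaceMetric X
    exact PAtlas.Kae.exists_global 𝒦 (fun y => (PAtlas.Compat.holm_iff hc).2 (hpr y))
  obtain ⟨m, hm, hmd⟩ := PAtlas.exists_lift hcov h' hM hd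
  obtain ⟨Y₁, Y₂, t₁, t₂, c₁, c₂, m₁, m₂, k₁, k₂, s₁, s₂, Φ, Ψ, e₁, e₂, hΦ, hΨ, hD⟩ :=
    PAtlas.exists_product hc' hm hmd
  refine ⟨n₁, n₂, Y₁, Y₂, t₁, t₂, c₁, c₂, m₁, m₂, k₁, k₂, s₁, s₂, Φ, Ψ, e₁, e₂, hΦ, hΨ, fun p v => ?_⟩
  have hev : (𝒜'.chart p : X' → MM n₁ n₂) =ᶠ[𝓝 p] (𝒜.chart (pr p)) ∘ pr := by
    filter_upwards [(𝒜'.chart p).open_source.mem_nhds (𝒜'.mem p)] with y hy
    exact (h' p y hy).2
  have hd1 : MDifferentiableAt (mI n) 𝓘(ℂ, MM n₁ n₂) (𝒜.chart (pr p)) (pr p) :=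
    (((hc (pr p)).1.contMDiffAt ((𝒜.chart (pr p)).open_source.mem_nhds (𝒜.mem _))).mdifferentiableAt
      (by simp))
  have hd2 : MDifferentiableAt (mI n) (mI n) pr p := (hpr p).mdifferentiableAt (by simp)
  have key : mfderiv (mI n) 𝓘(ℂ, MM n₁ n₂) (𝒜'.chart p) p v
      = mfderiv (mI n) 𝓘(ℂ, MM n₁ n₂) (𝒜.chart (pr p)) (pr p) (mfderiv (mI n) (mI n) pr p v) := by
    rw [hev.mfderiv_eq, mfderiv_comp p hd1 hd2]; rfl
  refine ⟨fun h => (hD p v).1 ?_, fun h => (hD p v).2 ?_⟩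
  · have := hP (pr p) (mfderiv (mI n) (mI n) pr p v)
    rw [h] at this
    rw [key, this]
  · have := hP (pr p) (mfderiv (mI n) (mI n) pr p v)
    rw [h, map_zero] at this
    rw [key]
    exact (congrArg Prod.fst this).symm

end Crest.Agent.R266
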