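import Crest.Agent.R266.Uniq

/-!
# Row 266: uniqueness and elementary properties of solutions
-/

set_option autoImplicit false
set_option linter.unusedSectionVars false
set_option linter.unusedVariables false

open MeasureTheory Metric Set Filter Topology Complex
open scoped ContDiff Manifold Real
open Crest.AlgGeometry.HolSplit

noncomputable section

namespace Crest.Agent.R266

variable {E : Type*} [NormedAddCommGroup E] [NormedSpace ℂ E] [FiniteDimensional ℂ E]
  {P : E → E →L[ℂ] E} {γ σ σ' : ℂ → E} {θ : ℂ → E →L[ℂ] ℂ} {t : ℂ}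
  {F ξ ξ' : ℂ × ℂ → E} {ϑ : ℂ × ℂ → E →L[ℂ] ℂ}

namespace SolUAux

theorem fderiv_P_apply {r : ℂ × ℂ} (hP : DifferentiableAt ℂ P (F r)) (hF : DifferentiableAt ℂ F r)
    (hξ : DifferentiableAt ℂ ξ r) (w : ℂ × ℂ) :
    fderiv ℂ (fun z => P (F z) (ξ z)) r w =
      fderiv ℂ P (F r) (fderiv ℂ F r w) (ξ r) + P (F r) (fderiv ℂ ξ r w) := by
  have h := (hP.hasFDerivAt.comp r hF.hasFDerivAt).clm_apply hξ.hasFDerivAt
  have e : fderiv ℂ (fun z => P (F z) (ξ z)) r = _ := h.fderiv
  rw [e]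
  simp [add_comm]

theorem analyticAt_dir {V : Type*} [NormedAddCommGroup V] [NormedSpace ℂ V] [CompleteSpace V]
    {G : ℂ × ℂ → V} {z : ℂ × ℂ} (h : AnalyticAt ℂ G z) (w : ℂ × ℂ) :
    AnalyticAt ℂ (fun r => fderiv ℂ G r w) z :=
  ((ContinuousLinearMap.apply ℂ V w).analyticAt _).comp h.fderiv

theorem fderiv_dir {V : Type*} [NormedAddCommGroup V] [NormedSpace ℂ V] [CompleteSpace V]
    {G : ℂ × ℂ → V} {z : ℂ × ℂ} (h : AnalyticAt ℂ G z) (w w' : ℂ × ℂ) :
    fderiv ℂ (fun r => fderiv ℂ G r w) z w' = fderiv ℂ (fderiv ℂ G) z w' w := by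
  have h1 := h.fderiv.differentiableAt.hasFDerivAt.clm_apply (hasFDerivAt_const w z)
  rw [h1.fderiv]
  simp

theorem db_da {V : Type*} [NormedAddCommGroup V] [NormedSpace ℂ V] [CompleteSpace V]
    {G : ℂ × ℂ → V} {z : ℂ × ℂ} (h : AnalyticAt ℂ G z) : db (da G) z = da (db G) z := by
  have h1 := fderiv_dir h (1, 0) (0, 1)
  have h2 := fderiv_dir h (0, 1) (1, 0)
  exact h1.trans ((h.contDiffAt.isSymmSndFDerivAt_of_omega _ _).trans h2.symm)

theorem ev_P {z : ℂ × ℂ} (hP : ProjAt P (F z)) (hF : AnalyticAt ℂ F z) :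
    ∀ᶠ r in 𝓝 z, ProjAt P (F r) := by
  have := FiniteDimensional.complete ℂ E
  exact hF.continuousAt.eventually hP.eventually

/-- the semilinear wave equation -/
theorem wave_eq {z : ℂ × ℂ} (hP : ProjAt P (F z)) (hF : WaveAt P F z) :
    ∀ᶠ r in 𝓝 z, db (da F) r = Gam P (F r) (da F r) (db F r) ∧
      da (db F) r = Gam P (F r) (da F r) (db F r) := by
  have := FiniteDimensional.complete ℂ E
  filter_upwards [ev_P hP hF.1, hF.1.eventually_analyticAt, hF.2.eventually_nhds] with r h1 h2 h3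
  have hs := db_da h2
  have a1 := fderiv_P_apply (ξ := da F) h1.1.differentiableAt h2.differentiableAt
    (analyticAt_dir h2 _).differentiableAt (0, 1)
  have a2 := fderiv_P_apply (ξ := db F) h1.1.differentiableAt h2.differentiableAt
    (analyticAt_dir h2 _).differentiableAt (1, 0)
  have e1 : (fun z => P (F z) (da F z)) =ᶠ[𝓝 r] da F := h3.mono fun x hx => hx.1
  have e2 : (fun z => P (F z) (db F z)) =ᶠ[𝓝 r] fun _ => 0 := h3.mono fun x hx => hx.2
  rw [e1.fderiv_eq] at a1
  rw [e2.fderiv_eq, fderiv_fun_const] at a2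
  have b1 : db (da F) r = fderiv ℂ P (F r) (db F r) (da F r) + P (F r) (db (da F) r) := a1
  have b2 : 0 = fderiv ℂ P (F r) (da F r) (db F r) + P (F r) (da (db F) r) := a2
  rw [← hs] at b2 ⊢
  have : db (da F) r = Gam P (F r) (da F r) (db F r) := by
    rw [b1, Gam, eq_neg_of_add_eq_zero_right b2.symm, sub_eq_add_neg]
  exact ⟨this, this⟩

theorem hasDerivAt_diag {V : Type*} [NormedAddCommGroup V] [NormedSpace ℂ V] {G : ℂ × ℂ → V}
    {s : ℂ} (h : DifferentiableAt ℂ G (s, s)) :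
    HasDerivAt (fun x => G (x, x)) (da G (s, s) + db G (s, s)) s := by
  have h0 : HasDerivAt (fun x : ℂ => (x, x)) (1, 1) s := (hasDerivAt_id s).prodMk (hasDerivAt_id s)
  have h1 := HasFDerivAt.comp_hasDerivAt (f := fun x : ℂ => (x, x)) s h.hasFDerivAt h0
  have e : da G (s, s) + db G (s, s) = fderiv ℂ G (s, s) (1, 1) := by
    rw [da, db, ← map_add]; simp
  rw [e]; exact h1

theorem tendsto_diag (t : ℂ) : Tendsto (fun s : ℂ => (s, s)) (𝓝 t) (𝓝 (t, t)) :=
  (continuous_id.prodMk continuous_id).tendsto t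

theorem ev_norm_le {Z V : Type*} [TopologicalSpace Z] [NormedAddCommGroup V] {G : Z → V} {z : Z}
    (h : ContinuousAt G z) : ∀ᶠ r in 𝓝 z, ‖G r‖ ≤ ‖G z‖ + 1 :=
  h.norm.eventually (eventually_le_nhds (by linarith))

theorem dir_sub {V : Type*} [NormedAddCommGroup V] [NormedSpace ℂ V] {G G' : ℂ × ℂ → V}
    {r : ℂ × ℂ} (h : DifferentiableAt ℂ G r) (h' : DifferentiableAt ℂ G' r) (w : ℂ × ℂ) :
    fderiv ℂ (fun z => G z - G' z) r w = fderiv ℂ G r w - fderiv ℂ G' r w := by
  rw [fderiv_fun_sub h h']; rfl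

/-- the equation satisfied by a parallel covector -/
theorem co_ode {z : ℂ × ℂ} (hP : ProjAt P (F z)) (hF : WaveAt P F z) (h : CoAt P F ϑ z) :
    ∀ᶠ r in 𝓝 z, ∀ X, da ϑ r X = - ϑ r (fderiv ℂ P (F r) (da F r) X +
      fderiv ℂ P (F r) (X - P (F r) X) (da F r)) := by
  have := FiniteDimensional.complete ℂ E
  filter_upwards [ev_P hP hF.1, hF.1.eventually_analyticAt, h.1.eventually_analyticAt,
    h.2.eventually_nhds] with r h1 h2 h3 h4 X
  have a1 := (h1.1.differentiableAt.hasFDerivAt.comp r h2.differentiableAt.hasFDerivAt).clm_apply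
    (hasFDerivAt_const X r)
  have a2 := h3.differentiableAt.hasFDerivAt.clm_apply a1
  have e : (fun _ => (0 : ℂ)) =ᶠ[𝓝 r] fun z => ϑ z (P (F z) X) := h4.mono fun x hx => (hx.1 X).symm
  have a3 := (a2.congr_of_eventuallyEq e).unique (hasFDerivAt_const (0 : ℂ) r)
  have a4 := congrArg (fun L => L (1, 0)) a3
  have b1 : ϑ r (fderiv ℂ P (F r) (da F r) X) + da ϑ r (P (F r) X) = 0 := by
    simpa [da] using a4
  have b2 := h4.self_of_nhds.2 (X - P (F r) X) (by rw [map_sub, h1.idem, sub_self])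
  rw [map_sub] at b2
  rw [map_add]
  linear_combination b1 + b2

end SolUAux

open SolUAux

theorem WaveAt.unique {F' : ℂ × ℂ → E} (hP : ProjAt P (F (t, t))) (h : WaveAt P F (t, t))
    (h' : WaveAt P F' (t, t)) (hd : ∀ᶠ s in 𝓝 t, F (s, s) = F' (s, s)) :
    F =ᶠ[𝓝 (t, t)] F' := by
  have := FiniteDimensional.complete ℂ E
  have h0 : F (t, t) = F' (t, t) := hd.self_of_nhds
  have hP' : ProjAt P (F' (t, t)) := h0 ▸ hP
  have hdiag : ∀ᶠ s in 𝓝 t, F (s, s) = F' (s, s) ∧ da F (s, s) = da F' (s, s) ∧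
      db F (s, s) = db F' (s, s) := by
    filter_upwards [hd.eventually_nhds, (tendsto_diag t).eventually h.1.eventually_analyticAt,
      (tendsto_diag t).eventually h'.1.eventually_analyticAt, (tendsto_diag t).eventually h.2,
      (tendsto_diag t).eventually h'.2] with s e a a' b b'
    have e0 : F (s, s) = F' (s, s) := e.self_of_nhds
    have e1 : da F (s, s) + db F (s, s) = da F' (s, s) + db F' (s, s) :=
      ((hasDerivAt_diag a.differentiableAt).congr_of_eventuallyEq
        (e.mono fun x hx => hx.symm)).unique (hasDerivAt_diag a'.differentiableAt)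
    have e2 := congrArg (P (F (s, s))) e1
    rw [map_add, map_add, b.1, b.2, e0, b'.1, b'.2, add_zero, add_zero] at e2
    rw [e2] at e1
    exact ⟨e0, e2, add_left_cancel e1⟩
  obtain ⟨-, hu0, hv0⟩ := hdiag.self_of_nhds
  -- `Gam` is locally Lipschitz
  have hG : ContDiffAt ℂ 1 (fun x : E × E × E => Gam P x.1 x.2.1 x.2.2)
      (F (t, t), da F (t, t), db F (t, t)) := by
    have h1 : ContDiffAt ℂ 1 (fun x : E × E × E => fderiv ℂ P x.1)
        (F (t, t), da F (t, t), db F (t, t)) :=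
      ContDiffAt.comp (g := fderiv ℂ P) _ hP.1.fderiv.contDiffAt contDiffAt_fst
    exact ((h1.clm_apply contDiffAt_snd.snd).clm_apply contDiffAt_snd.fst).sub
      ((h1.clm_apply contDiffAt_snd.fst).clm_apply contDiffAt_snd.snd)
  obtain ⟨K, U, hU, hK⟩ := hG.exists_lipschitzOnWith
  have hc : ContinuousAt (fun r => (F r, da F r, db F r)) (t, t) :=
    h.1.continuousAt.prodMk ((analyticAt_dir h.1 _).continuousAt.prodMk
      (analyticAt_dir h.1 _).continuousAt)
  have hc' : ContinuousAt (fun r => (F' r, da F' r, db F' r)) (t, t) :=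
    h'.1.continuousAt.prodMk ((analyticAt_dir h'.1 _).continuousAt.prodMk
      (analyticAt_dir h'.1 _).continuousAt)
  have hm : ∀ᶠ r in 𝓝 (t, t), (F r, da F r, db F r) ∈ U := hc.eventually hU
  have hm' : ∀ᶠ r in 𝓝 (t, t), (F' r, da F' r, db F' r) ∈ U :=
    hc'.eventually (by simp only [← h0, ← hu0, ← hv0]; exact hU)
  have hL : ∀ᶠ r in 𝓝 (t, t), ‖Gam P (F r) (da F r) (db F r) - Gam P (F' r) (da F' r) (db F' r)‖ ≤
      K * (‖da F r - da F' r‖ + ‖(F r - F' r, db F r - db F' r)‖) := by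
    filter_upwards [hm, hm'] with r a a'
    refine (hK.norm_sub_le a a').trans (mul_le_mul_of_nonneg_left ?_ K.2)
    have n1 := norm_nonneg (da F r - da F' r)
    have n2 := norm_fst_le (F r - F' r, db F r - db F' r)
    have n3 := norm_snd_le (F r - F' r, db F r - db F' r)
    have n4 := norm_nonneg (F r - F' r, db F r - db F' r)
    simp only [Prod.mk_sub_mk, Prod.norm_mk (F r - F' r) (_, _), Prod.norm_mk (da F r - da F' r)]
    exact max_le (by linarith) (max_le (by linarith) (by linarith))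
  have key := eventually_zero_of_cauchy (p := fun r => da F r - da F' r)
    (q := fun r => (F r - F' r, db F r - db F' r)) (t := t) (M := K + 1) ?_ ?_ ?_ ?_ ?_
  · filter_upwards [key] with r hr
    exact sub_eq_zero.1 (congrArg Prod.fst hr.2)
  · filter_upwards [h.1.eventually_analyticAt, h'.1.eventually_analyticAt] with r a a'
    exact (analyticAt_dir a _).differentiableAt.sub (analyticAt_dir a' _).differentiableAt
  · filter_upwards [h.1.eventually_analyticAt, h'.1.eventually_analyticAt] with r a a'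
    exact (a.differentiableAt.sub a'.differentiableAt).prodMk
      ((analyticAt_dir a _).differentiableAt.sub (analyticAt_dir a' _).differentiableAt)
  · filter_upwards [h.1.eventually_analyticAt, h'.1.eventually_analyticAt, wave_eq hP h,
      wave_eq hP' h', hL] with r a a' b b' c
    have e : db (fun r => da F r - da F' r) r = db (da F) r - db (da F') r :=
      dir_sub (analyticAt_dir a _).differentiableAt (analyticAt_dir a' _).differentiableAt _
    rw [e, b.1, b'.1]
    refine c.trans (mul_le_mul_of_nonneg_right (by linarith) (by positivity))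
  · filter_upwards [h.1.eventually_analyticAt, h'.1.eventually_analyticAt, wave_eq hP h,
      wave_eq hP' h', hL] with r a a' b b' c
    have d1 : DifferentiableAt ℂ (fun r => F r - F' r) r := a.differentiableAt.sub a'.differentiableAt
    have d2 : DifferentiableAt ℂ (fun r => db F r - db F' r) r :=
      (analyticAt_dir a _).differentiableAt.sub (analyticAt_dir a' _).differentiableAt
    have e : da (fun r => (F r - F' r, db F r - db F' r)) r =
        (da F r - da F' r, da (db F) r - da (db F') r) := by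
      have e1 : da (fun r => (F r - F' r, db F r - db F' r)) r =
          (da (fun r => F r - F' r) r, da (fun r => db F r - db F' r) r) := by
        simp only [da]
        rw [d1.fderiv_prodMk d2]; rfl
      rw [e1]
      exact Prod.ext (dir_sub a.differentiableAt a'.differentiableAt _)
        (dir_sub (analyticAt_dir a _).differentiableAt (analyticAt_dir a' _).differentiableAt _)
    rw [e, b.2, b'.2, Prod.norm_mk]
    have n1 := norm_nonneg (da F r - da F' r)
    have n4 := norm_nonneg (F r - F' r, db F r - db F' r)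
    have n5 : 0 ≤ (K : ℝ) * (‖da F r - da F' r‖ + ‖(F r - F' r, db F r - db F' r)‖) := by positivity
    exact max_le (by linarith) (by linarith)
  · filter_upwards [hdiag] with s hs
    rw [hs.1, hs.2.1, hs.2.2]
    simp

/-- the ordinary differential equation satisfied by a parallel section -/
theorem ParAt.ode {z : ℂ × ℂ} (hP : ProjAt P (F z)) (hF : WaveAt P F z) (h : ParAt P F ξ z) :
    ∀ᶠ r in 𝓝 z, db ξ r = Gam P (F r) (ξ r) (db F r) := by
  have := FiniteDimensional.complete ℂ E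
  filter_upwards [ev_P hP hF.1, hF.1.eventually_analyticAt, h.1.eventually_analyticAt,
    h.2.eventually_nhds] with r h1 h2 h3 h4
  have a1 := fderiv_P_apply (ξ := ξ) h1.1.differentiableAt h2.differentiableAt
    h3.differentiableAt (0, 1)
  have e1 : (fun z => P (F z) (ξ z)) =ᶠ[𝓝 r] ξ := h4.mono fun x hx => hx.1
  rw [e1.fderiv_eq] at a1
  have b1 : db ξ r = fderiv ℂ P (F r) (db F r) (ξ r) + P (F r) (db ξ r) := a1
  rw [b1, Gam, eq_neg_of_add_eq_zero_left h4.self_of_nhds.2, sub_eq_add_neg]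

theorem ParAt.unique (hP : ProjAt P (F (t, t))) (hF : WaveAt P F (t, t)) (h : ParAt P F ξ (t, t))
    (h' : ParAt P F ξ' (t, t)) (hd : ∀ᶠ s in 𝓝 t, ξ (s, s) = ξ' (s, s)) :
    ξ =ᶠ[𝓝 (t, t)] ξ' := by
  have := FiniteDimensional.complete ℂ E
  have c1 := ev_norm_le (G := fun r => fderiv ℂ P (F r))
    (hP.1.fderiv.continuousAt.comp hF.1.continuousAt)
  have c2 := ev_norm_le (G := db F) (analyticAt_dir hF.1 _).continuousAt
  set K := ‖fderiv ℂ P (F (t, t))‖ + 1
  set K' := ‖db F (t, t)‖ + 1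
  have key := eventually_zero_of_cauchy (p := fun r => ξ r - ξ' r)
    (q := fun _ => (0 : ℂ)) (t := t) (M := 2 * K * K') ?_ ?_ ?_ ?_ ?_
  · filter_upwards [key] with r hr
    exact sub_eq_zero.1 hr.1
  · filter_upwards [h.1.eventually_analyticAt, h'.1.eventually_analyticAt] with r a a'
    exact a.differentiableAt.sub a'.differentiableAt
  · exact Eventually.of_forall fun r => differentiableAt_const _
  · filter_upwards [h.1.eventually_analyticAt, h'.1.eventually_analyticAt, h.ode hP hF,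
      h'.ode hP hF, c1, c2] with r a a' b b' d1 d2
    have e : db (fun r => ξ r - ξ' r) r = db ξ r - db ξ' r :=
      dir_sub a.differentiableAt a'.differentiableAt _
    have e' : Gam P (F r) (ξ r) (db F r) - Gam P (F r) (ξ' r) (db F r) =
        fderiv ℂ P (F r) (db F r) (ξ r - ξ' r) - fderiv ℂ P (F r) (ξ r - ξ' r) (db F r) := by
      simp only [Gam, map_sub, sub_apply]; abel
    rw [e, b, b', e', norm_zero, add_zero]
    have n1 := (fderiv ℂ P (F r)).le_opNorm₂ (db F r) (ξ r - ξ' r)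
    have n2 := (fderiv ℂ P (F r)).le_opNorm₂ (ξ r - ξ' r) (db F r)
    have n3 : ‖fderiv ℂ P (F r)‖ * ‖db F r‖ * ‖ξ r - ξ' r‖ ≤ K * K' * ‖ξ r - ξ' r‖ := by gcongr
    refine (norm_sub_le _ _).trans ?_
    nlinarith
  · refine Eventually.of_forall fun r => ?_
    have : da (fun _ : ℂ × ℂ => (0 : ℂ)) r = 0 := by simp [da]
    rw [this, norm_zero]
    positivity
  · filter_upwards [hd] with s hs
    simp [hs]

theorem CoAt.unique {ϑ' : ℂ × ℂ → E →L[ℂ] ℂ} (hP : ProjAt P (F (t, t))) (hF : WaveAt P F (t, t))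
    (h : CoAt P F ϑ (t, t)) (h' : CoAt P F ϑ' (t, t))
    (hd : ∀ᶠ s in 𝓝 t, ϑ (s, s) = ϑ' (s, s)) : ϑ =ᶠ[𝓝 (t, t)] ϑ' := by
  have := FiniteDimensional.complete ℂ E
  have c1 := ev_norm_le (G := fun r => fderiv ℂ P (F r))
    (hP.1.fderiv.continuousAt.comp hF.1.continuousAt)
  have c2 := ev_norm_le (G := da F) (analyticAt_dir hF.1 _).continuousAt
  have c3 := ev_norm_le (G := fun r => P (F r)) (hP.1.continuousAt.comp hF.1.continuousAt)
  set K := ‖fderiv ℂ P (F (t, t))‖ + 1
  set K' := ‖da F (t, t)‖ + 1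
  set K'' := ‖P (F (t, t))‖ + 1
  have key := eventually_zero_of_cauchy (p := fun _ => (0 : ℂ))
    (q := fun r => ϑ r - ϑ' r) (t := t) (M := K * K' * (2 + K'')) ?_ ?_ ?_ ?_ ?_
  · filter_upwards [key] with r hr
    exact sub_eq_zero.1 hr.2
  · exact Eventually.of_forall fun r => differentiableAt_const _
  · filter_upwards [h.1.eventually_analyticAt, h'.1.eventually_analyticAt] with r a a'
    exact a.differentiableAt.sub a'.differentiableAt
  · refine Eventually.of_forall fun r => ?_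
    have : db (fun _ : ℂ × ℂ => (0 : ℂ)) r = 0 := by simp [db]
    rw [this, norm_zero]
    positivity
  · filter_upwards [h.1.eventually_analyticAt, h'.1.eventually_analyticAt, co_ode hP hF h,
      co_ode hP hF h', c1, c2, c3] with r a a' b b' d1 d2 d3
    have e : da (fun r => ϑ r - ϑ' r) r = da ϑ r - da ϑ' r :=
      dir_sub a.differentiableAt a'.differentiableAt _
    rw [e, norm_zero, zero_add]
    refine ContinuousLinearMap.opNorm_le_bound _ (by positivity) fun X => ?_
    have e' : (da ϑ r - da ϑ' r) X = - (ϑ r - ϑ' r) (fderiv ℂ P (F r) (da F r) X +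
        fderiv ℂ P (F r) (X - P (F r) X) (da F r)) := by
      rw [sub_apply, b X, b' X, sub_apply]; ring
    rw [e', norm_neg]
    have n0 : ‖X - P (F r) X‖ ≤ (1 + K'') * ‖X‖ := by
      have m1 := (P (F r)).le_opNorm X
      have m2 : ‖P (F r)‖ * ‖X‖ ≤ K'' * ‖X‖ := by gcongr
      have := norm_sub_le X (P (F r) X)
      linarith
    have n1 : ‖fderiv ℂ P (F r) (da F r) X‖ ≤ K * K' * ‖X‖ :=
      ((fderiv ℂ P (F r)).le_opNorm₂ _ _).trans (by gcongr)
    have n2 : ‖fderiv ℂ P (F r) (X - P (F r) X) (da F r)‖ ≤ K * ((1 + K'') * ‖X‖) * K' :=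
      ((fderiv ℂ P (F r)).le_opNorm₂ _ _).trans (by gcongr)
    calc _ ≤ ‖ϑ r - ϑ' r‖ * (K * K' * ‖X‖ + K * ((1 + K'') * ‖X‖) * K') :=
          ((ϑ r - ϑ' r).le_opNorm _).trans (by
            gcongr
            exact (norm_add_le _ _).trans (add_le_add n1 n2))
      _ = _ := by ring
  · filter_upwards [hd] with s hs
    simp [hs]

theorem ParAt.congr_F {F₁ : ℂ × ℂ → E} {z : ℂ × ℂ} (h : ParAt P F₁ ξ z) (e : F =ᶠ[𝓝 z] F₁) :
    ParAt P F ξ z := by
  refine ⟨h.1, ?_⟩
  filter_upwards [h.2, e.eventually_nhds] with r a b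
  have b' : F =ᶠ[𝓝 r] F₁ := b
  have e1 : db F r = db F₁ r := by rw [db, db, b'.fderiv_eq]
  rw [b'.self_of_nhds, e1]
  exact a

theorem CoAt.congr_F {F₁ : ℂ × ℂ → E} {z : ℂ × ℂ} (h : CoAt P F₁ ϑ z) (e : F =ᶠ[𝓝 z] F₁) :
    CoAt P F ϑ z := by
  refine ⟨h.1, ?_⟩
  filter_upwards [h.2, e.eventually_nhds] with r a b
  have b' : F =ᶠ[𝓝 r] F₁ := b
  have e1 : da F r = da F₁ r := by rw [da, da, b'.fderiv_eq]
  rw [b'.self_of_nhds, e1]
  exact a

theorem Sol.unique {F₁ ξ₁ ξ₁' : ℂ × ℂ → E} {ϑ₁ : ℂ × ℂ → E →L[ℂ] ℂ}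
    (h : Sol P γ σ σ' θ t F ξ ξ' ϑ) (h₁ : Sol P γ σ σ' θ t F₁ ξ₁ ξ₁' ϑ₁) :
    Sfun P F ξ ξ' ϑ =ᶠ[𝓝 (t, t)] Sfun P F₁ ξ₁ ξ₁' ϑ₁ := by
  have hP : ProjAt P (F (t, t)) := by rw [h.dF.self_of_nhds]; exact h.proj
  have e : F =ᶠ[𝓝 (t, t)] F₁ := h.wave.unique hP h₁.wave (by
    filter_upwards [h.dF, h₁.dF] with s a b
    rw [a, b])
  have e1 : ξ =ᶠ[𝓝 (t, t)] ξ₁ := h.par.unique hP h.wave (h₁.par.congr_F e) (by
    filter_upwards [h.dξ, h₁.dξ] with s a b
    rw [a, b])
  have e2 : ξ' =ᶠ[𝓝 (t, t)] ξ₁' := h.par'.unique hP h.wave (h₁.par'.congr_F e) (by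
    filter_upwards [h.dξ', h₁.dξ'] with s a b
    rw [a, b])
  have e3 : ϑ =ᶠ[𝓝 (t, t)] ϑ₁ := h.co.unique hP h.wave (h₁.co.congr_F e) (by
    filter_upwards [h.dϑ, h₁.dϑ] with s a b
    ext X
    rw [a, b])
  filter_upwards [e, e1, e2, e3] with r a b c d
  simp only [Sfun, a, b, c, d]

end Crest.Agent.R266
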