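import Crest.Agent.R266.Wave
import Crest.Agent.R266.SolU

/-!
# Row 266: holomorphic Frobenius theorem for a splitting
-/

set_option autoImplicit false
set_option linter.unusedSectionVars false
set_option linter.unusedVariables false

open MeasureTheory Metric Set Filter Topology Complex
open scoped ContDiff Manifold Real
open Crest.AlgGeometry.HolSplit

noncomputable section

namespace Crest.Agent.R266

section Var
variable {E Z : Type*} [NormedAddCommGroup E] [NormedSpace ℂ E] [CompleteSpace E]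
  [NormedAddCommGroup Z] [NormedSpace ℂ Z] {P : E → E →L[ℂ] E}

/-- the component of the variation `dF w` transverse to `im P` -/
def frobS (P : E → E →L[ℂ] E) (F : Z → E) (w : Z) (r : Z) : E :=
  fderiv ℂ F r w - P (F r) (fderiv ℂ F r w)

theorem frob_analyticAt_apply {F : Z → E} {q : Z} (hF : AnalyticAt ℂ F q) (w : Z) :
    AnalyticAt ℂ (fun r => fderiv ℂ F r w) q :=
  ((ContinuousLinearMap.apply ℂ E w).analyticAt _).comp hF.fderiv

theorem frob_analyticAt_P {F G : Z → E} {q : Z} (hP : AnalyticAt ℂ P (F q))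
    (hF : AnalyticAt ℂ F q) (hG : AnalyticAt ℂ G q) :
    AnalyticAt ℂ (fun r => P (F r) (G r)) q :=
  ((ContinuousLinearMap.id ℂ (E →L[ℂ] E)).analyticAt_bilinear (P (F q), G q)).comp₂
    (hP.comp hF) hG

theorem analyticAt_frobS {F : Z → E} {q : Z} (hP : AnalyticAt ℂ P (F q)) (hF : AnalyticAt ℂ F q)
    (w : Z) : AnalyticAt ℂ (frobS P F w) q :=
  (frob_analyticAt_apply hF w).sub (frob_analyticAt_P hP hF (frob_analyticAt_apply hF w))

theorem frob_fderiv_apply {F : Z → E} {q : Z} (hF : AnalyticAt ℂ F q) (w v : Z) :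
    fderiv ℂ (fun r => fderiv ℂ F r w) q v = fderiv ℂ (fderiv ℂ F) q v w := by
  rw [(hF.fderiv.differentiableAt.hasFDerivAt.clm_apply (hasFDerivAt_const w q)).fderiv]
  simp

theorem frob_fderiv_P {F G : Z → E} {q : Z} (hP : AnalyticAt ℂ P (F q))
    (hF : AnalyticAt ℂ F q) (hG : AnalyticAt ℂ G q) (v : Z) :
    fderiv ℂ (fun r => P (F r) (G r)) q v
      = P (F q) (fderiv ℂ G q v) + fderiv ℂ P (F q) (fderiv ℂ F q v) (G q) := by
  have h₁ := hP.differentiableAt.hasFDerivAt.comp q hF.differentiableAt.hasFDerivAt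
  have h₂ := h₁.clm_apply hG.differentiableAt.hasFDerivAt
  have h₃ := h₂.fderiv
  simp only [Function.comp_def] at h₃
  rw [h₃]
  simp

theorem ProjAt.Gam_eq_zero {y : E} (hP : ProjAt P y) (hI : IntAt P y) {u v : E} (hu : P y u = u)
    (hv : P y v = v) : Gam P y u v = 0 := by
  have h₁ := hI v u hv hu
  have h₂ := hP.fderiv_idem v u
  have h₃ := hP.fderiv_idem u v
  rw [hu] at h₂
  rw [hv] at h₃
  have h₄ : P y (fderiv ℂ P y v u) = 0 := by simpa using h₂
  have h₅ : P y (fderiv ℂ P y u v) = 0 := by simpa using h₃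
  have h₆ : P y (Gam P y u v) = 0 := by
    rw [Gam, map_sub, h₄, h₅, sub_zero]
  rwa [Nij, h₆, sub_zero] at h₁

/-- the linear equation satisfied by the transverse variation -/
theorem fderiv_frobS {F : Z → E} {q e : Z} (hF : AnalyticAt ℂ F q) (hP : ProjAt P (F q))
    (hI : IntAt P (F q)) (he : ∀ᶠ r in 𝓝 q, P (F r) (fderiv ℂ F r e) = fderiv ℂ F r e) (w : Z) :
    fderiv ℂ (frobS P F w) q e = Gam P (F q) (fderiv ℂ F q e) (frobS P F w q) := by
  have hsymm : fderiv ℂ (fderiv ℂ F) q w e = fderiv ℂ (fderiv ℂ F) q e w :=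
    (hF.contDiffAt (n := ω)).isSymmSndFDerivAt_of_omega w e
  have h₁ : fderiv ℂ (fun r => P (F r) (fderiv ℂ F r e)) q w
      = fderiv ℂ (fun r => fderiv ℂ F r e) q w := by
    rw [Filter.EventuallyEq.fderiv_eq he]
  rw [frob_fderiv_P hP.1 hF (frob_analyticAt_apply hF e), frob_fderiv_apply hF, hsymm] at h₁
  have h₂ : fderiv ℂ (frobS P F w) q e = fderiv ℂ (fderiv ℂ F) q e w -
      (P (F q) (fderiv ℂ (fderiv ℂ F) q e w)
        + fderiv ℂ P (F q) (fderiv ℂ F q e) (fderiv ℂ F q w)) := by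
    have : frobS P F w = fun r => fderiv ℂ F r w - P (F r) (fderiv ℂ F r w) := rfl
    rw [this, fderiv_fun_sub (frob_analyticAt_apply hF w).differentiableAt
      (frob_analyticAt_P hP.1 hF (frob_analyticAt_apply hF w)).differentiableAt,
      _root_.sub_apply, frob_fderiv_P hP.1 hF (frob_analyticAt_apply hF w),
      frob_fderiv_apply hF]
  have h₃ := hP.Gam_eq_zero hI he.self_of_nhds (hP.idem (fderiv ℂ F q w))
  rw [h₂]
  simp only [Gam, frobS, map_sub, _root_.sub_apply] at h₃ ⊢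
  linear_combination (norm := module) h₃ - h₁

/-- the transverse variation vanishes along a line tangent to `im P` if it vanishes at a point -/
theorem frobS_eq_zero {F : Z → E} {U : Set Z} (hU : IsOpen U) (hF : AnalyticOnNhd ℂ F U)
    (hP : ∀ q ∈ U, ProjAt P (F q)) (hI : ∀ q ∈ U, IntAt P (F q)) {e : Z}
    (he : ∀ q ∈ U, P (F q) (fderiv ℂ F q e) = fderiv ℂ F q e) (w q₀ : Z) {R : ℝ}
    (hq : ∀ s ∈ ball (0 : ℂ) R, q₀ + s • e ∈ U) {s₀ s₁ : ℂ} (h₀ : s₀ ∈ ball (0 : ℂ) R)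
    (h₁ : s₁ ∈ ball (0 : ℂ) R) (hz : frobS P F w (q₀ + s₀ • e) = 0) :
    frobS P F w (q₀ + s₁ • e) = 0 := by
  have hl : ∀ s : ℂ, AnalyticAt ℂ (fun s : ℂ => q₀ + s • e) s := fun s =>
    analyticAt_const.add (analyticAt_id.smul analyticAt_const)
  have hy : AnalyticOnNhd ℂ (fun s : ℂ => frobS P F w (q₀ + s • e)) (ball 0 R) := fun s hs =>
    (analyticAt_frobS (hP _ (hq s hs)).1 (hF _ (hq s hs)) w).comp_of_eq (hl s) rfl
  have hd : ∀ s ∈ ball (0 : ℂ) R, deriv (fun s : ℂ => frobS P F w (q₀ + s • e)) s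
      = Gam P (F (q₀ + s • e)) (fderiv ℂ F (q₀ + s • e) e) (frobS P F w (q₀ + s • e)) := by
    intro s hs
    have hl' : HasDerivAt (fun s : ℂ => q₀ + s • e) e s := by
      simpa using ((hasDerivAt_id s).smul_const e).const_add q₀
    have := ((analyticAt_frobS (hP _ (hq s hs)).1 (hF _ (hq s hs))
      w).differentiableAt.hasFDerivAt.comp_hasDerivAt s hl').deriv
    rw [← fderiv_frobS (hF _ (hq s hs)) (hP _ (hq s hs)) (hI _ (hq s hs))
      (by filter_upwards [hU.mem_nhds (hq s hs)] with r hr using he r hr) w, ← this]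
    rfl
  have hc : ContinuousAt (fun s : ℂ => ‖fderiv ℂ P (F (q₀ + s • e))‖
      * ‖fderiv ℂ F (q₀ + s • e) e‖) s₀ := by
    have a₁ : AnalyticAt ℂ (fun s : ℂ => F (q₀ + s • e)) s₀ :=
      (hF _ (hq s₀ h₀)).comp_of_eq (hl s₀) rfl
    have a₂ : AnalyticAt ℂ (fun s : ℂ => fderiv ℂ P (F (q₀ + s • e))) s₀ :=
      (hP _ (hq s₀ h₀)).1.fderiv.comp_of_eq a₁ rfl
    have a₃ : AnalyticAt ℂ (fun s : ℂ => fderiv ℂ F (q₀ + s • e) e) s₀ :=
      (frob_analyticAt_apply (hF _ (hq s₀ h₀)) e).comp_of_eq (hl s₀) rfl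
    have c₂ : ContinuousAt (fun s : ℂ => ‖fderiv ℂ P (F (q₀ + s • e))‖) s₀ :=
      (continuous_norm (E := E →L[ℂ] E →L[ℂ] E)).continuousAt.comp a₂.continuousAt
    exact c₂.mul a₃.continuousAt.norm
  have hb := hc.eventually (gt_mem_nhds (lt_add_one _))
  have hev : ∀ᶠ s in 𝓝 s₀, frobS P F w (q₀ + s • e) = 0 := by
    refine eventually_zero_of_ode (y := fun s : ℂ => frobS P F w (q₀ + s • e))
      (M := 2 * (‖fderiv ℂ P (F (q₀ + s₀ • e))‖ * ‖fderiv ℂ F (q₀ + s₀ • e) e‖ + 1)) ?_ ?_ hz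
    · filter_upwards [isOpen_ball.mem_nhds h₀] with s hs using (hy s hs).differentiableAt
    · filter_upwards [isOpen_ball.mem_nhds h₀, hb] with s hs hs'
      rw [hd s hs, Gam]
      set A := fderiv ℂ P (F (q₀ + s • e))
      set u := fderiv ℂ F (q₀ + s • e) e
      set S := frobS P F w (q₀ + s • e)
      have n₁ := A.le_opNorm₂ S u
      have n₂ := A.le_opNorm₂ u S
      have n₃ := norm_sub_le (A S u) (A u S)
      have n₄ := mul_le_mul_of_nonneg_right hs'.le (norm_nonneg S)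
      nlinarith
  exact hy.eqOn_zero_of_preconnected_of_eventuallyEq_zero (convex_ball _ _).isPreconnected h₀ hev h₁

end Var

variable {E : Type*} [NormedAddCommGroup E] [NormedSpace ℂ E] [FiniteDimensional ℂ E]
  {P : E → E →L[ℂ] E} {y₀ : E}

/-- derivative in the parameter -/
theorem frob_fderiv_param {Λ : Type*} [NormedAddCommGroup Λ] [NormedSpace ℂ Λ]
    {F : Λ × ℂ × ℂ → E} {l : Λ} {z : ℂ × ℂ} (hF : DifferentiableAt ℂ F (l, z)) (w : Λ) :
    fderiv ℂ (fun l' => F (l', z)) l w = fderiv ℂ F (l, z) (w, 0) := by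
  have h := (HasFDerivAt.comp (f := fun l' => (l', z)) l hF.hasFDerivAt
    (hasFDerivAt_prodMk_left (𝕜 := ℂ) l z)).fderiv
  simp only [Function.comp_def] at h
  rw [h]
  simp

theorem frob_fderiv_fib {Λ : Type*} [NormedAddCommGroup Λ] [NormedSpace ℂ Λ]
    {F : Λ × ℂ × ℂ → E} {l : Λ} {z : ℂ × ℂ} (hF : DifferentiableAt ℂ F (l, z)) (w : ℂ × ℂ) :
    fderiv ℂ (fun z' => F (l, z')) z w = fderiv ℂ F (l, z) (0, w) := by
  have h := (hF.hasFDerivAt.comp z (hasFDerivAt_prodMk_right l z)).fderiv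
  simp only [Function.comp_def] at h
  rw [h]
  simp

/-- the local swap map `m (x,y) = (x₁, y₂)` -/
theorem exists_swap (hP : ProjAt P y₀) (h₁ : ∀ᶠ y in 𝓝 y₀, IntAt P y)
    (h₂ : ∀ᶠ y in 𝓝 y₀, IntAt (coP P) y) :
    ∃ m : E × E → E, AnalyticAt ℂ m (y₀, y₀) ∧ (∀ᶠ y in 𝓝 y₀, m (y, y) = y) ∧
      ∀ᶠ q in 𝓝 (y₀, y₀), ∀ X, P (m q) (fderiv ℂ m q (X, 0)) = fderiv ℂ m q (X, 0) ∧
        P (m q) (fderiv ℂ m q (0, X)) = 0 := by
  have : CompleteSpace E := FiniteDimensional.complete ℂ E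
  obtain ⟨ε, hε, hw⟩ := exists_wave (Λ := E × E) hP (hP.eventually.and (h₁.and h₂))
  set f : (E × E) × ℂ → E := fun q => q.1.2 + q.2 • (q.1.1 - q.1.2) with hf
  have hfa : ∀ q, AnalyticAt ℂ f q := fun q =>
    (analyticAt_snd.comp analyticAt_fst).add (analyticAt_snd.smul
      ((analyticAt_fst.comp analyticAt_fst).sub (analyticAt_snd.comp analyticAt_fst)))
  have hfd : ∀ q, fderiv ℂ f q (0, 1) = q.1.1 - q.1.2 := by
    intro q
    have h := ((hfa q).differentiableAt.hasFDerivAt.comp_hasDerivAt q.2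
      (f := fun t : ℂ => (q.1, t)) ((hasDerivAt_const q.2 q.1).prodMk (hasDerivAt_id q.2)))
    have h' : HasDerivAt (fun t : ℂ => q.1.2 + t • (q.1.1 - q.1.2)) (q.1.1 - q.1.2) q.2 := by
      simpa using ((hasDerivAt_id q.2).smul_const (q.1.1 - q.1.2)).const_add q.1.2
    exact h.unique h'
  set O : Set (E × E) := ball (y₀, y₀) (ε / 5) with hO
  have hO₀ : O ∈ 𝓝 (y₀, y₀) := ball_mem_nhds _ (by positivity)
  obtain ⟨F, hFa, hFw, hFd⟩ := hw O f isOpen_ball (fun q _ => hfa q) (by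
    rintro ⟨⟨x, y⟩, t⟩ ⟨hxy, ht⟩
    rw [hO, mem_ball, Prod.dist_eq, max_lt_iff, dist_eq_norm, dist_eq_norm] at hxy
    have ht' : ‖t‖ < 2 := by simpa using ht
    have n₁ : ‖x - y‖ ≤ ‖x - y₀‖ + ‖y - y₀‖ := by
      have := norm_sub_le (x - y₀) (y - y₀)
      rwa [sub_sub_sub_cancel_right] at this
    obtain ⟨hx, hy⟩ := hxy
    simp only at hx hy
    refine ⟨?_, ?_⟩
    · rw [mem_ball, dist_eq_norm]
      have n₂ : ‖y + t • (x - y) - y₀‖ ≤ ‖y - y₀‖ + ‖t‖ * ‖x - y‖ := by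
        rw [← norm_smul, add_sub_right_comm]
        exact norm_add_le _ _
      have n₃ := mul_le_mul_of_nonneg_right ht'.le (norm_nonneg (x - y))
      change ‖y + t • (x - y) - y₀‖ < ε
      linarith
    · rw [hfd]
      change ‖x - y‖ ≤ ε
      linarith)
  have b₀ : (0 : ℂ) ∈ ball (0 : ℂ) 2 := mem_ball_self two_pos
  have b₁ : (1 : ℂ) ∈ ball (0 : ℂ) 2 := by simp
  have hU : IsOpen (Dm O (0 : ℂ) 2) := isOpen_Dm isOpen_ball
  have mem : ∀ {l a b}, l ∈ O → a ∈ ball (0 : ℂ) 2 → b ∈ ball (0 : ℂ) 2 →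
      (l, a, b) ∈ Dm O (0 : ℂ) 2 := fun hl ha hb => ⟨hl, ha, hb⟩
  have hdiag : ∀ l ∈ O, ∀ t ∈ ball (0 : ℂ) 2, ∀ w : E × E,
      fderiv ℂ F (l, t, t) (w, 0) = w.2 + t • (w.1 - w.2) := by
    intro l hl t ht w
    rw [← frob_fderiv_param (hFa _ (mem hl ht ht)).differentiableAt]
    have e : (fun l' => F (l', t, t)) =ᶠ[𝓝 l] fun l' : E × E => l'.2 + t • (l'.1 - l'.2) := by
      filter_upwards [isOpen_ball.mem_nhds hl] with l' hl' using hFd l' hl' t ht
    rw [e.fderiv_eq]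
    have h : HasFDerivAt (fun l' : E × E => l'.2 + t • (l'.1 - l'.2))
        (ContinuousLinearMap.snd ℂ E E
          + t • (ContinuousLinearMap.fst ℂ E E - ContinuousLinearMap.snd ℂ E E)) l :=
      hasFDerivAt_snd.add ((hasFDerivAt_fst.sub hasFDerivAt_snd).const_smul t)
    rw [h.fderiv]
    simp
  refine ⟨fun l => F (l, 1, 0), ?_, ?_, ?_⟩
  · exact (hFa _ (mem (mem_of_mem_nhds hO₀) b₁ b₀)).comp_of_eq
      (analyticAt_id.prod analyticAt_const) rfl
  · have hc : Tendsto (fun y : E => (y, y)) (𝓝 y₀) (𝓝 (y₀, y₀)) :=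
      (continuous_id.prodMk continuous_id).tendsto y₀
    filter_upwards [hc.eventually hO₀] with y hy
    have hG : AnalyticOnNhd ℂ (fun z : ℂ × ℂ => F ((y, y), z)) (ball 0 2 ×ˢ ball 0 2) :=
      fun z hz => (hFa _ (mem hy hz.1 hz.2)).comp_of_eq (analyticAt_const.prod analyticAt_id) rfl
    have hn : ball (0 : ℂ) 2 ×ˢ ball (0 : ℂ) 2 ∈ 𝓝 ((0 : ℂ), (0 : ℂ)) :=
      (isOpen_ball.prod isOpen_ball).mem_nhds ⟨b₀, b₀⟩
    have hW : WaveAt P (fun z : ℂ × ℂ => F ((y, y), z)) (0, 0) := by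
      refine ⟨hG _ ⟨b₀, b₀⟩, ?_⟩
      filter_upwards [hn] with z hz
      have hz' := mem hy hz.1 hz.2
      rw [da, db, frob_fderiv_fib (hFa _ hz').differentiableAt,
        frob_fderiv_fib (hFa _ hz').differentiableAt]
      exact (hFw _ hz').2
    have hW' : WaveAt P (fun _ : ℂ × ℂ => y) (0, 0) :=
      ⟨analyticAt_const, Eventually.of_forall fun z => by simp [da, db]⟩
    have hu := WaveAt.unique (hFw _ (mem hy b₀ b₀)).1.1 hW hW' (by
      filter_upwards [isOpen_ball.mem_nhds b₀] with s hs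
      rw [hFd _ hy s hs]
      simp [hf])
    exact hG.eqOn_of_preconnected_of_eventuallyEq (fun _ _ => analyticAt_const)
      ((convex_ball _ _).prod (convex_ball _ _)).isPreconnected (z₀ := (0, 0)) ⟨b₀, b₀⟩ hu
      (show ((1 : ℂ), (0 : ℂ)) ∈ _ from ⟨b₁, b₀⟩)
  · filter_upwards [hO₀] with l hl X
    rw [frob_fderiv_param (hFa _ (mem hl b₁ b₀)).differentiableAt,
      frob_fderiv_param (hFa _ (mem hl b₁ b₀)).differentiableAt]
    constructor
    · have e : ∀ s : ℂ, ((l, 0, 0) : (E × E) × ℂ × ℂ) + s • ((0, 1, 0) : (E × E) × ℂ × ℂ)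
          = (l, s, 0) := fun s => by simp
      have h := frobS_eq_zero hU hFa (fun q hq => (hFw q hq).1.1) (fun q hq => (hFw q hq).1.2.1)
        (fun q hq => (hFw q hq).2.1) ((X, 0), 0) (l, 0, 0) (R := 2)
        (fun s hs => by rw [e]; exact mem hl hs b₀) b₀ b₁ (by
          rw [e, frobS, hdiag l hl 0 b₀]; simp)
      rw [e, frobS, sub_eq_zero] at h
      exact h.symm
    · have e : ∀ s : ℂ, ((l, 1, 0) : (E × E) × ℂ × ℂ) + s • ((0, 0, 1) : (E × E) × ℂ × ℂ)
          = (l, 1, s) := fun s => by simp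
      have h := frobS_eq_zero (P := coP P) hU hFa (fun q hq => (hFw q hq).1.1.coP)
        (fun q hq => (hFw q hq).1.2.2) (e := (0, 0, 1))
        (fun q hq => by simp [coP, (hFw q hq).2.2]) ((0, X), 0) (l, 1, 0) (R := 2)
        (fun s hs => by rw [e]; exact mem hl b₁ hs) b₁ b₀ (by
          rw [e, frobS, hdiag l hl 1 b₁]; simp)
      rw [e, frobS] at h
      simpa [coP] using h

end Crest.Agent.R266
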