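import Crest.Agent.R266.Goursat
import Crest.Agent.R266.Man
import Crest.Agent.R266.Mono
import Crest.Agent.R266.SC

/-!
# Row 266: the global product type map
-/

set_option autoImplicit false
set_option linter.unusedSectionVars false
set_option linter.unusedVariables false

open MeasureTheory Metric Set Filter Topology Complex
open scoped ContDiff Manifold Real
open Crest.AlgGeometry.HolSplit

noncomputable section

namespace Crest.Agent.R266

namespace PAtlas
variable {X : Type*} [MetricSpace X] [CompactSpace X] {n₁ n₂ : ℕ} {𝒜 : PAtlas X n₁ n₂}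
variable {n : ℕ} {Y : Type*} [TopologicalSpace Y] [ChartedSpace (Model n) Y] [IsManifold (mI n) ω Y]

/-- the Goursat problem on a product of coordinate balls -/
theorem Kae.goursatm (𝒦 : 𝒜.Kae) {U U' : Set Y} (hU : IsBall n U) (hU' : IsBall n U') {f g : Y → X}
    {x y : Y} (hx : x ∈ U) (hy : y ∈ U') (hf : ∀ a ∈ U, 𝒜.T1m n f a) (hg : ∀ b ∈ U', 𝒜.T2m n g b)
    (hfg : f x = g y) :
    ∃ M : Y × Y → X, (∀ q ∈ U ×ˢ U', 𝒜.PTm n M q) ∧ (∀ a ∈ U, M (a, y) = f a) ∧
      ∀ b ∈ U', M (x, b) = g b := by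
  obtain ⟨p, c, r, hs, rfl⟩ := hU
  obtain ⟨p', c', r', hs', rfl⟩ := hU'
  obtain ⟨a₀, ha₀, rfl⟩ := hx
  obtain ⟨b₀, hb₀, rfl⟩ := hy
  set e := chartAt (Model n) p with he
  set e' := chartAt (Model n) p' with he'
  obtain ⟨Φ, hΦ, h₁, h₂⟩ := 𝒦.goursat (f := fun u => f (e.symm u)) (g := fun u => g (e'.symm u))
    ha₀ hb₀ (fun a ha => by
      have h := (t1m_iff (p := p) (e.map_target (hs ha))).1 (hf _ ⟨a, ha, rfl⟩)
      rwa [← he, e.right_inv (hs ha)] at h) (fun b hb => by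
      have h := (t2m_iff (p := p') (e'.map_target (hs' hb))).1 (hg _ ⟨b, hb, rfl⟩)
      rwa [← he', e'.right_inv (hs' hb)] at h) hfg
  refine ⟨fun q => Φ (e q.1, e' q.2), ?_, ?_, ?_⟩
  · rintro ⟨_, _⟩ ⟨⟨a, ha, rfl⟩, ⟨b, hb, rfl⟩⟩
    refine (ptm_iff (p := p) (p' := p') (e.map_target (hs ha)) (e'.map_target (hs' hb))).2 ?_
    rw [← he, ← he', e.right_inv (hs ha), e'.right_inv (hs' hb)]
    refine (hΦ (a, b) ⟨ha, hb⟩).congr ?_
    filter_upwards [(e.open_target.prod e'.open_target).mem_nhds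
      (show (a, b) ∈ e.target ×ˢ e'.target from ⟨hs ha, hs' hb⟩)] with u hu
    simp only [e.right_inv hu.1, e'.right_inv hu.2]
  · rintro _ ⟨a, ha, rfl⟩
    simp only [e.right_inv (hs ha), e'.right_inv (hs' hb₀)]
    exact h₁ a ha
  · rintro _ ⟨b, hb, rfl⟩
    simp only [e.right_inv (hs ha₀), e'.right_inv (hs' hb)]
    exact h₂ b hb

end PAtlas

end Crest.Agent.R266
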