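import Crest.Agent.R266.Defs

/-!
# Row 266: the sweeping domains
-/

set_option autoImplicit false
set_option linter.unusedSectionVars false
set_option linter.unusedVariables false

open MeasureTheory Metric Set Filter Topology Complex
open scoped ContDiff Manifold Real
open Crest.AlgGeometry.HolSplit

noncomputable section

namespace Crest.Agent.R266

variable {A B : Type*} [NormedAddCommGroup A] [InnerProductSpace ℂ A] [NormedSpace ℝ A]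
  [IsScalarTower ℝ ℂ A] [NormedAddCommGroup B] [InnerProductSpace ℂ B] [NormedSpace ℝ B]
  [IsScalarTower ℝ ℂ B]

/-- the normalised defining function of a ball along a complex line -/
def touchF (μ : ℂ) (ν : ℝ) (z : ℂ) : ℝ := 1 - 2 * (μ * z).re - ν * ‖z‖ ^ 2

lemma touch_one_factor {c o p : A} {r : ℝ} (ho : o ∈ ball c r) (hp : 0 < r ^ 2 - ‖p - c‖ ^ 2) :
    ∃ (μ : ℂ) (ν : ℝ), 0 ≤ ν ∧ 0 < touchF μ ν 1 ∧ ∀ z : ℂ,
      r ^ 2 - ‖p + z • (o - p) - c‖ ^ 2 = (r ^ 2 - ‖p - c‖ ^ 2) * touchF μ ν z := by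
  set q₀ : ℝ := r ^ 2 - ‖p - c‖ ^ 2 with hq₀
  have key : ∀ z : ℂ, r ^ 2 - ‖p + z • (o - p) - c‖ ^ 2
      = q₀ * touchF (inner ℂ (p - c) (o - p) / (q₀ : ℂ)) (‖o - p‖ ^ 2 / q₀) z := by
    intro z
    have e : p + z • (o - p) - c = (p - c) + z • (o - p) := by abel
    rw [e, @norm_add_sq ℂ, inner_smul_right, norm_smul, touchF]
    have e2 : (inner ℂ (p - c) (o - p) / (q₀ : ℂ) * z).re
        = (z * inner ℂ (p - c) (o - p)).re / q₀ := by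
      rw [← Complex.div_ofReal_re]; congr 1; ring
    rw [e2]
    simp only [RCLike.re_to_complex]
    field_simp
    rw [hq₀]; ring
  refine ⟨_, _, by positivity, ?_, key⟩
  have h1 := key 1
  have e : p + (1 : ℂ) • (o - p) - c = o - c := by simp
  rw [e] at h1
  have ho' : ‖o - c‖ < r := by simpa [dist_eq_norm] using ho
  have : 0 < r ^ 2 - ‖o - c‖ ^ 2 := by nlinarith [norm_nonneg (o - c)]
  rw [h1] at this
  exact (pos_iff_pos_of_mul_pos this).1 hp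

lemma touchF_real {μ : ℂ} {ν : ℝ} (hν : 0 ≤ ν) {t : ℝ} (h0 : 0 ≤ t) (h1 : t ≤ 1) :
    ‖(1 : ℂ) - t‖ ^ 2 + t * touchF μ ν 1 ≤ touchF μ ν t := by
  have e : ‖(1 : ℂ) - t‖ ^ 2 = (1 - t) ^ 2 := by
    rw [show (1 : ℂ) - t = ((1 - t : ℝ) : ℂ) by push_cast; ring, Complex.norm_real,
      Real.norm_eq_abs, sq_abs]
  have e2 : ‖(t : ℂ)‖ ^ 2 = t ^ 2 := by rw [Complex.norm_real, Real.norm_eq_abs, sq_abs]
  rw [e, touchF, touchF, e2]
  simp only [mul_one, norm_one, Complex.mul_re, Complex.ofReal_re, Complex.ofReal_im, mul_zero,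
    sub_zero]
  have : 0 ≤ ν * (t * (1 - t)) := mul_nonneg hν (mul_nonneg h0 (by linarith))
  have : 0 ≤ t * (1 - t) := mul_nonneg h0 (by linarith)
  nlinarith

lemma touchF_bound {μ : ℂ} {ν : ℝ} (hν : 0 ≤ ν) {z : ℂ} (hz : ‖z‖ ≤ 1) :
    |1 - touchF μ ν z| ≤ (2 * ‖μ‖ + ν) * ‖z‖ := by
  have h1 : |(μ * z).re| ≤ ‖μ‖ * ‖z‖ := by
    rw [← norm_mul]; exact Complex.abs_re_le_norm _
  have h2 : ν * ‖z‖ ^ 2 ≤ ν * ‖z‖ :=
    mul_le_mul_of_nonneg_left (by nlinarith [norm_nonneg z]) hν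
  have h3 : 0 ≤ ν * ‖z‖ ^ 2 := by positivity
  have h4 : 0 ≤ ν * ‖z‖ := by positivity
  rw [touchF, abs_le] at *
  constructor <;> nlinarith [h1.1, h1.2]

lemma touch_norm_sq (z : ℂ) : ‖1 - z‖ ^ 2 = 1 - 2 * z.re + ‖z‖ ^ 2 := by
  rw [← Complex.normSq_eq_norm_sq, ← Complex.normSq_eq_norm_sq, Complex.normSq_apply,
    Complex.normSq_apply]
  simp only [Complex.sub_re, Complex.one_re, Complex.sub_im, Complex.one_im]
  ring

lemma touch_second_order (μ μ' : ℂ) {ν ν' : ℝ} (hν : 0 ≤ ν) (hν' : 0 ≤ ν') :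
    ∃ C ρ : ℝ, 0 < C ∧ 0 < ρ ∧ ∀ z y : ℂ, ‖z‖ < ρ → ‖y‖ < ρ →
      0 ≤ touchF μ ν z ∧ 0 ≤ touchF μ' ν' y ∧
      ‖1 - z‖ ^ 2 * ‖1 - y‖ ^ 2 + 2 * ((1 - μ) * z + (1 - μ') * y).re
        - C * (‖z‖ ^ 2 + ‖y‖ ^ 2) ≤ touchF μ ν z * touchF μ' ν' y := by
  set M : ℝ := 2 * ‖μ‖ + ν with hM
  set M' : ℝ := 2 * ‖μ'‖ + ν' with hM'
  have hM0 : 0 ≤ M := by positivity
  have hM0' : 0 ≤ M' := by positivity
  refine ⟨1 + ν + ν' + M * M' + 9, 1 / (1 + M + M'), by positivity, by positivity, ?_⟩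
  intro z y hz hy
  have hz0 := norm_nonneg z
  have hy0 := norm_nonneg y
  rw [lt_div_iff₀ (by positivity)] at hz hy
  have hzM : 0 ≤ ‖z‖ * M := by positivity
  have hzM' : 0 ≤ ‖z‖ * M' := by positivity
  have hyM : 0 ≤ ‖y‖ * M := by positivity
  have hyM' : 0 ≤ ‖y‖ * M' := by positivity
  have hz1 : ‖z‖ ≤ 1 := by nlinarith
  have hy1 : ‖y‖ ≤ 1 := by nlinarith
  have ha := touchF_bound (μ := μ) hν hz1
  have hb := touchF_bound (μ := μ') hν' hy1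
  rw [← hM] at ha
  rw [← hM'] at hb
  have ha' : |2 * z.re - ‖z‖ ^ 2| ≤ 3 * ‖z‖ := by
    have h1 := abs_le.1 (Complex.abs_re_le_norm z)
    rw [abs_le]; constructor <;> nlinarith [h1.1, h1.2]
  have hb' : |2 * y.re - ‖y‖ ^ 2| ≤ 3 * ‖y‖ := by
    have h1 := abs_le.1 (Complex.abs_re_le_norm y)
    rw [abs_le]; constructor <;> nlinarith [h1.1, h1.2]
  refine ⟨by nlinarith [(abs_le.1 ha).2], by nlinarith [(abs_le.1 hb).2], ?_⟩
  have hzy : ‖z‖ * ‖y‖ ≤ ‖z‖ ^ 2 + ‖y‖ ^ 2 := by nlinarith [sq_nonneg (‖z‖ - ‖y‖)]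
  have hab : -(M * M' * (‖z‖ ^ 2 + ‖y‖ ^ 2)) ≤ (1 - touchF μ ν z) * (1 - touchF μ' ν' y) := by
    have h1 : |(1 - touchF μ ν z) * (1 - touchF μ' ν' y)| ≤ (M * ‖z‖) * (M' * ‖y‖) := by
      rw [abs_mul]; exact mul_le_mul ha hb (abs_nonneg _) (by positivity)
    have h2 : M * M' * (‖z‖ * ‖y‖) ≤ M * M' * (‖z‖ ^ 2 + ‖y‖ ^ 2) :=
      mul_le_mul_of_nonneg_left hzy (by positivity)
    nlinarith [(abs_le.1 h1).1]
  have hab' : (2 * z.re - ‖z‖ ^ 2) * (2 * y.re - ‖y‖ ^ 2) ≤ 9 * (‖z‖ ^ 2 + ‖y‖ ^ 2) := by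
    have h1 : |(2 * z.re - ‖z‖ ^ 2) * (2 * y.re - ‖y‖ ^ 2)| ≤ (3 * ‖z‖) * (3 * ‖y‖) := by
      rw [abs_mul]; exact mul_le_mul ha' hb' (abs_nonneg _) (by positivity)
    nlinarith [(abs_le.1 h1).2]
  have e1 : ((1 - μ) * z + (1 - μ') * y).re = z.re - (μ * z).re + (y.re - (μ' * y).re) := by
    rw [sub_mul, sub_mul, one_mul, one_mul]; simp
  have f1 : touchF μ ν z = 1 - 2 * (μ * z).re - ν * ‖z‖ ^ 2 := rfl
  have f2 : touchF μ' ν' y = 1 - 2 * (μ' * y).re - ν' * ‖y‖ ^ 2 := rfl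
  have g1 : 0 ≤ ν * ‖y‖ ^ 2 := by positivity
  have g2 : 0 ≤ ν' * ‖z‖ ^ 2 := by positivity
  rw [touch_norm_sq, touch_norm_sq, e1]
  have e2 : touchF μ ν z * touchF μ' ν' y = (1 - touchF μ ν z) * (1 - touchF μ' ν' y)
      + touchF μ ν z + touchF μ' ν' y - 1 := by ring
  have e3 : (1 - 2 * z.re + ‖z‖ ^ 2) * (1 - 2 * y.re + ‖y‖ ^ 2)
      = (2 * z.re - ‖z‖ ^ 2) * (2 * y.re - ‖y‖ ^ 2) + 1 - (2 * z.re - ‖z‖ ^ 2)
        - (2 * y.re - ‖y‖ ^ 2) := by ring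
  rw [e2, e3]
  linarith [f1, f2]

lemma touch_mem_closedBall {c a : A} {r : ℝ} (hr : 0 ≤ r) (h : 0 ≤ r ^ 2 - ‖a - c‖ ^ 2) :
    a ∈ closedBall c r := by
  rw [mem_closedBall, dist_eq_norm]
  exact abs_le_of_sq_le_sq' (by linarith) hr |>.2

lemma touch_norm_line (o p : A) (z : ℂ) :
    ‖p + z • (o - p) - o‖ ^ 2 = ‖1 - z‖ ^ 2 * ‖p - o‖ ^ 2 := by
  have e : p + z • (o - p) - o = (1 - z) • (p - o) := by
    rw [sub_smul, one_smul, smul_sub, smul_sub]; abel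
  rw [e, norm_smul, mul_pow]

lemma touch_segment {o p a : A} (h : a ∈ segment ℝ o p) :
    ∃ t : ℝ, 0 ≤ t ∧ t ≤ 1 ∧ a = p + (t : ℂ) • (o - p) := by
  rw [segment_symm, segment_eq_image'] at h
  obtain ⟨t, ⟨h0, h1⟩, rfl⟩ := h
  refine ⟨t, h0, h1, ?_⟩
  have : (t : ℂ) • (o - p) = t • (o - p) := algebraMap_smul ℂ t (o - p)
  rw [this]

/-- If an open set `W` contains the cross through `o` in a product of closed balls but misses a
point of the product of the open balls, there is a first touching point `p`: `W` contains the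
rectangle spanned by `o` and `p` except `p`, and a model domain in a two-dimensional slice. -/
theorem exists_touching [FiniteDimensional ℂ A] [FiniteDimensional ℂ B] {W : Set (A × B)}
    (hW : IsOpen W) {c : A} {c' : B} {r r' : ℝ} {o : A × B} (ho₁ : o.1 ∈ ball c r)
    (ho₂ : o.2 ∈ ball c' r') (h₁ : ∀ a ∈ closedBall c r, (a, o.2) ∈ W)
    (h₂ : ∀ b ∈ closedBall c' r', (o.1, b) ∈ W) {q : A × B} (hq : q ∈ ball c r ×ˢ ball c' r')
    (hqW : q ∉ W) :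
    ∃ p : A × B, p ∉ W ∧ p.1 ≠ o.1 ∧ p.2 ≠ o.2 ∧ Rect o p \ {p} ⊆ W ∧
      ∃ (l₁ l₂ : ℂ) (K r₀ : ℝ), 0 < l₁.re ∧ 0 < l₂.re ∧ 0 < K ∧ 0 < r₀ ∧
        ∀ z ∈ Om K r₀, (p.1 + (z.1 / l₁) • (o.1 - p.1), p.2 + (z.2 / l₂) • (o.2 - p.2)) ∈ W := by
  have hr : 0 < r := pos_of_mem_ball ho₁
  have hr' : 0 < r' := pos_of_mem_ball ho₂
  have : ProperSpace A := FiniteDimensional.proper ℂ A
  have : ProperSpace B := FiniteDimensional.proper ℂ B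
  set K : Set (A × B) := (closedBall c r ×ˢ closedBall c' r') \ W with hK
  have hKc : IsCompact K :=
    ((isCompact_closedBall c r).prod (isCompact_closedBall c' r')).diff hW
  have hqK : q ∈ K := ⟨⟨ball_subset_closedBall hq.1, ball_subset_closedBall hq.2⟩, hqW⟩
  have hne₁ : ∀ x ∈ K, x.1 ≠ o.1 := by
    intro x hx e
    apply hx.2
    have := h₂ x.2 hx.1.2
    rwa [← e] at this
  have hne₂ : ∀ x ∈ K, x.2 ≠ o.2 := by
    intro x hx e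
    apply hx.2
    have := h₁ x.1 hx.1.1
    rwa [← e] at this
  set N : A × B → ℝ := fun x => ‖x.1 - o.1‖ ^ 2 * ‖x.2 - o.2‖ ^ 2 with hN
  set Q : A × B → ℝ := fun x => (r ^ 2 - ‖x.1 - c‖ ^ 2) * (r' ^ 2 - ‖x.2 - c'‖ ^ 2) with hQ
  have hNpos : ∀ x ∈ K, 0 < N x := by
    intro x hx
    have a1 : 0 < ‖x.1 - o.1‖ := norm_pos_iff.2 (sub_ne_zero.2 (hne₁ x hx))
    have a2 : 0 < ‖x.2 - o.2‖ := norm_pos_iff.2 (sub_ne_zero.2 (hne₂ x hx))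
    simp only [hN]; positivity
  have hcont : ContinuousOn (fun x => Q x / N x) K := by
    refine ContinuousOn.div ?_ ?_ (fun x hx => (hNpos x hx).ne')
    · exact Continuous.continuousOn (by simp only [hQ]; fun_prop)
    · exact Continuous.continuousOn (by simp only [hN]; fun_prop)
  obtain ⟨p, hpK, hmax⟩ := hKc.exists_isMaxOn ⟨q, hqK⟩ hcont
  have hNp := hNpos p hpK
  have hQp : 0 < Q p := by
    have a1 : ‖q.1 - c‖ < r := by simpa [dist_eq_norm] using hq.1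
    have a2 : ‖q.2 - c'‖ < r' := by simpa [dist_eq_norm] using hq.2
    have a3 : 0 < Q q :=
      mul_pos (by nlinarith [norm_nonneg (q.1 - c)]) (by nlinarith [norm_nonneg (q.2 - c')])
    have a4 : 0 < Q p / N p := lt_of_lt_of_le (div_pos a3 (hNpos q hqK)) (hmax hqK)
    exact (div_pos_iff_of_pos_right hNp).1 a4
  have hp1 : 0 ≤ r ^ 2 - ‖p.1 - c‖ ^ 2 := by
    have a1 : ‖p.1 - c‖ ≤ r := by simpa [dist_eq_norm] using hpK.1.1
    nlinarith [norm_nonneg (p.1 - c)]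
  have hp2 : 0 ≤ r' ^ 2 - ‖p.2 - c'‖ ^ 2 := by
    have a1 : ‖p.2 - c'‖ ≤ r' := by simpa [dist_eq_norm] using hpK.1.2
    nlinarith [norm_nonneg (p.2 - c')]
  have hp1' : 0 < r ^ 2 - ‖p.1 - c‖ ^ 2 := by
    rcases hp1.eq_or_lt with e | h
    · have : Q p = 0 := by simp only [hQ]; rw [← e, zero_mul]
      exact absurd this hQp.ne'
    · exact h
  have hp2' : 0 < r' ^ 2 - ‖p.2 - c'‖ ^ 2 := (pos_iff_pos_of_mul_pos hQp).1 hp1'
  obtain ⟨μ, ν, hν, hF, hμ⟩ := touch_one_factor ho₁ hp1'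
  obtain ⟨μ', ν', hν', hF', hμ'⟩ := touch_one_factor ho₂ hp2'
  have crit : ∀ z y : ℂ, 0 ≤ touchF μ ν z → 0 ≤ touchF μ' ν' y →
      ‖1 - z‖ ^ 2 * ‖1 - y‖ ^ 2 < touchF μ ν z * touchF μ' ν' y →
      (p.1 + z • (o.1 - p.1), p.2 + y • (o.2 - p.2)) ∈ W := by
    intro z y hz hy hlt
    by_contra hn
    have hx : (p.1 + z • (o.1 - p.1), p.2 + y • (o.2 - p.2)) ∈ K := by
      refine ⟨⟨touch_mem_closedBall hr.le ?_, touch_mem_closedBall hr'.le ?_⟩, hn⟩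
      · change 0 ≤ r ^ 2 - ‖p.1 + z • (o.1 - p.1) - c‖ ^ 2
        rw [hμ]; positivity
      · change 0 ≤ r' ^ 2 - ‖p.2 + y • (o.2 - p.2) - c'‖ ^ 2
        rw [hμ']; positivity
    have hle : Q (p.1 + z • (o.1 - p.1), p.2 + y • (o.2 - p.2))
        / N (p.1 + z • (o.1 - p.1), p.2 + y • (o.2 - p.2)) ≤ Q p / N p := hmax hx
    rw [div_le_div_iff₀ (hNpos _ hx) hNp] at hle
    have eN : N (p.1 + z • (o.1 - p.1), p.2 + y • (o.2 - p.2))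
        = ‖1 - z‖ ^ 2 * ‖1 - y‖ ^ 2 * N p := by
      simp only [hN]; rw [touch_norm_line, touch_norm_line]; ring
    have eQ : Q (p.1 + z • (o.1 - p.1), p.2 + y • (o.2 - p.2))
        = touchF μ ν z * touchF μ' ν' y * Q p := by
      simp only [hQ]; rw [hμ, hμ']; ring
    rw [eN, eQ] at hle
    have := mul_lt_mul_of_pos_right hlt (mul_pos hQp hNp)
    nlinarith
  refine ⟨p, hpK.2, hne₁ p hpK, hne₂ p hpK, ?_, ?_⟩
  · rintro ⟨a, b⟩ ⟨⟨ha, hb⟩, hne⟩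
    obtain ⟨t, t0, t1, rfl⟩ := touch_segment ha
    obtain ⟨s, s0, s1, rfl⟩ := touch_segment hb
    have b1 := touchF_real (μ := μ) hν t0 t1
    have b2 := touchF_real (μ := μ') hν' s0 s1
    have c1 : 0 ≤ t * touchF μ ν 1 := by positivity
    have c2 : 0 ≤ s * touchF μ' ν' 1 := by positivity
    have d1 := sq_nonneg ‖(1 : ℂ) - t‖
    have d2 := sq_nonneg ‖(1 : ℂ) - s‖
    have pos1 : 0 < touchF μ ν t := by
      rcases t0.eq_or_lt with rfl | ht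
      · simp [touchF]
      · have := mul_pos ht hF; linarith
    have pos2 : 0 < touchF μ' ν' s := by
      rcases s0.eq_or_lt with rfl | hs
      · simp [touchF]
      · have := mul_pos hs hF'; linarith
    refine crit t s pos1.le pos2.le ?_
    rcases t0.eq_or_lt with rfl | ht
    · rcases s0.eq_or_lt with rfl | hs
      · exact absurd (by simp) hne
      · have := mul_pos hs hF'
        exact mul_lt_mul' (by linarith) (by linarith) d2 pos1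
    · have := mul_pos ht hF
      calc _ ≤ ‖(1 : ℂ) - t‖ ^ 2 * touchF μ' ν' s := mul_le_mul_of_nonneg_left (by linarith) d1
        _ < _ := mul_lt_mul_of_pos_right (by linarith) pos2
  · obtain ⟨C, ρ, hC, hρ, hso⟩ := touch_second_order μ μ' hν hν'
    have hl₁ : 0 < (1 - μ).re := by
      have : touchF μ ν 1 = 1 - 2 * μ.re - ν := by simp [touchF]
      rw [Complex.sub_re, Complex.one_re]; linarith
    have hl₂ : 0 < (1 - μ').re := by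
      have : touchF μ' ν' 1 = 1 - 2 * μ'.re - ν' := by simp [touchF]
      rw [Complex.sub_re, Complex.one_re]; linarith
    have hn₁ : 1 - μ ≠ 0 := fun e => by rw [e] at hl₁; simp at hl₁
    have hn₂ : 1 - μ' ≠ 0 := fun e => by rw [e] at hl₂; simp at hl₂
    have m₁ : 0 < ‖1 - μ‖ := norm_pos_iff.2 hn₁
    have m₂ : 0 < ‖1 - μ'‖ := norm_pos_iff.2 hn₂
    refine ⟨1 - μ, 1 - μ', C * (1 / ‖1 - μ‖ ^ 2 + 1 / ‖1 - μ'‖ ^ 2), ρ * min ‖1 - μ‖ ‖1 - μ'‖,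
      hl₁, hl₂, by positivity, by positivity, ?_⟩
    rintro ⟨ζ, η⟩ ⟨hζ, hη, hlt⟩
    dsimp only at hζ hη hlt ⊢
    have hz : ‖ζ / (1 - μ)‖ < ρ := by
      rw [norm_div, div_lt_iff₀ m₁]
      exact hζ.trans_le (mul_le_mul_of_nonneg_left (min_le_left _ _) hρ.le)
    have hy : ‖η / (1 - μ')‖ < ρ := by
      rw [norm_div, div_lt_iff₀ m₂]
      exact hη.trans_le (mul_le_mul_of_nonneg_left (min_le_right _ _) hρ.le)
    obtain ⟨g1, g2, g3⟩ := hso _ _ hz hy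
    refine crit _ _ g1 g2 (lt_of_lt_of_le ?_ g3)
    rw [mul_div_cancel₀ _ hn₁, mul_div_cancel₀ _ hn₂, norm_div ζ, norm_div η, div_pow, div_pow]
    have k1 : C * (‖ζ‖ ^ 2 / ‖1 - μ‖ ^ 2 + ‖η‖ ^ 2 / ‖1 - μ'‖ ^ 2)
        ≤ C * (1 / ‖1 - μ‖ ^ 2 + 1 / ‖1 - μ'‖ ^ 2) * (‖ζ‖ ^ 2 + ‖η‖ ^ 2) := by
      rw [mul_assoc]
      refine mul_le_mul_of_nonneg_left ?_ hC.le
      have u1 : 0 ≤ ‖η‖ ^ 2 / ‖1 - μ‖ ^ 2 := by positivity
      have u2 : 0 ≤ ‖ζ‖ ^ 2 / ‖1 - μ'‖ ^ 2 := by positivity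
      have : (1 / ‖1 - μ‖ ^ 2 + 1 / ‖1 - μ'‖ ^ 2) * (‖ζ‖ ^ 2 + ‖η‖ ^ 2)
          = ‖ζ‖ ^ 2 / ‖1 - μ‖ ^ 2 + ‖η‖ ^ 2 / ‖1 - μ'‖ ^ 2
            + (‖η‖ ^ 2 / ‖1 - μ‖ ^ 2 + ‖ζ‖ ^ 2 / ‖1 - μ'‖ ^ 2) := by ring
      linarith
    have k2 : 0 ≤ C * (1 / ‖1 - μ‖ ^ 2 + 1 / ‖1 - μ'‖ ^ 2) * (‖ζ‖ ^ 2 + ‖η‖ ^ 2) := by positivity
    linarith

end Crest.Agent.R266
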