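import Crest.Agent.R266.Defs

/-!
# Row 266: rectangles and slices
-/

set_option autoImplicit false
set_option linter.unusedSectionVars false
set_option linter.unusedVariables false

open MeasureTheory Metric Set Filter Topology Complex
open scoped ContDiff Manifold Real
open Crest.AlgGeometry.HolSplit

noncomputable section

namespace Crest.Agent.R266

variable {A B : Type*} [NormedAddCommGroup A] [InnerProductSpace ℂ A] [NormedSpace ℝ A]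
  [IsScalarTower ℝ ℂ A] [NormedAddCommGroup B] [InnerProductSpace ℂ B] [NormedSpace ℝ B]
  [IsScalarTower ℝ ℂ B]

theorem Touch2Aux.seg {o p r : A} (h : p ≠ o) (hr : r ∈ segment ℝ o p) {l : ℂ} (hl : l ≠ 0) :
    p + ((l * ((‖r - p‖ / ‖o - p‖ : ℝ) : ℂ)) / l) • (o - p) = r := by
  obtain ⟨a, b, ha, -, hab, rfl⟩ := hr
  have h1 : a • o + b • p - p = a • (o - p) := by
    rw [show b = 1 - a by linarith, sub_smul, one_smul, smul_sub]; abel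
  have h2 : ‖o - p‖ ≠ 0 := norm_ne_zero_iff.2 (sub_ne_zero.2 h.symm)
  rw [h1, norm_smul, Real.norm_of_nonneg ha, mul_div_cancel_right₀ _ h2, mul_div_cancel_left₀ _ hl]
  have h3 : (a : ℂ) • (o - p) = a • (o - p) := algebraMap_smul ℂ a (o - p)
  rw [h3, ← h1]
  abel

/-- the rectangle enters the model domain -/
theorem tendsto_of_slice {T : Type*} [TopologicalSpace T] {Φ : A × B → T} {o p : A × B}
    (h₁ : p.1 ≠ o.1) (h₂ : p.2 ≠ o.2) {l₁ l₂ : ℂ} {K r₀ : ℝ} (hl₁ : 0 < l₁.re) (hl₂ : 0 < l₂.re)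
    (hK : 0 < K) (hr : 0 < r₀) {x : T}
    (h : Tendsto (fun z : ℂ × ℂ =>
        Φ (p.1 + (z.1 / l₁) • (o.1 - p.1), p.2 + (z.2 / l₂) • (o.2 - p.2))) (𝓝[Om K r₀] 0) (𝓝 x)) :
    Tendsto Φ (𝓝[Rect o p \ {p}] p) (𝓝 x) := by
  have hl₁' : l₁ ≠ 0 := fun h => by simp [h] at hl₁
  have hl₂' : l₂ ≠ 0 := fun h => by simp [h] at hl₂
  set τ₁ : A × B → ℝ := fun r => ‖r.1 - p.1‖ / ‖o.1 - p.1‖ with hτ₁
  set τ₂ : A × B → ℝ := fun r => ‖r.2 - p.2‖ / ‖o.2 - p.2‖ with hτ₂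
  have c₁ : Tendsto τ₁ (𝓝 p) (𝓝 0) := by
    have : Continuous τ₁ := by fun_prop
    simpa [hτ₁] using this.tendsto p
  have c₂ : Tendsto τ₂ (𝓝 p) (𝓝 0) := by
    have : Continuous τ₂ := by fun_prop
    simpa [hτ₂] using this.tendsto p
  have d₁ : Tendsto (fun r => l₁ * (τ₁ r : ℂ)) (𝓝 p) (𝓝 0) := by
    simpa using ((continuous_ofReal.tendsto 0).comp c₁).const_mul l₁
  have d₂ : Tendsto (fun r => l₂ * (τ₂ r : ℂ)) (𝓝 p) (𝓝 0) := by
    simpa using ((continuous_ofReal.tendsto 0).comp c₂).const_mul l₂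
  have e₁ : ∀ᶠ r in 𝓝 p, ‖l₁ * (τ₁ r : ℂ)‖ < r₀ :=
    d₁.norm.eventually (gt_mem_nhds (by simpa using hr))
  have e₂ : ∀ᶠ r in 𝓝 p, ‖l₂ * (τ₂ r : ℂ)‖ < r₀ :=
    d₂.norm.eventually (gt_mem_nhds (by simpa using hr))
  have f₁ : ∀ᶠ r in 𝓝 p, K * ‖l₁‖ ^ 2 * τ₁ r < l₁.re :=
    (c₁.const_mul (K * ‖l₁‖ ^ 2)).eventually (gt_mem_nhds (by simpa using hl₁))
  have f₂ : ∀ᶠ r in 𝓝 p, K * ‖l₂‖ ^ 2 * τ₂ r < l₂.re :=
    (c₂.const_mul (K * ‖l₂‖ ^ 2)).eventually (gt_mem_nhds (by simpa using hl₂))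
  have hz : Tendsto (fun r : A × B => ((l₁ * (τ₁ r : ℂ), l₂ * (τ₂ r : ℂ)) : ℂ × ℂ))
      (𝓝[Rect o p \ {p}] p) (𝓝[Om K r₀] 0) := by
    refine tendsto_nhdsWithin_iff.2 ⟨(d₁.prodMk_nhds d₂).mono_left nhdsWithin_le_nhds, ?_⟩
    filter_upwards [self_mem_nhdsWithin, nhdsWithin_le_nhds e₁, nhdsWithin_le_nhds e₂,
      nhdsWithin_le_nhds f₁, nhdsWithin_le_nhds f₂] with r hr' g₁ g₂ k₁ k₂
    refine ⟨g₁, g₂, ?_⟩
    have t₁ : 0 ≤ τ₁ r := div_nonneg (norm_nonneg _) (norm_nonneg _)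
    have t₂ : 0 ≤ τ₂ r := div_nonneg (norm_nonneg _) (norm_nonneg _)
    have n₁ : 0 < ‖o.1 - p.1‖ := norm_pos_iff.2 (sub_ne_zero.2 h₁.symm)
    have n₂ : 0 < ‖o.2 - p.2‖ := norm_pos_iff.2 (sub_ne_zero.2 h₂.symm)
    have hpos : 0 < τ₁ r ∨ 0 < τ₂ r := by
      by_contra hc
      push Not at hc
      apply hr'.2
      have a₁ : ‖r.1 - p.1‖ ≤ 0 := by
        have := (div_le_iff₀ n₁).1 hc.1; simpa using this
      have a₂ : ‖r.2 - p.2‖ ≤ 0 := by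
        have := (div_le_iff₀ n₂).1 hc.2; simpa using this
      exact Prod.ext (sub_eq_zero.1 (norm_le_zero_iff.1 a₁)) (sub_eq_zero.1 (norm_le_zero_iff.1 a₂))
    simp only [norm_mul, Complex.norm_real, Real.norm_of_nonneg t₁, Real.norm_of_nonneg t₂, add_re,
      mul_re, ofReal_re, ofReal_im, mul_zero, sub_zero]
    have u₁ := mul_le_mul_of_nonneg_right k₁.le t₁
    have u₂ := mul_le_mul_of_nonneg_right k₂.le t₂
    rcases hpos with hp | hp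
    · have := mul_lt_mul_of_pos_right k₁ hp
      nlinarith
    · have := mul_lt_mul_of_pos_right k₂ hp
      nlinarith
  refine tendsto_nhdsWithin_congr (fun r hr' => ?_) (h.comp hz)
  simp only [Function.comp, hτ₁, hτ₂]
  rw [Touch2Aux.seg h₁ hr'.1.1 hl₁', Touch2Aux.seg h₂ hr'.1.2 hl₂']

end Crest.Agent.R266
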