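import Crest.Agent.R266.KeyLocal
import Crest.Agent.R266.Touch
import Crest.Agent.R266.Touch2
import Crest.Agent.R266.DomX

/-!
# Row 266: the Goursat problem on a product of balls
-/

set_option autoImplicit false
set_option linter.unusedSectionVars false
set_option linter.unusedVariables false

open MeasureTheory Metric Set Filter Topology Complex
open scoped ContDiff Manifold Real
open Crest.AlgGeometry.HolSplit

noncomputable section

namespace Crest.Agent.R266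

namespace PAtlas.Kae
variable {X : Type*} [MetricSpace X] [CompactSpace X] {n₁ n₂ : ℕ} {𝒜 : PAtlas X n₁ n₂} (𝒦 : 𝒜.Kae)

include 𝒦 in
theorem goursat {n : ℕ} {f g : Model n → X} {c c' a₀ b₀ : Model n} {r r' : ℝ}
    (ha : a₀ ∈ ball c r) (hb : b₀ ∈ ball c' r') (hf : ∀ a ∈ ball c r, 𝒜.T1 f a)
    (hg : ∀ b ∈ ball c' r', 𝒜.T2 g b) (hfg : f a₀ = g b₀) :
    ∃ Φ : Model n × Model n → X, (∀ q ∈ ball c r ×ˢ ball c' r', 𝒜.PT Φ q) ∧
      (∀ a ∈ ball c r, Φ (a, b₀) = f a) ∧ ∀ b ∈ ball c' r', Φ (a₀, b) = g b := by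
  obtain ⟨Φ₀, h₀, e₁, e₂⟩ := exists_local (hf a₀ ha) (hg b₀ hb) hfg
  obtain ⟨Φ, hΦ, he⟩ := exists_max h₀
  have c₁ : ∀ a ∈ ball c r, (a, b₀) ∈ 𝒜.Dom Φ₀ (a₀, b₀) := fun a h =>
    cross₁ (o := (a₀, b₀)) h₀ (fun s hs => hf s ((convex_ball c r).segment_subset ha h hs)) e₁
  have c₂ : ∀ b ∈ ball c' r', (a₀, b) ∈ 𝒜.Dom Φ₀ (a₀, b₀) := fun b h =>
    cross₂ (o := (a₀, b₀)) h₀ (fun s hs => hg s ((convex_ball c' r').segment_subset hb h hs)) e₂
  have key : ∀ q ∈ ball c r ×ˢ ball c' r', q ∈ 𝒜.Dom Φ₀ (a₀, b₀) := by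
    intro q hq
    by_contra hqW
    obtain ⟨r₁, hr₁, hr₁'⟩ := exists_between (max_lt (mem_ball.1 ha) (mem_ball.1 hq.1))
    obtain ⟨r₂, hr₂, hr₂'⟩ := exists_between (max_lt (mem_ball.1 hb) (mem_ball.1 hq.2))
    obtain ⟨p, hp, hp₁, hp₂, hR, l₁, l₂, K, r₀, hl₁, hl₂, hK, hr₀, hOm⟩ :=
      exists_touching (W := 𝒜.Dom Φ₀ (a₀, b₀)) isOpen_dom (c := c) (c' := c') (r := r₁) (r' := r₂)
        (o := (a₀, b₀)) (mem_ball.2 ((le_max_left _ _).trans_lt hr₁))
        (mem_ball.2 ((le_max_left _ _).trans_lt hr₂))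
        (fun a h => c₁ a (closedBall_subset_ball hr₁' h))
        (fun b h => c₂ b (closedBall_subset_ball hr₂' h)) (q := q)
        ⟨mem_ball.2 ((le_max_right _ _).trans_lt hr₁), mem_ball.2 ((le_max_right _ _).trans_lt hr₂)⟩
        hqW
    have hsl : ∀ z ∈ Om K r₀, 𝒜.PT (fun z : ℂ × ℂ =>
        Φ (p.1 + (z.1 / l₁) • (a₀ - p.1), p.2 + (z.2 / l₂) • (b₀ - p.2))) z := fun z hz =>
      PT.comp (k := fun t : ℂ => p.1 + (t / l₁) • (a₀ - p.1))
        (l := fun t : ℂ => p.2 + (t / l₂) • (b₀ - p.2)) (hΦ _ (hOm z hz))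
        (analyticAt_const.add ((analyticAt_id.div_const (c := l₁)).smul analyticAt_const))
        (analyticAt_const.add ((analyticAt_id.div_const (c := l₂)).smul analyticAt_const))
    obtain ⟨x, hx⟩ := 𝒦.key_local hK hr₀ hsl
    exact hp (corner hp₁ hp₂ (fun s hs => hΦ s (hR hs)) he
      (tendsto_of_slice (o := (a₀, b₀)) hp₁ hp₂ hl₁ hl₂ hK hr₀ hx))
  refine ⟨Φ, fun q hq => hΦ q (key q hq), fun a h => ?_, fun b h => ?_⟩
  · have t : Tendsto (fun s : Model n => (s, b₀)) (𝓝 a₀) (𝓝 (a₀, b₀)) :=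
      (continuous_id.prodMk continuous_const).tendsto' _ _ rfl
    refine (Hol.eventuallyEq_of_preconnected (𝒜 := 𝒜) (Φ := fun s => Φ (s, b₀))
      (convex_ball c r).isPreconnected (fun s hs => (hΦ _ (c₁ s hs)).t1.1)
      (fun s hs => (hf s hs).1) ha ?_ h).eq_of_nhds
    filter_upwards [t.eventually he, e₁] with s h1 h2
    rw [← h2]; exact h1
  · have t : Tendsto (fun s : Model n => (a₀, s)) (𝓝 b₀) (𝓝 (a₀, b₀)) :=
      (continuous_const.prodMk continuous_id).tendsto' _ _ rfl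
    refine (Hol.eventuallyEq_of_preconnected (𝒜 := 𝒜) (Φ := fun s => Φ (a₀, s))
      (convex_ball c' r').isPreconnected (fun s hs => (hΦ _ (c₂ s hs)).t2.1)
      (fun s hs => (hg s hs).1) hb ?_ h).eq_of_nhds
    filter_upwards [t.eventually he, e₂] with s h1 h2
    rw [← h2]; exact h1

end PAtlas.Kae

end Crest.Agent.R266
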