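import Crest.Agent.R266.Basic

/-!
# Row 266: identity principle, gluing
-/

set_option autoImplicit false
set_option linter.unusedSectionVars false
set_option linter.unusedVariables false

open MeasureTheory Metric Set Filter Topology Complex
open scoped ContDiff Manifold Real
open Crest.AlgGeometry.HolSplit

noncomputable section

namespace Crest.Agent.R266

/-- gluing two germs along compact sets -/
theorem exists_glue {Z T : Type*} [TopologicalSpace Z] [T2Space Z] {K₁ K₂ : Set Z}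
    (h₁ : IsCompact K₁) (h₂ : IsCompact K₂) {Φ₁ Φ₂ : Z → T}
    (h : ∀ x ∈ K₁ ∩ K₂, Φ₁ =ᶠ[𝓝 x] Φ₂) :
    ∃ Φ : Z → T, (∀ x ∈ K₁, Φ =ᶠ[𝓝 x] Φ₁) ∧ ∀ x ∈ K₂, Φ =ᶠ[𝓝 x] Φ₂ := by
  classical
  have hO : IsOpen {x | Φ₁ =ᶠ[𝓝 x] Φ₂} := isOpen_setOfPred_eventually_nhds
  obtain ⟨G₁, G₂, o₁, o₂, s₁, s₂, hd⟩ := SeparatedNhds.of_isCompact_isCompact (h₁.diff hO)
    (h₂.diff hO) (Set.disjoint_left.2 fun x hx hx' => hx.2 (h x ⟨hx.1, hx'.1⟩))
  refine ⟨fun x => if x ∈ G₂ then Φ₂ x else Φ₁ x, fun x hx => ?_, fun x hx => ?_⟩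
  · by_cases hx' : Φ₁ =ᶠ[𝓝 x] Φ₂
    · filter_upwards [hx'] with y hy
      rw [← hy, ite_self]
    · filter_upwards [o₁.mem_nhds (s₁ ⟨hx, hx'⟩)] with y hy
      exact if_neg (Set.disjoint_left.1 hd hy)
  · by_cases hx' : Φ₁ =ᶠ[𝓝 x] Φ₂
    · filter_upwards [hx'] with y hy
      rw [hy, ite_self]
    · filter_upwards [o₂.mem_nhds (s₂ ⟨hx, hx'⟩)] with y hy
      exact if_pos hy

/-- a function whose germs along a preconnected set are locally constant is constant on it -/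
theorem eq_of_eventually_const {Z T : Type*} [TopologicalSpace Z] {K : Set Z}
    (hK : IsPreconnected K) {f : Z → T} (h : ∀ x ∈ K, ∀ᶠ y in 𝓝 x, f y = f x) {x y : Z}
    (hx : x ∈ K) (hy : y ∈ K) : f x = f y := by
  have hO : IsOpen {z | ∀ᶠ w in 𝓝 z, f w = f x} := isOpen_setOfPred_eventually_nhds
  have hs := hK.subset_of_closure_inter_subset hO ⟨x, hx, h x hx⟩ fun z hz => by
    obtain ⟨w, hw, hw'⟩ := mem_closure_iff_nhds.1 hz.1 _ (h z hz.2)
    have h1 : f w = f z := hw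
    have h2 : f w = f x := Eventually.self_of_nhds (p := fun w => f w = f x) hw'
    filter_upwards [h z hz.2] with v hv
    rw [hv, ← h1, h2]
  exact (Eventually.self_of_nhds (p := fun w => f w = f x) (hs hy)).symm

namespace PAtlas
variable {X : Type*} [TopologicalSpace X] {n₁ n₂ : ℕ} {𝒜 : PAtlas X n₁ n₂}
variable {A B A' B' : Type*} [NormedAddCommGroup A] [NormedSpace ℂ A] [NormedAddCommGroup B]
  [NormedSpace ℂ B] [NormedAddCommGroup A'] [NormedSpace ℂ A'] [NormedAddCommGroup B']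
  [NormedSpace ℂ B']

/-- local identity principle -/
theorem Hol.eventuallyEq_of_frequently [T2Space X] {Φ Ψ : A → X} {q : A} (hΦ : 𝒜.Hol Φ q)
    (hΨ : 𝒜.Hol Ψ q) (h : ∃ᶠ z in 𝓝 q, Φ =ᶠ[𝓝 z] Ψ) : Φ =ᶠ[𝓝 q] Ψ := by
  have he : Φ q = Ψ q :=
    tendsto_nhds_unique_of_frequently_eq hΦ.1 hΨ.1 (h.mono fun z hz => hz.self_of_nhds)
  have a₁ := hΦ.2
  have a₂ := hΨ.2
  rw [← he] at a₂
  obtain ⟨ε, hε, hb⟩ := Metric.eventually_nhds_iff_ball.1
    (a₁.eventually_analyticAt.and a₂.eventually_analyticAt)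
  obtain ⟨z, hz, hz'⟩ := (h.and_eventually (ball_mem_nhds q hε)).exists
  have hE : EqOn (fun r => 𝒜.chart (Φ q) (Φ r)) (fun r => 𝒜.chart (Φ q) (Ψ r)) (ball q ε) :=
    AnalyticOnNhd.eqOn_of_preconnected_of_eventuallyEq (fun y hy => (hb y hy).1)
      (fun y hy => (hb y hy).2) (convex_ball q ε).isPreconnected hz'
      (hz.mono fun y hy => by simp only [hy])
  have m₁ := hΦ.1.eventually_mem ((𝒜.chart (Φ q)).open_source.mem_nhds (𝒜.mem _))
  have m₂ := hΨ.1.eventually_mem ((𝒜.chart (Φ q)).open_source.mem_nhds (he ▸ 𝒜.mem (Φ q)))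
  filter_upwards [m₁, m₂, ball_mem_nhds q hε] with r h₁ h₂ h₃
  exact (𝒜.chart (Φ q)).injOn h₁ h₂ (hE h₃)

/-- identity principle -/
theorem Hol.eventuallyEq_of_preconnected [T2Space X] {Φ Ψ : A → X} {K : Set A}
    (hK : IsPreconnected K) (hΦ : ∀ q ∈ K, 𝒜.Hol Φ q) (hΨ : ∀ q ∈ K, 𝒜.Hol Ψ q) {q₀ : A}
    (hq₀ : q₀ ∈ K) (h : Φ =ᶠ[𝓝 q₀] Ψ) {q : A} (hq : q ∈ K) : Φ =ᶠ[𝓝 q] Ψ := by
  have hO : IsOpen {z | Φ =ᶠ[𝓝 z] Ψ} := isOpen_setOfPred_eventually_nhds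
  exact hK.subset_of_closure_inter_subset hO ⟨q₀, hq₀, h⟩ (fun z hz =>
    (hΦ z hz.2).eventuallyEq_of_frequently (hΨ z hz.2) (mem_closure_iff_frequently.1 hz.1)) hq

/-- along a preconnected set mapped into one chart a `T1` map has constant second coordinate -/
theorem T1.snd_eq {f : A → X} {K : Set A} (hK : IsPreconnected K) (hf : ∀ a ∈ K, 𝒜.T1 f a) {p : X}
    (hp : ∀ a ∈ K, f a ∈ (𝒜.chart p).source) {a a' : A} (ha : a ∈ K) (ha' : a' ∈ K) :
    (𝒜.chart p (f a)).2 = (𝒜.chart p (f a')).2 :=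
  eq_of_eventually_const (f := fun a => (𝒜.chart p (f a)).2) hK
    (fun x hx => (hf x hx).const (hp x hx)) ha ha'

theorem T2.fst_eq {g : B → X} {K : Set B} (hK : IsPreconnected K) (hg : ∀ b ∈ K, 𝒜.T2 g b) {p : X}
    (hp : ∀ b ∈ K, g b ∈ (𝒜.chart p).source) {b b' : B} (hb : b ∈ K) (hb' : b' ∈ K) :
    (𝒜.chart p (g b)).1 = (𝒜.chart p (g b')).1 :=
  eq_of_eventually_const (f := fun b => (𝒜.chart p (g b)).1) hK
    (fun x hx => (hg x hx).const (hp x hx)) hb hb'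

/-- holonomy inside a chart: along a preconnected set `K × {b}` mapped into one chart -/
theorem PT.eq_mix_of_preconnected {Φ : A × B → X} {K : Set A} {b : B} (hK : IsPreconnected K)
    (hΦ : ∀ a ∈ K, 𝒜.PT Φ (a, b)) {p : X} (hp : ∀ a ∈ K, Φ (a, b) ∈ (𝒜.chart p).source)
    {a a' : A} (ha : a ∈ K) (ha' : a' ∈ K) :
    ∀ᶠ q in 𝓝 (a', b), Φ q = 𝒜.mix p (Φ (q.1, b)) (Φ (a, q.2)) := by
  have h1 := eq_of_eventually_const
    (f := fun x : A => ((fun r => (𝒜.chart p (Φ (x, r))).2 : B → Model n₂) : Germ (𝓝 b) (Model n₂)))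
    hK (fun x hx => by
      obtain ⟨k₁, k₂, -, -, hk⟩ := (hΦ x hx).exists_chart (hp x hx)
      have hk' := hk.curry_nhds
      have h0 := hk'.self_of_nhds
      filter_upwards [hk'] with y hy
      refine Germ.coe_eq.2 ?_
      filter_upwards [hy, h0] with r e₁ e₂
      rw [e₁, e₂]) ha ha'
  have h2 := (continuousAt_snd (p := (a', b))).eventually (Germ.coe_eq.1 h1)
  filter_upwards [(hΦ a' ha').eq_mix (hp a' ha'), h2] with q e₁ e₂
  rw [e₁, mix, mix, e₂]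

end PAtlas

end Crest.Agent.R266
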