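import Crest.Agent.R266.Defs

/-!
# Row 266: Kaehler-like tensors: algebra and pull-back
-/

set_option autoImplicit false
set_option linter.unusedSectionVars false
set_option linter.unusedVariables false

open MeasureTheory Metric Set Filter Topology Complex
open scoped ContDiff Manifold Real
open Crest.AlgGeometry.HolSplit

noncomputable section

namespace Crest.Agent.R266

variable {A F : Type*} [NormedAddCommGroup A] [NormedSpace ℝ A] [NormedSpace ℂ A]
  [IsScalarTower ℝ ℂ A] [NormedAddCommGroup F] [NormedSpace ℝ F] [NormedSpace ℂ F]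
  [IsScalarTower ℝ ℂ F] {G : A → Bil A} {y : A}

theorem KAlg_smul_eq (c : ℂ) (u : A) : c • u = c.re • u + c.im • (I • u) := by
  rw [← algebraMap_smul ℂ c.re u, ← algebraMap_smul ℂ c.im (I • u), _root_.smul_smul, ← add_smul]
  congr 1
  exact (Complex.re_add_im c).symm

theorem KAt.om_anti (h : KAt G y) (u v : A) : om G y u v = - om G y v u := by
  unfold om
  rw [← h.herm (I • u) v, _root_.smul_smul, Complex.I_mul_I, neg_smul, one_smul, map_neg,
    neg_apply, h.symm]

theorem KAt.smul_smul (h : KAt G y) (c : ℂ) (u : A) :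
    G y (c • u) (c • u) = ‖c‖ ^ 2 * G y u u := by
  have h1 : G y (I • u) u = 0 := by
    have := h.om_anti u u
    unfold om at this
    linarith
  have h2 : G y u (I • u) = 0 := by rw [h.symm, h1]
  rw [KAlg_smul_eq c u, Complex.sq_norm, Complex.normSq_apply]
  simp only [map_add, map_smul, add_apply, smul_apply,
    smul_eq_mul, h1, h2, h.herm]
  ring

theorem KAt.om_I (h : KAt G y) (u : A) : om G y u (I • u) = G y u u := h.herm u u

theorem KAt.abs_le (h : KAt G y) (u v : A) : |G y u v| ≤ √(G y u u) * √(G y v v) := by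
  rw [← Real.sqrt_mul (h.nonneg u)]
  refine Real.abs_le_sqrt ?_
  have := discrim_le_zero (a := G y v v) (b := 2 * G y u v) (c := G y u u) fun t => by
    have h1 := h.nonneg (u + t • v)
    simp only [map_add, map_smul, add_apply, smul_apply,
      smul_eq_mul, h.symm v u] at h1
    linarith
  unfold discrim at this
  linarith

theorem KAt.abs_om_le (h : KAt G y) (u v : A) : |om G y u v| ≤ √(G y u u) * √(G y v v) := by
  rw [← h.herm u u]
  exact h.abs_le _ _

theorem KAt.congr {G' : A → Bil A} (h : KAt G y) (he : G' =ᶠ[𝓝 y] G) : KAt G' y := by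
  have e : G' y = G y := he.eq_of_nhds
  have e' : ∀ a b, fderiv ℝ (fun z => G' z a b) y = fderiv ℝ (fun z => G z a b) y := fun a b =>
    Filter.EventuallyEq.fderiv_eq (he.mono fun z hz => by simp only [hz])
  refine ⟨h.smooth.congr_of_eventuallyEq he, ?_, ?_, ?_, ?_⟩
  · rw [e]; exact h.symm
  · rw [e]; exact h.nonneg
  · rw [e]; exact h.herm
  · simp only [e']; exact h.closed

theorem fderiv_real_eq {σ : A → F} {a : A} (hσ : AnalyticAt ℂ σ a) (u : A) :
    fderiv ℝ σ a u = fderiv ℂ σ a u := by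
  rw [(hσ.differentiableAt.hasFDerivAt.restrictScalars ℝ).fderiv]
  rfl

/-- the real derivative of an analytic map is complex linear -/
theorem fderiv_real_smul {σ : A → F} {a : A} (hσ : AnalyticAt ℂ σ a) (c : ℂ) (u : A) :
    fderiv ℝ σ a (c • u) = c • fderiv ℝ σ a u := by
  rw [fderiv_real_eq hσ, fderiv_real_eq hσ, map_smul]

theorem KAlg_fderiv_apply (h : KAt G y) (a b u : A) :
    fderiv ℝ (fun z => G z a b) y u = fderiv ℝ G y u a b := by
  have h1 := (h.smooth.differentiableAt one_ne_zero).hasFDerivAt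
  rw [((h1.clm_apply (hasFDerivAt_const a y)).clm_apply (hasFDerivAt_const b y)).fderiv]
  simp

theorem KAlg_fderiv_om {Z : Type*} [NormedAddCommGroup Z] [NormedSpace ℝ Z] {c : Z → A} {z : Z}
    (h : KAt G (c z)) (hc : ContDiffAt ℝ 2 c z) (u v w : Z) :
    fderiv ℝ (fun x => om G (c x) (fderiv ℝ c x v) (fderiv ℝ c x w)) z u =
      fderiv ℝ G (c z) (fderiv ℝ c z u) (I • fderiv ℝ c z v) (fderiv ℝ c z w) +
        om G (c z) (fderiv ℝ (fderiv ℝ c) z u v) (fderiv ℝ c z w) +
        om G (c z) (fderiv ℝ c z v) (fderiv ℝ (fderiv ℝ c) z u w) := by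
  have h1 := (h.smooth.differentiableAt one_ne_zero).hasFDerivAt.comp z
    (hc.differentiableAt two_ne_zero).hasFDerivAt
  have h2 := ((hc.fderiv_right (m := 1) le_rfl).differentiableAt one_ne_zero).hasFDerivAt
  have h3 := (h1.clm_apply ((h2.clm_apply (hasFDerivAt_const v z)).const_smul I)).clm_apply
    (h2.clm_apply (hasFDerivAt_const w z))
  have h4 := congrArg (fun L => L u) h3.fderiv
  simp only [om]
  refine Eq.trans h4 ?_
  simp
  ring

/-- `d ω = 0` evaluated on the partial derivatives of a `C²` map -/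
theorem KAt.closed_comp {Z : Type*} [NormedAddCommGroup Z] [NormedSpace ℝ Z] {c : Z → A} {z : Z}
    (h : KAt G (c z)) (hc : ContDiffAt ℝ 2 c z) (u v w : Z) :
    fderiv ℝ (fun x => om G (c x) (fderiv ℝ c x v) (fderiv ℝ c x w)) z u
      - fderiv ℝ (fun x => om G (c x) (fderiv ℝ c x u) (fderiv ℝ c x w)) z v
      + fderiv ℝ (fun x => om G (c x) (fderiv ℝ c x u) (fderiv ℝ c x v)) z w = 0 := by
  have hs := hc.isSymmSndFDerivAt (by simp)
  have h1 := h.closed (fderiv ℝ c z u) (fderiv ℝ c z v) (fderiv ℝ c z w)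
  simp only [KAlg_fderiv_apply h] at h1
  simp only [KAlg_fderiv_om h hc]
  rw [hs v u, hs w u, hs w v, h.om_anti (fderiv ℝ c z v)]
  linarith

theorem KAt.contDiffAt_om_comp {Z : Type*} [NormedAddCommGroup Z] [NormedSpace ℝ Z] {c : Z → A}
    {z : Z} (h : KAt G (c z)) (hc : ContDiffAt ℝ 2 c z) (v w : Z) :
    ContDiffAt ℝ 1 (fun x => om G (c x) (fderiv ℝ c x v) (fderiv ℝ c x w)) z := by
  have h1 := h.smooth.comp z (hc.of_le one_le_two)
  have h2 := hc.fderiv_right (m := 1) le_rfl
  exact (h1.clm_apply ((h2.clm_apply contDiffAt_const).const_smul I)).clm_apply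
    (h2.clm_apply contDiffAt_const)

theorem KAlg_flip {Z : Type*} [NormedAddCommGroup Z] [NormedSpace ℝ Z] {f : A → A →L[ℝ] Z →L[ℝ] ℝ}
    {a : A} (hf : ContDiffAt ℝ 1 f a) : ContDiffAt ℝ 1 (fun x => (f x).flip) a := by
  have h : ContDiff ℝ 1 fun L : A →L[ℝ] Z →L[ℝ] ℝ => L.flip :=
    IsBoundedLinearMap.contDiff ⟨⟨fun _ _ => rfl, fun _ _ => rfl⟩, 1, one_pos, fun L => by
      rw [one_mul]
      exact (ContinuousLinearMap.opNorm_flip L).le⟩
  exact h.contDiffAt.comp a hf

/-- pull-back by a holomorphic map -/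
theorem KAt.pull [CompleteSpace F] {H : F → Bil F} {σ : A → F} {a : A} (h : KAt H (σ a))
    (hσ : AnalyticAt ℂ σ a) :
    KAt (fun r => (H (σ r)).bilinearComp (fderiv ℝ σ r) (fderiv ℝ σ r)) a := by
  have hc : ContDiffAt ℝ 2 σ a := hσ.contDiffAt.restrict_scalars ℝ
  refine ⟨?_, fun u v => h.symm _ _, fun u => h.nonneg _, fun u v => ?_, fun u v w => ?_⟩
  · have h1 := h.smooth.comp a (hc.of_le one_le_two)
    have h2 := hc.fderiv_right (m := 1) le_rfl
    exact KAlg_flip ((KAlg_flip (h1.clm_comp h2)).clm_comp h2)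
  · simp only [ContinuousLinearMap.bilinearComp_apply, fderiv_real_smul hσ, h.herm]
  · have e : ∀ v w, fderiv ℝ (fun z => (H (σ z)).bilinearComp (fderiv ℝ σ z) (fderiv ℝ σ z)
        (I • v) w) a = fderiv ℝ (fun x => om H (σ x) (fderiv ℝ σ x v) (fderiv ℝ σ x w)) a :=
      fun v w => Filter.EventuallyEq.fderiv_eq (hσ.eventually_analyticAt.mono fun z hz => by
        simp only [ContinuousLinearMap.bilinearComp_apply, fderiv_real_smul hz, om])
    simp only [e]
    exact h.closed_comp hc u v w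

theorem norm_ci (θ : ℝ) : ‖ci θ‖ = 1 := Complex.norm_exp_ofReal_mul_I θ

theorem hasDerivAt_ci (θ : ℝ) : HasDerivAt ci (I * ci θ) θ := by
  have h := ((Complex.ofRealCLM.hasDerivAt (x := θ)).mul_const I).cexp
  convert h using 1
  · rfl
  · simp [ci, mul_comm]

theorem contDiff_ci : ContDiff ℝ ∞ ci :=
  (Complex.ofRealCLM.contDiff.mul contDiff_const).cexp

theorem ci_add_two_pi (θ : ℝ) : ci (θ + 2 * π) = ci θ := by
  unfold ci
  push_cast
  rw [add_mul, Complex.exp_add, Complex.exp_two_pi_mul_I, mul_one]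

theorem ci_zero : ci 0 = 1 := by simp [ci]

theorem exists_ci {z : ℂ} (hz : ‖z‖ = 1) : ∃ θ ∈ Icc (0 : ℝ) (2 * π), ci θ = z := by
  have h : ci (arg z) = z := by
    have := Complex.norm_mul_exp_arg_mul_I z
    rwa [hz, Complex.ofReal_one, one_mul] at this
  have h1 := Complex.neg_pi_lt_arg z
  have h2 := Complex.arg_le_pi z
  have h3 := Real.pi_pos
  rcases le_total 0 (arg z) with h0 | h0
  · exact ⟨arg z, ⟨h0, by linarith⟩, h⟩
  · exact ⟨arg z + 2 * π, ⟨by linarith, by linarith⟩, (ci_add_two_pi _).trans h⟩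

/-- polar coordinates on a disc -/
theorem integral_ball_polar {f : ℂ → ℝ} {R : ℝ} (hR : 0 ≤ R) (hf : ContinuousOn f (closedBall 0 R)) :
    ∫ t in ball (0 : ℂ) R, f t = ∫ r in (0 : ℝ)..R, ∫ θ in (0 : ℝ)..2 * π, r * f (r * ci θ) := by
  have hπ := Real.pi_pos
  have hs : ∀ p : ℝ × ℝ, Complex.polarCoord.symm p = p.1 * ci p.2 := fun p => by
    rw [Complex.polarCoord_symm_apply, ci, Complex.exp_mul_I]
    simp
  have hn : ∀ p : ℝ × ℝ, ‖(p.1 : ℂ) * ci p.2‖ = |p.1| := fun p => by
    rw [norm_mul, norm_ci, mul_one, Complex.norm_real, Real.norm_eq_abs]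
  have hm : MeasurableSet (Ioo (0 : ℝ) R ×ˢ Ioo (-π) π) := measurableSet_Ioo.prod measurableSet_Ioo
  have h1 : ∫ t in ball (0 : ℂ) R, f t =
      ∫ p in Ioo (0 : ℝ) R ×ˢ Ioo (-π) π, p.1 * f (p.1 * ci p.2) := by
    rw [← integral_indicator measurableSet_ball, ← Complex.integral_comp_polarCoord_symm,
      ← integral_indicator _root_.polarCoord.open_target.measurableSet, ← integral_indicator hm]
    refine integral_congr_ae (Eventually.of_forall fun p => ?_)
    simp only [indicator, hs, _root_.polarCoord_target, mem_prod, mem_Ioi, mem_Ioo,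
      mem_ball_zero_iff, hn, smul_eq_mul]
    by_cases h0 : 0 < p.1
    · simp only [h0, abs_of_pos h0, true_and]
      by_cases h2 : p.1 < R <;> simp [h2]
    · simp [h0]
  have h2 : IntegrableOn (fun p : ℝ × ℝ => p.1 * f (p.1 * ci p.2))
      (Ioo (0 : ℝ) R ×ˢ Ioo (-π) π) (volume.prod volume) := by
    refine IntegrableOn.mono_set (t := Icc (0 : ℝ) R ×ˢ Icc (-π) π)
      (ContinuousOn.integrableOn_compact (isCompact_Icc.prod isCompact_Icc) ?_)
      (prod_mono Ioo_subset_Icc_self Ioo_subset_Icc_self)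
    have hc := contDiff_ci.continuous
    refine continuous_fst.continuousOn.mul (hf.comp (by fun_prop) fun p hp => ?_)
    rw [mem_closedBall_zero_iff, hn, abs_of_nonneg hp.1.1]
    exact hp.1.2
  rw [h1, Measure.volume_eq_prod, setIntegral_prod _ h2, intervalIntegral.integral_of_le hR,
    integral_Ioc_eq_integral_Ioo]
  refine integral_congr_ae (Eventually.of_forall fun r => ?_)
  have h3 : Function.Periodic (fun θ => r * f (r * ci θ)) (2 * π) := fun θ => by
    simp only [ci_add_two_pi]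
  have h4 := h3.intervalIntegral_add_eq (-π) 0
  rw [zero_add, show -π + 2 * π = π by ring, intervalIntegral.integral_of_le (by linarith),
    integral_Ioc_eq_integral_Ioo] at h4
  exact h4

end Crest.Agent.R266
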