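import Crest.Agent.R266.Pigeon2

/-!
# Row 266: choice of a good half bidisc
-/

set_option autoImplicit false
set_option linter.unusedSectionVars false
set_option linter.unusedVariables false

open MeasureTheory Metric Set Filter Topology Complex
open scoped ContDiff Manifold Real
open Crest.AlgGeometry.HolSplit

noncomputable section

namespace Crest.Agent.R266

variable {G : ℂ × ℂ → Bil (ℂ × ℂ)} {K r₀ C₀ : ℝ}

open scoped ENNReal in
theorem PG_avg {α : Type*} [MeasurableSpace α] {μ : Measure α} {s : Set α} {f : α → ℝ≥0∞} {c : ℝ≥0∞}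
    (h0 : μ s ≠ 0) (h1 : μ s ≠ ⊤) (hf : Measurable f) (h : ∫⁻ x in s, f x ∂μ ≤ c * μ s) :
    ∃ x ∈ s, f x ≤ c := by
  obtain ⟨x, hx, h2⟩ := exists_le_setLAverage h0 h1 hf.aemeasurable
  exact ⟨x, hx, h2.trans (by rw [setLAverage_eq]; exact ENNReal.div_le_of_le_mul h)⟩

open scoped ENNReal in
theorem PG_map {T : ℂ → ℂ} (hT : Measurable T) {k : ℝ≥0∞} (hk : Measure.map T volume = k • volume)
    {g : ℂ → ℝ≥0∞} (hg : Measurable g) {U V : Set ℂ} (hV : MeasurableSet V) (h : MapsTo T U V) :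
    ∫⁻ x in U, g (T x) ≤ k * ∫⁻ y in V, g y := by
  refine (lintegral_mono_set (t := T ⁻¹' V) h).trans_eq ?_
  rw [← setLIntegral_map hV hg hT, hk, Measure.restrict_smul, lintegral_smul_measure, smul_eq_mul]

open scoped ENNReal in
/-- averaging the areas of horizontal (`c = 1/2`) or vertical (`c = -1/2`) discs -/
theorem PG_hor {f : ℂ × ℂ → ℝ≥0∞} (hf : Measurable f) {S S' : Set ℂ} (hS' : MeasurableSet S')
    {c r R : ℝ} (hc : |c| = 1 / 2) (hr : 0 < r) (hR : r ≤ R) {A : ℝ≥0∞}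
    (h : ∀ s ∈ S, ∀ ζ ∈ ball (0 : ℂ) r, s + (ζ + r) ∈ S')
    (hA : ∀ s ∈ S', ∫⁻ t in ball (0 : ℂ) R, f (s, t) ≤ A) :
    ∫⁻ s in S, ∫⁻ ζ in ball (0 : ℂ) r, f (s + (ζ + r), c • (ζ - r)) ≤ 4 * A * volume S' := by
  have hc0 : c ≠ 0 := fun e => by norm_num [e] at hc
  have hk : Measure.map (fun ζ : ℂ => c • (ζ - r)) volume = (4 : ℝ≥0∞) • volume := by
    rw [show (fun ζ : ℂ => c • (ζ - r)) = (c • ·) ∘ (· - (r : ℂ)) from rfl,
      ← Measure.map_map (by fun_prop) (by fun_prop), map_sub_right_eq_self,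
      Measure.map_addHaar_smul _ hc0, Complex.finrank_real_complex, ← sq_abs, hc]
    norm_num
  rw [lintegral_lintegral_swap (by fun_prop)]
  refine (setLIntegral_mono' measurableSet_ball fun ζ hζ => PG_map (T := (· + (ζ + r)))
    (g := fun s => f (s, c • (ζ - r))) (by fun_prop) ((map_add_right_eq_self _ _).trans
      (one_smul ℝ≥0∞ _).symm) (by fun_prop) hS' fun s hs => h s hs ζ hζ).trans ?_
  simp only [one_mul]
  rw [lintegral_lintegral_swap (by fun_prop), ← setLIntegral_const]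
  refine setLIntegral_mono' hS' fun s hs => (PG_map (g := fun t => f (s, t)) (by fun_prop) hk
    (by fun_prop) measurableSet_ball fun ζ hζ => ?_).trans (mul_le_mul_right (hA s hs) _)
  have h1 := norm_sub_le ζ r
  rw [mem_ball_zero_iff] at hζ ⊢
  rw [norm_real, Real.norm_of_nonneg hr.le] at h1
  rw [norm_smul, Real.norm_eq_abs, hc]
  linarith

theorem PG_core {e : ℂ × ℂ → ℝ} (he : Continuous e) (h0 : ∀ p, 0 ≤ e p) {σ ρ κ A ε : ℝ}
    (hσ : 0 < σ) (hρ : 0 < ρ) (hκ : 0 < κ) (hκ' : κ ≤ 1 / 8) (hσρ : 8 * σ ≤ ρ) (hε : 0 < ε)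
    (hA0 : 0 ≤ A)
    (hA : ∀ s : ℂ, σ ≤ s.re → ‖s‖ ≤ 6 * ρ → ∫ t in ball (0 : ℂ) (3 * ρ), e (s, t) ≤ A)
    (hP : ∀ s : ℂ, σ ≤ s.re → ‖s - σ‖ ≤ κ * ρ →
      (∫ t in ball (0 : ℂ) (2 * ρ), e (s, t)) - ∫ t in ball (0 : ℂ) ρ, e (s, t) ≤ ε) :
    ∃ (s : ℂ) (r : ℝ), σ ≤ s.re ∧ ‖s - σ‖ ≤ κ * ρ ∧ ρ < r ∧ r ≤ 2 * ρ ∧
      ρ / ε * (∫ θ in (0 : ℝ)..2 * π, r * e (s, r * ci θ)) ≤ 1 + 8 * A * (12 / κ) ^ 2 ∧
      (∫ ζ in ball (0 : ℂ) r, e (s + (ζ + r), (1 / 2 : ℝ) • (ζ - r))) ≤ 1 + 8 * A * (12 / κ) ^ 2 ∧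
      (∫ ζ in ball (0 : ℂ) r, e (s + (ζ + r), (-1 / 2 : ℝ) • (ζ - r))) ≤ 1 + 8 * A * (12 / κ) ^ 2 := by
  have hci := contDiff_ci.continuous
  set P : ℂ × ℝ → ℝ := fun p => ρ / ε * ∫ θ in (0 : ℝ)..2 * π, p.2 * e (p.1, p.2 * ci θ) with hPdef
  have hPc : Continuous P := continuous_const.mul
    (intervalIntegral.continuous_parametric_intervalIntegral_of_continuous' (by fun_prop) _ _)
  have hPm := hPc.measurable
  have hem := he.measurable
  set S := closedBall ((σ + κ * ρ / 2 : ℝ) : ℂ) (κ * ρ / 2) with hSdef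
  have hκρ : 0 < κ * ρ / 2 := by positivity
  have hS : ∀ s ∈ S, σ ≤ s.re ∧ ‖s - σ‖ ≤ κ * ρ := fun s hs => by
    rw [mem_closedBall_iff_norm] at hs
    have h1 := (abs_le.1 ((abs_re_le_norm _).trans hs)).1
    have h2 := norm_add_le (s - (σ + κ * ρ / 2 : ℝ)) (κ * ρ / 2 : ℝ)
    rw [norm_real, Real.norm_of_nonneg hκρ.le,
      show s - (σ + κ * ρ / 2 : ℝ) + (κ * ρ / 2 : ℝ) = s - σ by push_cast; ring] at h2
    rw [sub_re, ofReal_re] at h1
    constructor <;> linarith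
  have hS0 : volume S ≠ 0 := (measure_closedBall_pos _ _ hκρ).ne'
  have hS1 : volume S ≠ ⊤ := measure_closedBall_lt_top.ne
  obtain ⟨r, hr, h1⟩ := PG_avg (μ := volume) (s := Ioc ρ (2 * ρ)) (c := volume S)
    (f := fun r => ∫⁻ s in S, ENNReal.ofReal (P (s, r))) (by simpa using by linarith) (by simp)
    (Measurable.lintegral_prod_left (f := fun s r => ENNReal.ofReal (P (s, r))) (by fun_prop)) (by
      rw [lintegral_lintegral_swap (by fun_prop), mul_comm (volume S), ← setLIntegral_const]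
      refine setLIntegral_mono' measurableSet_closedBall fun s hs => ?_
      rw [← ofReal_integral_eq_lintegral_ofReal (f := fun r => P (s, r))
        (Continuous.integrableOn_Ioc (by fun_prop))
        (ae_restrict_of_forall_mem measurableSet_Ioc fun r hr => mul_nonneg (by positivity)
          (intervalIntegral.integral_nonneg (by positivity) fun θ _ =>
            mul_nonneg (hρ.trans hr.1).le (h0 _))), Real.volume_Ioc,
        ← intervalIntegral.integral_of_le (by linarith), intervalIntegral.integral_const_mul]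
      have hi : Continuous fun r : ℝ => ∫ θ in (0 : ℝ)..2 * π, r * e (s, r * ci θ) :=
        intervalIntegral.continuous_parametric_intervalIntegral_of_continuous' (by fun_prop) _ _
      have h1 := hP s (hS s hs).1 (hS s hs).2
      rw [integral_ball_polar (by positivity) (by fun_prop), integral_ball_polar hρ.le (by fun_prop),
        intervalIntegral.integral_interval_sub_left (hi.intervalIntegrable _ _)
          (hi.intervalIntegrable _ _)] at h1
      refine ENNReal.ofReal_le_ofReal ((mul_le_mul_of_nonneg_left h1 (by positivity)).trans_eq ?_)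
      field_simp
      ring)
  have hr0 := hρ.trans hr.1
  have h2 := fun (c : ℝ) (hc : |c| = 1 / 2) => PG_hor (f := fun p => ENNReal.ofReal (e p))
    (by fun_prop) (S := S) (S' := {s | σ ≤ s.re} ∩ closedBall 0 (6 * ρ)) (R := 3 * ρ)
    (A := ENNReal.ofReal A) ((measurableSet_le (by fun_prop) (by fun_prop)).inter
      measurableSet_closedBall) hc hr0 (by linarith [hr.2]) (fun s hs ζ hζ => by
      rw [mem_ball_zero_iff] at hζ
      have h3 := (abs_le.1 (abs_re_le_norm ζ)).1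
      have h4 := norm_add₃_le (a := s - σ) (b := (σ : ℂ)) (c := ζ + r)
      have h5 := norm_add_le ζ r
      rw [norm_real, Real.norm_of_nonneg hr0.le] at h5
      rw [norm_real, Real.norm_of_nonneg hσ.le, sub_add_cancel] at h4
      refine ⟨?_, mem_closedBall_zero_iff.2 ?_⟩
      · change σ ≤ s.re + (ζ.re + r)
        linarith [(hS s hs).1]
      · nlinarith [(hS s hs).2, hr.2]) fun s hs => by
      rw [← ofReal_integral_eq_lintegral_ofReal (f := fun t => e (s, t))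
        ((ContinuousOn.integrableOn_compact (isCompact_closedBall _ _) (by fun_prop)).mono_set
          ball_subset_closedBall) (.of_forall fun _ => h0 _)]
      exact ENNReal.ofReal_le_ofReal (hA s hs.1 (mem_closedBall_zero_iff.1 hs.2))
  have h3 : 4 * ENNReal.ofReal A * volume ({s : ℂ | σ ≤ s.re} ∩ closedBall 0 (6 * ρ)) ≤
      ENNReal.ofReal (4 * A * (12 / κ) ^ 2) * volume S := by
    refine (mul_le_mul_right (measure_mono inter_subset_right) _).trans_eq ?_
    rw [hSdef, Complex.volume_closedBall, Complex.volume_closedBall, ← mul_assoc, ← mul_assoc,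
      ← ENNReal.ofReal_pow hκρ.le, ← ENNReal.ofReal_pow (by positivity), ← ENNReal.ofReal_ofNat 4,
      ← ENNReal.ofReal_mul (by positivity), ← ENNReal.ofReal_mul (by positivity),
      ← ENNReal.ofReal_mul (by positivity)]
    congr 2
    field_simp
    ring
  have hm : ∀ c : ℝ, Measurable fun s : ℂ => ∫⁻ ζ in ball (0 : ℂ) r,
      ENNReal.ofReal (e (s + (ζ + r), c • (ζ - r))) := fun c =>
    Measurable.lintegral_prod_right (f := fun s ζ : ℂ => ENNReal.ofReal (e (s + (ζ + r), c • (ζ - r))))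
      (by fun_prop)
  obtain ⟨s, hs, h4⟩ := PG_avg (c := ENNReal.ofReal (1 + 8 * A * (12 / κ) ^ 2)) hS0 hS1
    (((show Measurable fun s => ENNReal.ofReal (P (s, r)) by fun_prop).add (hm (1 / 2))).add
      (hm (-1 / 2))) (by
      simp only [Pi.add_apply]
      rw [lintegral_add_right _ (hm _), lintegral_add_right _ (hm _)]
      refine (add_le_add (add_le_add h1 ((h2 _ (by norm_num)).trans h3))
        ((h2 _ (by norm_num [abs_of_neg])).trans h3)).trans_eq ?_
      rw [show 1 + 8 * A * (12 / κ) ^ 2 = 1 + 4 * A * (12 / κ) ^ 2 + 4 * A * (12 / κ) ^ 2 by ring,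
        ENNReal.ofReal_add (by positivity) (by positivity),
        ENNReal.ofReal_add (by positivity) (by positivity), ENNReal.ofReal_one]
      ring)
  have h5 : ∀ c : ℝ, ∫⁻ ζ in ball (0 : ℂ) r, ENNReal.ofReal (e (s + (ζ + r), c • (ζ - r))) ≤
      ENNReal.ofReal (1 + 8 * A * (12 / κ) ^ 2) →
      (∫ ζ in ball (0 : ℂ) r, e (s + (ζ + r), c • (ζ - r))) ≤ 1 + 8 * A * (12 / κ) ^ 2 :=
    fun c h => by
      rw [integral_eq_lintegral_of_nonneg_ae (.of_forall fun _ => h0 _)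
        (Continuous.aestronglyMeasurable (by fun_prop))]
      exact ENNReal.toReal_le_of_le_ofReal (by positivity) h
  exact ⟨s, r, (hS s hs).1, (hS s hs).2, hr.1, hr.2,
    (ENNReal.ofReal_le_ofReal_iff (by positivity)).1 ((le_self_add.trans le_self_add).trans h4),
    h5 _ ((le_add_self.trans le_self_add).trans h4), h5 _ (le_add_self.trans h4)⟩

/-- Step 3 (averaging) -/
theorem Hyp.pigeon (h : Hyp G K r₀ C₀) :
    ∃ A : ℝ, ∀ ε > 0, ∃ (m : ℂ) (ρ : ℝ), 0 < ρ ∧ ‖m‖ ≤ ρ / 4 ∧ Cs m ρ ⊆ Om K r₀ ∧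
      (∫ θ in (0 : ℝ)..2 * π,
        ρ * √(G ((m, m) + ((ρ : ℂ) * ci θ) • ((1 : ℂ), (-1 : ℂ))) (1, -1) (1, -1))) ≤ ε ∧
      dar G (m, m + ρ) (1, 0) ρ ≤ A ∧ dar G (m + ρ, m) (0, 1) ρ ≤ A := by
  obtain ⟨A₀, κ, hκ, hκ', H⟩ := h.small_annulus
  have hC := h.C_pos
  obtain ⟨B, hB⟩ : ∃ B, B = 1 + 8 * max A₀ 0 * (12 / κ) ^ 2 := ⟨_, rfl⟩
  have hB0 : 0 < B := by rw [hB]; positivity
  refine ⟨C₀ * B, fun ε hε => ?_⟩
  obtain ⟨σ, hσ, ρ, hρ, hσρ, H1, H2⟩ := H (ε ^ 2 / (4 * π * B)) (by positivity)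
  have pt : ∀ s t : ℂ, ((s / 2, s / 2) : ℂ × ℂ) + t • ((1, -1) : ℂ × ℂ) = (s / 2 + t, s / 2 - t) :=
    fun s t => by ext <;> simp [sub_eq_add_neg]
  set D : Set (ℂ × ℂ) := ({s | σ ≤ s.re} ∩ closedBall 0 (6 * ρ)) ×ˢ closedBall 0 (3 * ρ) with hD
  have hDk : ∀ p ∈ D, (p.1 / 2 + p.2, p.1 / 2 - p.2) ∈ Om K r₀ := fun p hp =>
    (H1 p.1 hp.1.1 (mem_closedBall_zero_iff.1 hp.1.2)).1 p.2 hp.2
  have hDc : ContinuousOn (fun p : ℂ × ℂ => G (p.1 / 2 + p.2, p.1 / 2 - p.2) (1, -1) (1, -1)) D :=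
    fun p hp => (((ContinuousAt.comp (f := fun p : ℂ × ℂ => (p.1 / 2 + p.2, p.1 / 2 - p.2))
      (h.kat _ (hDk p hp)).smooth.continuousAt (by fun_prop)).clm_apply continuousAt_const).clm_apply
        continuousAt_const).continuousWithinAt
  obtain ⟨e, he0, he⟩ := ContinuousMap.exists_restrict_eq_forall_mem_of_closed (s := D)
    ⟨_, hDc.domRestrict⟩ (t := Ici 0) (fun p => (h.kat _ (hDk p p.2)).nonneg _) nonempty_Ici
    (((isClosed_le (by fun_prop) (by fun_prop)).inter isClosed_closedBall).prod isClosed_closedBall)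
  have he' : ∀ p ∈ D, e p = G (p.1 / 2 + p.2, p.1 / 2 - p.2) (1, -1) (1, -1) := fun p hp =>
    DFunLike.congr_fun he ⟨p, hp⟩
  have hAr : ∀ s : ℂ, σ ≤ s.re → ‖s‖ ≤ 6 * ρ → ∀ R ≤ 3 * ρ,
      ∫ t in ball (0 : ℂ) R, e (s, t) = Ar G s R := fun s h1 h2 R hR =>
    setIntegral_congr_fun measurableSet_ball fun t ht => by
      simp only [pt]
      exact he' (s, t) ⟨⟨h1, mem_closedBall_zero_iff.2 h2⟩,
        closedBall_subset_closedBall hR (ball_subset_closedBall ht)⟩
  have hn : ∀ s : ℂ, ‖s - σ‖ ≤ κ * ρ → ‖s‖ ≤ ρ / 4 := fun s hs => by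
    have := norm_add_le (s - σ) σ
    rw [sub_add_cancel, norm_real, Real.norm_of_nonneg hσ.le] at this
    nlinarith
  obtain ⟨s, r, h1, h2, h3, h4, h5, h6, h7⟩ := PG_core e.continuous he0 hσ hρ hκ hκ' hσρ
    (ε := ε ^ 2 / (4 * π * B)) (by positivity) (le_max_right A₀ 0)
    (fun s h1 h2 => (hAr s h1 h2 _ le_rfl).trans_le ((H1 s h1 h2).2.trans (le_max_left _ _)))
    fun s h1 h2 => by
      have := hn s h2
      rw [hAr s h1 (by linarith) _ (by linarith), hAr s h1 (by linarith) _ (by linarith)]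
      exact H2 s h1 h2
  rw [← hB] at h5 h6 h7
  have h8 := hn s h2
  have hr0 := hρ.trans h3
  have hm : ‖s / 2‖ = ‖s‖ / 2 := by simp
  have hCs : ∀ q ∈ Cs (s / 2) r, (q.1 + q.2, (q.1 - q.2) / 2) ∈ D := fun q hq => by
    have a1 := norm_add₃_le (a := q.1 - s / 2) (b := q.2 - s / 2) (c := s)
    have a2 := norm_sub_le (q.1 - s / 2) (q.2 - s / 2)
    have a3 := hq.2.2
    rw [show q.1 - s / 2 + (q.2 - s / 2) + s = q.1 + q.2 by ring] at a1
    rw [sub_sub_sub_cancel_right] at a2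
    rw [div_ofNat_re] at a3
    refine ⟨⟨?_, mem_closedBall_zero_iff.2 ?_⟩, mem_closedBall_zero_iff.2 ?_⟩
    · change σ ≤ _
      linarith
    · linarith [hq.1, hq.2.1]
    · rw [norm_div, Complex.norm_two]
      linarith [hq.1, hq.2.1]
  have hq : ∀ q : ℂ × ℂ, ((q.1 + q.2) / 2 + (q.1 - q.2) / 2, (q.1 + q.2) / 2 - (q.1 - q.2) / 2) = q :=
    fun q => by ext <;> simp only [] <;> ring
  have hOm : Cs (s / 2) r ⊆ Om K r₀ := fun q hq' => hq q ▸ hDk _ (hCs q hq')
  have key : ∀ (c : ℝ) (p τ : ℂ × ℂ), (∀ q ∈ Om K r₀, G q τ τ ≤ C₀ * G q (1, -1) (1, -1)) →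
      (∀ ζ ∈ ball (0 : ℂ) r, p + ζ • τ ∈ Cs (s / 2) r ∧ (p + ζ • τ).1 + (p + ζ • τ).2 = s + (ζ + r) ∧
        ((p + ζ • τ).1 - (p + ζ • τ).2) / 2 = c • (ζ - r)) →
      (∫ ζ in ball (0 : ℂ) r, e (s + (ζ + r), c • (ζ - r))) ≤ B → dar G p τ r ≤ C₀ * B :=
    fun c p τ b1 b2 b3 => by
      refine le_trans ?_ (mul_le_mul_of_nonneg_left b3 hC.le)
      rw [← integral_const_mul]
      refine integral_mono_of_nonneg (ae_restrict_of_forall_mem measurableSet_ball fun ζ hζ =>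
        (h.kat _ (hOm (b2 ζ hζ).1)).nonneg _) ((ContinuousOn.integrableOn_compact
          (isCompact_closedBall _ _) (by fun_prop)).mono_set ball_subset_closedBall)
        (ae_restrict_of_forall_mem measurableSet_ball fun ζ hζ => ?_)
      obtain ⟨c1, c2, c3⟩ := b2 ζ hζ
      simp only [← c2, ← c3, he' _ (hCs _ c1), hq]
      exact b1 _ (hOm c1)
  refine ⟨s / 2, r, hr0, by linarith, hOm, ?_, key (1 / 2) _ _ (fun q hq => ?_) (fun ζ hζ => ?_) h6,
    key (-1 / 2) _ _ (fun q hq => ?_) (fun ζ hζ => ?_) h7⟩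
  · have hci := contDiff_ci.continuous
    rw [intervalIntegral.integral_congr (g := fun θ => r * √(e (s, r * ci θ))) fun θ _ => by
      simp only [pt]
      rw [he' (s, r * ci θ) ⟨⟨h1, mem_closedBall_zero_iff.2 (by linarith)⟩,
        mem_closedBall_zero_iff.2 (by
          rw [norm_mul, norm_ci, norm_real, Real.norm_of_nonneg hr0.le]; linarith)⟩]]
    refine (intervalIntegral.integral_mono (g := fun θ => ε / (4 * π) + 2 * π * ρ / ε *
      (r * e (s, r * ci θ))) (by positivity) (Continuous.intervalIntegrable (by fun_prop) _ _)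
      (Continuous.intervalIntegrable (by fun_prop) _ _) fun θ => ?_).trans ?_
    · have a1 := Real.sq_sqrt (he0 (s, r * ci θ))
      have a2 := Real.sqrt_nonneg (e (s, r * ci θ))
      simp only [] at a1 ⊢
      generalize √(e (s, r * ci θ)) = x at a1 a2 ⊢
      rw [← a1, ← sub_nonneg, show ε / (4 * π) + 2 * π * ρ / ε * (r * x ^ 2) - r * x =
        ((ε - 2 * π * r * x) ^ 2 + 4 * π ^ 2 * r * (2 * ρ - r) * x ^ 2) / (4 * π * ε) by
          field_simp; ring]
      have := sub_nonneg.2 h4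
      positivity
    · rw [intervalIntegral.integral_add intervalIntegrable_const
        (Continuous.intervalIntegrable (by fun_prop) _ _), intervalIntegral.integral_const_mul]
      refine le_trans (add_le_add_right (b := _) (c := ε / (2 * B) * B) ?_ _) (le_of_eq ?_)
      · refine le_trans (le_of_eq ?_) (mul_le_mul_of_nonneg_left h5 (by positivity))
        field_simp
        ring
      · simp only [intervalIntegral.integral_const, smul_eq_mul]
        field_simp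
        ring
  · linarith [h.angle q hq 1 (-1), (h.kat q hq).nonneg (0, -1)]
  · rw [mem_ball_zero_iff] at hζ
    have := (abs_le.1 (abs_re_le_norm ζ)).1
    refine ⟨⟨by simpa using hζ.le, by simp [abs_of_pos hr0], ?_⟩, by simp; ring, by simp; ring⟩
    simp; linarith
  · have a1 := (h.kat q hq).smul_smul (-1) (0, 1)
    simp only [Prod.smul_mk, smul_eq_mul, mul_zero, mul_one, norm_neg, norm_one, one_pow,
      one_mul] at a1
    linarith [h.angle q hq 1 (-1), (h.kat q hq).nonneg (1, 0)]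
  · rw [mem_ball_zero_iff] at hζ
    have := (abs_le.1 (abs_re_le_norm ζ)).1
    refine ⟨⟨by simp [abs_of_pos hr0], by simpa using hζ.le, ?_⟩, by simp; ring, by simp; ring⟩
    simp; linarith

end Crest.Agent.R266
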