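import Crest.Agent.R266.LemmaT2
import Crest.Agent.R266.Pigeon

/-!
# Row 266: the key local extension lemma
-/

set_option autoImplicit false
set_option linter.unusedSectionVars false
set_option linter.unusedVariables false

open MeasureTheory Metric Set Filter Topology Complex
open scoped ContDiff Manifold Real
open Crest.AlgGeometry.HolSplit

noncomputable section

namespace Crest.Agent.R266

namespace PAtlas.Kae
variable {X : Type*} [MetricSpace X] [CompactSpace X] {n₁ n₂ : ℕ} {𝒜 : PAtlas X n₁ n₂} (𝒦 : 𝒜.Kae)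

include 𝒦 in
theorem key_local {Φ : ℂ × ℂ → X} {K r₀ : ℝ} (hK : 0 < K) (hr : 0 < r₀)
    (hΦ : ∀ q ∈ Om K r₀, 𝒜.PT Φ q) : ∃ x : X, Tendsto Φ (𝓝[Om K r₀] 0) (𝓝 x) := by
  obtain ⟨C₀, hC₀, hang⟩ := 𝒦.exists_angle
  have H : Hyp (𝒦.pb Φ) K r₀ C₀ :=
    ⟨hK, hr, hC₀, fun q hq => 𝒦.kat_pb (hΦ q hq).hol, fun q hq => hang Φ q (hΦ q hq)⟩
  obtain ⟨a, ha⟩ := H.pigeon
  obtain ⟨ε, hε, hT⟩ := Boxes.lemmaT 𝒦 a
  obtain ⟨m, ρ, hρ, hm, hCs, hl, ha₁, ha₂⟩ := ha ε hε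
  have hρ' : (ρ : ℂ) ≠ 0 := by exact_mod_cast hρ.ne'
  have hn : ‖(ρ : ℂ)‖ = ρ := by rw [Complex.norm_real, Real.norm_of_nonneg hρ.le]
  have key : ∀ z w : ℂ, ‖z‖ ≤ ρ → ‖w‖ ≤ ρ → 0 ≤ z.re + w.re → (m + z, m + w) ∈ Om K r₀ :=
    fun z w hz hw h => hCs ⟨by simpa using hz, by simpa using hw, by
      simp only [Complex.add_re]; linarith⟩
  have hre : ∀ z : ℂ, ‖z‖ ≤ ρ → 0 ≤ z.re + ρ := fun z hz => by
    linarith [(abs_le.1 (Complex.abs_re_le_norm z)).1]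
  set Φ' : ℂ × ℂ → X := fun q => Φ (m + ρ * q.1, m + ρ * q.2) with hΦ'
  have hPT : ∀ q ∈ Cs 0 1, 𝒜.PT Φ' q := by
    rintro q ⟨h₁, h₂, h₃⟩
    simp only [sub_zero, Complex.zero_re, mul_zero, Complex.add_re] at h₁ h₂ h₃
    refine PT.comp (k := fun z => m + ρ * z) (l := fun z => m + ρ * z)
      (hΦ _ (key _ _ ?_ ?_ ?_)) (by fun_prop) (by fun_prop)
    · rw [norm_mul, hn]; exact mul_le_of_le_one_right hρ.le h₁
    · rw [norm_mul, hn]; exact mul_le_of_le_one_right hρ.le h₂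
    · rw [Complex.re_ofReal_mul, Complex.re_ofReal_mul, ← mul_add]
      positivity
  have e₀ : (fun z => Φ' (z, -z)) = fun z => Φ ((m, m) + ((ρ : ℂ) * z) • ((1 : ℂ), (-1 : ℂ))) := by
    funext z; simp [hΦ']
  have e₁ : (fun z => Φ' (z, 1)) = fun z => Φ ((m, m + ρ) + ((ρ : ℂ) * z) • ((1 : ℂ), (0 : ℂ))) := by
    funext z; simp [hΦ']
  have e₂ : (fun z => Φ' (1, z)) = fun z => Φ ((m + ρ, m) + ((ρ : ℂ) * z) • ((0 : ℂ), (1 : ℂ))) := by
    funext z; simp [hΦ']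
  have hD := hT Φ' hPT
    (by
      rw [e₀, 𝒦.len_affine hρ fun z hz => (hΦ _ ?_).hol]
      · exact hl
      · rw [mem_sphere_zero_iff_norm] at hz
        simpa using key z (-z) hz.le (by simpa using hz.le) (by simp))
    (by
      rw [e₁, 𝒦.area_affine hρ fun z hz => (hΦ _ ?_).hol]
      · exact ha₁
      · rw [mem_ball_zero_iff] at hz
        simpa using key z ρ hz.le hn.le (by simpa using hre z hz.le))
    (by
      rw [e₂, 𝒦.area_affine hρ fun z hz => (hΦ _ ?_).hol]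
      · exact ha₂
      · rw [mem_ball_zero_iff] at hz
        simpa using key ρ z hn.le hz.le (by simpa [add_comm] using hre z hz.le))
  obtain ⟨Ψ, hΨ, hΨ₀⟩ := exists_max (hPT (1, 1) (by norm_num [Cs]))
  set ι : ℂ × ℂ → ℂ × ℂ := fun r => ((r.1 - m) / ρ, (r.2 - m) / ρ) with hι
  have hιa : ∀ r, AnalyticAt ℂ ι r := fun r =>
    ((analyticAt_fst.sub analyticAt_const).div analyticAt_const hρ').prod
      ((analyticAt_snd.sub analyticAt_const).div analyticAt_const hρ')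
  have hb : ∀ z ∈ closedBall m ρ, (z - m) / ρ ∈ closedBall (0 : ℂ) 1 := fun z hz => by
    rw [mem_closedBall_zero_iff, norm_div, hn, div_le_one hρ]
    rwa [mem_closedBall_iff_norm] at hz
  have hH : ∀ r ∈ closedBall m ρ ×ˢ closedBall m ρ, 𝒜.Hol (fun r => Ψ (ι r)) r := fun r hr =>
    (hΨ _ (hD ⟨hb _ hr.1, hb _ hr.2⟩)).hol.comp (hιa r)
  have hmem : m + ρ ∈ closedBall m ρ := by simp [abs_of_pos hρ]
  have h₀ : Φ =ᶠ[𝓝 (m + ρ, m + ρ)] fun r => Ψ (ι r) := by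
    have t : Tendsto ι (𝓝 (m + ρ, m + ρ)) (𝓝 (1, 1)) := by
      have := (hιa (m + ρ, m + ρ)).continuousAt.tendsto
      rwa [show ι (m + ρ, m + ρ) = (1, 1) by simp [hι, hρ']] at this
    filter_upwards [t.eventually hΨ₀] with r hr
    rw [hr, hΦ', hι]
    simp [mul_div_cancel₀, hρ']
  have heq : ∀ r ∈ Om K r₀ ∩ closedBall m ρ ×ˢ closedBall m ρ, Φ r = Ψ (ι r) := fun r hr =>
    (Hol.eventuallyEq_of_preconnected
      ((convex_Om hK.le).inter ((convex_closedBall m ρ).prod (convex_closedBall m ρ))).isPreconnected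
      (fun q hq => (hΦ q hq.1).hol) (fun q hq => hH q hq.2)
      ⟨key ρ ρ hn.le hn.le (by simpa using hρ.le), hmem, hmem⟩ h₀ hr).self_of_nhds
  have h0 : (0 : ℂ) ∈ ball m ρ := by
    rw [mem_ball, dist_comm, dist_zero_right]
    linarith
  have hN : closedBall m ρ ×ˢ closedBall m ρ ∈ 𝓝 (0 : ℂ × ℂ) :=
    prod_mem_nhds (closedBall_mem_nhds_of_mem h0) (closedBall_mem_nhds_of_mem h0)
  refine ⟨Ψ (ι 0), ((hH 0 (mem_of_mem_nhds hN)).1.tendsto.mono_left nhdsWithin_le_nhds).congr' ?_⟩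
  filter_upwards [inter_mem_nhdsWithin _ hN] with r hr
  exact (heq r hr).symm

end PAtlas.Kae

end Crest.Agent.R266
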