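import Crest.Agent.R266.Tube
import Crest.Agent.R266.DomX
import Crest.Agent.R266.Cap

/-!
# Row 266: transport of a disc over a disc
-/

set_option autoImplicit false
set_option linter.unusedSectionVars false
set_option linter.unusedVariables false

open MeasureTheory Metric Set Filter Topology Complex
open scoped ContDiff Manifold Real
open Crest.AlgGeometry.HolSplit

noncomputable section

namespace Crest.Agent.R266

namespace PAtlas.Boxes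
variable {X : Type*} [MetricSpace X] [CompactSpace X] {n₁ n₂ : ℕ} {𝒜 : PAtlas X n₁ n₂}
  (β : 𝒜.Boxes) (𝒦 : 𝒜.Kae)

/-- the boundary circles of the horizontal and vertical discs through `(1,1)` are read off from the
short diagonal loop -/
theorem boundary_mix {Φ : ℂ × ℂ → X} (hΦ : ∀ q ∈ Cs 0 1, 𝒜.PT Φ q) {j : X} (hj : j ∈ β.J)
    (hb : ∀ z ∈ sphere (0 : ℂ) 1, Φ (z, -z) ∈ β.box j β.δ) {q : ℂ × ℂ}
    (hq : (q.1 ∈ sphere (0 : ℂ) 1 ∧ q.2 = 1) ∨ (q.1 = 1 ∧ q.2 ∈ sphere (0 : ℂ) 1)) :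
    Φ =ᶠ[𝓝 q] fun r => 𝒜.mix j (Φ (r.1, -r.1)) (Φ (-r.2, r.2)) := by
  have hδ : β.δ ≤ 3 * β.δ := by linarith [β.δ_pos]
  have hone : (1 : ℂ) ∈ sphere (0 : ℂ) 1 := by simp
  have hneg : ∀ z ∈ sphere (0 : ℂ) 1, -z ∈ sphere (0 : ℂ) 1 := fun z hz => by simpa using hz
  have hnorm : ∀ z ∈ sphere (0 : ℂ) 1, ‖z‖ = 1 := fun z hz => by simpa using hz
  have hre : ∀ z ∈ sphere (0 : ℂ) 1, -1 ≤ z.re := fun z hz => by
    have h1 := Complex.abs_re_le_norm z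
    rw [hnorm z hz] at h1
    exact (abs_le.1 h1).1
  have hdiag : ∀ z ∈ sphere (0 : ℂ) 1, 𝒜.PT Φ (z, -z) := fun z hz =>
    hΦ _ ⟨by simp [hnorm z hz], by simp [hnorm z hz], by simp⟩
  have hdiag' : ∀ w ∈ sphere (0 : ℂ) 1, 𝒜.PT Φ (-w, w) := fun w hw => by
    simpa using hdiag _ (hneg w hw)
  have hb' : ∀ w ∈ sphere (0 : ℂ) 1, Φ (-w, w) ∈ β.box j β.δ := fun w hw => by
    simpa using hb _ (hneg w hw)
  set K : Set (ℂ × ℂ) := (sphere (0 : ℂ) 1 ×ˢ {1}) ∪ ({1} ×ˢ sphere (0 : ℂ) 1) with hK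
  have hsph : IsPreconnected (sphere (0 : ℂ) 1) :=
    isPreconnected_sphere (by rw [Complex.rank_real_complex]; norm_num) 0 1
  have hKc : IsPreconnected K :=
    (hsph.prod isPreconnected_singleton).union (1, 1) ⟨hone, rfl⟩ ⟨rfl, hone⟩
      (isPreconnected_singleton.prod hsph)
  have hK12 : ∀ r ∈ K, r.1 ∈ sphere (0 : ℂ) 1 ∧ r.2 ∈ sphere (0 : ℂ) 1 ∧ r ∈ Cs 0 1 := by
    rintro ⟨a, b⟩ (⟨ha, hb1⟩ | ⟨ha, hb1⟩)
    · obtain rfl : b = 1 := hb1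
      refine ⟨ha, hone, by simp [hnorm a ha], by simp, ?_⟩
      have := hre a ha
      simp only [Complex.zero_re, mul_zero, Complex.add_re, Complex.one_re]
      linarith
    · obtain rfl : a = 1 := ha
      refine ⟨hone, hb1, by simp, by simp [hnorm b hb1], ?_⟩
      have := hre b hb1
      simp only [Complex.zero_re, mul_zero, Complex.add_re, Complex.one_re]
      linarith
  have hΨ : ∀ r ∈ K, 𝒜.Hol (fun r : ℂ × ℂ => 𝒜.mix j (Φ (r.1, -r.1)) (Φ (-r.2, r.2))) r := by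
    rintro ⟨a, b⟩ hr
    obtain ⟨ha, hb1, -⟩ := hK12 _ hr
    have h1 : 𝒜.Hol (fun z : ℂ => Φ (z, -z)) a :=
      Hol.comp (k := fun z : ℂ => (z, -z)) (hdiag a ha).hol (by fun_prop)
    have h2 : 𝒜.Hol (fun w : ℂ => Φ (-w, w)) b :=
      Hol.comp (k := fun w : ℂ => (-w, w)) (hdiag' b hb1).hol (by fun_prop)
    exact (pt_mix h1 h2 (β.mixOK_box hj hδ (hb a ha) (hb' b hb1)).1).hol
  have h0 : ((-1, 1) : ℂ × ℂ) ∈ K := Or.inl ⟨hneg 1 hone, rfl⟩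
  have hq' : q ∈ K := by
    rcases hq with h | h
    · exact Or.inl ⟨h.1, h.2⟩
    · exact Or.inr ⟨h.1, h.2⟩
  refine Hol.eventuallyEq_of_preconnected hKc (fun r hr => (hΦ r (hK12 r hr).2.2).hol) hΨ h0 ?_ hq'
  have hp := hdiag' 1 hone
  have hs := β.box_source (hb' 1 hone)
  obtain ⟨k₁, k₂, -, -, hk⟩ := hp.exists_chart hs
  have t1 : Tendsto (fun r : ℂ × ℂ => (r.1, -r.1)) (𝓝 (-1, 1)) (𝓝 (-1, 1)) := by
    have : Continuous fun r : ℂ × ℂ => (r.1, -r.1) := by fun_prop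
    simpa using this.tendsto (-1, 1)
  have t2 : Tendsto (fun r : ℂ × ℂ => (-r.2, r.2)) (𝓝 (-1, 1)) (𝓝 (-1, 1)) := by
    have : Continuous fun r : ℂ × ℂ => (-r.2, r.2) := by fun_prop
    simpa using this.tendsto (-1, 1)
  filter_upwards [hk, t1.eventually hk, t2.eventually hk, aux_ev hp.1 hs] with r e0 e1 e2 e3
  unfold PAtlas.mix
  rw [e1, e2, ← e0, (𝒜.chart j).left_inv e3]

/-- the holonomy tube `H` along the vertical disc -/
theorem exists_vertical_tube (a : ℝ) : ∃ η > 0, ∃ C > 0, ∀ (g : ℂ → X) (j : X), j ∈ β.J →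
    (∀ w ∈ closedBall (0 : ℂ) 1, 𝒜.T2 g w) → 𝒦.area g ≤ a →
    (∀ w ∈ sphere (0 : ℂ) 1, g w ∈ β.box j β.δ) →
    ∃ H : Model n₁ × ℂ → X,
      (∀ v ∈ ball (0 : Model n₁) η, ∀ w ∈ closedBall (0 : ℂ) 1, 𝒜.PT H (v, w) ∧
        ∀ ξ : Model n₁, 𝒦.pb H (v, w) (ξ, 0) (ξ, 0) ≤ C * ‖ξ‖ ^ 2) ∧
      (∀ w ∈ closedBall (0 : ℂ) 1, ((fun w' => H (0, w')) =ᶠ[𝓝 w] g) ∧
        ∃ i ∈ β.J, ∀ v ∈ ball (0 : Model n₁) η, H (v, w) ∈ β.box i β.δ) ∧
      ∀ v ∈ ball (0 : Model n₁) η, ∀ᶠ v' in 𝓝 v,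
        H (v', 1) = (𝒜.chart j).symm ((𝒜.chart j (g 1)).1 + v', (𝒜.chart j (g 1)).2) := by
  have hδ0 := β.δ_pos
  obtain ⟨η₁, hη₁, near₁⟩ := β.exists_near (s := 0) (s' := β.δ) hδ0 (by linarith) one_pos
  obtain ⟨η₂, hη₂, tube⟩ := β.tube₂ 𝒦 (Model n₁) a hη₁
  obtain ⟨η₃, hη₃, near₃⟩ := β.exists_near' hη₂
  set η' := min β.δ η₃ with hη'def
  have hη' : 0 < η' := lt_min hδ0 hη₃
  obtain ⟨C, hC, hpb⟩ := β.exists_pb_bound 𝒦 (A := Model n₁) hη'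
  refine ⟨η' / 2, by positivity, C, hC, fun g j hj hg ha hb => ?_⟩
  have hone : (1 : ℂ) ∈ sphere (0 : ℂ) 1 := by simp
  have hone' : (1 : ℂ) ∈ closedBall (0 : ℂ) 1 := by simp
  have hsub : ball (0 : Model n₁) (η' / 2) ⊆ ball 0 η' := ball_subset_ball (by linarith)
  set y₀ := 𝒜.chart j (g 1) with hy₀
  set f : Model n₁ → X := fun v => (𝒜.chart j).symm (y₀.1 + v, y₀.2) with hf
  have hball : ∀ v ∈ ball (0 : Model n₁) η',
      (y₀.1 + v, y₀.2) ∈ ball (𝒜.chart j j) (β.r j + 3 * β.δ) ∧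
        ‖((y₀.1 + v, y₀.2) : MM n₁ n₂) - y₀‖ < η' := by
    intro v hv
    have h1 : ‖((y₀.1 + v, y₀.2) : MM n₁ n₂) - y₀‖ < η' := by
      have e : ((y₀.1 + v, y₀.2) : MM n₁ n₂) - y₀ = (v, 0) := by
        ext <;> simp
      rw [e, Prod.norm_def]
      simp only [norm_zero]
      exact max_lt (mem_ball_zero_iff.1 hv) hη'
    refine ⟨?_, h1⟩
    have h2 : dist y₀ (𝒜.chart j j) < β.r j + β.δ := (hb 1 hone).2
    have h3 := dist_triangle ((y₀.1 + v, y₀.2) : MM n₁ n₂) y₀ (𝒜.chart j j)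
    rw [dist_eq_norm _ y₀] at h3
    have h4 : η' ≤ β.δ := min_le_left _ _
    rw [mem_ball]
    linarith
  have htgt : ∀ v ∈ ball (0 : Model n₁) η', (y₀.1 + v, y₀.2) ∈ (𝒜.chart j).target :=
    fun v hv => β.sub j hj (ball_subset_closedBall (hball v hv).1)
  have hfT : ∀ v ∈ ball (0 : Model n₁) η', 𝒜.T1 f v := fun v hv =>
    T1.comp (f := fun r => (𝒜.chart j).symm (r, y₀.2)) (k := fun v => y₀.1 + v)
      (hol_symm (htgt v hv)).t1 (by fun_prop)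
  have hf0 : f 0 = g 1 := by
    simp only [hf, add_zero, Prod.mk.eta]
    exact (𝒜.chart j).left_inv (β.box_source (hb 1 hone))
  have h0 : (0 : Model n₁) ∈ ball (0 : Model n₁) η' := mem_ball_self hη'
  have hdist : ∀ v ∈ ball (0 : Model n₁) η', dist (f v) (f 0) < η₂ := by
    intro v hv
    refine near₃ j hj _ (β.symm_mem_box hj le_rfl (hball 0 h0).1) _
      (β.symm_mem_box hj le_rfl (hball v hv).1) ?_
    rw [(𝒜.chart j).right_inv (htgt v hv), (𝒜.chart j).right_inv (htgt 0 h0), add_zero]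
    exact (hball v hv).2.trans_le (min_le_right _ _)
  obtain ⟨Φ₀, hΦ₀, s₁, s₂⟩ := exists_local (hfT 0 h0) (hg 1 hone') hf0
  obtain ⟨M, hM, hM₀⟩ := exists_max hΦ₀
  have hMP : ∀ w ∈ closedBall (0 : ℂ) 1, 𝒜.PT M (0, w) := fun w hw =>
    hM _ (cross₂ hΦ₀ (fun r hr => hg r ((convex_closedBall (0 : ℂ) 1).segment_subset hone' hw hr))
      s₂)
  have c2 : ∀ w : ℂ, Tendsto (fun r : ℂ => ((0 : Model n₁), r)) (𝓝 w) (𝓝 (0, w)) := fun w =>
    (Continuous.prodMk_right (0 : Model n₁)).tendsto w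
  have c1 : Tendsto (fun r : Model n₁ => (r, (1 : ℂ))) (𝓝 0) (𝓝 (0, 1)) :=
    (Continuous.prodMk_left (1 : ℂ)).tendsto 0
  have hMg : ∀ w ∈ closedBall (0 : ℂ) 1, (fun r => M (0, r)) =ᶠ[𝓝 w] g := fun w hw =>
    Hol.eventuallyEq_of_preconnected (convex_closedBall (0 : ℂ) 1).isPreconnected
      (fun r hr => (hMP r hr).t2.1) (fun r hr => (hg r hr).1) hone'
      ((hM₀.comp_tendsto (c2 1)).trans s₂) hw
  have hMf : f =ᶠ[𝓝 0] fun b => M (b, 1) := ((hM₀.comp_tendsto c1).trans s₁).symm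
  have harea : 𝒦.area (fun z => M (0, z)) ≤ a := by
    refine le_trans (le_of_eq ?_) ha
    unfold Kae.area
    refine setIntegral_congr_fun measurableSet_ball fun z hz => ?_
    simp only [𝒦.pb_congr (hMg z (ball_subset_closedBall hz))]
  obtain ⟨H, hH⟩ := tube M 0 f (ball 0 η') isOpen_ball (convex_ball _ _).isPreconnected h0 hMP
    harea ⟨j, hj, fun z hz => by
      rw [(hMg z (sphere_subset_closedBall hz)).eq_of_nhds]
      exact hb z hz⟩ hfT hMf hdist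
  have hbox : ∀ w ∈ closedBall (0 : ℂ) 1, ∃ i ∈ β.J, ∀ v ∈ ball (0 : Model n₁) η',
      H (v, w) ∈ β.box i β.δ := by
    intro w hw
    obtain ⟨i, hi, hx⟩ := β.cover (M (0, w))
    exact ⟨i, hi, fun v hv => (near₁ i hi _ hx _ ((hH w hw).2 v hv).2).1⟩
  refine ⟨H, fun v hv w hw => ⟨((hH w hw).2 v (hsub hv)).1, fun ξ => ?_⟩,
    fun w hw => ⟨?_, ?_⟩, fun v hv => ?_⟩
  · obtain ⟨i, hi, hx⟩ := hbox w hw
    have h1 := hpb (fun u => H (u, w)) i hi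
      (fun u hu => ⟨((hH w hw).2 u hu).1.t1.1, hx u hu⟩) v hv ξ
    have h2 := 𝒦.pb_comp (Φ := H) (k := fun u : Model n₁ => (u, w)) (a := v)
      ((hH w hw).2 v (hsub hv)).1.hol (by fun_prop) ξ ξ
    have h3 : fderiv ℂ (fun u : Model n₁ => (u, w)) v ξ = (ξ, 0) := by
      rw [(hasFDerivAt_prodMk_left (𝕜 := ℂ) v w).fderiv]
      rfl
    rw [h3] at h2
    rw [← h2]
    exact h1
  · exact ((hH w hw).1.comp_tendsto (c2 w)).trans (hMg w hw)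
  · obtain ⟨i, hi, hx⟩ := hbox w hw
    exact ⟨i, hi, fun v hv => hx v (hsub hv)⟩
  · exact Hol.eventuallyEq_of_preconnected (Φ := fun u => H (u, 1)) (Ψ := f)
      (convex_ball (0 : Model n₁) η').isPreconnected
      (fun u hu => ((hH 1 hone').2 u hu).1.t1.1) (fun u hu => (hfT u hu).1) h0
      (((hH 1 hone').1.comp_tendsto c1).trans hMf.symm) (hsub hv)

end PAtlas.Boxes

end Crest.Agent.R266
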