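import Crest.Agent.R266.LemmaT

/-!
# Row 266: Lemma T
-/

set_option autoImplicit false
set_option linter.unusedSectionVars false
set_option linter.unusedVariables false

open MeasureTheory Metric Set Filter Topology Complex
open scoped ContDiff Manifold Real
open Crest.AlgGeometry.HolSplit

noncomputable section

namespace Crest.Agent.R266

theorem lemmaT2_isCompact_segment (a b : ℂ) : IsCompact (segment ℝ a b) := by
  rw [segment_eq_image_lineMap]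
  exact isCompact_Icc.image AffineMap.lineMap_continuous

theorem lemmaT2_segment_subset (w : ℂ) (t t' : ℝ) :
    segment ℝ (1 : ℂ) (AffineMap.lineMap (1 : ℂ) w t') ⊆
      segment ℝ (1 : ℂ) (AffineMap.lineMap (1 : ℂ) w t) ∪
        segment ℝ (AffineMap.lineMap (1 : ℂ) w t) (AffineMap.lineMap (1 : ℂ) w t') := by
  have h : ∀ s s' : ℝ, segment ℝ (AffineMap.lineMap (1 : ℂ) w s) (AffineMap.lineMap (1 : ℂ) w s')
      = (AffineMap.lineMap (1 : ℂ) w : ℝ →ᵃ[ℝ] ℂ) '' uIcc s s' := by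
    intro s s'
    rw [← segment_eq_uIcc, image_segment]
  have h0 := h 0 t'
  have h1 := h 0 t
  rw [AffineMap.lineMap_apply_zero] at h0 h1
  rw [h0, h1, h t t', ← image_union]
  exact image_mono uIcc_subset_uIcc_union_uIcc

theorem lemmaT2_mem_Cs₁ {z : ℂ} (hz : z ∈ closedBall (0 : ℂ) 1) : (z, (1 : ℂ)) ∈ Cs 0 1 := by
  rw [mem_closedBall_zero_iff] at hz
  refine ⟨by simpa using hz, by simp, ?_⟩
  have := (abs_le.1 ((Complex.abs_re_le_norm z).trans hz)).1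
  simp only [Complex.zero_re, mul_zero, Complex.add_re, Complex.one_re]
  linarith

theorem lemmaT2_mem_Cs₂ {w : ℂ} (hw : w ∈ closedBall (0 : ℂ) 1) : ((1 : ℂ), w) ∈ Cs 0 1 := by
  rw [mem_closedBall_zero_iff] at hw
  refine ⟨by simp, by simpa using hw, ?_⟩
  have := (abs_le.1 ((Complex.abs_re_le_norm w).trans hw)).1
  simp only [Complex.zero_re, mul_zero, Complex.add_re, Complex.one_re]
  linarith

theorem lemmaT2_mem_Cs₃ {z : ℂ} (hz : z ∈ closedBall (0 : ℂ) 1) : (z, -z) ∈ Cs 0 1 := by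
  rw [mem_closedBall_zero_iff] at hz
  exact ⟨by simpa using hz, by simpa using hz, by simp⟩

/-- the first component of a loop is not longer than the loop -/
theorem lemmaT2_integral_fst {E F : Type*} [NormedAddCommGroup E] [NormedSpace ℂ E]
    [CompleteSpace E] [NormedAddCommGroup F] [NormedSpace ℂ F] [CompleteSpace F]
    {c : ℂ → E × F} (hc : ∀ z ∈ sphere (0 : ℂ) 1, AnalyticAt ℂ c z) (e : E) :
    ∫ θ in (0 : ℝ)..2 * π, ‖deriv (fun z => (c z).1 - e) (ci θ)‖ ≤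
      ∫ θ in (0 : ℝ)..2 * π, ‖deriv c (ci θ)‖ := by
  have hs : ∀ θ, ci θ ∈ sphere (0 : ℂ) 1 := fun θ => by
    rw [mem_sphere_zero_iff_norm]; exact norm_ci θ
  have hd : ∀ θ, deriv (fun z => (c z).1 - e) (ci θ) = (deriv c (ci θ)).1 := by
    intro θ
    have h1 := (hc _ (hs θ)).differentiableAt.hasDerivAt
    have h2 : HasDerivAt (fun z => (c z).1) (deriv c (ci θ)).1 (ci θ) :=
      (ContinuousLinearMap.fst ℂ E F).hasFDerivAt.comp_hasDerivAt (ci θ) h1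
    exact (h2.sub_const e).deriv
  have hcont : Continuous fun θ => deriv c (ci θ) := by
    refine continuous_iff_continuousAt.2 fun θ => ?_
    exact ContinuousAt.comp (f := ci) (hc _ (hs θ)).deriv.continuousAt
      (hasDerivAt_ci θ).continuousAt
  simp only [hd]
  refine intervalIntegral.integral_mono_on (by positivity)
    (hcont.fst.norm.intervalIntegrable _ _) (hcont.norm.intervalIntegrable _ _)
    fun θ _ => norm_fst_le _

namespace PAtlas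

/-- a uniform radius for a `T2` disc -/
theorem lemmaT2_radius {X : Type*} [MetricSpace X] {n₁ n₂ : ℕ} {𝒜 : PAtlas X n₁ n₂} {g : ℂ → X}
    (hg : ∀ w ∈ closedBall (0 : ℂ) 1, 𝒜.T2 g w) {η : ℝ} (hη : 0 < η) :
    ∃ δ > 0, ∀ b₀ ∈ closedBall (0 : ℂ) 1, ∀ b ∈ ball b₀ δ, 𝒜.T2 g b ∧ dist (g b) (g b₀) < η := by
  obtain ⟨δ, hδ, h⟩ := lebesgue_number_lemma_of_metric (isCompact_closedBall (0 : ℂ) 1)
    (c := fun i : ℂ => interior {b | 𝒜.T2 g b ∧ dist (g b) (g i) < η / 2})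
    (fun i => isOpen_interior) (by
      intro i hi
      refine mem_iUnion.2 ⟨i, mem_interior_iff_mem_nhds.2 ?_⟩
      have h1 := (hg i hi).eventually
      have h2 := (hg i hi).1.1.eventually (Metric.ball_mem_nhds (g i) (half_pos hη))
      exact h1.and h2)
  refine ⟨δ, hδ, fun b₀ hb₀ b hb => ?_⟩
  obtain ⟨i, hi⟩ := h b₀ hb₀
  have h1 := interior_subset (hi hb)
  have h2 := interior_subset (hi (mem_ball_self hδ))
  refine ⟨h1.1, ?_⟩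
  have h3 := dist_triangle_right (g b) (g b₀) (g i)
  have h4 := h1.2
  have h5 := h2.2
  linarith

end PAtlas

namespace PAtlas.Boxes
variable {X : Type*} [MetricSpace X] [CompactSpace X] {n₁ n₂ : ℕ} {𝒜 : PAtlas X n₁ n₂}
  (β : 𝒜.Boxes) (𝒦 : 𝒜.Kae)

/-- **Lemma T** -/
theorem lemmaT (a : ℝ) : ∃ ε > 0, ∀ Φ : ℂ × ℂ → X, (∀ q ∈ Cs 0 1, 𝒜.PT Φ q) →
    𝒦.len (fun z => Φ (z, -z)) ≤ ε → 𝒦.area (fun z => Φ (z, 1)) ≤ a →
    𝒦.area (fun w => Φ (1, w)) ≤ a →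
    closedBall (0 : ℂ) 1 ×ˢ closedBall (0 : ℂ) 1 ⊆ 𝒜.Dom Φ (1, 1) := by
  obtain ⟨β⟩ := exists_boxes 𝒜
  obtain ⟨η, hη, C, hC, hT⟩ := β.exists_vertical_tube 𝒦 a
  obtain ⟨C₁, hC₁, ε₀, hε₀, hloop⟩ := β.exists_small_loop 𝒦
  obtain ⟨η'', hη'', htube⟩ := β.tube₁ 𝒦 ℂ (a + 1) one_pos
  set D : ℝ := min (η / 2) (min 1 (1 / (2 * C))) with hD
  have hD0 : 0 < D := lt_min (half_pos hη) (lt_min one_pos (by positivity))
  have hDη : D < η := (min_le_left _ _).trans_lt (half_lt_self hη)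
  have hD1 : D ≤ 1 := (min_le_right _ _).trans (min_le_left _ _)
  have hD2 : 2 * C * D ≤ 1 := by
    have : D ≤ 1 / (2 * C) := (min_le_right _ _).trans (min_le_right _ _)
    rw [le_div_iff₀ (by positivity)] at this
    linarith
  have hD3 : 2 * C * D * D ≤ 1 := mul_le_one₀ hD2 hD0.le hD1
  refine ⟨min ε₀ (D / C₁), lt_min hε₀ (by positivity), fun Φ hΦ hlen ha₁ ha₂ => ?_⟩
  have hsb : sphere (0 : ℂ) 1 ⊆ closedBall 0 1 := sphere_subset_closedBall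
  have h1s : (1 : ℂ) ∈ sphere (0 : ℂ) 1 := by simp
  have h1b : (1 : ℂ) ∈ closedBall (0 : ℂ) 1 := hsb h1s
  have hneg : ∀ z ∈ sphere (0 : ℂ) 1, -z ∈ sphere (0 : ℂ) 1 := fun z hz => by simpa using hz
  set γ : ℂ → X := fun z => Φ (z, -z) with hγ
  set g : ℂ → X := fun w => Φ (1, w) with hg
  have hγhol : ∀ z ∈ sphere (0 : ℂ) 1, 𝒜.Hol γ z := fun z hz =>
    Hol.comp (k := fun z : ℂ => (z, -z)) (hΦ _ (lemmaT2_mem_Cs₃ (hsb hz))).hol
      (analyticAt_id.prod analyticAt_id.neg)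
  obtain ⟨j, hj, -, hbox, hint⟩ := hloop γ hγhol (hlen.trans (min_le_left _ _))
  have hCl : C₁ * 𝒦.len γ ≤ D := by
    have := hlen.trans (min_le_right _ _)
    rw [le_div_iff₀ hC₁] at this
    linarith
  have hb : ∀ z ∈ sphere (0 : ℂ) 1, Φ (z, -z) ∈ β.box j β.δ := fun z hz => (hbox z hz).1
  have hδ3 : β.δ ≤ 3 * β.δ := by have := β.δ_pos; linarith
  have hgT : ∀ w ∈ closedBall (0 : ℂ) 1, 𝒜.T2 g w := fun w hw => (hΦ _ (lemmaT2_mem_Cs₂ hw)).t2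
  have hgmix : ∀ w ∈ sphere (0 : ℂ) 1, g w = 𝒜.mix j (γ 1) (γ (-w)) := by
    intro w hw
    have h := (β.boundary_mix hΦ hj hb (q := (1, w)) (Or.inr ⟨rfl, hw⟩)).eq_of_nhds
    simpa only [hg, hγ, neg_neg] using h
  have hgbox : ∀ w ∈ sphere (0 : ℂ) 1, g w ∈ β.box j β.δ := by
    intro w hw
    rw [hgmix w hw]
    exact (β.mixOK_box hj hδ3 (hbox 1 h1s).1 (hbox _ (hneg w hw)).1).2
  obtain ⟨H, hH, hH0, hH1⟩ := hT g j hj hgT ha₂ hgbox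
  have hg1 : 𝒜.chart j (g 1) = ((𝒜.chart j (γ 1)).1, (𝒜.chart j (γ (-1))).2) := by
    rw [hgmix 1 h1s]
    exact chart_mix (β.mixOK_box hj hδ3 (hbox 1 h1s).1 (hbox _ (hneg 1 h1s)).1).1
  set u : ℂ → Model n₁ := fun z => (𝒜.chart j (γ z)).1 - (𝒜.chart j (γ 1)).1 with hu
  have hcan : ∀ z ∈ sphere (0 : ℂ) 1, AnalyticAt ℂ (fun z => 𝒜.chart j (γ z)) z := fun z hz =>
    (hγhol z hz).analyticAt (β.box_source (hbox z hz).1)
  have huan : ∀ z ∈ sphere (0 : ℂ) 1, AnalyticAt ℂ u z ∧ ‖u z‖ ≤ D := by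
    intro z hz
    refine ⟨(analyticAt_fst.comp (hcan z hz)).sub analyticAt_const, ?_⟩
    exact (norm_fst_le (𝒜.chart j (γ z) - 𝒜.chart j (γ 1))).trans ((hbox z hz).2.trans hCl)
  have huη : ∀ z ∈ sphere (0 : ℂ) 1, u z ∈ ball (0 : Model n₁) η := fun z hz =>
    mem_ball_zero_iff.2 ((huan z hz).2.trans_lt hDη)
  have huL : ∫ θ in (0 : ℝ)..2 * π, ‖deriv u (ci θ)‖ ≤ D :=
    (lemmaT2_integral_fst hcan _).trans (hint.trans hCl)
  have hu1 : u 1 = 0 := sub_self _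
  set Ψ : ℂ × ℂ → X := fun q => H (u q.1, q.2) with hΨ
  have hΨPT : ∀ z ∈ sphere (0 : ℂ) 1, ∀ w ∈ closedBall (0 : ℂ) 1, 𝒜.PT Ψ (z, w) :=
    fun z hz w hw => PT.comp (k := u) (l := fun w : ℂ => w) (q := (z, w))
      (hH _ (huη z hz) w hw).1 (huan z hz).1 analyticAt_id
  have hΦΨ1 : Φ =ᶠ[𝓝 (1, 1)] Ψ := by
    refine PT.goursat_unique (hΦ _ (lemmaT2_mem_Cs₁ h1b)) (hΨPT 1 h1s 1 h1b) ?_ ?_
    · have h1 := (β.boundary_mix hΦ hj hb (q := (1, 1)) (Or.inl ⟨h1s, rfl⟩)).comp_tendsto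
        (Continuous.prodMk_left (1 : ℂ)).continuousAt
      have h2 := (huan 1 h1s).1.continuousAt.eventually (hH1 _ (huη 1 h1s))
      filter_upwards [h1, h2] with r hr1 hr2
      simp only [Function.comp_apply] at hr1
      simp only [hΨ]
      rw [hr1, hr2, hg1]
      simp only [hu, hγ, mix, neg_neg, add_sub_cancel]
    · simp only [hΨ, hu1]
      exact (hH0 1 h1b).1.symm
  have hΦΨ : ∀ z ∈ sphere (0 : ℂ) 1, Φ =ᶠ[𝓝 (z, 1)] Ψ := by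
    intro z hz
    refine Hol.eventuallyEq_of_preconnected (𝒜 := 𝒜) (K := sphere (0 : ℂ) 1 ×ˢ {(1 : ℂ)})
      ((isPreconnected_sphere (by rw [Complex.rank_real_complex]; norm_num) _ _).prod
        isPreconnected_singleton) ?_ ?_ (q₀ := (1, 1)) ⟨h1s, rfl⟩ hΦΨ1 ⟨hz, rfl⟩
    · rintro ⟨z', w'⟩ ⟨hz', rfl⟩
      exact (hΦ _ (lemmaT2_mem_Cs₁ (hsb hz'))).hol
    · rintro ⟨z', w'⟩ ⟨hz', rfl⟩
      exact (hΨPT z' hz' _ h1b).hol
  obtain ⟨M, hM, hM0⟩ := exists_max (hΦ _ (lemmaT2_mem_Cs₁ h1b))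
  have hseg : ∀ z ∈ closedBall (0 : ℂ) 1, segment ℝ 1 z ⊆ closedBall (0 : ℂ) 1 :=
    fun z hz => (convex_closedBall (0 : ℂ) 1).segment_subset h1b hz
  have hdom₁ : ∀ z ∈ closedBall (0 : ℂ) 1, (z, (1 : ℂ)) ∈ 𝒜.Dom Φ (1, 1) := by
    intro z hz
    refine ⟨Φ, ?_, EventuallyEq.rfl⟩
    rintro ⟨z', w'⟩ ⟨h1, h2⟩
    rw [segment_same] at h2
    obtain rfl : w' = 1 := h2
    exact hΦ _ (lemmaT2_mem_Cs₁ (hseg z hz h1))
  have hdom₂ : ∀ w ∈ closedBall (0 : ℂ) 1, ((1 : ℂ), w) ∈ 𝒜.Dom Φ (1, 1) := by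
    intro w hw
    refine ⟨Φ, ?_, EventuallyEq.rfl⟩
    rintro ⟨z', w'⟩ ⟨h1, h2⟩
    rw [segment_same] at h1
    obtain rfl : z' = 1 := h1
    exact hΦ _ (lemmaT2_mem_Cs₂ (hseg w hw h2))
  have hMΦ₁ : ∀ z ∈ closedBall (0 : ℂ) 1, M =ᶠ[𝓝 (z, 1)] Φ := by
    intro z hz
    refine Hol.eventuallyEq_of_preconnected (𝒜 := 𝒜) (K := closedBall (0 : ℂ) 1 ×ˢ {(1 : ℂ)})
      ((convex_closedBall (0 : ℂ) 1).isPreconnected.prod isPreconnected_singleton) ?_ ?_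
      (q₀ := (1, 1)) ⟨h1b, rfl⟩ hM0 ⟨hz, rfl⟩
    · rintro ⟨z', w'⟩ ⟨hz', rfl⟩
      exact (hM _ (hdom₁ z' hz')).hol
    · rintro ⟨z', w'⟩ ⟨hz', rfl⟩
      exact (hΦ _ (lemmaT2_mem_Cs₁ hz')).hol
  have hMΦ₂ : ∀ w ∈ closedBall (0 : ℂ) 1, M =ᶠ[𝓝 (1, w)] Φ := by
    intro w hw
    refine Hol.eventuallyEq_of_preconnected (𝒜 := 𝒜) (K := {(1 : ℂ)} ×ˢ closedBall (0 : ℂ) 1)
      (isPreconnected_singleton.prod (convex_closedBall (0 : ℂ) 1).isPreconnected) ?_ ?_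
      (q₀ := (1, 1)) ⟨rfl, h1b⟩ hM0 ⟨rfl, hw⟩
    · rintro ⟨z', w'⟩ ⟨rfl, hw'⟩
      exact (hM _ (hdom₂ w' hw')).hol
    · rintro ⟨z', w'⟩ ⟨rfl, hw'⟩
      exact (hΦ _ (lemmaT2_mem_Cs₂ hw')).hol
  have hMa : 𝒦.area (fun z => M (z, 1)) ≤ a := by
    refine le_of_eq_of_le ?_ ha₁
    refine setIntegral_congr_fun measurableSet_ball fun z hz => ?_
    have h := (hMΦ₁ z (ball_subset_closedBall hz)).comp_tendsto
      (Continuous.prodMk_left (1 : ℂ)).continuousAt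
    have h' : (fun z => M (z, 1)) =ᶠ[𝓝 z] fun z => Φ (z, 1) := h
    simp only [𝒦.pb_congr h']
  obtain ⟨δ', hδ', hrad⟩ := lemmaT2_radius hgT hη''
  have step : ∀ b₀ ∈ closedBall (0 : ℂ) 1, ∀ b ∈ ball b₀ δ',
      segment ℝ (1 : ℂ) b ⊆ segment ℝ (1 : ℂ) b₀ ∪ segment ℝ b₀ b →
      (∀ z ∈ closedBall (0 : ℂ) 1, (z, b₀) ∈ 𝒜.Dom Φ (1, 1)) →
      ∀ z ∈ closedBall (0 : ℂ) 1, (z, b) ∈ 𝒜.Dom Φ (1, 1) := by
    intro b₀ hb₀ b hbb hsub hP
    have hMP : ∀ z ∈ closedBall (0 : ℂ) 1, ∀ w ∈ segment ℝ (1 : ℂ) b₀, 𝒜.PT M (z, w) :=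
      fun z hz w hw => hM _ (Rect_subset_dom (hP z hz) ⟨right_mem_segment _ _ _, hw⟩)
    have hMH : ∀ z ∈ sphere (0 : ℂ) 1, ∀ w ∈ segment ℝ (1 : ℂ) b₀, M =ᶠ[𝓝 (z, w)] Ψ := by
      intro z hz w hw
      refine Hol.eventuallyEq_of_preconnected (𝒜 := 𝒜) (K := {z} ×ˢ segment ℝ (1 : ℂ) b₀)
        (isPreconnected_singleton.prod (convex_segment _ _).isPreconnected) ?_ ?_
        (q₀ := (z, 1)) ⟨rfl, left_mem_segment _ _ _⟩
        ((hMΦ₁ z (hsb hz)).trans (hΦΨ z hz)) ⟨rfl, hw⟩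
      · rintro ⟨z', w'⟩ ⟨rfl, hw'⟩
        exact (hMP _ (hsb hz) w' hw').hol
      · rintro ⟨z', w'⟩ ⟨rfl, hw'⟩
        exact (hΨPT _ hz w' (hseg b₀ hb₀ hw')).hol
    have harea := 𝒦.area_le_of_cap (M := M) (H := H) (u := u) (w₀ := 1) (w₁ := b₀) hC.le hMP
      (fun v hv w hw => (hH v hv w (hseg b₀ hb₀ hw)).1) huan hDη huL hMH
      (fun w hw v hv => (hH v hv w (by rcases hw with rfl | rfl <;> assumption)).2)
    obtain ⟨M', hM'⟩ := htube M b₀ g (ball b₀ δ') isOpen_ball (convex_ball _ _).isPreconnected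
      (mem_ball_self hδ') (fun z hz => hMP z hz b₀ (right_mem_segment _ _ _)) (by linarith)
      (by
        obtain ⟨i, hi, hi'⟩ := (hH0 b₀ hb₀).2
        refine ⟨i, hi, fun z hz => ?_⟩
        rw [(hMH z hz b₀ (right_mem_segment _ _ _)).eq_of_nhds]
        exact hi' _ (huη z hz))
      (fun b hb => (hrad b₀ hb₀ b hb).1)
      (((hMΦ₂ b₀ hb₀).comp_tendsto (Continuous.prodMk_right (1 : ℂ)).continuousAt).symm)
      (fun b hb => (hrad b₀ hb₀ b hb).2)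
    intro z hz
    have hsegb : segment ℝ b₀ b ⊆ ball b₀ δ' :=
      (convex_ball b₀ δ').segment_subset (mem_ball_self hδ') hbb
    refine mem_dom_of_glue (Φ₁ := M) (Φ₂ := M')
      (K₁ := segment ℝ (1 : ℂ) z ×ˢ segment ℝ (1 : ℂ) b₀)
      (K₂ := segment ℝ (1 : ℂ) z ×ˢ segment ℝ b₀ b)
      ((lemmaT2_isCompact_segment _ _).prod (lemmaT2_isCompact_segment _ _))
      ((lemmaT2_isCompact_segment _ _).prod (lemmaT2_isCompact_segment _ _)) ?_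
      ⟨left_mem_segment _ _ _, left_mem_segment _ _ _⟩ ?_ ?_ hM0 ?_
    · rintro ⟨z', w'⟩ ⟨h1, h2⟩
      rcases hsub h2 with h3 | h3
      · exact Or.inl ⟨h1, h3⟩
      · exact Or.inr ⟨h1, h3⟩
    · rintro ⟨z', w'⟩ ⟨h1, h2⟩
      exact hMP z' (hseg z hz h1) w' h2
    · rintro ⟨z', w'⟩ ⟨h1, h2⟩
      exact ((hM' z' (hseg z hz h1)).2 w' (hsegb h2)).1
    · rintro ⟨z', w'⟩ ⟨⟨h1, h2⟩, -, h3⟩
      have hz' := hseg z hz h1
      refine Hol.eventuallyEq_of_preconnected (𝒜 := 𝒜) (K := {z'} ×ˢ segment ℝ b₀ w')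
        (isPreconnected_singleton.prod (convex_segment _ _).isPreconnected) ?_ ?_
        (q₀ := (z', b₀)) ⟨rfl, left_mem_segment _ _ _⟩ (hM' z' hz').1.symm
        ⟨rfl, right_mem_segment _ _ _⟩
      · rintro ⟨z'', w''⟩ ⟨rfl, hw''⟩
        exact (hMP _ hz' w''
          ((convex_segment _ _).segment_subset (right_mem_segment _ _ _) h2 hw'')).hol
      · rintro ⟨z'', w''⟩ ⟨rfl, hw''⟩
        exact ((hM' _ hz').2 w''
          (hsegb ((convex_segment _ _).segment_subset (left_mem_segment _ _ _) h3 hw''))).1.hol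
  rintro ⟨z, w⟩ ⟨hz, hw⟩
  set l : ℝ → ℂ := fun t => AffineMap.lineMap (1 : ℂ) w t with hl
  have hlb : ∀ t ∈ Icc (0 : ℝ) 1, l t ∈ closedBall (0 : ℂ) 1 := fun t ht =>
    hseg w hw (lineMap_mem_segment ℝ _ _ ht)
  have hlc : Continuous l := AffineMap.lineMap_continuous
  have key := (isPreconnected_Icc (a := (0 : ℝ)) (b := 1)).induction₂'
    (fun t t' => (∀ z ∈ closedBall (0 : ℂ) 1, (z, l t) ∈ 𝒜.Dom Φ (1, 1)) →
      ∀ z ∈ closedBall (0 : ℂ) 1, (z, l t') ∈ 𝒜.Dom Φ (1, 1)) (by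
      intro t ht
      have h1 : ∀ᶠ t' in 𝓝[Icc (0 : ℝ) 1] t, l t' ∈ ball (l t) δ' :=
        nhdsWithin_le_nhds (hlc.continuousAt.eventually (ball_mem_nhds (l t) hδ'))
      filter_upwards [h1, self_mem_nhdsWithin] with t' h2 h3
      exact ⟨step _ (hlb t ht) _ h2 (lemmaT2_segment_subset w t t'),
        step _ (hlb t' h3) _ (mem_ball_comm.1 h2) (lemmaT2_segment_subset w t' t)⟩)
    (fun _ _ _ _ _ _ h1 h2 h3 => h2 (h1 h3)) (left_mem_Icc.2 zero_le_one) (right_mem_Icc.2 zero_le_one)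
  have h0 : l 0 = 1 := AffineMap.lineMap_apply_zero _ _
  have h1 : l 1 = w := AffineMap.lineMap_apply_one _ _
  rw [h0, h1] at key
  exact key hdom₁ z hz

end PAtlas.Boxes

end Crest.Agent.R266
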