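import Crest.Agent.R266.SCV

/-!
# Row 266: complex differentiable functions of several variables are analytic
-/

set_option autoImplicit false
set_option linter.unusedSectionVars false
set_option linter.unusedVariables false

open MeasureTheory Metric Set Filter Topology Complex
open scoped ContDiff Manifold Real
open Crest.AlgGeometry.HolSplit

noncomputable section

namespace Crest.Agent.R266

variable {E F : Type*} [NormedAddCommGroup E] [NormedSpace ℂ E] [NormedAddCommGroup F]
  [NormedSpace ℂ F] [CompleteSpace F]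

theorem Osgood.line_mem {x₀ x v : E} {r : ℝ} (hx : x ∈ ball x₀ r) {z : ℂ}
    (hz : ‖z‖ ≤ r / (‖v‖ + 1)) : x + z • v ∈ ball x₀ (2 * r) := by
  have hr : 0 < r := pos_of_mem_ball hx
  rw [mem_ball_iff_norm] at hx ⊢
  have h1 : ‖z • v‖ ≤ r := by
    rw [norm_smul]
    calc ‖z‖ * ‖v‖ ≤ r / (‖v‖ + 1) * (‖v‖ + 1) := by gcongr; linarith
      _ = r := by field_simp
  calc ‖x + z • v - x₀‖ = ‖(x - x₀) + z • v‖ := by congr 1; abel
    _ ≤ ‖x - x₀‖ + ‖z • v‖ := norm_add_le _ _
    _ < 2 * r := by linarith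

/-- directional derivatives of a differentiable function are differentiable -/
theorem Osgood.differentiableOn_fderiv_apply [FiniteDimensional ℂ E] {f : E → F} {U : Set E}
    (hU : IsOpen U) (hf : DifferentiableOn ℂ f U) (v : E) :
    DifferentiableOn ℂ (fun x => fderiv ℂ f x v) U := by
  intro x₀ hx₀
  obtain ⟨r₀, hr₀, hsub⟩ := Metric.isOpen_iff.1 hU x₀ hx₀
  set r := r₀ / 2 with hr
  have hr0 : 0 < r := half_pos hr₀
  have hsub' : ball x₀ (2 * r) ⊆ U := by rwa [hr, mul_div_cancel₀ _ two_ne_zero]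
  set ρ := r / (‖v‖ + 1) with hρ
  have hρ0 : 0 < ρ := by positivity
  have hc : ∀ t : ℝ, ‖circleMap 0 ρ t‖ ≤ ρ := fun t => by simp [abs_of_pos hρ0]
  set G : E → ℝ → F := fun x t => (circleMap 0 ρ (2 * π * t) * I) •
    (1 / (circleMap 0 ρ (2 * π * t) - 0) ^ 2) • f (x + circleMap 0 ρ (2 * π * t) • v) with hG
  have hd : DifferentiableOn ℂ (fun x => ∫ t in (0 : ℝ)..1, G x t) (ball x₀ r) := by
    refine differentiableOn_intervalIntegral isOpen_ball ?_ fun t _ => ?_
    · have h1 : Continuous fun p : E × ℝ => circleMap 0 ρ (2 * π * p.2) :=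
        (continuous_circleMap 0 ρ).comp (by fun_prop)
      refine (h1.mul continuous_const).continuousOn.smul (ContinuousOn.smul ?_ ?_)
      · exact (continuous_const.div ((h1.sub continuous_const).pow 2) fun p => by
          simpa using hρ0.ne').continuousOn
      · exact hf.continuousOn.comp (continuous_fst.add (h1.smul continuous_const)).continuousOn
          fun p hp => hsub' (Osgood.line_mem hp.1 (hc _))
    · refine (DifferentiableOn.const_smul ?_ _).const_smul _
      exact hf.comp (differentiableOn_id.add_const _) fun x hx =>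
        hsub' (Osgood.line_mem hx (hc _))
  have he : ∀ x ∈ ball x₀ r, fderiv ℂ f x v =
      (2 * π * I : ℂ)⁻¹ • (2 * π : ℝ) • ∫ t in (0 : ℝ)..1, G x t := fun x hx => by
    have h1 : DifferentiableOn ℂ (fun z : ℂ => f (x + z • v)) (closedBall 0 ρ) :=
      hf.comp (by fun_prop) fun z hz => hsub' (Osgood.line_mem hx (by simpa using hz))
    have h2 := h1.deriv_eq_smul_circleIntegral hρ0
    have hxU : x ∈ U := hsub' (ball_subset_ball (by linarith) hx)
    have h3 : HasDerivAt (fun z : ℂ => f (x + z • v)) (fderiv ℂ f x v) 0 := by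
      have h4 : HasDerivAt (fun z : ℂ => x + z • v) v 0 := by
        simpa using ((hasDerivAt_id (0 : ℂ)).smul_const v).const_add x
      have h5 : HasFDerivAt f (fderiv ℂ f x) (x + (0 : ℂ) • v) := by
        simpa using (hf.differentiableAt (hU.mem_nhds hxU)).hasFDerivAt
      exact h5.comp_hasDerivAt 0 h4
    rw [h3.deriv] at h2
    have h6 := intervalIntegral.smul_integral_comp_mul_left (a := 0) (b := 1)
      (fun θ : ℝ => (circleMap 0 ρ θ * I) • (1 / (circleMap 0 ρ θ - 0) ^ 2) •
        f (x + circleMap 0 ρ θ • v)) (2 * π)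
    rw [mul_zero, mul_one] at h6
    simp only [circleIntegral, deriv_circleMap] at h2
    rw [hG]
    simp only
    rw [h6, h2, smul_smul, inv_mul_cancel₀ two_pi_I_ne_zero, one_smul]
  have h7 : DifferentiableOn ℂ (fun x => fderiv ℂ f x v) (ball x₀ r) :=
    ((hd.const_smul (2 * π : ℝ)).const_smul (2 * π * I : ℂ)⁻¹).congr he
  exact (h7.differentiableAt (ball_mem_nhds x₀ hr0)).differentiableWithinAt

theorem Osgood.contDiffOn [FiniteDimensional ℂ E] {U : Set E} (hU : IsOpen U) (n : ℕ) :
    ∀ {f : E → F}, DifferentiableOn ℂ f U → ContDiffOn ℂ n f U := by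
  induction n with
  | zero => intro f hf; simpa using hf.continuousOn
  | succ n ih =>
    intro f hf
    rw [Nat.cast_succ, contDiffOn_succ_iff_fderiv_of_isOpen hU]
    exact ⟨hf, by simp, contDiffOn_clm_apply.2 fun v =>
      ih (Osgood.differentiableOn_fderiv_apply hU hf v)⟩

theorem Osgood.norm_iteratedFDeriv_le [FiniteDimensional ℂ E] {f : E → F} {r M δ : ℝ}
    (hδ : 0 < δ) (hf : DifferentiableOn ℂ f (ball 0 r)) (hM : ∀ y ∈ ball (0 : E) r, ‖f y‖ ≤ M)
    (k : ℕ) : ∀ y : E, ‖y‖ + k * δ < r → ‖iteratedFDeriv ℂ k f y‖ ≤ M * (2 / δ) ^ k := by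
  induction k with
  | zero =>
    intro y hy
    simpa using hM y (by simpa using hy)
  | succ k ih =>
    intro y hy
    have h1 : ∀ w ∈ ball y δ, ‖w‖ + k * δ < r := fun w hw => by
      have h2 : ‖w‖ ≤ ‖y‖ + ‖w - y‖ := norm_le_norm_add_norm_sub' w y
      rw [mem_ball_iff_norm] at hw
      push_cast at hy
      linarith
    rw [← norm_fderiv_iteratedFDeriv]
    refine (norm_fderiv_le_of_ball hδ (fun w hw => ?_) fun w hw => ih w (h1 w hw)).trans
      (le_of_eq (by ring))
    have hw' : w ∈ ball (0 : E) r := by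
      have := h1 w hw
      have h3 : (0 : ℝ) ≤ k * δ := by positivity
      rw [mem_ball_zero_iff]; linarith
    exact (((Osgood.contDiffOn isOpen_ball (k + 1) hf).contDiffAt
      (isOpen_ball.mem_nhds hw')).differentiableAt_iteratedFDeriv
        (by exact_mod_cast Nat.lt_succ_self k)).differentiableWithinAt

theorem Osgood.iteratedDeriv_line [FiniteDimensional ℂ E] {f : E → F} {r : ℝ} (hr : 0 < r)
    (hf : DifferentiableOn ℂ f (ball 0 r)) (y : E) (n : ℕ) :
    iteratedDeriv n (fun t : ℂ => f (t • y)) 0 = iteratedFDeriv ℂ n f 0 fun _ => y := by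
  set L : ℂ →L[ℂ] E := ContinuousLinearMap.toSpanSingleton ℂ y with hL
  have ho : IsOpen (L ⁻¹' ball (0 : E) r) := isOpen_ball.preimage L.continuous
  have h0 : L 0 ∈ ball (0 : E) r := by simpa using hr
  have h1 := L.iteratedFDerivWithin_comp_right (Osgood.contDiffOn isOpen_ball n hf)
    isOpen_ball.uniqueDiffOn ho.uniqueDiffOn h0 le_rfl
  rw [iteratedFDerivWithin_of_isOpen n ho h0, iteratedFDerivWithin_of_isOpen n isOpen_ball h0,
    map_zero] at h1
  have h2 : (fun t : ℂ => f (t • y)) = f ∘ L := by ext t; simp [hL]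
  rw [iteratedDeriv_eq_iteratedFDeriv, h2, h1]
  simp [hL]

theorem Osgood.analyticAt_zero [FiniteDimensional ℂ E] {f : E → F} {r M : ℝ} (hr : 0 < r)
    (hf : DifferentiableOn ℂ f (ball 0 r)) (hM : ∀ y ∈ ball (0 : E) r, ‖f y‖ ≤ M) :
    AnalyticAt ℂ f 0 := by
  have hM0 : 0 ≤ M := (norm_nonneg _).trans (hM 0 (mem_ball_self hr))
  have he : (1 : ℝ) ≤ Real.exp 1 := Real.one_le_exp zero_le_one
  set ρ : NNReal := ⟨r / (4 * Real.exp 1), by positivity⟩ with hρ
  have hρ' : (ρ : ℝ) = r / (4 * Real.exp 1) := rfl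
  have hρ0 : (0 : ℝ) < ρ := by rw [hρ']; positivity
  set p : FormalMultilinearSeries ℂ E F := fun n => ((n.factorial : ℂ))⁻¹ • iteratedFDeriv ℂ n f 0
    with hp
  refine ⟨p, ρ, p.le_radius_of_bound M fun n => ?_, by exact_mod_cast hρ0, fun {y} hy => ?_⟩
  · rcases Nat.eq_zero_or_pos n with rfl | hn
    · simpa [hp] using hM 0 (mem_ball_self hr)
    · have hn' : (0 : ℝ) < n := by exact_mod_cast hn
      have h1 := Osgood.norm_iteratedFDeriv_le (δ := r / (2 * n)) (by positivity) hf hM n 0
        (by rw [norm_zero, zero_add]; field_simp; linarith)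
      have h2 := Real.pow_div_factorial_le_exp (n : ℝ) hn'.le n
      have h3 : Real.exp n = Real.exp 1 ^ n := by rw [← Real.exp_nat_mul, mul_one]
      have hf0 : (0 : ℝ) < n.factorial := by exact_mod_cast n.factorial_pos
      calc ‖p n‖ * (ρ : ℝ) ^ n
          = (n.factorial : ℝ)⁻¹ * ‖iteratedFDeriv ℂ n f 0‖ * (ρ : ℝ) ^ n := by
            simp [hp, norm_smul]
        _ ≤ (n.factorial : ℝ)⁻¹ * (M * (2 / (r / (2 * n))) ^ n) * (ρ : ℝ) ^ n := by gcongr
        _ = M * (((n : ℝ) ^ n / n.factorial) / Real.exp 1 ^ n) := by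
            rw [mul_assoc, mul_assoc, ← mul_pow,
              show 2 / (r / (2 * n)) * (ρ : ℝ) = n / Real.exp 1 by rw [hρ']; field_simp; ring,
              div_pow]
            field_simp
        _ ≤ M * 1 := by
            gcongr
            rw [div_le_one (by positivity), ← h3]; exact h2
        _ = M := mul_one M
  · have hy' : ‖y‖ < r / (4 * Real.exp 1) := by
      rw [Metric.eball_coe, mem_ball_zero_iff] at hy; exact hy
    have hy2 : ‖y‖ < r / 2 := hy'.trans_le (by gcongr; linarith)
    have hg : DifferentiableOn ℂ (fun t : ℂ => f (t • y)) (ball 0 2) :=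
      hf.comp (by fun_prop) fun t ht => by
        rw [mem_ball_zero_iff] at ht ⊢
        rw [norm_smul]
        nlinarith [norm_nonneg y, norm_nonneg t]
    have h1 := Complex.hasSum_taylorSeries_on_ball hg (z := 1) (by simp)
    simpa [Osgood.iteratedDeriv_line hr hf, hp] using h1

/-- Osgood -/
theorem analyticOnNhd_of_differentiableOn [FiniteDimensional ℂ E] {f : E → F} {U : Set E}
    (hU : IsOpen U) (hf : DifferentiableOn ℂ f U) : AnalyticOnNhd ℂ f U := by
  intro x hx
  have hc : ContinuousAt f x := hf.continuousOn.continuousAt (hU.mem_nhds hx)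
  have h1 : ∀ᶠ y in 𝓝 x, y ∈ U ∧ ‖f y‖ ≤ ‖f x‖ + 1 :=
    (hU.eventually_mem hx).and (hc.norm.eventually (eventually_le_nhds (lt_add_one _)))
  obtain ⟨r, hr, h2⟩ := Metric.eventually_nhds_iff_ball.1 h1
  have h3 : ∀ y ∈ ball (0 : E) r, x + y ∈ ball x r := fun y hy => by simpa using hy
  have h4 : AnalyticAt ℂ (fun y => f (x + y)) 0 :=
    Osgood.analyticAt_zero hr (hf.comp (by fun_prop) fun y hy => (h2 _ (h3 y hy)).1)
      fun y hy => (h2 _ (h3 y hy)).2
  have h5 : AnalyticAt ℂ (fun y => y - x) x := analyticAt_id.sub analyticAt_const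
  have h6 := AnalyticAt.comp_of_eq h4 h5 (sub_self x)
  simpa [Function.comp_def] using h6

end Crest.Agent.R266
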