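import Crest.Agent.R266.Seg
import Crest.Agent.R266.Osgood

/-!
# Row 266: linear equations with data on the diagonal
-/

set_option autoImplicit false
set_option linter.unusedSectionVars false
set_option linter.unusedVariables false

open MeasureTheory Metric Set Filter Topology Complex
open scoped ContDiff Manifold Real
open Crest.AlgGeometry.HolSplit

noncomputable section

namespace Crest.Agent.R266

variable {V : Type*} [NormedAddCommGroup V] [NormedSpace ℂ V] [CompleteSpace V]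

theorem exists_linB {L : ℂ × ℂ → V →L[ℂ] V} {y₀ : ℂ → V} {t : ℂ} (hL : AnalyticAt ℂ L (t, t))
    (hy : AnalyticAt ℂ y₀ t) :
    ∃ y : ℂ × ℂ → V, AnalyticAt ℂ y (t, t) ∧ (∀ᶠ r in 𝓝 (t, t), db y r = L r (y r)) ∧
      ∀ᶠ s in 𝓝 t, y (s, s) = y₀ s := by
  obtain ⟨M, hM0, e1⟩ : ∃ M : ℝ, 0 < M ∧ ∀ᶠ r in 𝓝 (t, t), AnalyticAt ℂ L r ∧ ‖L r‖ ≤ M := by
    refine ⟨‖L (t, t)‖ + 1, by positivity, hL.eventually_analyticAt.and ?_⟩
    have h := hL.continuousAt.norm.eventually (gt_mem_nhds (lt_add_one ‖L (t, t)‖))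
    exact h.mono fun r hr => le_of_lt hr
  obtain ⟨K, hK0, e2⟩ : ∃ K : ℝ, 0 < K ∧ ∀ᶠ s in 𝓝 t, AnalyticAt ℂ y₀ s ∧ ‖y₀ s‖ ≤ K := by
    refine ⟨‖y₀ t‖ + 1, by positivity, hy.eventually_analyticAt.and ?_⟩
    have h := hy.continuousAt.norm.eventually (gt_mem_nhds (lt_add_one ‖y₀ t‖))
    exact h.mono fun r hr => le_of_lt hr
  obtain ⟨ε₁, h₁, H₁⟩ := Metric.eventually_nhds_iff_ball.1 e1
  obtain ⟨ε₂, h₂, H₂⟩ := Metric.eventually_nhds_iff_ball.1 e2
  obtain ⟨R, hR0, hR1, hR2, hRM⟩ : ∃ R : ℝ, 0 < R ∧ R ≤ ε₁ ∧ R ≤ ε₂ ∧ 2 * R * M ≤ 1 / 2 := by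
    refine ⟨min (min ε₁ ε₂) (1 / (4 * M)), by positivity,
      (min_le_left _ _).trans (min_le_left _ _), (min_le_left _ _).trans (min_le_right _ _), ?_⟩
    have h : min (min ε₁ ε₂) (1 / (4 * M)) ≤ 1 / (4 * M) := min_le_right _ _
    calc 2 * min (min ε₁ ε₂) (1 / (4 * M)) * M ≤ 2 * (1 / (4 * M)) * M := by gcongr
      _ = 1 / 2 := by field_simp; norm_num
  set U : Set (ℂ × ℂ × ℂ) := Dm (univ : Set ℂ) t R with hU
  have hUo : IsOpen U := isOpen_Dm isOpen_univ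
  have hL' : ∀ q ∈ U, AnalyticAt ℂ L q.2 ∧ ‖L q.2‖ ≤ M := fun q hq => by
    refine H₁ _ ?_
    rw [← ball_prod_same]
    exact ⟨ball_subset_ball hR1 hq.2.1, ball_subset_ball hR1 hq.2.2⟩
  have hy' : ∀ q ∈ U, AnalyticAt ℂ y₀ q.2.1 ∧ ‖y₀ q.2.1‖ ≤ K := fun q hq =>
    H₂ _ (ball_subset_ball hR2 hq.2.1)
  have hLd : DifferentiableOn ℂ (fun q : ℂ × ℂ × ℂ => L q.2) U := fun q hq =>
    ((hL' q hq).1.differentiableAt.comp q differentiableAt_snd).differentiableWithinAt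
  have h0d : DifferentiableOn ℂ (fun q : ℂ × ℂ × ℂ => y₀ q.2.1) U := fun q hq =>
    ((hy' q hq).1.differentiableAt.comp q
      (differentiableAt_fst.comp q differentiableAt_snd)).differentiableWithinAt
  have hH : ∀ u : ℂ × ℂ × ℂ → V, DifferentiableOn ℂ u U →
      DifferentiableOn ℂ (fun q : ℂ × ℂ × ℂ => L q.2 (u q)) U := fun u hu => hLd.clm_apply hu
  obtain ⟨u, hu, -, hfix⟩ := exists_fixed hUo (fun q : ℂ × ℂ × ℂ => y₀ q.2.1) K hK0.le
    (fun u q => y₀ q.2.1 + segB (fun q : ℂ × ℂ × ℂ => L q.2 (u q)) q) h0d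
    (fun u hu hb => by
      refine ⟨h0d.add (differentiableOn_segB isOpen_univ (hH u hu)), fun q hq => ?_⟩
      rw [add_sub_cancel_left]
      have hb' : ∀ q ∈ U, ‖L q.2 (u q)‖ ≤ M * (2 * K) := fun q hq => by
        have h3 : ‖u q‖ ≤ 2 * K := by
          have h4 := norm_add_le (u q - y₀ q.2.1) (y₀ q.2.1)
          rw [sub_add_cancel] at h4
          linarith [hb q hq, (hy' q hq).2]
        exact ((L q.2).le_opNorm _).trans
          (mul_le_mul (hL' q hq).2 h3 (norm_nonneg _) hM0.le)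
      refine (norm_segB_le hb' hq).trans ?_
      calc 2 * R * (M * (2 * K)) = (2 * R * M) * (2 * K) := by ring
        _ ≤ 1 / 2 * (2 * K) := by gcongr
        _ = K := by ring)
    (fun u v hu _ hv _ δ hδ q hq => by
      rw [add_sub_add_left_eq_sub]
      have hδ0 : 0 ≤ δ := (norm_nonneg _).trans (hδ q hq)
      have hb' : ∀ q ∈ U, ‖L q.2 (u q) - L q.2 (v q)‖ ≤ M * δ := fun q hq => by
        rw [← map_sub]
        exact ((L q.2).le_opNorm _).trans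
          (mul_le_mul (hL' q hq).2 (hδ q hq) (norm_nonneg _) hM0.le)
      refine (norm_segB_sub_le (hH u hu).continuousOn (hH v hv).continuousOn hb' hq).trans ?_
      calc 2 * R * (M * δ) = (2 * R * M) * δ := by ring
        _ ≤ 1 / 2 * δ := by gcongr
        _ = δ / 2 := by ring)
  have han : AnalyticOnNhd ℂ u U := analyticOnNhd_of_differentiableOn hUo hu
  have hmem : ∀ r : ℂ × ℂ, r ∈ ball (t, t) R → ((0 : ℂ), r) ∈ U := fun r hr => by
    rw [← ball_prod_same] at hr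
    exact ⟨mem_univ _, hr.1, hr.2⟩
  have hi : ∀ r : ℂ × ℂ, AnalyticAt ℂ (fun z : ℂ × ℂ => ((0 : ℂ), z)) r := fun r =>
    analyticAt_const.prod analyticAt_id
  refine ⟨fun z => u (0, z), (han _ (hmem _ (mem_ball_self hR0))).comp (hi _), ?_, ?_⟩
  · filter_upwards [ball_mem_nhds (t, t) hR0] with r hr
    have hq := hmem r hr
    have hnb : U ∈ 𝓝 ((0 : ℂ), r) := hUo.mem_nhds hq
    have hs : DifferentiableAt ℂ (segB (fun q : ℂ × ℂ × ℂ => L q.2 (u q))) ((0 : ℂ), r) :=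
      (differentiableOn_segB isOpen_univ (hH u hu)).differentiableAt hnb
    have h5 : HasDerivAt (fun b : ℂ => u (0, r.1, b)) (L r (u (0, r))) r.2 := by
      have h6 := (Seg.hasDerivAt_segB (hH u hu) hq).const_add (y₀ r.1)
      refine h6.congr_of_eventuallyEq ?_
      have hr' := hr
      rw [← ball_prod_same] at hr'
      filter_upwards [isOpen_ball.mem_nhds hr'.2] with b hb
      exact (hfix (0, r.1, b) ⟨mem_univ _, hr'.1, hb⟩).symm
    have h7 : DifferentiableAt ℂ (fun z : ℂ × ℂ => u (0, z)) r :=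
      ((han _ hq).comp (hi r)).differentiableAt
    have h8 : HasDerivAt (fun b : ℂ => ((r.1, b) : ℂ × ℂ)) (0, 1) r.2 :=
      (hasDerivAt_const _ _).prodMk (hasDerivAt_id _)
    exact (HasFDerivAt.comp_hasDerivAt (x := r.2) (l := fun z : ℂ × ℂ => u (0, z))
      h7.hasFDerivAt h8).unique h5
  · filter_upwards [ball_mem_nhds t hR0] with s hs
    have h := hfix (0, s, s) ⟨mem_univ _, hs, hs⟩
    simp only [segB_diag, add_zero] at h
    exact h.symm

theorem exists_linA {L : ℂ × ℂ → V →L[ℂ] V} {y₀ : ℂ → V} {t : ℂ} (hL : AnalyticAt ℂ L (t, t))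
    (hy : AnalyticAt ℂ y₀ t) :
    ∃ y : ℂ × ℂ → V, AnalyticAt ℂ y (t, t) ∧ (∀ᶠ r in 𝓝 (t, t), da y r = L r (y r)) ∧
      ∀ᶠ s in 𝓝 t, y (s, s) = y₀ s := by
  have hsw : ∀ r : ℂ × ℂ, AnalyticAt ℂ (fun z : ℂ × ℂ => (z.2, z.1)) r := fun r =>
    analyticAt_snd.prod analyticAt_fst
  have hL2 : AnalyticAt ℂ (fun z : ℂ × ℂ => L (z.2, z.1)) (t, t) :=
    AnalyticAt.comp (f := fun z : ℂ × ℂ => (z.2, z.1)) hL (hsw _)
  obtain ⟨y, h1, h2, h3⟩ := exists_linB hL2 hy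
  refine ⟨fun z => y (z.2, z.1), AnalyticAt.comp (f := fun z : ℂ × ℂ => (z.2, z.1)) h1 (hsw _),
    ?_, h3⟩
  have hc : Tendsto (fun z : ℂ × ℂ => (z.2, z.1)) (𝓝 (t, t)) (𝓝 (t, t)) :=
    (hsw (t, t)).continuousAt
  filter_upwards [hc.eventually h2, hc.eventually h1.eventually_analyticAt] with r hr ha
  have h4 : HasFDerivAt (fun z : ℂ × ℂ => (z.2, z.1))
      ((ContinuousLinearMap.snd ℂ ℂ ℂ).prod (ContinuousLinearMap.fst ℂ ℂ ℂ)) r :=
    hasFDerivAt_snd.prodMk hasFDerivAt_fst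
  have h5 := (HasFDerivAt.comp (g := y) r ha.differentiableAt.hasFDerivAt h4).fderiv
  have h6 : da (fun z => y (z.2, z.1)) r = db y (r.2, r.1) := by
    unfold da db
    change fderiv ℂ (y ∘ fun z : ℂ × ℂ => (z.2, z.1)) r (1, 0) = _
    rw [h5]
    simp
  rw [h6]
  exact hr

end Crest.Agent.R266
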