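import Crest.Agent.R266.Defs

/-!
# Row 266: a Liouville theorem near the diagonal of P1 x P1
-/

set_option autoImplicit false
set_option linter.unusedSectionVars false
set_option linter.unusedVariables false

open MeasureTheory Metric Set Filter Topology Complex
open scoped ContDiff Manifold Real
open Crest.AlgGeometry.HolSplit

noncomputable section

namespace Crest.Agent.R266

/-- an entire function of polynomial growth is a polynomial -/
theorem exists_poly_of_growth {V : Type*} [NormedAddCommGroup V] [NormedSpace ℂ V] [CompleteSpace V]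
    {f : ℂ → V} (hf : Differentiable ℂ f) {d : ℕ} {C : ℝ}
    (hC : ∀ᶠ t in cocompact ℂ, ‖f t‖ ≤ C * ‖t‖ ^ d) :
    ∃ a : ℕ → V, ∀ t, f t = ∑ k ∈ Finset.range (d + 1), t ^ k • a k := by
  obtain ⟨R₀, hR₀⟩ : ∃ R₀ : ℝ, ∀ t : ℂ, R₀ < ‖t‖ → ‖f t‖ ≤ C * ‖t‖ ^ d := by
    obtain ⟨K, hK, hK'⟩ := mem_cocompact.1 hC
    obtain ⟨R₀, hR₀⟩ := hK.isBounded.exists_norm_le
    exact ⟨R₀, fun t ht => hK' fun h => (hR₀ t h).not_gt ht⟩
  have hz : ∀ k, d < k → iteratedDeriv k f 0 = 0 := fun k hk => by
    have h1 : Tendsto (fun R : ℝ => (k.factorial : ℝ) * C * (R ^ (k - d))⁻¹) atTop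
        (𝓝 ((k.factorial : ℝ) * C * 0)) :=
      (tendsto_inv_atTop_zero.comp (tendsto_pow_atTop (by omega))).const_mul _
    rw [mul_zero] at h1
    refine norm_le_zero_iff.1 (ge_of_tendsto h1 ?_)
    filter_upwards [eventually_gt_atTop R₀, eventually_gt_atTop 0] with R h2 h3
    refine (Complex.norm_iteratedDeriv_le_of_forall_mem_sphere_norm_le k h3 hf.diffContOnCl
      (C := C * R ^ d) fun z hz => ?_).trans (le_of_eq ?_)
    · rw [mem_sphere_zero_iff_norm] at hz
      rw [← hz]
      exact hR₀ z (hz ▸ h2)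
    · obtain ⟨e, rfl⟩ := Nat.exists_eq_add_of_le hk.le
      rw [Nat.add_sub_cancel_left, pow_add]
      field_simp
  refine ⟨fun k => (k.factorial : ℂ)⁻¹ • iteratedDeriv k f 0, fun t => ?_⟩
  have h1 := Complex.hasSum_taylorSeries_of_entire hf 0 t
  rw [h1.unique (hasSum_sum_of_ne_finset_zero (s := Finset.range (d + 1)) fun k hk => by
    rw [hz k (by simpa using hk), smul_zero, smul_zero])]
  exact Finset.sum_congr rfl fun k _ => by rw [sub_zero, smul_comm]

end Crest.Agent.R266
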