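import Crest.Agent.R266.Liou

/-!
# Row 266: Liouville near the diagonal
-/

set_option autoImplicit false
set_option linter.unusedSectionVars false
set_option linter.unusedVariables false

open MeasureTheory Metric Set Filter Topology Complex
open scoped ContDiff Manifold Real
open Crest.AlgGeometry.HolSplit

noncomputable section

namespace Crest.Agent.R266

namespace Liou2

theorem exists_iter (j : ℕ) : ∀ (F : ℂ × ℂ → ℂ) (q : ℂ × ℂ), AnalyticAt ℂ F q →
    ∃ D : ℂ × ℂ → ℂ, AnalyticAt ℂ D q ∧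
      ∀ᶠ r in 𝓝 q, iteratedDeriv j (fun a => F (a, r.2)) r.1 = D r := by
  induction j with
  | zero => exact fun F q h => ⟨F, h, Eventually.of_forall fun r => by simp⟩
  | succ j ih =>
    intro F q h
    have h1 : AnalyticAt ℂ (fun r => fderiv ℂ F r (1, 0)) q :=
      ((ContinuousLinearMap.apply ℂ ℂ ((1, 0) : ℂ × ℂ)).analyticAt _).comp h.fderiv
    obtain ⟨D, hD, he⟩ := ih _ q h1
    refine ⟨D, hD, ?_⟩
    filter_upwards [he, h.eventually_analyticAt.eventually_nhds] with r hr hr'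
    rw [iteratedDeriv_succ', ← hr]
    refine Filter.EventuallyEq.iteratedDeriv_eq j ?_
    have c : Tendsto (fun a : ℂ => (a, r.2)) (𝓝 r.1) (𝓝 r) :=
      (continuous_id.prodMk continuous_const).tendsto' _ _ rfl
    filter_upwards [c.eventually hr'] with a ha
    have h2 : HasDerivAt (fun a : ℂ => (a, r.2)) ((1, 0) : ℂ × ℂ) a :=
      (hasDerivAt_id a).prodMk (hasDerivAt_const a r.2)
    exact (ha.differentiableAt.hasFDerivAt.comp_hasDerivAt a h2).deriv

theorem slice_eq {F F' : ℂ × ℂ → ℂ} {t : ℂ} (h : F =ᶠ[𝓝 (t, t)] F') :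
    (fun a => F (a, t)) =ᶠ[𝓝 t] fun a => F' (a, t) :=
  ((continuous_id.prodMk continuous_const).tendsto' t (t, t) rfl).eventually h

theorem diff_c (T : ℂ → ℂ × ℂ → ℂ) (h1 : ∀ t, AnalyticAt ℂ (T t) (t, t))
    (h2 : ∀ t₀, ∀ᶠ t in 𝓝 t₀, T t =ᶠ[𝓝 (t, t)] T t₀) (j : ℕ) :
    Differentiable ℂ fun t => iteratedDeriv j (fun a => T t (a, t)) t := by
  intro t₀
  obtain ⟨D, hD, he⟩ := exists_iter j (T t₀) _ (h1 t₀)
  have c : AnalyticAt ℂ (fun t : ℂ => (t, t)) t₀ := analyticAt_id.prod analyticAt_id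
  refine (AnalyticAt.comp_of_eq (f := fun t : ℂ => (t, t)) hD c rfl).differentiableAt.congr_of_eventuallyEq ?_
  filter_upwards [h2 t₀, c.continuousAt.eventually he] with t a b
  rw [(slice_eq a).iteratedDeriv_eq j]
  exact b

theorem preconn {R : ℝ} (hR : 0 < R) : IsPreconnected {a : ℂ | R < ‖a‖} := by
  have h : {a : ℂ | R < ‖a‖} = Complex.exp '' {z : ℂ | Real.log R < z.re} := by
    ext a
    constructor
    · intro ha
      have h0 : a ≠ 0 := norm_pos_iff.1 (hR.trans ha)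
      refine ⟨Complex.log a, ?_, Complex.exp_log h0⟩
      show Real.log R < (Complex.log a).re
      rw [Complex.log_re]
      exact Real.log_lt_log hR ha
    · rintro ⟨z, hz, rfl⟩
      show R < ‖Complex.exp z‖
      rw [Complex.norm_exp]
      exact (Real.log_lt_iff_lt_exp hR).1 hz
  rw [h]
  exact (convex_halfSpace_re_gt _).isPreconnected.image _ Complex.continuous_exp.continuousOn

/-- a function on the exterior of a disc, tending to zero, with a polynomial germ -/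
theorem zero_of_poly {H : ℂ → ℂ} {R : ℝ} (hR : 0 < R) (hH : ∀ a, R < ‖a‖ → AnalyticAt ℂ H a)
    (h0 : Tendsto H (cocompact ℂ) (𝓝 0)) {t : ℂ} (ht : R < ‖t‖) {m : ℕ}
    (hj : ∀ j, m < j → iteratedDeriv j H t = 0) : H t = 0 := by
  set p : ℂ → ℂ := fun z => ∑ n ∈ Finset.range (m + 1),
    (n.factorial : ℂ)⁻¹ • (z - t) ^ n • iteratedDeriv n H t with hp
  have hpd : Differentiable ℂ p := by
    rw [hp]; fun_prop
  obtain ⟨ε, hε, hb⟩ := Metric.eventually_nhds_iff_ball.1 (hH t ht).eventually_analyticAt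
  have e : H =ᶠ[𝓝 t] p := by
    filter_upwards [ball_mem_nhds t hε] with z hz
    have h1 := Complex.hasSum_taylorSeries_on_ball
      (fun y hy => (hb y hy).differentiableAt.differentiableWithinAt) hz
    refine h1.unique (hasSum_sum_of_ne_finset_zero fun n hn => ?_)
    rw [hj n (by simp at hn; omega)]
    simp
  have e2 : EqOn H p {a : ℂ | R < ‖a‖} :=
    AnalyticOnNhd.eqOn_of_preconnected_of_eventuallyEq hH
      (fun a _ => hpd.analyticAt a) (preconn hR) ht e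
  have h3 : Tendsto p (cocompact ℂ) (𝓝 0) := by
    refine h0.congr' ?_
    filter_upwards [(tendsto_norm_cocompact_atTop (E := ℂ)).eventually_gt_atTop R] with a ha
    exact e2 ha
  rw [e.self_of_nhds]
  exact hpd.apply_eq_of_tendsto_cocompact t h3

end Liou2

/-- A section of `O(-1, m)` on a neighbourhood of the diagonal of `P¹ × P¹` vanishes:
`T t` is its germ at `(t,t)`, `G` its germ at `(∞,∞)`. -/
theorem liouville_diag (T : ℂ → ℂ × ℂ → ℂ) (G : ℂ × ℂ → ℂ) (m : ℕ)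
    (h1 : ∀ t, AnalyticAt ℂ (T t) (t, t))
    (h2 : ∀ t₀, ∀ᶠ t in 𝓝 t₀, T t =ᶠ[𝓝 (t, t)] T t₀)
    (hG : AnalyticAt ℂ G (0, 0)) (hG0 : ∀ᶠ β in 𝓝 (0 : ℂ), G (0, β) = 0)
    (h3 : ∀ᶠ z in 𝓝[≠] (0 : ℂ),
      T z⁻¹ =ᶠ[𝓝 (z⁻¹, z⁻¹)] fun q => q.2 ^ m * G (q.1⁻¹, q.2⁻¹)) (t : ℂ) :
    T t (t, t) = 0 := by
  obtain ⟨C, hC⟩ : ∃ C : ℝ, ∀ᶠ q in 𝓝 ((0, 0) : ℂ × ℂ), ‖G q‖ ≤ C :=
    ⟨‖G (0, 0)‖ + 1, hG.continuousAt.norm.eventually_le_const (by linarith)⟩
  obtain ⟨r₁, hr₁, b₁⟩ := Metric.eventually_nhds_iff_ball.1 (hG.eventually_analyticAt.and hC)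
  obtain ⟨r₂, hr₂, b₂⟩ := Metric.eventually_nhds_iff_ball.1
    (hG0.and (eventually_nhdsWithin_iff.1 h3))
  set r := min r₁ r₂ with hr
  have hr0 : 0 < r := lt_min hr₁ hr₂
  have hinv : ∀ a : ℂ, r⁻¹ < ‖a‖ → ‖a⁻¹‖ < r := fun a ha => by
    rw [norm_inv]
    exact inv_lt_of_inv_lt₀ hr0 ha
  have hmem : ∀ a b : ℂ, r⁻¹ < ‖a‖ → r⁻¹ < ‖b‖ → (a⁻¹, b⁻¹) ∈ ball ((0, 0) : ℂ × ℂ) r₁ :=
    fun a b ha hb => by
      rw [← ball_prod_same]
      exact ⟨mem_ball_zero_iff.2 ((hinv a ha).trans_le (min_le_left _ _)),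
        mem_ball_zero_iff.2 ((hinv b hb).trans_le (min_le_left _ _))⟩
  have hri : 0 < r⁻¹ := inv_pos.2 hr0
  have hC0 : 0 ≤ C := (norm_nonneg _).trans (b₁ _ (mem_ball_self hr₁)).2
  have hH : ∀ t a : ℂ, r⁻¹ < ‖t‖ → r⁻¹ < ‖a‖ →
      AnalyticAt ℂ (fun a => t ^ m * G (a⁻¹, t⁻¹)) a := fun t a ht ha => by
    have h0 : a ≠ 0 := norm_pos_iff.1 (hri.trans ha)
    exact analyticAt_const.mul (AnalyticAt.comp_of_eq (f := fun a : ℂ => (a⁻¹, t⁻¹))
      (b₁ _ (hmem a t ha ht)).1 ((analyticAt_id.inv h0).prod analyticAt_const) rfl)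
  have hT : ∀ t : ℂ, r⁻¹ < ‖t‖ →
      (fun a => T t (a, t)) =ᶠ[𝓝 t] fun a => t ^ m * G (a⁻¹, t⁻¹) := fun t ht => by
    have h0 : t ≠ 0 := norm_pos_iff.1 (hri.trans ht)
    have h4 := (b₂ t⁻¹ (mem_ball_zero_iff.2 ((hinv t ht).trans_le (min_le_right _ _)))).2
      (inv_ne_zero h0)
    rw [inv_inv] at h4
    exact Liou2.slice_eq h4
  have hc : ∀ j, m < j → ∀ t, iteratedDeriv j (fun a => T t (a, t)) t = 0 := by
    intro j hj t
    refine (Liou2.diff_c T h1 h2 j).apply_eq_of_tendsto_cocompact t ?_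
    refine squeeze_zero_norm' ?_
      ((tendsto_norm_cocompact_atTop (E := ℂ)).const_div_atTop (j.factorial * C * 2 ^ j))
    filter_upwards [(tendsto_norm_cocompact_atTop (E := ℂ)).eventually_gt_atTop (2 * r⁻¹),
      (tendsto_norm_cocompact_atTop (E := ℂ)).eventually_ge_atTop 1] with t ht ht1
    have ht' : r⁻¹ < ‖t‖ := by linarith
    have hcl : ∀ a ∈ closedBall t (‖t‖ / 2), r⁻¹ < ‖a‖ := fun a ha => by
      rw [mem_closedBall, dist_eq_norm] at ha
      have := norm_sub_norm_le t a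
      rw [norm_sub_rev] at this
      linarith
    rw [(hT t ht').iteratedDeriv_eq j]
    have h5 := Complex.norm_iteratedDeriv_le_of_forall_mem_sphere_norm_le
      (f := fun a => t ^ m * G (a⁻¹, t⁻¹)) (c := t) (R := ‖t‖ / 2) (C := ‖t‖ ^ m * C) j
      (by linarith) (DifferentiableOn.diffContOnCl (by
        rw [closure_ball _ (by linarith)]
        exact fun a ha => (hH t a ht' (hcl a ha)).differentiableAt.differentiableWithinAt))
      (fun z hz => by
        rw [norm_mul, norm_pow]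
        gcongr
        exact (b₁ _ (hmem z t (hcl z (sphere_subset_closedBall hz)) ht')).2)
    refine h5.trans ?_
    have h6 : ‖t‖ ^ m * ‖t‖ ≤ ‖t‖ ^ j := by
      rw [← pow_succ]; exact pow_le_pow_right₀ ht1 hj
    rw [div_pow, div_div_eq_mul_div, div_le_div_iff₀ (by positivity) (by positivity)]
    calc (j.factorial : ℝ) * (‖t‖ ^ m * C) * 2 ^ j * ‖t‖ =
          j.factorial * C * 2 ^ j * (‖t‖ ^ m * ‖t‖) := by ring
      _ ≤ _ := by gcongr
  have h7 := (Liou2.diff_c T h1 h2 0).apply_eq_of_tendsto_cocompact t (c := 0) ?_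
  · simpa using h7
  refine tendsto_const_nhds.congr' ?_
  filter_upwards [(tendsto_norm_cocompact_atTop (E := ℂ)).eventually_gt_atTop r⁻¹] with t ht
  rw [iteratedDeriv_zero]
  refine Eq.symm ((hT t ht).self_of_nhds.trans ?_)
  refine Liou2.zero_of_poly (H := fun a => t ^ m * G (a⁻¹, t⁻¹)) hri (fun a ha => hH t a ht ha) ?_
    ht (m := m) fun j hj => ?_
  · have m₁ : ((0 : ℂ), t⁻¹) ∈ ball ((0, 0) : ℂ × ℂ) r₁ := by
      rw [← ball_prod_same]
      exact ⟨mem_ball_self hr₁, mem_ball_zero_iff.2 ((hinv t ht).trans_le (min_le_left _ _))⟩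
    have m₂ := (b₂ t⁻¹ (mem_ball_zero_iff.2 ((hinv t ht).trans_le (min_le_right _ _)))).1
    have c₁ : Tendsto (fun a : ℂ => a⁻¹) (cocompact ℂ) (𝓝 0) := by
      rw [← Metric.cobounded_eq_cocompact]
      exact Filter.tendsto_inv₀_cobounded
    have c₂ := ((b₁ _ m₁).1.continuousAt.tendsto.comp
      (c₁.prodMk_nhds (tendsto_const_nhds (x := t⁻¹)))).const_mul (t ^ m)
    rw [m₂, mul_zero] at c₂
    exact c₂
  · rw [← (hT t ht).iteratedDeriv_eq j]
    exact hc j hj t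

end Crest.Agent.R266
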