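import Crest.Agent.R266.Proj2

/-!
# Row 266: local equations of the affine cone
-/

set_option autoImplicit false
set_option linter.unusedSectionVars false
set_option linter.unusedVariables false

open MeasureTheory Metric Set Filter Topology Complex
open scoped ContDiff Manifold Real
open Crest.AlgGeometry.HolSplit

noncomputable section

namespace Crest.Agent.R266

/-- an analytic immersion has an analytic local left inverse -/
theorem LocalEq_leftInv {E F : Type*} [NormedAddCommGroup E] [NormedSpace ℂ E] [FiniteDimensional ℂ E]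
    [NormedAddCommGroup F] [NormedSpace ℂ F] [FiniteDimensional ℂ F] {Ξ : E → F} {e₀ : E}
    (h : AnalyticAt ℂ Ξ e₀) (hi : Function.Injective (fderiv ℂ Ξ e₀)) :
    ∃ ρ : F → E, AnalyticAt ℂ ρ (Ξ e₀) ∧ ∀ᶠ e in 𝓝 e₀, ρ (Ξ e) = e := by
  have : CompleteSpace E := FiniteDimensional.complete ℂ E
  obtain ⟨ℓ₀, hℓ⟩ := LinearMap.exists_leftInverse_of_injective (fderiv ℂ Ξ e₀).toLinearMap
    (LinearMap.ker_eq_bot.2 hi)
  set ℓ : F →L[ℂ] E := LinearMap.toContinuousLinearMap ℓ₀ with hℓd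
  have hf : ContDiffAt ℂ ω (fun e => ℓ (Ξ e)) e₀ := ((ℓ.analyticAt _).comp h).contDiffAt
  have hf' : HasFDerivAt (fun e => ℓ (Ξ e))
      ((ContinuousLinearEquiv.refl ℂ E : E ≃L[ℂ] E) : E →L[ℂ] E) e₀ := by
    have := ℓ.hasFDerivAt.comp e₀ h.differentiableAt.hasFDerivAt
    refine this.congr_fderiv ?_
    ext v
    exact LinearMap.congr_fun hℓ v
  have hn : (ω : WithTop ℕ∞) ≠ 0 := by simp
  refine ⟨fun w => hf.localInverse hf' hn (ℓ w), ?_, ?_⟩
  · exact (hf.to_localInverse hf' hn).analyticAt.comp (ℓ.analyticAt _)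
  · exact (hf.hasStrictFDerivAt' hf' hn).eventually_left_inverse

theorem LocalEq_minor {N : ℕ} {w c : HV N} (hc : c ≠ 0) (h : ∀ i j, w i * c j = w j * c i) :
    ∃ μ : ℂ, w = μ • c := by
  obtain ⟨j, hj⟩ := Function.ne_iff.1 hc
  have hj' : c j ≠ 0 := hj
  refine ⟨w j / c j, funext fun i => ?_⟩
  simp only [Pi.smul_apply, smul_eq_mul]
  field_simp
  exact h i j

namespace SAtlas
variable {X : Type*} [TopologicalSpace X] {n N : ℕ} (𝒮 : SAtlas X n N)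

theorem LocalEq_deriv {p : X} {y : Model n} (hy : y ∈ (𝒮.chart p).target) (l : ℂ)
    (v : Model n × ℂ) :
    fderiv ℂ (fun e : Model n × ℂ => e.2 • 𝒮.c p e.1) (y, l) v =
      l • fderiv ℂ (𝒮.c p) y v.1 + v.2 • 𝒮.c p y := by
  have h1 : HasFDerivAt (fun e : Model n × ℂ => 𝒮.c p e.1)
      ((fderiv ℂ (𝒮.c p) y).comp (ContinuousLinearMap.fst ℂ _ _)) (y, l) :=
    HasFDerivAt.comp (f := Prod.fst) (y, l) (𝒮.c_an p y hy).differentiableAt.hasFDerivAt
      hasFDerivAt_fst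
  have h2 := (hasFDerivAt_snd (𝕜 := ℂ) (p := (y, l))).fun_smul h1
  rw [h2.fderiv]
  simp

theorem LocalEq_cont {p x : X} (hp : x ∈ (𝒮.chart p).source) :
    ContinuousAt (fun z => 𝒮.c p (𝒮.chart p z)) x :=
  ContinuousAt.comp (f := 𝒮.chart p) (𝒮.c_an p _ ((𝒮.chart p).map_source hp)).continuousAt
    ((𝒮.chart p).continuousAt hp)

theorem LocalEq_local [CompactSpace X] {p x₀ : X} {w₀ : HV N} {l₀ : ℂ}
    (hp : x₀ ∈ (𝒮.chart p).source) (hw : 𝒮.On x₀ w₀) (hl : w₀ = l₀ • 𝒮.c p (𝒮.chart p x₀))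
    {U : Set (Model n × ℂ)} (hU : U ∈ 𝓝 (𝒮.chart p x₀, l₀)) :
    ∀ᶠ w in 𝓝 w₀, ∀ x, 𝒮.On x w → x ∈ (𝒮.chart p).source ∧
      ∃ l : ℂ, w = l • 𝒮.c p (𝒮.chart p x) ∧ (𝒮.chart p x, l) ∈ U := by
  have key := (isCompact_univ (X := X)).eventually_forall_of_forall_eventually (x₀ := w₀)
    (P := fun w x => 𝒮.On x w → x ∈ (𝒮.chart p).source ∧
      ∃ l : ℂ, w = l • 𝒮.c p (𝒮.chart p x) ∧ (𝒮.chart p x, l) ∈ U) ?_
  · filter_upwards [key] with w h x using h x (mem_univ _)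
  intro y _
  by_cases hy : y = x₀
  · subst hy
    obtain ⟨i, hi⟩ := Function.ne_iff.1 (𝒮.c_ne p _ ((𝒮.chart p).map_source hp))
    have hi' : 𝒮.c p (𝒮.chart p y) i ≠ 0 := hi
    have c1 : ContinuousAt (fun z : HV N × X => 𝒮.c p (𝒮.chart p z.2) i) (w₀, y) :=
      (continuous_apply i).continuousAt.comp
        (ContinuousAt.comp (f := Prod.snd) (𝒮.LocalEq_cont hp) continuousAt_snd)
    have c2 : ContinuousAt (fun z : HV N × X =>
        (𝒮.chart p z.2, z.1 i / 𝒮.c p (𝒮.chart p z.2) i)) (w₀, y) :=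
      (ContinuousAt.comp (f := Prod.snd) ((𝒮.chart p).continuousAt hp) continuousAt_snd).prodMk
        (((continuous_apply i).comp continuous_fst).continuousAt.div c1 hi')
    have e0 : w₀ i / 𝒮.c p (𝒮.chart p y) i = l₀ := by
      rw [hl]; simp only [Pi.smul_apply, smul_eq_mul]; field_simp
    have c3 := c2.preimage_mem_nhds (t := U) (by simpa [e0] using hU)
    have c4 : ∀ᶠ z : HV N × X in 𝓝 (w₀, y), z.2 ∈ (𝒮.chart p).source :=
      continuousAt_snd.preimage_mem_nhds ((𝒮.chart p).open_source.mem_nhds hp)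
    filter_upwards [c3, c4, c1.eventually_ne hi'] with z h3 h4 h1 hz
    obtain ⟨-, l, hl'⟩ := (on_iff h4).1 hz
    refine ⟨h4, l, hl', ?_⟩
    have : z.1 i / 𝒮.c p (𝒮.chart p z.2) i = l := by
      rw [hl']; simp only [Pi.smul_apply, smul_eq_mul]; field_simp
    rw [← this]
    exact h3
  · have hs := 𝒮.mem y
    have hn : ¬ ∀ i j, w₀ i * 𝒮.c y (𝒮.chart y y) j = w₀ j * 𝒮.c y (𝒮.chart y y) i := fun h =>
      hy (On.unique ⟨hw.1, LocalEq_minor (𝒮.c_ne y _ ((𝒮.chart y).map_source hs)) h⟩ hw)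
    push Not at hn
    obtain ⟨i, j, hij⟩ := hn
    have c1 : ∀ k, ContinuousAt (fun z : HV N × X => 𝒮.c y (𝒮.chart y z.2) k) (w₀, y) := fun k =>
      (continuous_apply k).continuousAt.comp
        (ContinuousAt.comp (f := Prod.snd) (𝒮.LocalEq_cont hs) continuousAt_snd)
    have c2 : ∀ k, ContinuousAt (fun z : HV N × X => z.1 k) (w₀, y) := fun k =>
      ((continuous_apply k).comp continuous_fst).continuousAt
    have c3 := (((c2 i).mul (c1 j)).sub ((c2 j).mul (c1 i))).eventually_ne (sub_ne_zero.2 hij)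
    have c4 : ∀ᶠ z : HV N × X in 𝓝 (w₀, y), z.2 ∈ (𝒮.chart y).source :=
      continuousAt_snd.preimage_mem_nhds ((𝒮.chart y).open_source.mem_nhds hs)
    filter_upwards [c3, c4] with z h3 h4 hz
    obtain ⟨-, l, hl'⟩ := (on_iff h4).1 hz
    refine absurd ?_ h3
    simp only [Pi.sub_apply, Pi.mul_apply]
    rw [hl']
    simp only [Pi.smul_apply, smul_eq_mul]
    ring

theorem exists_localEq [CompactSpace X] {p x₀ : X} {w₀ : HV N} (hp : x₀ ∈ (𝒮.chart p).source)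
    (hw : 𝒮.On x₀ w₀) :
    ∃ (G : HV N → HV N) (Y : HV N → Model n), AnalyticAt ℂ G w₀ ∧ AnalyticAt ℂ Y w₀ ∧
      ∀ᶠ w in 𝓝 w₀, ∀ x, 𝒮.On x w → x ∈ (𝒮.chart p).source ∧ G w = 0 ∧ Y w = 𝒮.chart p x ∧
        (∀ a, fderiv ℂ G w a = 0 ↔ 𝒮.Tan x a) ∧
        ∀ a, 𝒮.Tan x a → fderiv ℂ Y w a = 𝒮.vec p x w a := by
  obtain ⟨hw0, l₀, hl₀⟩ := (on_iff hp).1 hw
  set Ξ : Model n × ℂ → HV N := fun e => e.2 • 𝒮.c p e.1 with hΞ
  have ht := (𝒮.chart p).map_source hp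
  have han : ∀ y ∈ (𝒮.chart p).target, ∀ l : ℂ, AnalyticAt ℂ Ξ (y, l) := fun y hy l =>
    analyticAt_snd.smul (AnalyticAt.comp (f := Prod.fst) (𝒮.c_an p y hy) analyticAt_fst)
  have hl0 : l₀ ≠ 0 := by rintro rfl; exact hw0 (by simpa using hl₀)
  have hinj : Function.Injective (fderiv ℂ Ξ (𝒮.chart p x₀, l₀)) := by
    rw [injective_iff_map_eq_zero]
    intro v hv
    rw [𝒮.LocalEq_deriv ht] at hv
    have h1 : v.1 = 0 := 𝒮.c_imm p _ ht v.1 ⟨-(v.2 / l₀), by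
      have := eq_neg_of_add_eq_zero_left hv
      rw [← smul_right_inj hl0, this, smul_smul, ← neg_smul]
      congr 1
      field_simp⟩
    rw [h1, map_zero, smul_zero, zero_add] at hv
    exact Prod.ext h1 ((smul_eq_zero.1 hv).resolve_right (𝒮.c_ne p _ ht))
  obtain ⟨ρ, hρ, hleft⟩ := LocalEq_leftInv (han _ ht l₀) hinj
  have hw' : Ξ (𝒮.chart p x₀, l₀) = w₀ := hl₀.symm
  have hρ0 : ρ w₀ = (𝒮.chart p x₀, l₀) := by rw [← hw']; exact hleft.self_of_nhds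
  rw [hw'] at hρ
  refine ⟨fun w => w - Ξ (ρ w), fun w => (ρ w).1, ?_, analyticAt_fst.comp hρ, ?_⟩
  · exact analyticAt_id.sub (AnalyticAt.comp (g := Ξ) (f := ρ) (by rw [hρ0]; exact han _ ht l₀) hρ)
  filter_upwards [𝒮.LocalEq_local hp hw hl₀ hleft.eventually_nhds, hρ.eventually_analyticAt]
    with w h hρw x hx
  obtain ⟨hs, l, hl, hU⟩ := h x hx
  have hU' : ∀ᶠ e in 𝓝 (𝒮.chart p x, l), ρ (Ξ e) = e := hU
  have hty := (𝒮.chart p).map_source hs
  have hwe : Ξ (𝒮.chart p x, l) = w := hl.symm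
  have hρw' : ρ w = (𝒮.chart p x, l) := by rw [← hwe]; exact hU'.self_of_nhds
  have hlne : l ≠ 0 := by rintro rfl; exact hx.1 (by simpa using hl)
  have dΞ := (han _ hty l).differentiableAt.hasFDerivAt
  have dρ := hρw.differentiableAt.hasFDerivAt
  have hid : ∀ v, fderiv ℂ ρ w (fderiv ℂ Ξ (𝒮.chart p x, l) v) = v := by
    have h1 := HasFDerivAt.comp (𝒮.chart p x, l) (hwe ▸ dρ) dΞ
    have h2 : HasFDerivAt (ρ ∘ Ξ) (ContinuousLinearMap.id ℂ _) (𝒮.chart p x, l) :=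
      (hasFDerivAt_id _).congr_of_eventuallyEq hU'
    intro v
    have := DFunLike.congr_fun (h1.unique h2) v
    rw [hwe] at this
    exact this
  have dG : HasFDerivAt (fun w => w - Ξ (ρ w))
      (ContinuousLinearMap.id ℂ _ - (fderiv ℂ Ξ (𝒮.chart p x, l)).comp (fderiv ℂ ρ w)) w :=
    (hasFDerivAt_id w).sub (HasFDerivAt.comp (g := Ξ) w (by rw [hρw']; exact dΞ) dρ)
  have dY : HasFDerivAt (fun w => (ρ w).1)
      ((ContinuousLinearMap.fst ℂ _ _).comp (fderiv ℂ ρ w)) w := hasFDerivAt_fst.comp w dρ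
  have htan : ∀ a, 𝒮.Tan x a ↔ ∃ v, a = fderiv ℂ Ξ (𝒮.chart p x, l) v := fun a => by
    rw [tan_iff hs]
    constructor
    · rintro ⟨v, μ, rfl⟩
      refine ⟨(l⁻¹ • v, μ), ?_⟩
      rw [𝒮.LocalEq_deriv hty, map_smul, smul_smul, mul_inv_cancel₀ hlne, one_smul]
    · rintro ⟨v, rfl⟩
      exact ⟨l • v.1, v.2, by rw [𝒮.LocalEq_deriv hty, map_smul]⟩
  refine ⟨hs, by rw [hρw', hwe, sub_self], by rw [hρw'], fun a => ?_, fun a ha => ?_⟩
  · rw [dG.fderiv, htan]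
    constructor
    · intro h0
      exact ⟨_, sub_eq_zero.1 h0⟩
    · rintro ⟨v, rfl⟩
      simp [hid]
  · obtain ⟨v, rfl⟩ := (htan a).1 ha
    rw [dY.fderiv, vec_eq hs hx (v := v.1) (μ := v.2) (by rw [𝒮.LocalEq_deriv hty, lam_eq hs hl])]
    simp [hid]


end SAtlas

end Crest.Agent.R266
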