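import Crest.Agent.R266.Vanish

/-!
# Row 266: reparametrising rational curves
-/

set_option autoImplicit false
set_option linter.unusedSectionVars false
set_option linter.unusedVariables false

open MeasureTheory Metric Set Filter Topology Complex
open scoped ContDiff Manifold Real
open Crest.AlgGeometry.HolSplit

noncomputable section

namespace Crest.Agent.R266

namespace SAtlas
variable {X : Type*} [TopologicalSpace X] {n N : ℕ} (𝒮 : SAtlas X n N)

theorem HolC.comp' {𝒮 : SAtlas X n N} {g : ℂ → X} {φ : ℂ → ℂ} {t : ℂ} (h : 𝒮.HolC g (φ t))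
    (hφ : AnalyticAt ℂ φ t) : 𝒮.HolC (fun s => g (φ s)) t :=
  ⟨h.1.comp hφ.continuousAt, AnalyticAt.comp (g := fun s => 𝒮.chart (g (φ t)) (g s)) h.2 hφ⟩

theorem HolC.congr' {𝒮 : SAtlas X n N} {g g' : ℂ → X} {t : ℂ} (h : 𝒮.HolC g t)
    (he : g =ᶠ[𝓝 t] g') : 𝒮.HolC g' t := by
  have h0 : g t = g' t := he.eq_of_nhds
  refine ⟨h.1.congr he, ?_⟩
  refine h.2.congr ?_
  filter_upwards [he] with s hs
  rw [h0, hs]

theorem Curve.swap' {𝒮 : SAtlas X n N} {g₀ g₁ : ℂ → X} (hg : 𝒮.Curve g₀ g₁) : 𝒮.Curve g₁ g₀ :=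
  ⟨hg.hol₁, hg.hol₀, fun z hz => by rw [hg.glue z⁻¹ (inv_ne_zero hz), inv_inv]⟩

open Classical in
theorem Curve.translate' {𝒮 : SAtlas X n N} {g₀ g₁ : ℂ → X} (hg : 𝒮.Curve g₀ g₁) (c : ℂ) :
    𝒮.Curve (fun t => g₀ (t + c)) (fun z => if z = 0 then g₁ 0 else g₀ (z⁻¹ + c)) := by
  refine ⟨fun t => ?_, fun t => ?_, fun z hz => by simp [hz]⟩
  · exact HolC.comp' (φ := fun t => t + c) (hg.hol₀ _) (by fun_prop)
  · by_cases ht : t = 0
    · subst ht
      have h1 : (1 : ℂ) + c * 0 ≠ 0 := by simp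
      have ha : AnalyticAt ℂ (fun z : ℂ => z / (1 + c * z)) 0 :=
        AnalyticAt.div (by fun_prop) (by fun_prop) h1
      refine (HolC.comp' (φ := fun z : ℂ => z / (1 + c * z)) (hg.hol₁ _) ha).congr' ?_
      have hne : ∀ᶠ z in 𝓝 (0 : ℂ), (1 : ℂ) + c * z ≠ 0 :=
        (by fun_prop : ContinuousAt (fun z : ℂ => (1 : ℂ) + c * z) 0).eventually_ne h1
      filter_upwards [hne] with z hz
      by_cases hz0 : z = 0
      · simp [hz0]
      · rw [if_neg hz0, hg.glue _ (div_ne_zero hz0 hz)]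
        congr 1
        field_simp
    · have ha : AnalyticAt ℂ (fun z : ℂ => z⁻¹ + c) t :=
        (AnalyticAt.inv (f := fun z : ℂ => z) (by fun_prop) ht).add (by fun_prop)
      refine (HolC.comp' (φ := fun z : ℂ => z⁻¹ + c) (hg.hol₀ _) ha).congr' ?_
      filter_upwards [isOpen_ne.mem_nhds ht] with z hz
      rw [if_neg hz]

theorem Curve.normalize_aux {𝒮 : SAtlas X n N} {g₀ g₁ : ℂ → X} (hg : 𝒮.Curve g₀ g₁) {y : X}
    (hy : y ∈ range g₀) :
    ∃ g₀' g₁' : ℂ → X, 𝒮.Curve g₀' g₁' ∧ g₁' 0 = g₁ 0 ∧ g₀' 0 = y := by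
  obtain ⟨c, rfl⟩ := hy
  exact ⟨_, _, hg.translate' c, by simp, by simp⟩

/-- moving two given points to `∞` and `0` -/
theorem Curve.normalize {𝒮 : SAtlas X n N} {g₀ g₁ : ℂ → X} (hg : 𝒮.Curve g₀ g₁) {x y : X}
    (hx : x ∈ range g₀ ∪ {g₁ 0}) (hy : y ∈ range g₀ ∪ {g₁ 0}) (hxy : x ≠ y) :
    ∃ g₀' g₁' : ℂ → X, 𝒮.Curve g₀' g₁' ∧ g₁' 0 = x ∧ g₀' 0 = y := by
  classical
  rcases hx with ⟨a, rfl⟩ | hx
  · have h := (hg.translate' a).swap'
    have hy' : y ∈ range (fun z => if z = 0 then g₁ 0 else g₀ (z⁻¹ + a)) := by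
      rcases hy with ⟨b, rfl⟩ | hy
      · have hab : b - a ≠ 0 := by
          intro h0
          apply hxy
          rw [sub_eq_zero.1 h0]
        refine ⟨(b - a)⁻¹, ?_⟩
        simp [hab]
      · exact ⟨0, by simpa using (mem_singleton_iff.1 hy).symm⟩
    obtain ⟨g₀', g₁', h1, h2, h3⟩ := h.normalize_aux hy'
    exact ⟨g₀', g₁', h1, by simpa using h2, h3⟩
  · rw [mem_singleton_iff] at hx
    subst hx
    have hy' : y ∈ range g₀ := by
      rcases hy with hy | hy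
      · exact hy
      · exact absurd (mem_singleton_iff.1 hy).symm hxy
    exact hg.normalize_aux hy'

end SAtlas

end Crest.Agent.R266
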