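import Crest.Agent.R266.Proj

/-!
# Row 266: homogeneous coordinates along curves
-/

set_option autoImplicit false
set_option linter.unusedSectionVars false
set_option linter.unusedVariables false

open MeasureTheory Metric Set Filter Topology Complex
open scoped ContDiff Manifold Real
open Crest.AlgGeometry.HolSplit

noncomputable section

namespace Crest.Agent.R266

namespace SAtlas
variable {X : Type*} [TopologicalSpace X] {n N : ℕ} (𝒮 : SAtlas X n N)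
variable {𝒮} {p q x : X} {w a : HV N}

/-! analytic dependence along a curve; `γ` is the curve in chart `p` -/

theorem analyticAt_c_comp {g : ℂ → X} {t : ℂ} (hp : g t ∈ (𝒮.chart p).source)
    (hγ : AnalyticAt ℂ (fun s => 𝒮.chart p (g s)) t) :
    AnalyticAt ℂ (fun s => 𝒮.c p (𝒮.chart p (g s))) t :=
  AnalyticAt.comp_of_eq (g := 𝒮.c p) (𝒮.c_an p _ ((𝒮.chart p).map_source hp)) hγ rfl

theorem analyticAt_dc_comp {g : ℂ → X} {t : ℂ} (hp : g t ∈ (𝒮.chart p).source)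
    (hγ : AnalyticAt ℂ (fun s => 𝒮.chart p (g s)) t) :
    AnalyticAt ℂ (fun s => fderiv ℂ (𝒮.c p) (𝒮.chart p (g s))) t :=
  AnalyticAt.comp_of_eq (g := fderiv ℂ (𝒮.c p))
    (𝒮.c_an p _ ((𝒮.chart p).map_source hp)).fderiv hγ rfl

theorem analyticAt_lam {g : ℂ → X} {W : ℂ → HV N} {t : ℂ} (hc : ContinuousAt g t)
    (hp : g t ∈ (𝒮.chart p).source) (hγ : AnalyticAt ℂ (fun s => 𝒮.chart p (g s)) t)
    (hW : AnalyticAt ℂ W t) (h : ∀ᶠ s in 𝓝 t, 𝒮.On (g s) (W s)) :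
    AnalyticAt ℂ (fun s => 𝒮.lam p (g s) (W s)) t := by
  obtain ⟨i, hi⟩ := Function.ne_iff.1 (c_ne' hp)
  have hi' : 𝒮.c p (𝒮.chart p (g t)) i ≠ 0 := hi
  have h1 := analyticAt_pi_iff.1 (analyticAt_c_comp hp hγ) i
  refine ((analyticAt_pi_iff.1 hW i).div h1 hi').congr ?_
  filter_upwards [h, hc.eventually ((𝒮.chart p).open_source.mem_nhds hp),
    h1.continuousAt.eventually_ne hi'] with s h2 h3 h4
  have h5 := congrFun (lam_spec h3 h2).2 i
  rw [Pi.div_apply, div_eq_iff h4]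
  exact h5

theorem analyticAt_cov {g : ℂ → X} {W : ℂ → HV N} {t : ℂ} (hc : ContinuousAt g t)
    (hp : g t ∈ (𝒮.chart p).source) (hγ : AnalyticAt ℂ (fun s => 𝒮.chart p (g s)) t)
    (hW : AnalyticAt ℂ W t) (h : ∀ᶠ s in 𝓝 t, 𝒮.On (g s) (W s)) (i j : Fin (N + 1)) :
    AnalyticAt ℂ (fun s => 𝒮.cov p (g s) (W s) i j) t := by
  have h1 := analyticAt_pi_iff.1 (analyticAt_c_comp hp hγ)
  have h2 : ∀ k : Fin (N + 1), AnalyticAt ℂ (fun s => (ContinuousLinearMap.proj k : HV N →L[ℂ] ℂ).comp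
      (fderiv ℂ (𝒮.c p) (𝒮.chart p (g s)))) t := fun k =>
    (contDiffAt_const.clm_comp (analyticAt_dc_comp hp hγ).contDiffAt (n := ω)).analyticAt
  exact ((analyticAt_lam hc hp hγ hW h).pow 2).smul (((h1 i).smul (h2 j)).sub ((h1 j).smul (h2 i)))

theorem analyticAt_vec {g : ℂ → X} {W Q : ℂ → HV N} {t : ℂ} (hc : ContinuousAt g t)
    (hp : g t ∈ (𝒮.chart p).source) (hγ : AnalyticAt ℂ (fun s => 𝒮.chart p (g s)) t)
    (hW : AnalyticAt ℂ W t) (hQ : AnalyticAt ℂ Q t) (h : ∀ᶠ s in 𝓝 t, 𝒮.On (g s) (W s))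
    (h' : ∀ᶠ s in 𝓝 t, 𝒮.Tan (g s) (Q s)) :
    AnalyticAt ℂ (fun s => 𝒮.vec p (g s) (W s) (Q s)) t := by
  set L : ℂ → (Model n × ℂ) →L[ℂ] HV N := fun s =>
    (𝒮.lam p (g s) (W s) • fderiv ℂ (𝒮.c p) (𝒮.chart p (g s))).comp (ContinuousLinearMap.fst ℂ _ _)
      + (ContinuousLinearMap.snd ℂ _ _).smulRight (𝒮.c p (𝒮.chart p (g s))) with hL
  have hLa : ContDiffAt ℂ ω L t :=
    ((((analyticAt_lam hc hp hγ hW h).smul (analyticAt_dc_comp hp hγ)).contDiffAt).clm_comp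
      contDiffAt_const).add (contDiffAt_const.smulRight (analyticAt_c_comp hp hγ).contDiffAt)
  have hLv : ∀ s v μ, L s (v, μ) = 𝒮.lam p (g s) (W s) • fderiv ℂ (𝒮.c p) (𝒮.chart p (g s)) v
      + μ • 𝒮.c p (𝒮.chart p (g s)) := fun _ _ _ => rfl
  have hinj : LinearMap.ker (L t : (Model n × ℂ) →ₗ[ℂ] HV N) = ⊥ := by
    refine LinearMap.ker_eq_bot'.2 fun z hz => ?_
    obtain ⟨v, μ⟩ := z
    have h1 : L t (v, μ) = 0 := hz
    rw [hLv] at h1
    have h2 : v = 0 := (vec_eq hp h.self_of_nhds h1.symm).symm.trans (vec_zero hp h.self_of_nhds)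
    rw [h2, map_zero, smul_zero, zero_add, smul_eq_zero, or_iff_left (c_ne' hp)] at h1
    rw [h1, h2]
    rfl
  obtain ⟨l₀, hl₀⟩ := LinearMap.exists_leftInverse_of_injective _ hinj
  set l : HV N →L[ℂ] Model n × ℂ := LinearMap.toContinuousLinearMap l₀ with hl
  have hM : ContDiffAt ℂ ω (fun s => l.comp (L s)) t := contDiffAt_const.clm_comp hLa
  have hM1 : l.comp (L t) = ((1 : ((Model n × ℂ) →L[ℂ] Model n × ℂ)ˣ) : _) :=
    ContinuousLinearMap.ext fun z => LinearMap.congr_fun hl₀ z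
  have hI : AnalyticAt ℂ (fun s => Ring.inverse (l.comp (L s))) t :=
    AnalyticAt.comp_of_eq (g := Ring.inverse) (analyticAt_inverse 1) hM.analyticAt hM1
  have hV : ContDiffAt ℂ ω (fun s => (Ring.inverse (l.comp (L s)) (l (Q s))).1) t :=
    (hI.contDiffAt.clm_apply (l.contDiff.contDiffAt.comp t hQ.contDiffAt)).fst
  refine hV.analyticAt.congr ?_
  filter_upwards [h, h', hc.eventually ((𝒮.chart p).open_source.mem_nhds hp),
    hM.continuousAt.eventually (Units.isOpen.mem_nhds (show IsUnit (l.comp (L t)) from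
      hM1 ▸ Units.isUnit 1))] with s h1 h2 h3 h4
  obtain ⟨μ, h5⟩ := vec_spec h3 h1 h2
  have h6 : l (Q s) = l.comp (L s) (𝒮.vec p (g s) (W s) (Q s), μ) := by
    rw [ContinuousLinearMap.comp_apply, hLv, ← h5]
  rw [h6, ← mul_apply_eq_comp, Ring.inverse_mul_cancel _ h4]
  rfl

/-- the line and the affine tangent space are closed conditions along a continuous family -/
theorem on_of_tendsto {g : ℂ → X} {W : ℂ → HV N} {t : ℂ} (hc : ContinuousAt g t)
    (hW : ContinuousAt W t) (h0 : W t ≠ 0) (h : ∀ᶠ s in 𝓝[≠] t, 𝒮.On (g s) (W s)) :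
    𝒮.On (g t) (W t) := by
  have hp := 𝒮.mem (g t)
  obtain ⟨i, hi⟩ := Function.ne_iff.1 (c_ne' hp)
  have hi' : 𝒮.c (g t) (𝒮.chart (g t) (g t)) i ≠ 0 := hi
  have h1 : ContinuousAt (fun s => 𝒮.c (g t) (𝒮.chart (g t) (g s))) t :=
    ContinuousAt.comp_of_eq (g := 𝒮.c (g t))
      (𝒮.c_an _ _ ((𝒮.chart (g t)).map_source hp)).continuousAt
      (((𝒮.chart (g t)).continuousAt hp).comp hc) rfl
  have h2 : 𝒮.c (g t) (𝒮.chart (g t) (g t)) i • W t = W t i • 𝒮.c (g t) (𝒮.chart (g t) (g t)) := by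
    refine tendsto_nhds_unique_of_eventuallyEq (l := 𝓝[≠] t)
      ((((continuousAt_pi.1 h1 i).smul hW).tendsto).mono_left nhdsWithin_le_nhds)
      ((((continuousAt_pi.1 hW i).smul h1).tendsto).mono_left nhdsWithin_le_nhds) ?_
    filter_upwards [h, nhdsWithin_le_nhds (hc.eventually ((𝒮.chart (g t)).open_source.mem_nhds hp))]
      with s h3 h4
    obtain ⟨-, l, hl⟩ := (on_iff h4).1 h3
    change 𝒮.c (g t) (𝒮.chart (g t) (g s)) i • W s = W s i • 𝒮.c (g t) (𝒮.chart (g t) (g s))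
    rw [hl, Pi.smul_apply, smul_eq_mul, smul_smul, mul_comm]
  refine ⟨h0, (𝒮.c (g t) (𝒮.chart (g t) (g t)) i)⁻¹ * W t i, ?_⟩
  rw [← smul_smul, ← h2, smul_smul, inv_mul_cancel₀ hi', one_smul]

end SAtlas

end Crest.Agent.R266
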