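import Crest.Agent.R266.Vanish
import Crest.Agent.R266.Proj2
import Crest.Agent.R266.Liou

/-!
# Row 266: rational curves have polynomial lifts
-/

set_option autoImplicit false
set_option linter.unusedSectionVars false
set_option linter.unusedVariables false

open MeasureTheory Metric Set Filter Topology Complex
open scoped ContDiff Manifold Real
open Crest.AlgGeometry.HolSplit

noncomputable section

namespace Crest.Agent.R266

/-- a holomorphic family of lines `L t` in `ℂ^(N+1)`, holomorphic also at infinity -/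
structure PolyLift.Fam {N : ℕ} (L : ℂ → HV N → Prop) (w : HV N) : Prop where
  line : ∀ t v v', L t v → L t v' → ∃ κ : ℂ, κ ≠ 0 ∧ v' = κ • v
  smul : ∀ t v (κ : ℂ), L t v → κ ≠ 0 → L t (κ • v)
  loc : ∀ t₀, ∃ C : ℂ → HV N, AnalyticAt ℂ C t₀ ∧ ∀ᶠ t in 𝓝 t₀, L t (C t)
  inf : ∃ C : ℂ → HV N, ContinuousAt C 0 ∧ C 0 = w ∧ ∀ᶠ t in cocompact ℂ, L t (C t⁻¹)

namespace PolyLift.Fam
variable {N : ℕ} {L : ℂ → HV N → Prop} {w : HV N} (h : PolyLift.Fam L w) {i : Fin (N + 1)}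
include h

theorem uniq {t : ℂ} {v v' : HV N} (hv : L t v) (hv' : L t v') (h0 : v i ≠ 0) (he : v' i = v i) :
    v' = v := by
  obtain ⟨κ, -, rfl⟩ := h.line t v v' hv hv'
  have : κ = 1 := mul_right_cancel₀ h0 (by simpa using he)
  rw [this, one_smul]

theorem not_mem {t : ℂ} {v : HV N} (hv : L t v) (h0 : v i ≠ 0) :
    t ∉ {t | ∃ v, L t v ∧ v i = 0} := by
  rintro ⟨v', hv', h1⟩
  obtain ⟨κ, hκ, rfl⟩ := h.line t v v' hv hv'
  exact mul_ne_zero hκ h0 (by simpa using h1)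

omit h in
theorem tendsto_inv : Tendsto (fun t : ℂ => t⁻¹) (cocompact ℂ) (𝓝 0) := by
  rw [← Metric.cobounded_eq_cocompact]; exact tendsto_inv₀_cobounded

theorem far (hi : w i ≠ 0) : ∀ᶠ t in cocompact ℂ, t ∉ {t | ∃ v, L t v ∧ v i = 0} := by
  obtain ⟨C, hC, h0, hL⟩ := h.inf
  have h1 : ∀ᶠ s in 𝓝 (0 : ℂ), C s i ≠ 0 :=
    ((continuous_apply i).continuousAt.comp hC).eventually_ne (by simpa [h0] using hi)
  filter_upwards [hL, tendsto_inv.eventually h1] with t h2 h3 using h.not_mem h2 h3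

theorem isolated (hi : w i ≠ 0) (t₀ : ℂ) : ∀ᶠ t in 𝓝[≠] t₀, t ∉ {t | ∃ v, L t v ∧ v i = 0} := by
  set Z := {t | ∃ v, L t v ∧ v i = 0} with hZ
  have key : ∀ t₀, t₀ ∉ interior Z → ∀ᶠ t in 𝓝[≠] t₀, t ∉ Z := fun t₀ ht₀ => by
    obtain ⟨C, hC, hL⟩ := h.loc t₀
    have hC' : AnalyticAt ℂ (fun t => C t i) t₀ := analyticAt_pi_iff.1 hC i
    rcases hC'.eventually_eq_zero_or_eventually_ne_zero with h1 | h1
    · refine absurd (mem_interior_iff_mem_nhds.2 ?_) ht₀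
      filter_upwards [hL, h1] with t h2 h3 using ⟨_, h2, h3⟩
    · filter_upwards [h1, nhdsWithin_le_nhds hL] with t h2 h3 using h.not_mem h3 h2
  have hcl : IsClosed (interior Z) := by
    rw [← isOpen_compl_iff, isOpen_iff_mem_nhds]
    intro t₀ ht₀
    have h1 := eventually_nhdsWithin_iff.1 (key t₀ ht₀)
    filter_upwards [h1] with t ht
    by_cases he : t = t₀
    · rw [he]; exact ht₀
    · exact fun h2 => ht he (interior_subset h2)
  rcases isClopen_iff.1 ⟨hcl, isOpen_interior⟩ with h1 | h1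
  · exact key t₀ (by rw [h1]; exact notMem_empty _)
  · obtain ⟨t, ht⟩ := (h.far hi).exists
    exact absurd (interior_subset (h1 ▸ mem_univ t)) ht

theorem finite (hi : w i ≠ 0) : {t | ∃ v, L t v ∧ v i = 0}.Finite := by
  by_contra hinf
  obtain ⟨K, hK, hsub⟩ := mem_cocompact.1 (h.far hi)
  obtain ⟨x, -, hx⟩ := Set.Infinite.exists_accPt_of_subset_isCompact hinf hK
    (fun t ht => by by_contra hn; exact hsub hn ht)
  exact (accPt_iff_frequently_nhdsNE.1 hx) (h.isolated hi x)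

theorem order (hi : w i ≠ 0) (t₀ : ℂ) : ∃ (m : ℕ) (V : ℂ → HV N),
    (t₀ ∉ {t | ∃ v, L t v ∧ v i = 0} → m = 0) ∧ AnalyticAt ℂ V t₀ ∧
      ∀ᶠ t in 𝓝 t₀, L t (V t) ∧ V t i = (t - t₀) ^ m := by
  obtain ⟨C, hC, hL⟩ := h.loc t₀
  have hC' : AnalyticAt ℂ (fun t => C t i) t₀ := analyticAt_pi_iff.1 hC i
  obtain ⟨m, u, hu, hu0, he⟩ := hC'.exists_eventuallyEq_pow_smul_nonzero_iff.2 fun h1 => by
    obtain ⟨t, ⟨h2, h3⟩, h4⟩ :=
      (((hL.and h1).filter_mono nhdsWithin_le_nhds).and (h.isolated hi t₀)).exists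
    exact h4 ⟨_, h2, h3⟩
  refine ⟨m, fun t => (u t)⁻¹ • C t, fun h0 => ?_, (hu.inv hu0).smul hC, ?_⟩
  · by_contra hm
    exact h0 ⟨_, hL.self_of_nhds, by simpa [hm] using he.self_of_nhds⟩
  · filter_upwards [hL, he, hu.continuousAt.eventually_ne hu0] with t h1 h2 h3
    refine ⟨h.smul _ _ _ h1 (inv_ne_zero h3), ?_⟩
    rw [Pi.smul_apply, h2, smul_eq_mul, smul_eq_mul]
    field_simp

theorem exists_entire (hi : w i ≠ 0) : ∃ (Z : Finset ℂ) (m : ℂ → ℕ) (W : ℂ → HV N),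
    Differentiable ℂ W ∧ ∀ t, L t (W t) ∧ W t i = w i * ∏ z ∈ Z, (t - z) ^ m z := by
  classical
  choose m V hm hV hL using h.order hi
  set Z := (h.finite hi).toFinset with hZ
  have hloc : ∀ t₀, ∃ U : ℂ → HV N, AnalyticAt ℂ U t₀ ∧
      ∀ᶠ t in 𝓝 t₀, L t (U t) ∧ U t i = w i * ∏ z ∈ Z, (t - z) ^ m z := fun t₀ => by
    have ha : AnalyticAt ℂ (fun t => w i * ∏ z ∈ Z.erase t₀, (t - z) ^ m z) t₀ :=
      analyticAt_const.mul (Finset.analyticAt_fun_prod _ fun z _ => by fun_prop)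
    have h0 : w i * ∏ z ∈ Z.erase t₀, (t₀ - z) ^ m z ≠ 0 :=
      mul_ne_zero hi (Finset.prod_ne_zero_iff.2 fun z hz =>
        pow_ne_zero _ (sub_ne_zero.2 (Finset.ne_of_mem_erase hz).symm))
    refine ⟨fun t => (w i * ∏ z ∈ Z.erase t₀, (t - z) ^ m z) • V t₀ t, ha.smul (hV t₀), ?_⟩
    filter_upwards [hL t₀, ha.continuousAt.eventually_ne h0] with t h1 h2
    refine ⟨h.smul _ _ _ h1.1 h2, ?_⟩
    rw [Pi.smul_apply, h1.2, smul_eq_mul, mul_assoc]
    congr 1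
    by_cases hz : t₀ ∈ Z
    · exact Finset.prod_erase_mul Z (fun z => (t - z) ^ m z) hz
    · rw [Finset.erase_eq_of_notMem hz, hm t₀ (by simpa [hZ] using hz), pow_zero, mul_one]
  choose U hU hUL using hloc
  refine ⟨Z, m, fun t => U t t, fun t₀ => ?_, fun t => (hUL t).self_of_nhds⟩
  refine (hU t₀).differentiableAt.congr_of_eventuallyEq ?_
  filter_upwards [hUL t₀, eventually_nhdsWithin_iff.1 (h.isolated hi t₀)] with t h1 h2
  by_cases he : t = t₀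
  · rw [he]
  · have h3 := (hUL t).self_of_nhds
    exact h.uniq h1.1 h3.1 (fun h4 => h2 he ⟨_, h1.1, h4⟩) (h3.2.trans h1.2.symm)

theorem exists_poly (hw : w ≠ 0) : ∃ (d : ℕ) (a : Fin d → HV N), ∀ t, L t (evT w a t) := by
  obtain ⟨i, hi⟩ : ∃ i, w i ≠ 0 := Function.ne_iff.1 hw
  obtain ⟨Z, m, W, hW, hL⟩ := h.exists_entire hi
  obtain ⟨C, hC, hC0, hCL⟩ := h.inf
  set d := ∑ z ∈ Z, m z with hd
  have hCi : ContinuousAt (fun s => C s i) 0 := (continuous_apply i).continuousAt.comp hC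
  have hCi0 : C 0 i ≠ 0 := by rwa [hC0]
  set H : ℂ → HV N := fun s => (w i * (∏ z ∈ Z, (1 - z * s) ^ m z) / C s i) • C s with hH
  have hHc : ContinuousAt H 0 :=
    ((continuousAt_const.mul (Continuous.continuousAt (by fun_prop))).div hCi hCi0).smul hC
  have hH0 : H 0 = w := by simp [hH, hC0, hi]
  have hne : ∀ᶠ t in cocompact ℂ, t ≠ 0 := isCompact_singleton.compl_mem_cocompact
  have hWH : ∀ᶠ t in cocompact ℂ, W t = t ^ d • H t⁻¹ := by
    filter_upwards [hCL, tendsto_inv.eventually (hCi.eventually_ne hCi0), hne, h.far hi]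
      with t h1 h2 h3 h4
    have h5 : W t i ≠ 0 := fun h6 => h4 ⟨_, (hL t).1, h6⟩
    have h6 : t ^ d * ∏ z ∈ Z, (1 - z * t⁻¹) ^ m z = ∏ z ∈ Z, (t - z) ^ m z := by
      rw [hd, ← Finset.prod_pow_eq_pow_sum, ← Finset.prod_mul_distrib]
      refine Finset.prod_congr rfl fun z _ => ?_
      rw [← mul_pow]; congr 1; field_simp
    have h7 : t ^ d • H t⁻¹ = (W t i / C t⁻¹ i) • C t⁻¹ := by
      rw [hH, smul_smul, (hL t).2, ← h6]; congr 1; ring
    rw [h7]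
    refine (h.uniq (hL t).1 (h.smul _ _ _ h1 (div_ne_zero h5 h2)) h5 ?_).symm
    rw [Pi.smul_apply, smul_eq_mul, div_mul_cancel₀ _ h2]
  have hHt : Tendsto (fun t : ℂ => H t⁻¹) (cocompact ℂ) (𝓝 w) := hH0 ▸ hHc.tendsto.comp tendsto_inv
  obtain ⟨a, ha⟩ := exists_poly_of_growth hW (d := d) (C := ‖w‖ + 1) (by
    filter_upwards [hWH, hHt.norm.eventually (eventually_le_nhds (lt_add_one _))] with t h1 h2
    rw [h1, norm_smul, norm_pow, mul_comm]
    gcongr)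
  have hK : Tendsto (fun s : ℂ => ∑ k ∈ Finset.range d, s ^ (d - k) • a k + a d) (𝓝 0)
      (𝓝 (a d)) := by
    have h1 : Continuous fun s : ℂ => ∑ k ∈ Finset.range d, s ^ (d - k) • a k + a d := by fun_prop
    have h2 : ∑ k ∈ Finset.range d, (0 : ℂ) ^ (d - k) • a k = 0 :=
      Finset.sum_eq_zero fun k hk => by
        rw [zero_pow (Nat.sub_ne_zero_of_lt (Finset.mem_range.1 hk)), zero_smul]
    simpa [h2] using h1.tendsto 0
  have had : a d = w := by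
    refine tendsto_nhds_unique ((hK.comp tendsto_inv).congr' ?_) hHt
    filter_upwards [hWH, hne] with t h1 h2
    refine smul_right_injective _ (pow_ne_zero d h2) ?_
    simp only [Function.comp]
    rw [← h1, ha, Finset.sum_range_succ, smul_add, Finset.smul_sum]
    congr 1
    refine Finset.sum_congr rfl fun k hk => ?_
    rw [smul_smul, inv_pow, ← pow_sub_mul_pow t (Finset.mem_range.1 hk).le]
    congr 1
    field_simp
  refine ⟨d, fun k => a k, fun t => ?_⟩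
  have : evT w (fun k : Fin d => a k) t = W t := by
    rw [ha, Finset.sum_range_succ, had, evT, ev,
      Finset.sum_range (fun k => t ^ k • a k)]
  rw [this]
  exact (hL t).1

end PolyLift.Fam

namespace SAtlas
variable {X : Type*} [TopologicalSpace X] {n N : ℕ} (𝒮 : SAtlas X n N)

theorem HolC.exists_lift {𝒮 : SAtlas X n N} {g : ℂ → X} {t₀ : ℂ} (h : 𝒮.HolC g t₀) :
    AnalyticAt ℂ (fun t => 𝒮.c (g t₀) (𝒮.chart (g t₀) (g t))) t₀ ∧
      ∀ᶠ t in 𝓝 t₀, 𝒮.On (g t) (𝒮.c (g t₀) (𝒮.chart (g t₀) (g t))) := by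
  refine ⟨(𝒮.c_an _ _ ((𝒮.chart _).map_source (𝒮.mem _))).comp_of_eq h.2 rfl, ?_⟩
  filter_upwards [h.1.eventually ((𝒮.chart (g t₀)).open_source.mem_nhds (𝒮.mem _))] with t ht
  exact (on_iff ht).2 ⟨𝒮.c_ne _ _ ((𝒮.chart _).map_source ht), 1, (one_smul _ _).symm⟩

theorem exists_poly_lift {g₀ g₁ : ℂ → X} (hg : 𝒮.Curve g₀ g₁) {w : HV N} (hw : 𝒮.On (g₁ 0) w) :
    ∃ (d : ℕ) (a : Fin d → HV N), ∀ t, 𝒮.On (g₀ t) (evT w a t) := by
  refine PolyLift.Fam.exists_poly (L := fun t v => 𝒮.On (g₀ t) v) ⟨?_, ?_, ?_, ?_⟩ hw.1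
  · rintro t v v' ⟨h1, μ, rfl⟩ ⟨h2, μ', rfl⟩
    have h3 : μ ≠ 0 := left_ne_zero_of_smul h1
    exact ⟨μ' / μ, div_ne_zero (left_ne_zero_of_smul h2) h3, by
      rw [smul_smul, div_mul_cancel₀ _ h3]⟩
  · exact fun t v κ h hκ => On.smul h hκ
  · exact fun t₀ => ⟨_, (hg.hol₀ t₀).exists_lift⟩
  · obtain ⟨h1, μ, hμ⟩ := hw
    obtain ⟨h2, h3⟩ := (hg.hol₁ 0).exists_lift
    have h4 : μ ≠ 0 := left_ne_zero_of_smul (hμ ▸ h1)
    refine ⟨fun s => μ • 𝒮.c (g₁ 0) (𝒮.chart (g₁ 0) (g₁ s)), h2.continuousAt.const_smul μ,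
      hμ.symm, ?_⟩
    filter_upwards [PolyLift.Fam.tendsto_inv.eventually h3,
      (isCompact_singleton (x := (0 : ℂ))).compl_mem_cocompact] with t h5 h6
    have h7 : g₁ t⁻¹ = g₀ t := by rw [hg.glue _ (inv_ne_zero h6), inv_inv]
    rw [← h7]
    exact On.smul h5 h4

end SAtlas

end Crest.Agent.R266
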