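import Crest.Agent.R266.SardH

/-!
# Row 266: Sard's theorem on a set cut out by analytic equations
-/

set_option autoImplicit false
set_option linter.unusedSectionVars false
set_option linter.unusedVariables false

open MeasureTheory Metric Set Filter Topology Complex
open scoped ContDiff Manifold Real
open Crest.AlgGeometry.HolSplit

noncomputable section

namespace Crest.Agent.R266

namespace SardZAux

variable {V : Type} [NormedAddCommGroup V] [NormedSpace ℂ V] [FiniteDimensional ℂ V]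

/-- admissible local equations of `K` at `v` -/
def Adm (K : Set V) (T : V → Submodule ℂ V) (v : V) {F : Type*} [NormedAddCommGroup F]
    [NormedSpace ℂ F] (g : V → F) : Prop :=
  AnalyticAt ℂ g v ∧ ∀ᶠ v' in 𝓝 v, v' ∈ K → g v' = 0 ∧ ∀ u' ∈ T v', fderiv ℂ g v' u' = 0

variable {K : Set V} {T : V → Submodule ℂ V} {v : V}

theorem Adm.zero {F : Type*} [NormedAddCommGroup F] [NormedSpace ℂ F] :
    Adm K T v (fun _ => (0 : F)) :=
  ⟨analyticAt_const, Eventually.of_forall fun _ _ => ⟨rfl, fun _ _ => by simp⟩⟩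

theorem Adm.add {F : Type*} [NormedAddCommGroup F] [NormedSpace ℂ F] [CompleteSpace F]
    {g g' : V → F} (h : Adm K T v g) (h' : Adm K T v g') : Adm K T v fun x => g x + g' x := by
  refine ⟨h.1.add h'.1, ?_⟩
  filter_upwards [h.2, h'.2, h.1.eventually_analyticAt, h'.1.eventually_analyticAt]
    with x h1 h2 a1 a2 hx
  refine ⟨by rw [(h1 hx).1, (h2 hx).1, add_zero], fun u hu => ?_⟩
  rw [fderiv_fun_add a1.differentiableAt a2.differentiableAt, add_apply, (h1 hx).2 u hu,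
    (h2 hx).2 u hu, add_zero]

theorem Adm.clm {F F' : Type*} [NormedAddCommGroup F] [NormedSpace ℂ F] [CompleteSpace F]
    [NormedAddCommGroup F'] [NormedSpace ℂ F'] {g : V → F} (h : Adm K T v g) (L : F →L[ℂ] F') :
    Adm K T v fun x => L (g x) := by
  refine ⟨(L.analyticAt _).comp h.1, ?_⟩
  filter_upwards [h.2, h.1.eventually_analyticAt] with x h1 a1 hx
  refine ⟨by rw [(h1 hx).1, map_zero], fun u hu => ?_⟩
  have h2 : HasFDerivAt (fun x => L (g x)) (L.comp (fderiv ℂ g x)) x :=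
    L.hasFDerivAt.comp x a1.differentiableAt.hasFDerivAt
  rw [h2.fderiv, ContinuousLinearMap.comp_apply, (h1 hx).2 u hu, map_zero]

/-- every functional killing `T v` is the differential of an admissible equation -/
theorem exists_adm (hZ : ∀ u, u ∉ T v → ∃ g : V → ℂ, Adm K T v g ∧ fderiv ℂ g v u ≠ 0)
    (φ : Module.Dual ℂ V) (hφ : ∀ u ∈ T v, φ u = 0) :
    ∃ g : V → ℂ, Adm K T v g ∧ ∀ u, fderiv ℂ g v u = φ u := by
  let A : Subspace ℂ (Module.Dual ℂ V) :=
    { carrier := {φ | ∃ g : V → ℂ, Adm K T v g ∧ ∀ u, fderiv ℂ g v u = φ u}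
      zero_mem' := ⟨_, Adm.zero, fun u => by simp⟩
      add_mem' := by
        rintro φ ψ ⟨g, h, e⟩ ⟨g', h', e'⟩
        refine ⟨_, h.add h', fun u => ?_⟩
        rw [fderiv_fun_add h.1.differentiableAt h'.1.differentiableAt, add_apply, e, e',
          LinearMap.add_apply]
      smul_mem' := by
        rintro c φ ⟨g, h, e⟩
        refine ⟨_, h.clm (c • ContinuousLinearMap.id ℂ ℂ), fun u => ?_⟩
        have h2 : HasFDerivAt (fun x => (c • ContinuousLinearMap.id ℂ ℂ) (g x))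
            ((c • ContinuousLinearMap.id ℂ ℂ).comp (fderiv ℂ g v)) v :=
          (ContinuousLinearMap.hasFDerivAt _).comp v h.1.differentiableAt.hasFDerivAt
        rw [h2.fderiv]
        simp [e] }
  have h1 : φ ∈ A := by
    rw [← Subspace.dualCoannihilator_dualAnnihilator_eq (W := A), Submodule.mem_dualAnnihilator]
    intro u hu
    refine hφ u (by_contra fun h => ?_)
    obtain ⟨g, hg, h0⟩ := hZ u h
    exact h0 ((Submodule.mem_dualCoannihilator u).1 hu (fderiv ℂ g v : V →ₗ[ℂ] ℂ)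
      ⟨g, hg, fun _ => rfl⟩)
  exact h1

theorem exists_adm' (hZ : ∀ u, u ∉ T v → ∃ g : V → ℂ, Adm K T v g ∧ fderiv ℂ g v u ≠ 0)
    (L : V →L[ℂ] V) (hL : ∀ u ∈ T v, L u = 0) :
    ∃ h : V → V, Adm K T v h ∧ HasFDerivAt h L v := by
  have : CompleteSpace V := FiniteDimensional.complete ℂ V
  let b := Module.finBasis ℂ V
  have h1 : ∀ s : Finset (Fin (Module.finrank ℂ V)), ∃ h : V → V, Adm K T v h ∧
      ∀ u, fderiv ℂ h v u = ∑ i ∈ s, b.repr (L u) i • b i := fun s => by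
    induction s using Finset.induction_on with
    | empty => exact ⟨_, Adm.zero, fun u => by simp⟩
    | insert i s hi ih =>
      obtain ⟨h, hh, e⟩ := ih
      obtain ⟨g, hg, e'⟩ := exists_adm hZ ((b.coord i).comp (L : V →ₗ[ℂ] V)) fun u hu => by
        simp [hL u hu]
      have hg' := hg.clm (ContinuousLinearMap.toSpanSingleton ℂ (b i))
      refine ⟨_, hg'.add hh, fun u => ?_⟩
      have h2 : HasFDerivAt (fun x => ContinuousLinearMap.toSpanSingleton ℂ (b i) (g x))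
          ((ContinuousLinearMap.toSpanSingleton ℂ (b i)).comp (fderiv ℂ g v)) v :=
        (ContinuousLinearMap.hasFDerivAt _).comp v hg.1.differentiableAt.hasFDerivAt
      rw [fderiv_fun_add hg'.1.differentiableAt hh.1.differentiableAt, add_apply, e, h2.fderiv,
        Finset.sum_insert hi]
      simp [e']
  obtain ⟨h, hh, e⟩ := h1 Finset.univ
  refine ⟨h, hh, ?_⟩
  have h2 : fderiv ℂ h v = L := ContinuousLinearMap.ext fun u => by rw [e, b.sum_repr]
  exact h2 ▸ hh.1.differentiableAt.hasFDerivAt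

theorem local_bound {E : Type*} [NormedAddCommGroup E] [NormedSpace ℂ E] [FiniteDimensional ℂ E]
    {e f : V → E} (hZ : ∀ u, u ∉ T v → ∃ g : V → ℂ, Adm K T v g ∧ fderiv ℂ g v u ≠ 0)
    (hf : AnalyticAt ℂ f v)
    (hN : ∀ᶠ v' in 𝓝 v, v' ∈ K → e v' = f v' ∧ ∃ y, ∀ u' ∈ T v', fderiv ℂ f v' u' ≠ y) :
    ∃ U ∈ 𝓝 v, dimH (e '' (U ∩ {x ∈ K | Module.finrank ℂ (T x) = Module.finrank ℂ (T v)})) ≤
      (2 * Module.finrank ℂ E - 1 : ℕ) := by
  have : CompleteSpace V := FiniteDimensional.complete ℂ V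
  have : CompleteSpace E := FiniteDimensional.complete ℂ E
  obtain ⟨P₀, hP₀⟩ := (T v).subtype.exists_leftInverse_of_injective (T v).ker_subtype
  let P : V →L[ℂ] T v := LinearMap.toContinuousLinearMap P₀
  have hP : ∀ u : T v, P u = u := fun u => LinearMap.congr_fun hP₀ u
  let Q : V →L[ℂ] V := (T v).subtypeL.comp P
  obtain ⟨h, hh, hd⟩ := exists_adm' hZ (ContinuousLinearMap.id ℂ V - Q) fun u hu => by
    have h1 : Q u = u := congrArg Subtype.val (hP ⟨u, hu⟩)
    simp [h1]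
  let Φ : V → V := fun x => Q x + h x
  have hΦ : AnalyticAt ℂ Φ v := (Q.analyticAt v).add hh.1
  have hΦ' : HasFDerivAt Φ ((ContinuousLinearEquiv.refl ℂ V : V ≃L[ℂ] V) : V →L[ℂ] V) v := by
    have h1 := Q.hasFDerivAt.add hd
    rw [add_sub_cancel] at h1
    exact h1
  have hc : ContDiffAt ℂ ω Φ v := hΦ.contDiffAt
  let Ψ : V → V := hc.localInverse hΦ' (by simp)
  have hΨ : AnalyticAt ℂ Ψ (Φ v) := (hc.to_localInverse hΦ' (by simp)).analyticAt
  have hl : ∀ᶠ x in 𝓝 v, Ψ (Φ x) = x :=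
    (hc.hasStrictFDerivAt' hΦ' (by simp)).eventually_left_inverse
  have hU := hl.eventually_nhds.and ((hΦ.continuousAt.eventually hΨ.eventually_analyticAt).and
    (hh.1.eventually_analyticAt.and (hf.eventually_analyticAt.and (hh.2.and hN))))
  obtain ⟨U, hU, hU'⟩ := hU.exists_mem
  refine ⟨U, hU, le_trans (dimH_mono ?_) (dimH_crit_le _ (T v) rfl (fun t => f (Ψ t))
    (P '' (U ∩ {x ∈ K | Module.finrank ℂ (T x) = Module.finrank ℂ (T v)})) ?_ ?_)⟩
  · rintro _ ⟨x, hx, rfl⟩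
    refine ⟨P x, ⟨x, hx, rfl⟩, ?_⟩
    obtain ⟨hx, hK, -⟩ := hx
    obtain ⟨h1, -, -, -, h5, h6⟩ := hU' x hx
    have e1 : Φ x = P x := by simp only [Φ, (h5 hK).1, add_zero]; rfl
    simp only
    rw [← e1, h1.self_of_nhds, (h6 hK).1]
  · rintro _ ⟨x, ⟨hx, hK, -⟩, rfl⟩
    obtain ⟨h1, h2, -, h4, h5, -⟩ := hU' x hx
    have e1 : Φ x = P x := by simp only [Φ, (h5 hK).1, add_zero]; rfl
    exact (h4.comp_of_eq h2 h1.self_of_nhds).comp_of_eq ((T v).subtypeL.analyticAt (P x)) e1.symm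
  · rintro _ ⟨x, ⟨hx, hK, hr⟩, rfl⟩ hs
    obtain ⟨h1, h2, h3, h4, h5, h6⟩ := hU' x hx
    have e1 : Φ x = P x := by simp only [Φ, (h5 hK).1, add_zero]; rfl
    have d1 : HasFDerivAt Φ (Q + fderiv ℂ h x) x :=
      Q.hasFDerivAt.add h3.differentiableAt.hasFDerivAt
    have d2 : (fderiv ℂ Ψ (Φ x)).comp (Q + fderiv ℂ h x) = ContinuousLinearMap.id ℂ V :=
      (h2.differentiableAt.hasFDerivAt.comp x d1).unique
        ((hasFDerivAt_id x).congr_of_eventuallyEq h1)
    have d3 : ∀ u ∈ T x, fderiv ℂ Ψ (Φ x) (P u) = u := fun u hu => by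
      have h7 := congrArg (fun L : V →L[ℂ] V => L u) d2
      simp only [ContinuousLinearMap.comp_apply, add_apply, (h5 hK).2 u hu, add_zero] at h7
      exact h7
    have d4 : Function.Surjective (P₀.comp (T x).subtype) :=
      (LinearMap.injective_iff_surjective_of_finrank_eq_finrank hr).1 fun a b hab => by
        have h7 : P a = P b := hab
        exact Subtype.ext (by rw [← d3 a a.2, ← d3 b b.2, h7])
    have d5 : HasFDerivAt (fun t : T v => f (Ψ t))
        (((fderiv ℂ f x).comp (fderiv ℂ Ψ (Φ x))).comp (T v).subtypeL) (P x) := by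
      have a1 : HasFDerivAt f (fderiv ℂ f x) (Ψ (Φ x)) := by
        rw [h1.self_of_nhds]; exact h4.differentiableAt.hasFDerivAt
      have a2 := a1.comp (Φ x) h2.differentiableAt.hasFDerivAt
      have a3 : HasFDerivAt (f ∘ Ψ) ((fderiv ℂ f x).comp (fderiv ℂ Ψ (Φ x)))
          ((T v).subtypeL (P x)) := e1 ▸ a2
      exact a3.comp (P x) (T v).subtypeL.hasFDerivAt
    obtain ⟨y, hy⟩ := (h6 hK).2
    obtain ⟨t, ht⟩ := hs y
    obtain ⟨u, rfl⟩ := d4 t
    refine hy u u.2 ?_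
    rw [← ht, d5.fderiv]
    exact congrArg _ (d3 u u.2).symm

end SardZAux

/-- `T v` plays the role of the Zariski tangent space of `K` at `v` -/
theorem dimH_image_le_of_tangent {E : Type*} [NormedAddCommGroup E] [NormedSpace ℂ E]
    [FiniteDimensional ℂ E] {V : Type} [NormedAddCommGroup V] [NormedSpace ℂ V]
    [FiniteDimensional ℂ V] (K : Set V) (T : V → Submodule ℂ V) (e : V → E)
    (hZ : ∀ v ∈ K, ∀ u, u ∉ T v → ∃ g : V → ℂ, AnalyticAt ℂ g v ∧ fderiv ℂ g v u ≠ 0 ∧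
      ∀ᶠ v' in 𝓝 v, v' ∈ K → g v' = 0 ∧ ∀ u' ∈ T v', fderiv ℂ g v' u' = 0)
    (hN : ∀ v ∈ K, ∃ f : V → E, AnalyticAt ℂ f v ∧
      ∀ᶠ v' in 𝓝 v, v' ∈ K → e v' = f v' ∧ ∃ y, ∀ u' ∈ T v', fderiv ℂ f v' u' ≠ y) :
    dimH (e '' K) ≤ (2 * Module.finrank ℂ E - 1 : ℕ) := by
  have : ProperSpace V := FiniteDimensional.proper ℂ V
  have h1 : ∀ k : ℕ, dimH (e '' {x ∈ K | Module.finrank ℂ (T x) = k}) ≤
      (2 * Module.finrank ℂ E - 1 : ℕ) := fun k => by
    have h2 : ∀ v ∈ {x ∈ K | Module.finrank ℂ (T x) = k},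
        ∃ U ∈ 𝓝[{x ∈ K | Module.finrank ℂ (T x) = k}] v,
          dimH (e '' U) ≤ (2 * Module.finrank ℂ E - 1 : ℕ) := fun v hv => by
      obtain ⟨f, hf, hf'⟩ := hN v hv.1
      obtain ⟨U, hU, h⟩ := SardZAux.local_bound (K := K) (T := T) (fun u hu => by
        obtain ⟨g, a, b, c⟩ := hZ v hv.1 u hu
        exact ⟨g, ⟨a, c⟩, b⟩) hf hf'
      rw [hv.2] at h
      exact ⟨_, inter_mem (mem_nhdsWithin_of_mem_nhds hU) self_mem_nhdsWithin, h⟩
    choose! U hU hU' using h2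
    obtain ⟨t, ht, hc, hs⟩ := TopologicalSpace.countable_cover_nhdsWithin hU
    refine (dimH_mono (image_mono hs)).trans ?_
    rw [image_iUnion₂, dimH_bUnion hc]
    exact iSup₂_le fun v hv => hU' v (ht hv)
  have h3 : K = ⋃ k : ℕ, {x ∈ K | Module.finrank ℂ (T x) = k} := by
    ext x
    simp
  rw [h3, image_iUnion, dimH_iUnion]
  exact iSup_le h1

end Crest.Agent.R266
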