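import Crest.Agent.R266.VanishP
import Crest.Agent.R266.PolyLift
import Crest.Agent.R266.Normal
import Crest.Agent.R266.LocalEq
import Crest.Agent.R266.SardZ

/-!
# Row 266: integrability in the chart model
-/

set_option autoImplicit false
set_option linter.unusedSectionVars false
set_option linter.unusedVariables false

open MeasureTheory Metric Set Filter Topology Complex
open scoped ContDiff Manifold Real
open Crest.AlgGeometry.HolSplit

noncomputable section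

namespace Crest.Agent.R266

namespace M404
variable {N d : ℕ}

/-- evaluation of vector valued polynomials as a linear map -/
def evL (N d : ℕ) (t : ℂ) : (Fin d → HV N) →L[ℂ] HV N :=
  ∑ k : Fin d, t ^ (k : ℕ) • ContinuousLinearMap.proj k

theorem evL_apply (t : ℂ) (a : Fin d → HV N) : evL N d t a = ev a t := by
  simp [evL, ev]

theorem evT_eq (w : HV N) (t : ℂ) :
    (fun a : Fin d → HV N => evT w a t) = fun a => evL N d t a + t ^ d • w := by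
  funext a
  rw [evL_apply, evT]

theorem analyticAt_evT (w : HV N) (t : ℂ) (v : Fin d → HV N) :
    AnalyticAt ℂ (fun a : Fin d → HV N => evT w a t) v := by
  rw [evT_eq]
  exact ((evL N d t).analyticAt v).add analyticAt_const

theorem hasFDerivAt_evT (w : HV N) (t : ℂ) (v : Fin d → HV N) :
    HasFDerivAt (fun a : Fin d → HV N => evT w a t) (evL N d t) v := by
  rw [evT_eq]
  exact (evL N d t).hasFDerivAt.add_const _

theorem fderiv_comp_evT {E : Type*} [NormedAddCommGroup E] [NormedSpace ℂ E] {G : HV N → E}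
    {w : HV N} {t : ℂ} {v : Fin d → HV N} (hG : DifferentiableAt ℂ G (evT w v t))
    (u : Fin d → HV N) :
    fderiv ℂ (fun a : Fin d → HV N => G (evT w a t)) v u = fderiv ℂ G (evT w v t) (ev u t) := by
  have h := HasFDerivAt.comp (f := fun a : Fin d → HV N => evT w a t) v hG.hasFDerivAt
    (hasFDerivAt_evT w t v)
  have h' : fderiv ℂ (fun a : Fin d → HV N => G (evT w a t)) v = _ := h.fderiv
  rw [h', ContinuousLinearMap.comp_apply, evL_apply]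

theorem finrank_model (n : ℕ) : Module.finrank ℝ (Model n) = 2 * n := by
  rw [← Module.finrank_mul_finrank ℝ ℂ (Model n), Complex.finrank_real_complex]
  simp

variable {X : Type*} [TopologicalSpace X] {n : ℕ} (𝒮 : SAtlas X n N)

/-- the Zariski tangent space as a submodule -/
def TP (w : HV N) (a : Fin d → HV N) : Submodule ℂ (Fin d → HV N) where
  carrier := {q | 𝒮.TanP w a q}
  add_mem' {q q'} hq hq' t x hx := by
    rw [← evL_apply, map_add, evL_apply, evL_apply]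
    exact (hq t x hx).add (hq' t x hx)
  zero_mem' t x hx := by
    rw [← evL_apply, map_zero]
    exact SAtlas.tan_zero
  smul_mem' c q hq t x hx := by
    rw [← evL_apply, map_smul, evL_apply]
    exact (hq t x hx).smul c

theorem mem_TP {w : HV N} {a q : Fin d → HV N} : q ∈ TP 𝒮 w a ↔ 𝒮.TanP w a q := Iff.rfl

/-- polynomial lifts of rational curves from `x` to `O` -/
def KK (x : X) (O : Set X) (w : HV N) (d : ℕ) : Set (Fin d → HV N) :=
  {a | ∃ g₀ g₁, 𝒮.Curve g₀ g₁ ∧ g₁ 0 = x ∧ g₀ 0 ∈ O ∧ ∀ t, 𝒮.On (g₀ t) (evT w a t)}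

open Classical in
/-- the point at `t = 0`, in the chart `p` -/
def ee (p : X) (w : HV N) (a : Fin d → HV N) : Model n :=
  if h : ∃ x, 𝒮.On x (evT w a 0) then 𝒮.chart p h.choose else 0

theorem ee_eq {p x : X} {w : HV N} {a : Fin d → HV N} (h : 𝒮.On x (evT w a 0)) :
    ee 𝒮 p w a = 𝒮.chart p x := by
  have h' : ∃ x, 𝒮.On x (evT w a 0) := ⟨x, h⟩
  rw [ee, dif_pos h', h'.choose_spec.unique h]

theorem hZ [CompactSpace X] (x : X) (O : Set X) (w : HV N) :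
    ∀ v ∈ KK 𝒮 x O w d, ∀ u, u ∉ TP 𝒮 w v → ∃ g : (Fin d → HV N) → ℂ, AnalyticAt ℂ g v ∧
      fderiv ℂ g v u ≠ 0 ∧ ∀ᶠ v' in 𝓝 v, v' ∈ KK 𝒮 x O w d → g v' = 0 ∧
        ∀ u' ∈ TP 𝒮 w v', fderiv ℂ g v' u' = 0 := by
  intro v _ u hu
  rw [mem_TP, SAtlas.TanP] at hu
  push Not at hu
  obtain ⟨t, x', hx', hT⟩ := hu
  obtain ⟨G, Y, hG, -, h⟩ := 𝒮.exists_localEq (𝒮.mem x') hx'
  have h₁ : fderiv ℂ G (evT w v t) (ev u t) ≠ 0 := fun e =>
    hT (((h.self_of_nhds x' hx').2.2.2.1 _).1 e)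
  obtain ⟨i, hi⟩ := Function.ne_iff.1 h₁
  have key : ∀ z, DifferentiableAt ℂ G z → DifferentiableAt ℂ (fun z => G z i) z ∧
      ∀ b, fderiv ℂ (fun z => G z i) z b = fderiv ℂ G z b i := by
    intro z hz
    have h₂ := (ContinuousLinearMap.proj (R := ℂ) (φ := fun _ : Fin (N + 1) => ℂ) i).hasFDerivAt.comp
      z hz.hasFDerivAt
    refine ⟨h₂.differentiableAt, fun b => ?_⟩
    have h₃ : fderiv ℂ (fun z => G z i) z = _ := h₂.fderiv
    rw [h₃]
    rfl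
  refine ⟨fun a => G (evT w a t) i, ?_, ?_, ?_⟩
  · exact AnalyticAt.comp (g := fun z => G z i) (f := fun a : Fin d → HV N => evT w a t)
      (analyticAt_pi_iff.1 hG i) (analyticAt_evT w t v)
  · rw [fderiv_comp_evT (G := fun z => G z i) (key _ hG.differentiableAt).1,
      (key _ hG.differentiableAt).2]
    exact hi
  · have hc := (analyticAt_evT w t v).continuousAt
    filter_upwards [hc.eventually h, hc.eventually hG.eventually_analyticAt] with v' h₂ h₃ hv'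
    obtain ⟨g₀, g₁, -, -, -, hon⟩ := hv'
    obtain ⟨-, h₄, -, h₅, -⟩ := h₂ _ (hon t)
    refine ⟨by rw [h₄]; rfl, fun u' hu' => ?_⟩
    rw [fderiv_comp_evT (G := fun z => G z i) (key _ h₃.differentiableAt).1,
      (key _ h₃.differentiableAt).2, (h₅ _).2 (hu' t _ (hon t))]
    rfl

theorem hN [CompactSpace X] {p x : X} {O : Set X} {w : HV N} (hw : 𝒮.On x w) {ξ ξ' : Model n}
    (hO : ∀ y ∈ O, y ∈ (𝒮.chart p).source ∧ Nij (𝒮.P p) (𝒮.chart p y)
      (𝒮.P p (𝒮.chart p y) ξ) (𝒮.P p (𝒮.chart p y) ξ') ≠ 0) :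
    ∀ v ∈ KK 𝒮 x O w d, ∃ f : (Fin d → HV N) → Model n, AnalyticAt ℂ f v ∧
      ∀ᶠ v' in 𝓝 v, v' ∈ KK 𝒮 x O w d → ee 𝒮 p w v' = f v' ∧
        ∃ y, ∀ u' ∈ TP 𝒮 w v', fderiv ℂ f v' u' ≠ y := by
  rintro v ⟨g₀, g₁, -, -, h0, hon⟩
  obtain ⟨G, Y, -, hY, h⟩ := 𝒮.exists_localEq (hO _ h0).1 (hon 0)
  refine ⟨fun a => Y (evT w a 0), AnalyticAt.comp (g := Y)
    (f := fun a : Fin d → HV N => evT w a 0) hY (analyticAt_evT w 0 v), ?_⟩
  have hc := (analyticAt_evT w 0 v).continuousAt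
  filter_upwards [hc.eventually h, hc.eventually hY.eventually_analyticAt] with v' h₂ h₃ hv'
  obtain ⟨g₀', g₁', hg, hx, h0', hon'⟩ := hv'
  obtain ⟨h₄, -, h₅, -, h₆⟩ := h₂ _ (hon' 0)
  refine ⟨by rw [ee_eq 𝒮 (hon' 0), h₅], ?_⟩
  by_contra hs
  push Not at hs
  obtain ⟨q, hq, e⟩ := hs ξ
  obtain ⟨q', hq', e'⟩ := hs ξ'
  rw [fderiv_comp_evT h₃.differentiableAt, h₆ _ (hq 0 _ (hon' 0))] at e
  rw [fderiv_comp_evT h₃.differentiableAt, h₆ _ (hq' 0 _ (hon' 0))] at e'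
  have h₇ := 𝒮.vanish_poly hg (hx ▸ hw) hon' hq hq' h₄
  rw [e, e'] at h₇
  exact (hO _ h0').2 h₇

end M404

namespace SAtlas
variable {X : Type*} [TopologicalSpace X] {n N : ℕ} (𝒮 : SAtlas X n N)

open M404 in
theorem intAt_of_curves [CompactSpace X] (hn : 1 ≤ n)
    (hrc : ∀ O : Set X, IsOpen O → O.Nonempty → ∃ (x : X) (O' : Set X), IsOpen O' ∧ O'.Nonempty ∧
      O' ⊆ O ∧ ∀ y ∈ O', y ≠ x → ∃ g₀ g₁, 𝒮.Curve g₀ g₁ ∧ g₁ 0 = x ∧ g₀ 0 = y) (p : X) :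
    IntAt (𝒮.P p) (𝒮.chart p p) := by
  intro ξ ξ' hξ hξ'
  by_contra hne
  have han : ∀ y ∈ (𝒮.chart p).target,
      AnalyticAt ℂ (fun r => Nij (𝒮.P p) r (𝒮.P p r ξ) (𝒮.P p r ξ')) y := by
    intro y hy
    have h₁ := (𝒮.proj p y hy).1
    have h₂ : ∀ η : Model n, AnalyticAt ℂ (fun r => 𝒮.P p r η) y := fun η =>
      ((ContinuousLinearMap.apply ℂ (Model n) η).analyticAt _).comp h₁
    exact analyticAt_Nij (F := id) h₁ analyticAt_id (h₂ ξ) (h₂ ξ')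
  have hO : IsOpen {y | y ∈ (𝒮.chart p).source ∧ Nij (𝒮.P p) (𝒮.chart p y)
      (𝒮.P p (𝒮.chart p y) ξ) (𝒮.P p (𝒮.chart p y) ξ') ≠ 0} := by
    refine isOpen_iff_mem_nhds.2 fun y hy => ?_
    have h₁ := ((han _ ((𝒮.chart p).map_source hy.1)).continuousAt.comp
      ((𝒮.chart p).continuousAt hy.1)).eventually_ne hy.2
    filter_upwards [h₁, (𝒮.chart p).open_source.mem_nhds hy.1] with z h₂ h₃
    exact ⟨h₃, h₂⟩
  obtain ⟨x, O', hO', ⟨y₀, hy₀⟩, hsub, hcur⟩ := hrc _ hO ⟨p, 𝒮.mem p, by rwa [hξ, hξ']⟩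
  have hw : 𝒮.On x (𝒮.c x (𝒮.chart x x)) := ⟨c_ne' (𝒮.mem x), 1, (one_smul _ _).symm⟩
  generalize 𝒮.c x (𝒮.chart x x) = w at hw
  have hd : ∀ d : ℕ, dimH (ee 𝒮 p w '' KK 𝒮 x O' w d) ≤ (2 * n - 1 : ℕ) := fun d => by
    have h := dimH_image_le_of_tangent (KK 𝒮 x O' w d) (TP 𝒮 w) (ee 𝒮 p w) (hZ 𝒮 x O' w)
      (hN 𝒮 hw fun y hy => hsub hy)
    simpa only [finrank_euclideanSpace, Fintype.card_fin] using h
  have hcov : 𝒮.chart p '' O' ⊆ {𝒮.chart p x} ∪ ⋃ d : ℕ, ee 𝒮 p w '' KK 𝒮 x O' w d := by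
    rintro _ ⟨y, hy, rfl⟩
    by_cases hyx : y = x
    · exact Or.inl (by rw [hyx]; rfl)
    · obtain ⟨g₀, g₁, hg, h₁, h₀⟩ := hcur y hy hyx
      obtain ⟨d, a, ha⟩ := 𝒮.exists_poly_lift hg (w := w) (h₁ ▸ hw)
      exact Or.inr (mem_iUnion.2 ⟨d, a, ⟨g₀, g₁, hg, h₁, h₀ ▸ hy, ha⟩,
        by rw [ee_eq 𝒮 (ha 0), h₀]⟩)
  have h₁ : dimH (𝒮.chart p '' O') = Module.finrank ℝ (Model n) :=
    Real.dimH_of_mem_nhds ((𝒮.chart p).image_mem_nhds (hsub hy₀).1 (hO'.mem_nhds hy₀))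
  have h₂ := dimH_mono hcov
  rw [h₁, dimH_union, dimH_singleton, dimH_iUnion, finrank_model] at h₂
  have h₃ : ((2 * n : ℕ) : ENNReal) ≤ (2 * n - 1 : ℕ) :=
    h₂.trans (max_le (by positivity) (iSup_le hd))
  have h₄ : 2 * n ≤ 2 * n - 1 := by exact_mod_cast h₃
  omega

end SAtlas

end Crest.Agent.R266
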