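import Crest.Agent.R266.SCV

/-!
# Row 266: Picard iteration
-/

set_option autoImplicit false
set_option linter.unusedSectionVars false
set_option linter.unusedVariables false

open MeasureTheory Metric Set Filter Topology Complex
open scoped ContDiff Manifold Real
open Crest.AlgGeometry.HolSplit

noncomputable section

namespace Crest.Agent.R266

variable {E F : Type*} [NormedAddCommGroup E] [NormedSpace ℂ E] [NormedAddCommGroup F]
  [NormedSpace ℂ F] [CompleteSpace F]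

/-- Picard iteration among bounded holomorphic functions -/
theorem exists_fixed [FiniteDimensional ℂ E] {U : Set E} (hU : IsOpen U) (u₀ : E → F) (r : ℝ)
    (hr : 0 ≤ r) (T : (E → F) → E → F) (h₀ : DifferentiableOn ℂ u₀ U)
    (hT : ∀ u, DifferentiableOn ℂ u U → (∀ x ∈ U, ‖u x - u₀ x‖ ≤ r) →
      DifferentiableOn ℂ (T u) U ∧ ∀ x ∈ U, ‖T u x - u₀ x‖ ≤ r)
    (hc : ∀ u v, DifferentiableOn ℂ u U → (∀ x ∈ U, ‖u x - u₀ x‖ ≤ r) →
      DifferentiableOn ℂ v U → (∀ x ∈ U, ‖v x - u₀ x‖ ≤ r) →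
      ∀ δ : ℝ, (∀ x ∈ U, ‖u x - v x‖ ≤ δ) → ∀ x ∈ U, ‖T u x - T v x‖ ≤ δ / 2) :
    ∃ u, DifferentiableOn ℂ u U ∧ (∀ x ∈ U, ‖u x - u₀ x‖ ≤ r) ∧ ∀ x ∈ U, T u x = u x := by
  have h1 : ∀ k, DifferentiableOn ℂ (T^[k] u₀) U ∧ ∀ x ∈ U, ‖T^[k] u₀ x - u₀ x‖ ≤ r := fun k => by
    induction k with
    | zero => exact ⟨h₀, fun x _ => by simpa using hr⟩
    | succ k ih => rw [Function.iterate_succ_apply']; exact hT _ ih.1 ih.2
  have h2 : ∀ k, ∀ x ∈ U, ‖T^[k] u₀ x - T^[k + 1] u₀ x‖ ≤ 2 * r / 2 / 2 ^ k := fun k => by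
    induction k with
    | zero => exact fun x hx => by simpa [norm_sub_rev] using (h1 1).2 x hx
    | succ k ih =>
      intro x hx
      have := hc _ _ (h1 k).1 (h1 k).2 (h1 (k + 1)).1 (h1 (k + 1)).2 _ ih x hx
      rwa [← Function.iterate_succ_apply' T, ← Function.iterate_succ_apply' T, div_div _ _ 2,
        ← pow_succ] at this
  have h3 : ∀ x ∈ U, Tendsto (fun k => T^[k] u₀ x) atTop (𝓝 (limUnder atTop fun k => T^[k] u₀ x)) :=
    fun x hx => (cauchySeq_of_le_geometric_two fun k => (dist_eq_norm _ _).trans_le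
      (h2 k x hx)).tendsto_limUnder
  have h4 : ∀ k, ∀ x ∈ U, ‖T^[k] u₀ x - limUnder atTop fun k => T^[k] u₀ x‖ ≤ 2 * r / 2 ^ k :=
    fun k x hx => (dist_eq_norm _ _).symm.trans_le (dist_le_of_le_geometric_two_of_tendsto
      (fun k => (dist_eq_norm _ _).trans_le (h2 k x hx)) (h3 x hx) k)
  have h5 : Tendsto (fun k : ℕ => 2 * r / 2 ^ k) atTop (𝓝 0) :=
    tendsto_const_nhds.div_atTop (tendsto_pow_atTop_atTop_of_one_lt one_lt_two)
  have h6 := differentiableOn_of_tendstoUniformlyOn hU (fun k => (h1 k).1)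
    (Metric.tendstoUniformlyOn_iff.2 fun ε hε => (h5.eventually (gt_mem_nhds hε)).mono
      fun k hk x hx => ((dist_eq_norm' _ _).trans_le (h4 k x hx)).trans_lt hk)
  have h7 : ∀ x ∈ U, ‖(limUnder atTop fun k => T^[k] u₀ x) - u₀ x‖ ≤ r := fun x hx =>
    le_of_tendsto' ((h3 x hx).sub_const _).norm fun k => (h1 k).2 x hx
  refine ⟨_, h6, h7, fun x hx => tendsto_nhds_unique ?_ ((h3 x hx).comp (tendsto_add_atTop_nat 1))⟩
  refine tendsto_iff_norm_sub_tendsto_zero.2 (squeeze_zero (fun _ => norm_nonneg _) (fun k => ?_)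
    (by simpa using h5.div_const 2))
  simpa [Function.iterate_succ_apply'] using hc _ _ (h1 k).1 (h1 k).2 h6 h7 _ (h4 k) x hx

end Crest.Agent.R266
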