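import Crest.Agent.R266.Disc

/-!
# Row 266: areas of diagonal discs near a touching point
-/

set_option autoImplicit false
set_option linter.unusedSectionVars false
set_option linter.unusedVariables false

open MeasureTheory Metric Set Filter Topology Complex
open scoped ContDiff Manifold Real
open Crest.AlgGeometry.HolSplit

noncomputable section

namespace Crest.Agent.R266

/-- hypotheses on the tensor `G` on the model domain -/
structure Hyp (G : ℂ × ℂ → Bil (ℂ × ℂ)) (K r₀ C₀ : ℝ) : Prop where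
  K_pos : 0 < K
  r_pos : 0 < r₀
  C_pos : 0 < C₀
  kat : ∀ q ∈ Om K r₀, KAt G q
  angle : ∀ q ∈ Om K r₀, ∀ u v : ℂ, G q (u, 0) (u, 0) + G q (0, v) (0, v) ≤ C₀ * G q (u, v) (u, v)

/-- area of the diagonal disc `z + w = s`, `|z - w| < 2 R` -/
def Ar (G : ℂ × ℂ → Bil (ℂ × ℂ)) (s : ℂ) (R : ℝ) : ℝ := dar G (s / 2, s / 2) (1, -1) R

variable {G : ℂ × ℂ → Bil (ℂ × ℂ)} {K r₀ C₀ : ℝ}

theorem isOpen_Om : IsOpen (Om K r₀) := by
  unfold Om
  refine IsOpen.and ?_ (IsOpen.and ?_ ?_) <;> exact isOpen_lt (by fun_prop) (by fun_prop)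

theorem convex_Om (hK : 0 ≤ K) : Convex ℝ (Om K r₀) := by
  have key : ∀ (x y : ℂ) (a b : ℝ), 0 < a → 0 < b → ‖a • x + b • y‖ ≤ a * ‖x‖ + b * ‖y‖ :=
    fun x y a b ha hb => (norm_add_le _ _).trans_eq (by
      rw [norm_smul, norm_smul, Real.norm_of_nonneg ha.le, Real.norm_of_nonneg hb.le])
  have key2 : ∀ (x y : ℂ) (a b : ℝ), 0 < a → 0 < b → a + b = 1 →
      ‖a • x + b • y‖ ^ 2 ≤ a * ‖x‖ ^ 2 + b * ‖y‖ ^ 2 := fun x y a b ha hb hab => by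
    refine (pow_le_pow_left₀ (norm_nonneg _) (key x y a b ha hb) 2).trans ?_
    obtain rfl : b = 1 - a := by linarith
    nlinarith [mul_nonneg (mul_pos ha hb).le (sq_nonneg (‖x‖ - ‖y‖))]
  refine convex_iff_forall_pos.2 ?_
  rintro q ⟨h1, h2, h3⟩ q' ⟨h1', h2', h3'⟩ a b ha hb hab
  have e : r₀ = a * r₀ + b * r₀ := by rw [← add_mul, hab, one_mul]
  refine ⟨(key q.1 q'.1 a b ha hb).trans_lt (by rw [e]; gcongr),
    (key q.2 q'.2 a b ha hb).trans_lt (by rw [e]; gcongr), ?_⟩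
  have e1 : ((a • q + b • q').1 + (a • q + b • q').2).re =
      a * (q.1 + q.2).re + b * (q'.1 + q'.2).re := by simp; ring
  have i1 := mul_le_mul_of_nonneg_left
    (add_le_add (key2 q.1 q'.1 a b ha hb hab) (key2 q.2 q'.2 a b ha hb hab)) hK
  have i2 := mul_lt_mul_of_pos_left h3 ha
  have i3 := mul_lt_mul_of_pos_left h3' hb
  rw [e1]
  exact i1.trans_lt (by linarith)

/-- speed of propagation -/
theorem Hyp.speed (h : Hyp G K r₀ C₀) {q : ℂ × ℂ} (hq : q ∈ Om K r₀) (s : ℂ) :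
    G q (s / 2, s / 2) (s / 2, s / 2) ≤ (C₀ * ‖s‖ ^ 2) * G q (1, -1) (1, -1) := by
  have k := h.kat q hq
  have h1 := h.angle q hq (s / 2) (-(s / 2))
  have h2 := k.smul_smul (s / 2) (1, -1)
  have h3 := k.nonneg ((s / 2, 0) + (0, -(s / 2)))
  have h4 := k.nonneg (1, -1)
  have e : ((s / 2, s / 2) : ℂ × ℂ) = (s / 2, 0) - (0, -(s / 2)) := by simp
  rw [show (s / 2) • ((1, -1) : ℂ × ℂ) = (s / 2, -(s / 2)) by simp, norm_div, Complex.norm_ofNat] at h2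
  rw [h2] at h1
  rw [e]
  simp only [map_add, map_sub, add_apply, sub_apply] at h3 ⊢
  nlinarith [mul_nonneg (mul_nonneg h.C_pos.le (sq_nonneg ‖s‖)) h4]

/-- a compact part of the model domain -/
def OmC (K y : ℝ) : Set (ℂ × ℂ) :=
  {q | y ≤ (q.1 + q.2).re ∧ (K + 1) * (‖q.1‖ ^ 2 + ‖q.2‖ ^ 2) ≤ 25 / 32 * y}

theorem OmC_subset (hK : 0 < K) (hr : 0 < r₀) {y : ℝ} (h0 : 0 < y) (h1 : y ≤ r₀ ^ 2) :
    OmC K y ⊆ Om K r₀ := by
  rintro q ⟨i1, i2⟩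
  have a := sq_nonneg ‖q.1‖
  have b := sq_nonneg ‖q.2‖
  have c := mul_nonneg hK.le (add_nonneg a b)
  exact ⟨lt_of_pow_lt_pow_left₀ 2 hr.le (by linarith), lt_of_pow_lt_pow_left₀ 2 hr.le (by linarith),
    by linarith⟩

theorem isCompact_OmC (hK : 0 < K) (y : ℝ) : IsCompact (OmC K y) := by
  refine (isCompact_closedBall (0 : ℂ × ℂ) (1 + y)).of_isClosed_subset ?_ ?_
  · unfold OmC
    refine IsClosed.and ?_ ?_ <;> exact isClosed_le (by fun_prop) (by fun_prop)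
  rintro q ⟨-, i2⟩
  have a := sq_nonneg ‖q.1‖
  have b := sq_nonneg ‖q.2‖
  have c := mul_nonneg hK.le (add_nonneg a b)
  rw [mem_closedBall_zero_iff, Prod.norm_def]
  exact max_le (by nlinarith [sq_nonneg (‖q.1‖ - 1)]) (by nlinarith [sq_nonneg (‖q.2‖ - 1)])

theorem mem_OmC (hK : 0 < K) {σ t : ℂ} {R x : ℝ} (hx : 0 < x) (hx' : x ≤ σ.re) (hC : 0 < C₀)
    (h0 : (K + 1) * (1 / 2 + 4 * C₀) * σ.re ≤ 1 / 2) (h1 : σ.im ^ 2 ≤ 1 / (16 * (K + 1)) * x)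
    (h2 : R ^ 2 ≤ 1 / (16 * (K + 1)) * x) (h3 : ‖t‖ ≤ R + √C₀ * (σ.re - x)) (hR : 0 ≤ R) :
    (σ / 2 + t, σ / 2 - t) ∈ OmC K σ.re := by
  refine ⟨by simp, ?_⟩
  have e : ‖σ / 2 + t‖ ^ 2 + ‖σ / 2 - t‖ ^ 2 = (σ.re ^ 2 + σ.im ^ 2) / 2 + 2 * ‖t‖ ^ 2 := by
    simp only [Complex.sq_norm, normSq_apply, add_re, sub_re, add_im, sub_im, div_ofNat_re,
      div_ofNat_im]
    ring
  have hs := Real.sqrt_nonneg C₀
  have i1 : ‖t‖ ≤ R + √C₀ * σ.re := h3.trans (by gcongr; linarith)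
  have i2 : ‖t‖ ^ 2 ≤ 2 * R ^ 2 + 2 * (C₀ * σ.re ^ 2) := by
    refine (pow_le_pow_left₀ (norm_nonneg _) i1 2).trans ?_
    have : (√C₀ * σ.re) ^ 2 = C₀ * σ.re ^ 2 := by rw [mul_pow, Real.sq_sqrt hC.le]
    nlinarith [sq_nonneg (R - √C₀ * σ.re)]
  have i3 : (K + 1) * (1 / (16 * (K + 1)) * x) = x / 16 := by field_simp
  have i4 := mul_le_mul_of_nonneg_left h1 (show 0 ≤ K + 1 by linarith)
  have i5 := mul_le_mul_of_nonneg_left h2 (show 0 ≤ K + 1 by linarith)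
  have i6 := mul_le_mul_of_nonneg_left i2 (show 0 ≤ K + 1 by linarith)
  have i7 := mul_le_mul_of_nonneg_right h0 (show 0 ≤ σ.re by linarith)
  change (K + 1) * (‖σ / 2 + t‖ ^ 2 + ‖σ / 2 - t‖ ^ 2) ≤ _
  rw [e]
  linarith

/-- Step 1: the discs of radius `~ √(Re s)` have bounded area -/
theorem Hyp.area_bound (h : Hyp G K r₀ C₀) :
    ∃ A₀ : ℝ, ∃ σ₀ > 0, ∃ c₁ > 0, ∀ (s : ℂ) (R : ℝ), 0 < s.re → s.re ≤ σ₀ → s.im ^ 2 ≤ c₁ * s.re →
      0 ≤ R → R ^ 2 ≤ c₁ * s.re →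
      (∀ t ∈ closedBall (0 : ℂ) R, (s / 2 + t, s / 2 - t) ∈ Om K r₀) ∧ Ar G s R ≤ A₀ := by
  have hK := h.K_pos
  have hr := h.r_pos
  have hC := h.C_pos
  obtain ⟨σ₀, s0, s1, s2⟩ : ∃ σ₀ : ℝ, 0 < σ₀ ∧ σ₀ ≤ r₀ ^ 2 ∧
      (K + 1) * (1 / 2 + 4 * C₀) * σ₀ ≤ 1 / 2 := by
    refine ⟨min (r₀ ^ 2) (1 / 2 / ((K + 1) * (1 / 2 + 4 * C₀))), by positivity, min_le_left _ _, ?_⟩
    rw [← le_div_iff₀' (by positivity)]
    exact min_le_right _ _
  have s3 : ∀ y, y ≤ σ₀ → (K + 1) * (1 / 2 + 4 * C₀) * y ≤ 1 / 2 := fun y hy =>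
    le_trans (by gcongr) s2
  obtain ⟨M, hM⟩ := (isCompact_OmC hK σ₀).exists_bound_of_continuousOn
    (f := fun q => G q (1, -1) (1, -1)) fun q hq => by
      have := (h.kat q (OmC_subset hK hr s0 s1 hq)).smooth.continuousAt
      exact ContinuousAt.continuousWithinAt (by fun_prop)
  refine ⟨|M| * volume.real (ball (0 : ℂ) (1 + 1 / (16 * (K + 1)) * σ₀ + √C₀ * σ₀)), σ₀, s0,
    1 / (16 * (K + 1)), by positivity, fun s R h0 h1 h2 h3 h4 => ⟨fun t ht => ?_, ?_⟩⟩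
  · exact OmC_subset hK hr h0 (h1.trans s1) (mem_OmC hK h0 le_rfl hC (s3 _ h1) h2 h4
      (by simpa using ht) h3)
  obtain ⟨d, hd⟩ : ∃ d : ℝ, d = σ₀ - s.re := ⟨_, rfl⟩
  have d0 : 0 ≤ d := by linarith
  have hκ : 0 ≤ √C₀ * d := by positivity
  have key := dar_le_of_shrink (G := G) (p := ((s + d) / 2, (s + d) / 2))
    (ν := ((-d : ℂ) / 2, (-d : ℂ) / 2)) (τ := (1, -1)) (R₀ := R + √C₀ * d) (R₁ := -(√C₀ * d))
    (κ := √C₀ * d) (by linarith) (by linarith) hκ le_rfl fun l hl t ht => by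
      have e : (((s + d) / 2, (s + d) / 2) : ℂ × ℂ) + l • ((-d : ℂ) / 2, (-d : ℂ) / 2) +
          t • ((1, -1) : ℂ × ℂ) = ((s + ((1 - l) * d : ℝ)) / 2 + t, (s + ((1 - l) * d : ℝ)) / 2 - t) := by
        ext <;> simp <;> ring
      have l0 : 0 ≤ (1 - l) * d := mul_nonneg (by linarith [hl.2]) d0
      have l1 : (1 - l) * d ≤ d := by nlinarith [hl.1]
      have e1 : (s + ((1 - l) * d : ℝ)).re = s.re + (1 - l) * d := by rw [add_re, ofReal_re]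
      have hq := OmC_subset hK hr (by rw [e1]; linarith) (by rw [e1]; linarith)
        (mem_OmC (σ := s + ((1 - l) * d : ℝ)) (t := t) hK h0 (by rw [e1]; linarith) hC
          (s3 _ (by rw [e1]; linarith)) (by rwa [add_im, ofReal_im, add_zero]) h4
          (by rw [e1]; exact (mem_closedBall_zero_iff.1 ht).trans_eq (by ring)) h3)
      rw [e]
      refine ⟨h.kat _ hq, (h.speed hq (-d)).trans_eq ?_⟩
      rw [mul_pow, Real.sq_sqrt hC.le, norm_neg, Complex.norm_real, Real.norm_of_nonneg d0]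
  rw [show (((s + d) / 2, (s + d) / 2) : ℂ × ℂ) + ((-d : ℂ) / 2, (-d : ℂ) / 2) = (s / 2, s / 2) by
    ext <;> simp <;> ring, add_neg_cancel_right] at key
  refine key.trans ((Real.le_norm_self _).trans ?_)
  unfold dar
  have e1 : (s + d).re = σ₀ := by rw [add_re, ofReal_re]; linarith
  refine (norm_setIntegral_le_of_norm_le_const (μ := (volume : Measure ℂ)) (C := |M|) measure_ball_lt_top
    fun t ht => ?_).trans ?_
  · refine le_trans (hM _ ?_) (le_abs_self _)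
    rw [show (((s + d) / 2, (s + d) / 2) : ℂ × ℂ) + t • ((1, -1) : ℂ × ℂ) =
      ((s + d) / 2 + t, (s + d) / 2 - t) by ext <;> simp [sub_eq_add_neg], ← e1]
    exact mem_OmC hK h0 (by rw [e1]; linarith) hC (s3 _ e1.le) (by rwa [add_im, ofReal_im, add_zero])
      h4 (by rw [e1, ← hd]; exact (mem_ball_zero_iff.1 ht).le) h3
  · have i1 : √C₀ * d ≤ √C₀ * σ₀ := by gcongr; linarith
    have i2 : 1 / (16 * (K + 1)) * s.re ≤ 1 / (16 * (K + 1)) * σ₀ := by gcongr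
    exact mul_le_mul_of_nonneg_left (measureReal_mono (ball_subset_ball
      (by nlinarith [sq_nonneg (R - 1)])) measure_ball_lt_top.ne) (abs_nonneg _)

end Crest.Agent.R266
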