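import Crest.Agent.R266.Pigeon1

/-!
# Row 266: small annuli
-/

set_option autoImplicit false
set_option linter.unusedSectionVars false
set_option linter.unusedVariables false

open MeasureTheory Metric Set Filter Topology Complex
open scoped ContDiff Manifold Real
open Crest.AlgGeometry.HolSplit

noncomputable section

namespace Crest.Agent.R266

variable {G : ℂ × ℂ → Bil (ℂ × ℂ)} {K r₀ C₀ : ℝ}

/-- Step 2: at some scale `ρ` the annuli `ρ < |t| < 2 ρ` have small area -/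
theorem Hyp.small_annulus (h : Hyp G K r₀ C₀) :
    ∃ A₀ : ℝ, ∃ κ > 0, κ ≤ 1 / 8 ∧ ∀ ε > 0, ∃ σ > 0, ∃ ρ > 0, 8 * σ ≤ ρ ∧
      (∀ s : ℂ, σ ≤ s.re → ‖s‖ ≤ 6 * ρ →
        (∀ t ∈ closedBall (0 : ℂ) (3 * ρ), (s / 2 + t, s / 2 - t) ∈ Om K r₀) ∧
          Ar G s (3 * ρ) ≤ A₀) ∧
      ∀ s : ℂ, σ ≤ s.re → ‖s - σ‖ ≤ κ * ρ → Ar G s (2 * ρ) - Ar G s ρ ≤ ε := by
  obtain ⟨A₀, σ₀, hσ₀, c₁, hc₁, hA⟩ := h.area_bound
  have hC := h.C_pos
  have hsq : 0 < √C₀ := Real.sqrt_pos.2 hC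
  refine ⟨A₀, min (1 / 8) (1 / (2 * √C₀)), by positivity, min_le_left _ _, fun ε hε => ?_⟩
  obtain ⟨J, hJ⟩ := exists_nat_gt (A₀ / ε)
  rw [div_lt_iff₀ hε] at hJ
  set T : ℝ := 6 ^ J * 8 with hT
  have hT0 : 0 < T := by positivity
  set σ : ℝ := min (σ₀ / (6 * T)) (c₁ / (36 * T ^ 2)) with hσ
  have hσ0 : 0 < σ := by positivity
  have hσ1 : σ * (6 * T) ≤ σ₀ := (le_div_iff₀ (by positivity)).1 (min_le_left _ _)
  have hσ2 : σ * (36 * T ^ 2) ≤ c₁ := (le_div_iff₀ (by positivity)).1 (min_le_right _ _)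
  have good : ∀ ρ : ℝ, 0 < ρ → ρ ≤ T * σ → ∀ s : ℂ, σ ≤ s.re → ‖s‖ ≤ 6 * ρ → ∀ R : ℝ, 0 ≤ R →
      R ≤ 3 * ρ → (∀ t ∈ closedBall (0 : ℂ) R, (s / 2 + t, s / 2 - t) ∈ Om K r₀) ∧
        Ar G s R ≤ A₀ := by
    intro ρ hρ hρT s hs hs' R hR hR'
    have h1 : s.re ≤ ‖s‖ := Complex.re_le_norm s
    have h2 : |s.im| ≤ ‖s‖ := Complex.abs_im_le_norm s
    have h3 : (6 * ρ) ^ 2 ≤ c₁ * s.re := by
      calc (6 * ρ) ^ 2 ≤ (6 * (T * σ)) ^ 2 := by gcongr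
        _ = σ * (36 * T ^ 2) * σ := by ring
        _ ≤ c₁ * s.re := by gcongr
    refine hA s R (by linarith) (by nlinarith) ?_ hR ?_
    · rw [← sq_abs]
      exact le_trans (pow_le_pow_left₀ (abs_nonneg _) (h2.trans hs') 2) h3
    · exact le_trans (pow_le_pow_left₀ hR (by linarith) 2) h3
  have hnσ : ‖(σ : ℂ)‖ = σ := by rw [Complex.norm_real, Real.norm_eq_abs, abs_of_pos hσ0]
  set a : ℕ → ℝ := fun j => Ar G σ (6 ^ j * 8 * σ / 2) with ha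
  have hpow : ∀ j : ℕ, (1 : ℝ) ≤ 6 ^ j := fun j => one_le_pow₀ (by norm_num)
  have hle : ∀ j ≤ J, (6 : ℝ) ^ j * 8 * σ ≤ T * σ := fun j hj => by
    have : (6 : ℝ) ^ j ≤ 6 ^ J := pow_le_pow_right₀ (by norm_num) hj
    rw [hT]; gcongr
  have h8 : ∀ j : ℕ, 8 * σ ≤ (6 : ℝ) ^ j * 8 * σ := fun j => by
    have := hpow j
    nlinarith
  have pt : ∀ s t : ℂ, ((s / 2, s / 2) : ℂ × ℂ) + t • ((1, -1) : ℂ × ℂ) = (s / 2 + t, s / 2 - t) := by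
    intro s t
    ext <;> simp [sub_eq_add_neg]
  have haJ : a J ≤ A₀ := by
    have := h8 J
    exact (good _ (by positivity) (hle J le_rfl) σ (by simp) (by rw [hnσ]; linarith) _
      (by positivity) (by linarith)).2
  have ha0 : 0 ≤ a 0 := by
    have := h8 0
    refine dar_nonneg fun t ht => ?_
    rw [pt]
    exact h.kat _ ((good _ (by positivity) (hle 0 (Nat.zero_le _)) σ (by simp)
      (by rw [hnσ]; linarith) _ (by positivity) (by linarith)).1 t (ball_subset_closedBall ht))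
  obtain ⟨j, hj, hja⟩ : ∃ j < J, a (j + 1) - a j ≤ ε := by
    by_contra hcon
    push Not at hcon
    have : ∀ i ≤ J, a 0 + i * ε ≤ a i := by
      intro i hi
      induction i with
      | zero => simp
      | succ i ih =>
        have h1 := ih (by omega)
        have h2 := hcon i (by omega)
        push_cast
        linarith
    have := this J le_rfl
    linarith
  set ρ : ℝ := 6 ^ j * 8 * σ with hρ
  have hρ0 : 0 < ρ := by positivity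
  have hρ8 : 8 * σ ≤ ρ := h8 j
  have hρT : ρ ≤ T * σ := hle j hj.le
  refine ⟨σ, hσ0, ρ, hρ0, hρ8, fun s hs hs' => good ρ hρ0 hρT s hs hs' _ (by positivity) le_rfl,
    fun s hs hs' => ?_⟩
  set d : ℂ := s - σ with hd
  have hd1 : ‖d‖ ≤ 1 / 8 * ρ := hs'.trans (mul_le_mul_of_nonneg_right (min_le_left _ _) hρ0.le)
  have hd2 : C₀ * ‖d‖ ^ 2 ≤ (ρ / 2) ^ 2 := by
    have h1 : ‖d‖ ≤ 1 / (2 * √C₀) * ρ :=
      hs'.trans (mul_le_mul_of_nonneg_right (min_le_right _ _) hρ0.le)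
    calc C₀ * ‖d‖ ^ 2 ≤ C₀ * (1 / (2 * √C₀) * ρ) ^ 2 := by gcongr
      _ = C₀ / √C₀ ^ 2 * (ρ / 2) ^ 2 := by field_simp
      _ = (ρ / 2) ^ 2 := by rw [Real.sq_sqrt hC.le, div_self hC.ne', one_mul]
  have key : ∀ l ∈ Icc (0 : ℝ) 1, ∀ t : ℂ, ‖t‖ ≤ 3 * ρ →
      KAt G ((((σ : ℂ) / 2, (σ : ℂ) / 2) : ℂ × ℂ) + l • ((d / 2, d / 2) : ℂ × ℂ) +
        t • ((1, -1) : ℂ × ℂ)) ∧
      G ((((σ : ℂ) / 2, (σ : ℂ) / 2) : ℂ × ℂ) + l • ((d / 2, d / 2) : ℂ × ℂ) +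
          t • ((1, -1) : ℂ × ℂ)) (d / 2, d / 2) (d / 2, d / 2) ≤
        (ρ / 2) ^ 2 * G ((((σ : ℂ) / 2, (σ : ℂ) / 2) : ℂ × ℂ) + l • ((d / 2, d / 2) : ℂ × ℂ) +
          t • ((1, -1) : ℂ × ℂ)) (1, -1) (1, -1) := by
    intro l hl t ht
    have e : (((σ : ℂ) / 2, (σ : ℂ) / 2) : ℂ × ℂ) + l • ((d / 2, d / 2) : ℂ × ℂ) +
        t • ((1, -1) : ℂ × ℂ) = ((σ + l * d) / 2 + t, (σ + l * d) / 2 - t) := by
      ext <;> simp <;> ring
    have h1 : σ ≤ ((σ : ℂ) + l * d).re := by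
      have : 0 ≤ d.re := by simp [hd]; exact hs
      simp only [add_re, ofReal_re, mul_re, ofReal_im, zero_mul, sub_zero]
      have := mul_nonneg hl.1 this
      linarith
    have h2 : ‖(σ : ℂ) + l * d‖ ≤ 6 * ρ := by
      have a1 := norm_add_le (σ : ℂ) (l * d)
      have a2 : ‖(l : ℂ) * d‖ ≤ ‖d‖ := by
        rw [norm_mul, Complex.norm_real, Real.norm_eq_abs, abs_of_nonneg hl.1]
        exact mul_le_of_le_one_left (norm_nonneg _) hl.2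
      rw [hnσ] at a1
      linarith
    have hq := (good ρ hρ0 hρT _ h1 h2 _ (by positivity) le_rfl).1 t (mem_closedBall_zero_iff.2 ht)
    rw [e]
    exact ⟨h.kat _ hq, (h.speed hq d).trans
      (mul_le_mul_of_nonneg_right hd2 ((h.kat _ hq).nonneg _))⟩
  have ep : (((σ : ℂ) / 2, (σ : ℂ) / 2) : ℂ × ℂ) + ((d / 2, d / 2) : ℂ × ℂ) = (s / 2, s / 2) := by
    ext <;> simp [hd] <;> ring
  have b1 := dar_le_of_shrink (G := G) (p := (((σ : ℂ) / 2, (σ : ℂ) / 2) : ℂ × ℂ))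
    (ν := ((d / 2, d / 2) : ℂ × ℂ)) (τ := ((1, -1) : ℂ × ℂ)) (R₀ := 3 * ρ) (R₁ := -ρ) (κ := ρ / 2)
    (by positivity) (by linarith) (by positivity) (by linarith) fun l hl t ht =>
      key l hl t ((mem_closedBall_zero_iff.1 ht).trans (by nlinarith [hl.1]))
  have b2 := dar_le_of_grow (G := G) (p := (((σ : ℂ) / 2, (σ : ℂ) / 2) : ℂ × ℂ))
    (ν := ((d / 2, d / 2) : ℂ × ℂ)) (τ := ((1, -1) : ℂ × ℂ)) (R₀ := ρ / 2) (R₁ := ρ / 2)
    (κ := ρ / 2) (by positivity) (by positivity) le_rfl fun l hl t ht =>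
      key l hl t ((mem_closedBall_zero_iff.1 ht).trans (by nlinarith [hl.2]))
  rw [ep] at b1 b2
  have e1 : 3 * ρ + -ρ = 2 * ρ := by ring
  have e2 : ρ / 2 + ρ / 2 = ρ := by ring
  have e3 : (6 : ℝ) ^ (j + 1) * 8 * σ / 2 = 3 * ρ := by rw [hρ]; ring
  rw [e1] at b1
  rw [e2] at b2
  simp only [ha, e3] at hja
  unfold Ar at hja ⊢
  linarith

end Crest.Agent.R266
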