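/-!
# Row 266: plan of the proofs (no code here)

`T X = E₁ ⊕ E₂`, `P` the projection on `E₁`. A map `F (a,b)` is of *product type* if `∂_a F ∈ E₁`,
`∂_b F ∈ E₂`.

## S0404 (rationally connected ⇒ both summands integrable)
1. (WaveA, Wave, LinODE, SolEx, SolU, SolP, SolT*) For any holomorphic curve `γ` there is a unique
   germ of product type surface `F` near the diagonal with `F (t,t) = γ t` (semilinear system
   `F_ab = Γ(F_a,F_b)`, Picard iteration). Sections `σ` of `γ^*E₁` extend to `b`-parallel sections
   `ξ`, covectors `θ` to `a`-parallel covectors `ϑ` (Bott connections). All is invariant under
   changes of chart and reparametrisation.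
2. (Liou2, Vanish) On a rational curve `S = ϑ (N (ξ, ξ'))` is a section of `O(-1,m)` near the
   diagonal of `P¹ × P¹` if `σ(∞) = 0`; it vanishes.
3. (Proj, PolyLift, LocalEq, SardH, SardZ, Main404) Rational curves have polynomial lifts; by
   Sard's theorem on the spaces of polynomial lifts most points `y` lie on a curve whose polynomial
   variations vanishing at `∞` span `T_y X`. So `N = 0` on a dense set.

## S0405 (Kaehler, integrable ⇒ the universal cover splits)
1. (Frob, PChart, Bridge405, BridgeK) product charts: `PAtlas`, `Kae`.
2. (Goursat) `f` tangent to `E₁` on a ball, `g` tangent to `E₂` on a ball, `f a₀ = g b₀` ⇒ there is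
   a product type map on the product of the balls with slices `f`, `g`. Take the maximal
   bi-star-shaped domain `Dom`; at a first touching point (Touch) a two-dimensional slice of it
   contains `Om = {Re (z+w) > K (|z|²+|w|²)}`. KeyLocal: a product type map on `Om` has a limit at
   `0`. On diagonal discs `z + w = s` the area density controls the whole derivative, so
   `dω = 0` gives finite speed of propagation for areas (Disc). Pigeon*: there are scales with a
   very short diagonal circle and horizontal / vertical discs of bounded area. Discs of bounded
   area have holonomy tubes of uniform size (Lelong, Chain, Tube); the area of a transported disc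
   with tiny boundary is almost constant (Cap); so the map extends to the bidisc (LemmaT2).
3. (Global, Mono, Lift, Band) monodromy gives `m : X' × X' → X'` of product type with
   `m (x,x) = x`; `m (m (x,y), z) = m (x,z) = m (x, m (y,z))`; the factors are the retracts
   `{m (x,x₀) = x}`, `{m (x₀,x) = x}`.
-/
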