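import Crest.Agent.R266.Defs

/-!
# Row 266: homogeneous coordinates: vectors and covectors, algebra
-/

set_option autoImplicit false
set_option linter.unusedSectionVars false
set_option linter.unusedVariables false

open MeasureTheory Metric Set Filter Topology Complex
open scoped ContDiff Manifold Real
open Crest.AlgGeometry.HolSplit

noncomputable section

namespace Crest.Agent.R266

namespace SAtlas
variable {X : Type*} [TopologicalSpace X] {n N : ℕ} (𝒮 : SAtlas X n N)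

variable {𝒮} {p q x : X} {w a : HV N}

theorem c_ne' (hp : x ∈ (𝒮.chart p).source) : 𝒮.c p (𝒮.chart p x) ≠ 0 :=
  𝒮.c_ne p _ ((𝒮.chart p).map_source hp)

/-- the proportionality factor between two local lifts is holomorphic -/
theorem exists_mu (hp : x ∈ (𝒮.chart p).source) (hq : x ∈ (𝒮.chart q).source) :
    ∃ μ : Model n → ℂ, AnalyticAt ℂ μ (𝒮.chart p x) ∧ μ (𝒮.chart p x) ≠ 0 ∧
      ∀ᶠ y in 𝓝 (𝒮.chart p x), 𝒮.c q (𝒮.chart q ((𝒮.chart p).symm y)) = μ y • 𝒮.c p y := by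
  obtain ⟨i, hi⟩ := Function.ne_iff.1 (c_ne' hp)
  have hi' : 𝒮.c p (𝒮.chart p x) i ≠ 0 := hi
  have hx := (𝒮.chart p).left_inv hp
  have h1 : AnalyticAt ℂ (fun y => 𝒮.c p y i) (𝒮.chart p x) :=
    analyticAt_pi_iff.1 (𝒮.c_an p _ ((𝒮.chart p).map_source hp)) i
  have h2 : AnalyticAt ℂ (fun y => 𝒮.c q (𝒮.chart q ((𝒮.chart p).symm y))) (𝒮.chart p x) :=
    AnalyticAt.comp_of_eq (g := 𝒮.c q) (𝒮.c_an q _ ((𝒮.chart q).map_source hq))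
      (𝒮.trans p q x hp hq) (by rw [hx])
  have h3 : ∀ᶠ y in 𝓝 (𝒮.chart p x), 𝒮.c q (𝒮.chart q ((𝒮.chart p).symm y)) =
      (𝒮.c q (𝒮.chart q ((𝒮.chart p).symm y)) i / 𝒮.c p y i) • 𝒮.c p y := by
    have h4 : ∀ᶠ y in 𝓝 (𝒮.chart p x), (𝒮.chart p).symm y ∈ (𝒮.chart q).source :=
      ((𝒮.chart p).continuousAt_symm ((𝒮.chart p).map_source hp)).eventually
        ((𝒮.chart q).open_source.mem_nhds (by rw [hx]; exact hq))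
    filter_upwards [h4, (𝒮.chart p).open_target.mem_nhds ((𝒮.chart p).map_source hp),
      h1.continuousAt.eventually_ne hi'] with y h5 h6 h7
    obtain ⟨μ, hμ⟩ := 𝒮.c_compat p q _ ((𝒮.chart p).map_target h6) h5
    rw [(𝒮.chart p).right_inv h6] at hμ
    rw [hμ, Pi.smul_apply, smul_eq_mul, mul_div_cancel_right₀ _ h7]
  refine ⟨_, (analyticAt_pi_iff.1 h2 i).div h1 hi', fun h0 => ?_, h3⟩
  have h5 := h3.self_of_nhds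
  have h6 : 𝒮.c q (𝒮.chart q ((𝒮.chart p).symm (𝒮.chart p x))) i / 𝒮.c p (𝒮.chart p x) i = 0 := h0
  rw [h6, zero_smul, hx] at h5
  exact c_ne' hq h5

/-- the first order relation between two local lifts -/
theorem exists_rel (hp : x ∈ (𝒮.chart p).source) (hq : x ∈ (𝒮.chart q).source) :
    ∃ μ : ℂ, μ ≠ 0 ∧ 𝒮.c q (𝒮.chart q x) = μ • 𝒮.c p (𝒮.chart p x) ∧ ∀ v, ∃ ν : ℂ,
      fderiv ℂ (𝒮.c q) (𝒮.chart q x) (𝒮.D p q x v) =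
        μ • fderiv ℂ (𝒮.c p) (𝒮.chart p x) v + ν • 𝒮.c p (𝒮.chart p x) := by
  obtain ⟨μ, h1, h2, h3⟩ := exists_mu hp hq
  have hx := (𝒮.chart p).left_inv hp
  refine ⟨_, h2, by simpa only [hx] using h3.self_of_nhds, fun v =>
    ⟨fderiv ℂ μ (𝒮.chart p x) v, ?_⟩⟩
  have h4 : HasFDerivAt (𝒮.c q) (fderiv ℂ (𝒮.c q) (𝒮.chart q x))
      (𝒮.chart q ((𝒮.chart p).symm (𝒮.chart p x))) := by
    rw [hx]
    exact (𝒮.c_an q _ ((𝒮.chart q).map_source hq)).differentiableAt.hasFDerivAt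
  have h5 := h4.comp (𝒮.chart p x) (𝒮.trans p q x hp hq).differentiableAt.hasFDerivAt
  have h6 := h1.differentiableAt.hasFDerivAt.smul
    (𝒮.c_an p _ ((𝒮.chart p).map_source hp)).differentiableAt.hasFDerivAt
  have h7 := (h5.congr_of_eventuallyEq (EventuallyEq.symm h3)).unique h6
  exact congrArg (fun L : Model n →L[ℂ] HV N => L v) h7

theorem on_iff (hp : x ∈ (𝒮.chart p).source) :
    𝒮.On x w ↔ w ≠ 0 ∧ ∃ l : ℂ, w = l • 𝒮.c p (𝒮.chart p x) := by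
  refine and_congr_right fun _ => ⟨fun ⟨l, h⟩ => ?_, fun ⟨l, h⟩ => ?_⟩
  · obtain ⟨μ, hμ⟩ := 𝒮.c_compat p x x hp (𝒮.mem x)
    exact ⟨l * μ, by rw [h, hμ, smul_smul]⟩
  · obtain ⟨μ, hμ⟩ := 𝒮.c_compat x p x (𝒮.mem x) hp
    exact ⟨l * μ, by rw [h, hμ, smul_smul]⟩

theorem tan_trans (hp : x ∈ (𝒮.chart p).source) (hq : x ∈ (𝒮.chart q).source)
    (h : ∃ (v : Model n) (μ : ℂ),
      a = fderiv ℂ (𝒮.c p) (𝒮.chart p x) v + μ • 𝒮.c p (𝒮.chart p x)) :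
    ∃ (v : Model n) (μ : ℂ), a = fderiv ℂ (𝒮.c q) (𝒮.chart q x) v + μ • 𝒮.c q (𝒮.chart q x) := by
  obtain ⟨v, μ, rfl⟩ := h
  obtain ⟨κ, h1, h2, h3⟩ := exists_rel hp hq
  obtain ⟨ν, h4⟩ := h3 v
  refine ⟨κ⁻¹ • 𝒮.D p q x v, (μ - κ⁻¹ * ν) * κ⁻¹, ?_⟩
  rw [map_smul, h4, h2]
  match_scalars <;> field_simp
  ring

theorem tan_iff (hp : x ∈ (𝒮.chart p).source) :
    𝒮.Tan x a ↔ ∃ (v : Model n) (μ : ℂ),
      a = fderiv ℂ (𝒮.c p) (𝒮.chart p x) v + μ • 𝒮.c p (𝒮.chart p x) :=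
  ⟨tan_trans (𝒮.mem x) hp, tan_trans hp (𝒮.mem x)⟩

theorem On.unique {y : X} (h : 𝒮.On x w) (h' : 𝒮.On y w) : x = y := by
  obtain ⟨h0, l, hl⟩ := h
  obtain ⟨-, l', hl'⟩ := h'
  have h1 : l' ≠ 0 := fun e => h0 (by rw [hl', e, zero_smul])
  refine 𝒮.c_inj x y x y (𝒮.mem x) (𝒮.mem y) ⟨l'⁻¹ * l, ?_⟩
  rw [← smul_smul, ← hl, hl', smul_smul, inv_mul_cancel₀ h1, one_smul]

theorem On.smul (h : 𝒮.On x w) {κ : ℂ} (hκ : κ ≠ 0) : 𝒮.On x (κ • w) := by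
  obtain ⟨h0, l, hl⟩ := h
  exact ⟨smul_ne_zero hκ h0, κ * l, by rw [← smul_smul, ← hl]⟩

theorem Tan.smul (h : 𝒮.Tan x a) (κ : ℂ) : 𝒮.Tan x (κ • a) := by
  obtain ⟨v, μ, rfl⟩ := h
  exact ⟨κ • v, κ * μ, by rw [smul_add, map_smul, smul_smul]⟩

theorem Tan.add {b : HV N} (h : 𝒮.Tan x a) (h' : 𝒮.Tan x b) : 𝒮.Tan x (a + b) := by
  obtain ⟨v, μ, rfl⟩ := h
  obtain ⟨v', μ', rfl⟩ := h'
  exact ⟨v + v', μ + μ', by rw [map_add, add_smul]; abel⟩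

theorem tan_zero : 𝒮.Tan x 0 := ⟨0, 0, by simp⟩

theorem lam_eq (hp : x ∈ (𝒮.chart p).source) {l : ℂ} (h : w = l • 𝒮.c p (𝒮.chart p x)) :
    𝒮.lam p x w = l := by
  have h1 : ∃ l : ℂ, w = l • 𝒮.c p (𝒮.chart p x) := ⟨l, h⟩
  rw [lam, dif_pos h1]
  exact smul_left_injective ℂ (c_ne' hp) (h1.choose_spec.symm.trans h)

theorem lam_spec (hp : x ∈ (𝒮.chart p).source) (h : 𝒮.On x w) :
    𝒮.lam p x w ≠ 0 ∧ w = 𝒮.lam p x w • 𝒮.c p (𝒮.chart p x) := by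
  obtain ⟨h0, l, hl⟩ := (on_iff hp).1 h
  rw [lam_eq hp hl]
  exact ⟨fun e => h0 (by rw [hl, e, zero_smul]), hl⟩

theorem vec_eq (hp : x ∈ (𝒮.chart p).source) (h : 𝒮.On x w) {v : Model n} {μ : ℂ}
    (ha : a = 𝒮.lam p x w • fderiv ℂ (𝒮.c p) (𝒮.chart p x) v + μ • 𝒮.c p (𝒮.chart p x)) :
    𝒮.vec p x w a = v := by
  have h1 : ∃ (v : Model n) (μ : ℂ), a = 𝒮.lam p x w • fderiv ℂ (𝒮.c p) (𝒮.chart p x) v
      + μ • 𝒮.c p (𝒮.chart p x) := ⟨v, μ, ha⟩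
  rw [vec, dif_pos h1]
  obtain ⟨μ', h2⟩ := h1.choose_spec
  generalize h1.choose = v' at h2
  have h3 := (lam_spec hp h).1
  refine sub_eq_zero.1 (𝒮.c_imm p _ ((𝒮.chart p).map_source hp) _
    ⟨(𝒮.lam p x w)⁻¹ * (μ - μ'), ?_⟩)
  refine smul_right_injective _ h3 ?_
  simp only [map_sub, smul_sub, smul_smul, mul_inv_cancel_left₀ h3, sub_smul]
  rw [sub_eq_sub_iff_add_eq_add, ← h2, add_comm, ← ha]

theorem vec_spec (hp : x ∈ (𝒮.chart p).source) (h : 𝒮.On x w) (ha : 𝒮.Tan x a) :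
    ∃ μ : ℂ, a = 𝒮.lam p x w • fderiv ℂ (𝒮.c p) (𝒮.chart p x) (𝒮.vec p x w a)
      + μ • 𝒮.c p (𝒮.chart p x) := by
  obtain ⟨v, μ, h1⟩ := (tan_iff hp).1 ha
  have h2 : a = 𝒮.lam p x w • fderiv ℂ (𝒮.c p) (𝒮.chart p x) ((𝒮.lam p x w)⁻¹ • v)
      + μ • 𝒮.c p (𝒮.chart p x) := by
    rw [map_smul, smul_smul, mul_inv_cancel₀ (lam_spec hp h).1, one_smul, h1]
  exact ⟨μ, by rw [vec_eq hp h h2]; exact h2⟩

theorem vec_zero (hp : x ∈ (𝒮.chart p).source) (h : 𝒮.On x w) : 𝒮.vec p x w 0 = 0 :=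
  vec_eq hp h (μ := 0) (by simp)

theorem lam_smul (hp : x ∈ (𝒮.chart p).source) (h : 𝒮.On x w) (κ : ℂ) :
    𝒮.lam p x (κ • w) = κ * 𝒮.lam p x w :=
  lam_eq hp (by rw [← smul_smul, ← (lam_spec hp h).2])

theorem vec_smul (hp : x ∈ (𝒮.chart p).source) (h : 𝒮.On x w) (ha : 𝒮.Tan x a) {κ : ℂ}
    (hκ : κ ≠ 0) : 𝒮.vec p x (κ • w) (κ • a) = 𝒮.vec p x w a := by
  obtain ⟨μ, h1⟩ := vec_spec hp h ha
  refine vec_eq hp (h.smul hκ) (μ := κ * μ) ?_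
  rw [lam_smul hp h, ← smul_smul, ← smul_smul, ← smul_add, ← h1]

theorem cov_smul (hp : x ∈ (𝒮.chart p).source) (h : 𝒮.On x w) (κ : ℂ) (i j : Fin (N + 1)) :
    𝒮.cov p x (κ • w) i j = κ ^ 2 • 𝒮.cov p x w i j := by
  rw [cov, cov, lam_smul hp h, mul_pow, smul_smul]

theorem vec_chart (hp : x ∈ (𝒮.chart p).source) (hq : x ∈ (𝒮.chart q).source) (h : 𝒮.On x w)
    (ha : 𝒮.Tan x a) : 𝒮.vec q x w a = 𝒮.D p q x (𝒮.vec p x w a) := by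
  obtain ⟨μ, h0⟩ := vec_spec hp h ha
  obtain ⟨κ, h1, h2, h3⟩ := exists_rel hp hq
  obtain ⟨ν, h4⟩ := h3 (𝒮.vec p x w a)
  have h5 : 𝒮.lam p x w = 𝒮.lam q x w * κ :=
    lam_eq hp (by rw [← smul_smul, ← h2, ← (lam_spec hq h).2])
  refine vec_eq hq h (μ := (μ - 𝒮.lam q x w * ν) * κ⁻¹) (h0.trans ?_)
  rw [h4, h2, h5]
  match_scalars <;> field_simp
  ring

theorem cov_apply (i j : Fin (N + 1)) (v : Model n) : 𝒮.cov p x w i j v = 𝒮.lam p x w ^ 2 *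
    (𝒮.c p (𝒮.chart p x) i * fderiv ℂ (𝒮.c p) (𝒮.chart p x) v j
      - 𝒮.c p (𝒮.chart p x) j * fderiv ℂ (𝒮.c p) (𝒮.chart p x) v i) := rfl

theorem cov_chart (hp : x ∈ (𝒮.chart p).source) (hq : x ∈ (𝒮.chart q).source) (h : 𝒮.On x w)
    (i j : Fin (N + 1)) (v : Model n) :
    𝒮.cov p x w i j v = 𝒮.cov q x w i j (𝒮.D p q x v) := by
  obtain ⟨κ, h1, h2, h3⟩ := exists_rel hp hq
  obtain ⟨ν, h4⟩ := h3 v
  have h5 : 𝒮.lam p x w = 𝒮.lam q x w * κ :=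
    lam_eq hp (by rw [← smul_smul, ← h2, ← (lam_spec hq h).2])
  rw [cov_apply, cov_apply, h4, h2, h5]
  simp only [Pi.add_apply, Pi.smul_apply, smul_eq_mul]
  ring

theorem eq_zero_of_cov (hp : x ∈ (𝒮.chart p).source) (h : 𝒮.On x w) {v : Model n}
    (hv : ∀ i j, 𝒮.cov p x w i j v = 0) : v = 0 := by
  obtain ⟨i, hi⟩ := Function.ne_iff.1 (c_ne' hp)
  have hi' : 𝒮.c p (𝒮.chart p x) i ≠ 0 := hi
  refine 𝒮.c_imm p _ ((𝒮.chart p).map_source hp) _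
    ⟨fderiv ℂ (𝒮.c p) (𝒮.chart p x) v i / 𝒮.c p (𝒮.chart p x) i, funext fun j => ?_⟩
  have h1 := hv i j
  rw [cov_apply, mul_eq_zero, or_iff_right (pow_ne_zero 2 (lam_spec hp h).1), sub_eq_zero] at h1
  rw [Pi.smul_apply, smul_eq_mul, div_mul_eq_mul_div, eq_div_iff hi', mul_comm, h1, mul_comm]

end SAtlas

end Crest.Agent.R266
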