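import Crest.Agent.R266.Defs

/-!
# Row 266: Sard's theorem for holomorphic maps
-/

set_option autoImplicit false
set_option linter.unusedSectionVars false
set_option linter.unusedVariables false

open MeasureTheory Metric Set Filter Topology Complex
open scoped ContDiff Manifold Real
open Crest.AlgGeometry.HolSplit

noncomputable section

namespace Crest.Agent.R266

namespace SardHAux

variable {E : Type*} [NormedAddCommGroup E] [NormedSpace ℂ E] [FiniteDimensional ℂ E]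
  {V : Type*} [NormedAddCommGroup V] [NormedSpace ℂ V] [FiniteDimensional ℂ V]

/-- bounds for the dimension of images are local -/
theorem dimH_image_le_of_local {f : V → E} {K : Set V} {d : ENNReal}
    (h : ∀ v ∈ K, ∃ t ∈ 𝓝 v, dimH (f '' (t ∩ K)) ≤ d) : dimH (f '' K) ≤ d := by
  have : ProperSpace V := FiniteDimensional.proper ℂ V
  choose! t ht hd using h
  obtain ⟨s, hs, hc, hK⟩ := TopologicalSpace.countable_cover_nhdsWithin
    (f := fun v => t v ∩ K) (s := K) fun v hv =>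
      inter_mem (mem_nhdsWithin_of_mem_nhds (ht v hv)) self_mem_nhdsWithin
  refine (dimH_mono (image_mono hK)).trans ?_
  rw [image_iUnion₂, dimH_bUnion hc]
  exact iSup₂_le fun v hv => hd v (hs hv)

/-- analytic local inverses -/
theorem exists_inverse {φ : V → V} {v : V} (h : AnalyticAt ℂ φ v)
    (h' : HasFDerivAt φ (ContinuousLinearMap.id ℂ V) v) :
    ∃ ψ : V → V, (∀ᶠ x in 𝓝 v, ψ (φ x) = x ∧ AnalyticAt ℂ ψ (φ x) ∧ ∀ᶠ y in 𝓝 (φ x), φ (ψ y) = y) := by
  have : CompleteSpace V := FiniteDimensional.complete ℂ V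
  have hs : HasStrictFDerivAt φ ((ContinuousLinearEquiv.refl ℂ V : V ≃L[ℂ] V) : V →L[ℂ] V) v := by
    have := h.hasStrictFDerivAt
    rw [h'.fderiv] at this
    exact this
  refine ⟨hs.localInverse φ _ v, hs.eventually_left_inverse.and (Eventually.and ?_ ?_)⟩
  · have h1 : AnalyticAt ℂ (hs.localInverse φ _ v) (φ v) :=
      (hs.toOpenPartialHomeomorph φ).analyticAt_symm' hs.mem_toOpenPartialHomeomorph_source h
        (i := ContinuousLinearEquiv.refl ℂ V) h'.fderiv
    exact h.continuousAt.eventually h1.eventually_analyticAt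
  · exact h.continuousAt.eventually hs.eventually_right_inverse.eventually_nhds

variable (E V) in
/-- the statement for a fixed source -/
def Sard : Prop := ∀ (f : V → E) (K : Set V), (∀ v ∈ K, AnalyticAt ℂ f v) →
  (∀ v ∈ K, ¬ Function.Surjective (fderiv ℂ f v)) →
  dimH (f '' K) ≤ (2 * Module.finrank ℂ E - 1 : ℕ)

theorem range_fderiv_comp {W : Type*} [NormedAddCommGroup W] [NormedSpace ℂ W] {f : V → E}
    {ψ : W → V} {y : W} (hf : DifferentiableAt ℂ f (ψ y)) (hψ : DifferentiableAt ℂ ψ y) (u : W) :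
    fderiv ℂ (fun z => f (ψ z)) y u = fderiv ℂ f (ψ y) (fderiv ℂ ψ y u) := by
  rw [fderiv_fun_comp y hf hψ]
  rfl

/-- smooth hypersurfaces -/
theorem hyp (IH : ∀ p : Submodule ℂ V, p ≠ ⊤ → Sard E p) {f : V → E} {K : Set V}
    (hf : ∀ v ∈ K, AnalyticAt ℂ f v) (hK : ∀ v ∈ K, ¬ Function.Surjective (fderiv ℂ f v))
    (hg : ∀ v ∈ K, ∃ g : V → ℂ, AnalyticAt ℂ g v ∧ fderiv ℂ g v ≠ 0 ∧ ∀ x ∈ K, g x = 0) :
    dimH (f '' K) ≤ (2 * Module.finrank ℂ E - 1 : ℕ) := by
  refine dimH_image_le_of_local fun v hv => ?_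
  obtain ⟨g, hg, hd, h0⟩ := hg v hv
  set l := fderiv ℂ g v with hl
  obtain ⟨u, hu⟩ : ∃ u, l u = 1 := by
    obtain ⟨u, hu⟩ : ∃ u, l u ≠ 0 := by
      by_contra hc
      push Not at hc
      exact hd (ContinuousLinearMap.ext hc)
    exact ⟨(l u)⁻¹ • u, by rw [map_smul, smul_eq_mul, inv_mul_cancel₀ hu]⟩
  obtain ⟨ψ, hψ⟩ := exists_inverse (φ := fun x => x + (g x - l x) • u) (v := v)
    (analyticAt_id.add ((hg.sub (l.analyticAt v)).smul analyticAt_const)) (by
      have := (hasFDerivAt_id (𝕜 := ℂ) v).add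
        ((hg.differentiableAt.hasFDerivAt.sub l.hasFDerivAt).smul_const u)
      refine this.congr_fderiv ?_
      ext x
      simp [hl])
  have hp : LinearMap.ker (l : V →ₗ[ℂ] ℂ) ≠ ⊤ := fun e => by
    have : u ∈ LinearMap.ker (l : V →ₗ[ℂ] ℂ) := e ▸ Submodule.mem_top
    rw [LinearMap.mem_ker, ContinuousLinearMap.coe_coe, hu] at this
    exact one_ne_zero this
  refine ⟨_, hψ, le_trans (dimH_mono ?_) (IH _ hp (fun z => f (ψ z))
    {z | AnalyticAt ℂ (fun z : LinearMap.ker (l : V →ₗ[ℂ] ℂ) => f (ψ z)) z ∧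
      ¬ Function.Surjective (fderiv ℂ (fun z : LinearMap.ker (l : V →ₗ[ℂ] ℂ) => f (ψ z)) z)}
    (fun z hz => hz.1) fun z hz => hz.2)⟩
  rintro _ ⟨x, ⟨⟨h1, h2, -⟩, hx⟩, rfl⟩
  have h3 : x + (g x - l x) • u ∈ LinearMap.ker (l : V →ₗ[ℂ] ℂ) := by
    simp [LinearMap.mem_ker, hu, h0 x hx]
  have h4 : AnalyticAt ℂ (fun z : LinearMap.ker (l : V →ₗ[ℂ] ℂ) => ψ z) ⟨_, h3⟩ :=
    AnalyticAt.comp (g := ψ) h2 ((LinearMap.ker (l : V →ₗ[ℂ] ℂ)).subtypeL.analyticAt _)
  have h5 : AnalyticAt ℂ f (ψ (x + (g x - l x) • u)) := by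
    rw [h1]
    exact hf x hx
  refine ⟨⟨_, h3⟩, ⟨AnalyticAt.comp (g := f) h5 h4, fun hs => hK x hx fun y => ?_⟩, by
    simp only [h1]⟩
  obtain ⟨w, hw⟩ := hs y
  rw [range_fderiv_comp (ψ := fun z : LinearMap.ker (l : V →ₗ[ℂ] ℂ) => ψ z)
    h5.differentiableAt h4.differentiableAt] at hw
  simp only [h1] at hw
  exact ⟨_, hw⟩

/-- zero sets of non-trivial analytic functions -/
theorem strat (IH : ∀ p : Submodule ℂ V, p ≠ ⊤ → Sard E p) {f : V → E} {K : Set V}
    {Y : Type*} [NormedAddCommGroup Y] [NormedSpace ℂ Y] [CompleteSpace Y] {h : V → Y}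
    (hf : ∀ v ∈ K, AnalyticAt ℂ f v) (hK : ∀ v ∈ K, ¬ Function.Surjective (fderiv ℂ f v))
    (hh : ∀ v ∈ K, AnalyticAt ℂ h v ∧ h v = 0 ∧ ¬ h =ᶠ[𝓝 v] 0) :
    dimH (f '' K) ≤ (2 * Module.finrank ℂ E - 1 : ℕ) := by
  have hc : K ⊆ ⋃ n : ℕ, {v ∈ K | iteratedFDeriv ℂ n h v = 0 ∧ iteratedFDeriv ℂ (n + 1) h v ≠ 0} := by
    intro v hv
    obtain ⟨h1, h2, h3⟩ := hh v hv
    by_contra hn
    simp only [mem_iUnion, mem_ofPred_eq, not_exists, not_and, not_not] at hn
    have h4 : ∀ n, iteratedFDeriv ℂ n h v = 0 := by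
      intro n
      induction n with
      | zero => ext m; simp [h2]
      | succ n ih => exact hn n hv ih
    obtain ⟨p, r, hp⟩ := h1
    apply h3
    filter_upwards [Metric.eball_mem_nhds v hp.r_pos] with y hy
    have h5 := hp.hasSum_iteratedFDeriv (y := y - v) (by
      simpa [edist_eq_enorm_sub] using hy)
    simp only [h4, _root_.zero_apply, smul_zero, add_sub_cancel] at h5
    exact (hasSum_zero.unique h5).symm
  refine (dimH_mono (image_mono hc)).trans ?_
  rw [image_iUnion, dimH_iUnion]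
  refine iSup_le fun n => hyp IH (fun v hv => hf v hv.1) (fun v hv => hK v hv.1) ?_
  rintro v ⟨hv, h0, h1⟩
  obtain ⟨m, hm⟩ : ∃ m, iteratedFDeriv ℂ (n + 1) h v m ≠ 0 := by
    by_contra hc
    push Not at hc
    exact h1 (ContinuousMultilinearMap.ext hc)
  obtain ⟨θ, hθ⟩ := SeparatingDual.exists_ne_zero (R := ℂ) hm
  have ha : AnalyticAt ℂ (iteratedFDeriv ℂ n h) v := by
    obtain ⟨r, hr, h2⟩ := (hh v hv).1.exists_ball_analyticOnNhd
    exact h2.iteratedFDeriv n v (mem_ball_self hr)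
  let T : (V [×n]→L[ℂ] Y) →L[ℂ] ℂ :=
    θ.comp (ContinuousMultilinearMap.apply ℂ (fun _ : Fin n => V) Y (Fin.tail m))
  refine ⟨fun x => T (iteratedFDeriv ℂ n h x), (T.analyticAt _).comp ha, fun e => hθ ?_,
    fun x hx => by simp only [hx.2.1, map_zero]⟩
  have h2 := (T.hasFDerivAt.comp v ha.differentiableAt.hasFDerivAt).fderiv
  have h3 := congrArg (fun A : V →L[ℂ] ℂ => A (m 0)) (h2.symm.trans e)
  rw [iteratedFDeriv_succ_apply_left]
  exact h3

theorem exists_ginv (L : V →L[ℂ] E) : ∃ β : E →L[ℂ] V, ∀ x, L (β (L x)) = L x := by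
  obtain ⟨s, hs⟩ := (L : V →ₗ[ℂ] E).rangeRestrict.exists_rightInverse_of_surjective
    (LinearMap.range_rangeRestrict _)
  obtain ⟨g, hg⟩ := LinearMap.exists_extend s
  refine ⟨LinearMap.toContinuousLinearMap g, fun x => ?_⟩
  have h1 := LinearMap.congr_fun hg ⟨L x, x, rfl⟩
  have h2 := congrArg Subtype.val (LinearMap.congr_fun hs ⟨L x, x, rfl⟩)
  simp only [LinearMap.coe_comp, Function.comp_apply, Submodule.subtype_apply] at h1
  rw [LinearMap.coe_toContinuousLinearMap', h1]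
  exact h2

theorem dimH_analytic_le {W : Type*} [NormedAddCommGroup W] [NormedSpace ℂ W]
    [FiniteDimensional ℂ W] {G : W → E} {S : Set W} (h : ∀ x ∈ S, AnalyticAt ℂ G x) :
    dimH (G '' S) ≤ (2 * Module.finrank ℂ W : ℕ) := by
  have : ProperSpace W := FiniteDimensional.proper ℂ W
  refine (dimH_image_le_of_locally_lipschitzOn fun x hx => ?_).trans
    ((dimH_mono (subset_univ _)).trans ?_)
  · obtain ⟨C, t, ht, hC⟩ := ((h x hx).contDiffAt (n := 1)).exists_lipschitzOnWith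
    exact ⟨C, t, mem_nhdsWithin_of_mem_nhds ht, hC⟩
  · rw [Real.dimH_univ_eq_finrank, finrank_real_of_complex]

/-- maps which are locally constant in the directions of `ker L` -/
theorem const_rank {L : V →L[ℂ] E} (hL : ¬ Function.Surjective L) (β : E →L[ℂ] V) {g : V → E}
    {K : Set V} (hg : ∀ v ∈ K, AnalyticAt ℂ g v)
    (h0 : ∀ v ∈ K, ∀ᶠ y in 𝓝 v, ∀ u, fderiv ℂ g y (u - β (L u)) = 0) :
    dimH (g '' K) ≤ (2 * Module.finrank ℂ E - 1 : ℕ) := by
  refine dimH_image_le_of_local fun p hp => ?_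
  obtain ⟨r, hr, hb⟩ := Metric.eventually_nhds_iff_ball.1
    ((h0 p hp).and (hg p hp).eventually_analyticAt)
  let P : V →L[ℂ] V := ContinuousLinearMap.id ℂ V - β.comp L
  have hP : ∀ u, P u = u - β (L u) := fun u => rfl
  have h1 : ∀ᶠ y in 𝓝 p, y ∈ ball p r ∧ y + P (p - y) ∈ ball p r := by
    refine Eventually.and (ball_mem_nhds p hr) ?_
    have hc : Continuous fun y => y + P (p - y) := by fun_prop
    refine hc.continuousAt.eventually_mem ?_
    simpa using ball_mem_nhds p hr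
  have hlt : Module.finrank ℂ (LinearMap.range (L : V →ₗ[ℂ] E)) < Module.finrank ℂ E :=
    Submodule.finrank_lt fun e => hL (LinearMap.range_eq_top.1 e)
  refine ⟨_, h1, le_trans (dimH_mono ?_) ((dimH_analytic_le
    (G := fun e : LinearMap.range (L : V →ₗ[ℂ] E) => g (β e + P p))
    (S := {e | β e + P p ∈ ball p r}) fun e he => ?_).trans (Nat.cast_le.2 (by omega)))⟩
  · rintro _ ⟨y, ⟨⟨h2, h3⟩, -⟩, rfl⟩
    have h4 : β (L y) + P p = y + P (p - y) := by
      rw [map_sub, hP y]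
      abel
    refine ⟨⟨L y, y, rfl⟩, by simpa only [mem_ofPred_eq, h4] using h3, ?_⟩
    simp only [h4]
    have hd : ∀ z, y + P z ∈ ball p r → HasFDerivAt (fun z => g (y + P z)) (0 : V →L[ℂ] E) z := by
      intro z hz
      have := (hb _ hz).2.differentiableAt.hasFDerivAt.comp z (P.hasFDerivAt.const_add y)
      refine this.congr_fderiv ?_
      ext u
      exact (hb _ hz).1 u
    have hcv : Convex ℝ {z | y + P z ∈ ball p r} := by
      have := ((convex_ball p r).translate_preimage_right y).linear_preimage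
        ((P : V →ₗ[ℂ] V).restrictScalars ℝ)
      exact this
    have := hcv.is_const_of_fderivWithin_eq_zero (𝕜 := ℂ) (f := fun z => g (y + P z))
      (fun z hz => (hd z hz).differentiableAt.differentiableWithinAt)
      (fun z hz => by
        have ho : IsOpen {z | y + P z ∈ ball p r} :=
          isOpen_ball.preimage (f := fun z => y + P z) (by fun_prop)
        rw [fderivWithin_of_isOpen ho hz, (hd z hz).fderiv])
      (x := p - y) (y := 0) h3 (by simpa using h2)
    simpa using this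
  · refine AnalyticAt.comp (g := g) (hb _ he).2 ?_
    exact ((β.comp (LinearMap.range (L : V →ₗ[ℂ] E)).subtypeL).analyticAt e).add analyticAt_const

theorem ker_eq {L A : V →L[ℂ] E} {B : E →L[ℂ] E} (h : ∀ u, B (A u) = L u)
    (hr : Module.finrank ℂ (LinearMap.range (A : V →ₗ[ℂ] E)) ≤
      Module.finrank ℂ (LinearMap.range (L : V →ₗ[ℂ] E))) {u : V} (hu : L u = 0) : A u = 0 := by
  have h1 : LinearMap.ker (A : V →ₗ[ℂ] E) ≤ LinearMap.ker (L : V →ₗ[ℂ] E) := fun x hx => by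
    rw [LinearMap.mem_ker, ContinuousLinearMap.coe_coe] at hx ⊢
    rw [← h, hx, map_zero]
  have h2 := LinearMap.finrank_range_add_finrank_ker (A : V →ₗ[ℂ] E)
  have h3 := LinearMap.finrank_range_add_finrank_ker (L : V →ₗ[ℂ] E)
  have h4 := Submodule.eq_of_le_of_finrank_le h1 (by omega)
  have h5 : u ∈ LinearMap.ker (A : V →ₗ[ℂ] E) := h4 ▸ hu
  exact h5

theorem step (IH : ∀ p : Submodule ℂ V, p ≠ ⊤ → Sard E p) : Sard E V := by
  intro f K hf hK
  have : CompleteSpace E := FiniteDimensional.complete ℂ E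
  have hc : K ⊆ ⋃ ρ : ℕ,
      {v ∈ K | Module.finrank ℂ (LinearMap.range (fderiv ℂ f v : V →ₗ[ℂ] E)) = ρ} :=
    fun v hv => mem_iUnion.2 ⟨_, hv, rfl⟩
  refine (dimH_mono (image_mono hc)).trans ?_
  rw [image_iUnion, dimH_iUnion]
  refine iSup_le fun ρ => dimH_image_le_of_local ?_
  rintro v ⟨hv, hρ⟩
  set L := fderiv ℂ f v with hL
  obtain ⟨β, hβ⟩ := exists_ginv L
  have hφ : ∀ x, AnalyticAt ℂ f x → AnalyticAt ℂ (fun x => β (f x) + (x - β (L x))) x :=
    fun x hx => ((β.analyticAt _).comp hx).add (analyticAt_id.sub ((β.comp L).analyticAt x))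
  obtain ⟨ψ, hψ⟩ := exists_inverse (φ := fun x => β (f x) + (x - β (L x))) (v := v)
    (hφ v (hf v hv)) (by
      have := (β.hasFDerivAt.comp v (hf v hv).differentiableAt.hasFDerivAt).add
        ((hasFDerivAt_id (𝕜 := ℂ) v).sub (β.comp L).hasFDerivAt)
      refine this.congr_fderiv ?_
      ext x
      simp [hL])
  let g : V → E := fun y => f (ψ y)
  let h : V → V →L[ℂ] E := fun y => (fderiv ℂ g y).comp (ContinuousLinearMap.id ℂ V - β.comp L)
  let K' : Set V := {y | AnalyticAt ℂ g y ∧ ¬ Function.Surjective (fderiv ℂ g y) ∧ h y = 0}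
  have hsub : K' ⊆ {y ∈ K' | h =ᶠ[𝓝 y] 0} ∪ {y ∈ K' | ¬ h =ᶠ[𝓝 y] 0} := fun y hy => by
    by_cases e : h =ᶠ[𝓝 y] 0
    · exact Or.inl ⟨hy, e⟩
    · exact Or.inr ⟨hy, e⟩
  have hK' : dimH (g '' K') ≤ (2 * Module.finrank ℂ E - 1 : ℕ) := by
    refine (dimH_mono (image_mono hsub)).trans ?_
    rw [image_union, dimH_union]
    refine max_le (const_rank (hK v hv) β (fun y hy => hy.1.1) fun y hy => ?_)
      (strat IH (h := h) (fun y hy => hy.1.1) (fun y hy => hy.1.2.1) fun y hy =>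
        ⟨?_, hy.1.2.2, hy.2⟩)
    · filter_upwards [hy.2] with z hz u
      exact congrArg (fun A : V →L[ℂ] E => A u) hz
    · exact (((ContinuousLinearMap.compL ℂ V V E).flip
        (ContinuousLinearMap.id ℂ V - β.comp L)).analyticAt _).comp hy.1.1.fderiv
  refine ⟨_, hψ, le_trans (dimH_mono ?_) hK'⟩
  rintro _ ⟨x, ⟨⟨h1, h2, h3⟩, hx, hxρ⟩, rfl⟩
  have h4 : AnalyticAt ℂ f (ψ (β (f x) + (x - β (L x)))) := by
    rw [h1]
    exact hf x hx
  have h5 : AnalyticAt ℂ g (β (f x) + (x - β (L x))) := AnalyticAt.comp (g := f) h4 h2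
  have h6 : ∀ u, fderiv ℂ g (β (f x) + (x - β (L x))) u =
      fderiv ℂ f x (fderiv ℂ ψ (β (f x) + (x - β (L x))) u) := fun u => by
    have := range_fderiv_comp h4.differentiableAt h2.differentiableAt u
    rw [h1] at this
    exact this
  refine ⟨β (f x) + (x - β (L x)), ⟨h5, fun hs => hK x hx fun y => ?_, ?_⟩, by simp only [g, h1]⟩
  · obtain ⟨w, hw⟩ := hs y
    exact ⟨_, (h6 w).symm.trans hw⟩
  · have h7 : (fun y => (L.comp β) (g y)) =ᶠ[𝓝 (β (f x) + (x - β (L x)))] L := by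
      filter_upwards [h3] with y hy
      have := congrArg L hy
      simpa [hβ, g] using this
    have h8 := ((L.comp β).hasFDerivAt.comp _ h5.differentiableAt.hasFDerivAt).fderiv.symm.trans
      (h7.fderiv_eq.trans L.fderiv)
    ext u
    refine ker_eq (L := L) (B := L.comp β) (fun u => congrArg (fun A : V →L[ℂ] E => A u) h8) ?_
      (by simp [hβ])
    rw [hρ, ← hxρ]
    refine Submodule.finrank_mono ?_
    rintro _ ⟨w, rfl⟩
    exact ⟨_, (h6 w).symm⟩

end SardHAux

/-- critical values of a holomorphic map have real codimension at least one -/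
theorem dimH_crit_le {E : Type*} [NormedAddCommGroup E] [NormedSpace ℂ E] [FiniteDimensional ℂ E]
    (k : ℕ) : ∀ (V : Type) [NormedAddCommGroup V] [NormedSpace ℂ V] [FiniteDimensional ℂ V],
      Module.finrank ℂ V = k → ∀ (f : V → E) (K : Set V), (∀ v ∈ K, AnalyticAt ℂ f v) →
      (∀ v ∈ K, ¬ Function.Surjective (fderiv ℂ f v)) →
      dimH (f '' K) ≤ (2 * Module.finrank ℂ E - 1 : ℕ) := by
  induction k using Nat.strong_induction_on with
  | _ k ih =>
    intro V _ _ _ hk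
    exact SardHAux.step fun p hp => ih _ (hk ▸ Submodule.finrank_lt hp) p rfl

end Crest.Agent.R266
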