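import Crest.Agent.R266.Picard

/-!
# Row 266: integrals along segments, with parameters
-/

set_option autoImplicit false
set_option linter.unusedSectionVars false
set_option linter.unusedVariables false

open MeasureTheory Metric Set Filter Topology Complex
open scoped ContDiff Manifold Real
open Crest.AlgGeometry.HolSplit

noncomputable section

namespace Crest.Agent.R266

variable {Λ V : Type*} [NormedAddCommGroup Λ] [NormedSpace ℂ Λ] [FiniteDimensional ℂ Λ]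
  [NormedAddCommGroup V] [NormedSpace ℂ V] [CompleteSpace V]

/-- `∫_a^b H (l, a, β) dβ` -/
def segB (H : Λ × ℂ × ℂ → V) (q : Λ × ℂ × ℂ) : V :=
  (q.2.2 - q.2.1) • ∫ s in (0 : ℝ)..1, H (q.1, q.2.1, q.2.1 + s * (q.2.2 - q.2.1))

/-- `∫_b^a H (l, α, b) dα` -/
def segA (H : Λ × ℂ × ℂ → V) (q : Λ × ℂ × ℂ) : V :=
  (q.2.1 - q.2.2) • ∫ s in (0 : ℝ)..1, H (q.1, q.2.2 + s * (q.2.1 - q.2.2), q.2.2)

/-- the domain `O × D × D` -/
def Dm (O : Set Λ) (c : ℂ) (R : ℝ) : Set (Λ × ℂ × ℂ) := O ×ˢ ball c R ×ˢ ball c R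

variable {O : Set Λ} {c : ℂ} {R : ℝ} {H H' : Λ × ℂ × ℂ → V}

theorem isOpen_Dm (hO : IsOpen O) : IsOpen (Dm O c R) :=
  hO.prod (isOpen_ball.prod isOpen_ball)

theorem segB_diag (l : Λ) (t : ℂ) : segB H (l, t, t) = 0 := by
  simp [segB]
theorem segA_diag (l : Λ) (t : ℂ) : segA H (l, t, t) = 0 := by
  simp [segA]

namespace Seg

theorem seg_mem {a b : ℂ} (ha : a ∈ ball c R) (hb : b ∈ ball c R) {s : ℝ}
    (hs : s ∈ Icc (0 : ℝ) 1) : a + s * (b - a) ∈ ball c R := by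
  have h := (convex_ball c R).add_smul_sub_mem ha hb hs
  rwa [Complex.real_smul] at h

theorem pt_mem {q : Λ × ℂ × ℂ} (hq : q ∈ Dm O c R) {s : ℝ} (hs : s ∈ Icc (0 : ℝ) 1) :
    (q.1, q.2.1, q.2.1 + s * (q.2.2 - q.2.1)) ∈ Dm O c R :=
  ⟨hq.1, hq.2.1, seg_mem hq.2.1 hq.2.2 hs⟩

/-- exchange of the last two coordinates -/
def sw (q : Λ × ℂ × ℂ) : Λ × ℂ × ℂ := (q.1, q.2.2, q.2.1)

theorem sw_mem {q : Λ × ℂ × ℂ} (hq : q ∈ Dm O c R) : sw q ∈ Dm O c R := ⟨hq.1, hq.2.2, hq.2.1⟩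

theorem differentiable_sw : Differentiable ℂ (sw : Λ × ℂ × ℂ → Λ × ℂ × ℂ) := by
  unfold sw
  fun_prop

theorem segA_eq (H : Λ × ℂ × ℂ → V) (q : Λ × ℂ × ℂ) :
    segA H q = segB (fun r => H (sw r)) (sw q) := rfl

theorem ftc {h g : ℂ → V} (hc : ContinuousOn h (ball c R))
    (hg : ∀ z ∈ ball c R, HasDerivAt g (h z) z) {a b : ℂ} (ha : a ∈ ball c R)
    (hb : b ∈ ball c R) :
    (b - a) • ∫ s in (0 : ℝ)..1, h (a + s * (b - a)) = g b - g a := by
  have h1 : ∀ s ∈ uIcc (0 : ℝ) 1, HasDerivAt (fun s : ℝ => g (a + s * (b - a)))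
      ((b - a) • h (a + s * (b - a))) s := by
    intro s hs
    rw [uIcc_of_le zero_le_one] at hs
    have h2 : HasDerivAt (fun z : ℂ => a + z * (b - a)) (b - a) (s : ℂ) := by
      simpa using ((hasDerivAt_id (s : ℂ)).mul_const (b - a)).const_add a
    have h3 := (hg _ (seg_mem ha hb hs)).scomp (s : ℂ) h2
    have h6 : HasDerivAt (fun t : ℝ => (t : ℂ)) 1 s := Complex.ofRealCLM.hasDerivAt
    have h7 := (h3.hasFDerivAt.restrictScalars ℝ).comp_hasDerivAt s h6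
    simpa [Function.comp_def] using h7
  have h4 : ContinuousOn (fun s : ℝ => h (a + s * (b - a))) (uIcc (0 : ℝ) 1) := by
    rw [uIcc_of_le zero_le_one]
    exact hc.comp (by fun_prop) fun s hs => seg_mem ha hb hs
  have h5 := intervalIntegral.integral_eq_sub_of_hasDerivAt h1
    (h4.const_smul (b - a)).intervalIntegrable
  rw [intervalIntegral.integral_smul] at h5
  simpa using h5

theorem norm_sub_lt {a b : ℂ} (ha : a ∈ ball c R) (hb : b ∈ ball c R) : ‖b - a‖ ≤ 2 * R := by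
  have h1 := mem_ball.1 ha
  have h2 := mem_ball.1 hb
  have h3 := dist_triangle_right b a c
  rw [dist_eq_norm] at h3
  linarith

theorem integrable_seg (hH : ContinuousOn H (Dm O c R)) {q : Λ × ℂ × ℂ} (hq : q ∈ Dm O c R) :
    IntervalIntegrable (fun s : ℝ => H (q.1, q.2.1, q.2.1 + s * (q.2.2 - q.2.1))) volume 0 1 := by
  apply ContinuousOn.intervalIntegrable
  rw [uIcc_of_le zero_le_one]
  exact hH.comp (by fun_prop) fun s hs => pt_mem hq hs

end Seg

open Seg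

theorem differentiableOn_segB (hO : IsOpen O) (hH : DifferentiableOn ℂ H (Dm O c R)) :
    DifferentiableOn ℂ (segB H) (Dm O c R) := by
  have h := differentiableOn_intervalIntegral (U := Dm O c R)
    (G := fun (q : Λ × ℂ × ℂ) (s : ℝ) => H (q.1, q.2.1, q.2.1 + s * (q.2.2 - q.2.1)))
    (isOpen_Dm hO) (hH.continuousOn.comp (by fun_prop) fun p hp => pt_mem hp.1 hp.2)
    (fun t ht => hH.comp (by fun_prop) fun q hq => pt_mem hq ht)
  exact DifferentiableOn.smul (by fun_prop) h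
theorem differentiableOn_segA (hO : IsOpen O) (hH : DifferentiableOn ℂ H (Dm O c R)) :
    DifferentiableOn ℂ (segA H) (Dm O c R) :=
  (differentiableOn_segB (H := fun r => H (sw r)) hO
    (hH.comp differentiable_sw.differentiableOn fun _ hq => sw_mem hq)).comp
    differentiable_sw.differentiableOn fun _ hq => sw_mem hq

theorem Seg.hasDerivAt_segB (hH : DifferentiableOn ℂ H (Dm O c R)) {q : Λ × ℂ × ℂ}
    (hq : q ∈ Dm O c R) : HasDerivAt (fun b => segB H (q.1, q.2.1, b)) (H q) q.2.2 := by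
  have h1 : DifferentiableOn ℂ (fun b => H (q.1, q.2.1, b)) (ball c R) :=
    hH.comp (by fun_prop) fun b hb => ⟨hq.1, hq.2.1, hb⟩
  obtain ⟨g, hg⟩ := h1.isExactOn_ball
  have h2 : HasDerivAt (fun b => g b - g q.2.1) (H q) q.2.2 := (hg _ hq.2.2).sub_const _
  refine h2.congr_of_eventuallyEq ?_
  filter_upwards [isOpen_ball.mem_nhds hq.2.2] with b hb
  exact ftc h1.continuousOn hg hq.2.1 hb

theorem fderiv_segB (hO : IsOpen O) (hH : DifferentiableOn ℂ H (Dm O c R)) {q : Λ × ℂ × ℂ}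
    (hq : q ∈ Dm O c R) : fderiv ℂ (segB H) q (0, 0, 1) = H q := by
  have h1 := ((differentiableOn_segB hO hH).differentiableAt
    ((isOpen_Dm hO).mem_nhds hq)).hasFDerivAt
  have h2 : HasDerivAt (fun b : ℂ => ((q.1, q.2.1, b) : Λ × ℂ × ℂ)) (0, 0, 1) q.2.2 :=
    (hasDerivAt_const _ _).prodMk ((hasDerivAt_const _ _).prodMk (hasDerivAt_id _))
  exact (HasFDerivAt.comp_hasDerivAt (x := q.2.2) (l := segB H) h1 h2).unique
    (Seg.hasDerivAt_segB hH hq)
theorem fderiv_segA (hO : IsOpen O) (hH : DifferentiableOn ℂ H (Dm O c R)) {q : Λ × ℂ × ℂ}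
    (hq : q ∈ Dm O c R) : fderiv ℂ (segA H) q (0, 1, 0) = H q := by
  have h1 := ((differentiableOn_segA hO hH).differentiableAt
    ((isOpen_Dm hO).mem_nhds hq)).hasFDerivAt
  have h2 : HasDerivAt (fun a : ℂ => ((q.1, a, q.2.2) : Λ × ℂ × ℂ)) (0, 1, 0) q.2.1 :=
    (hasDerivAt_const _ _).prodMk ((hasDerivAt_id _).prodMk (hasDerivAt_const _ _))
  have h3 := Seg.hasDerivAt_segB (H := fun r => H (sw r))
    (hH.comp differentiable_sw.differentiableOn fun _ hq => sw_mem hq) (sw_mem hq)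
  exact (HasFDerivAt.comp_hasDerivAt (x := q.2.1) (l := segA H) h1 h2).unique h3

theorem norm_segB_le {C : ℝ} (hC : ∀ q ∈ Dm O c R, ‖H q‖ ≤ C) {q : Λ × ℂ × ℂ} (hq : q ∈ Dm O c R) :
    ‖segB H q‖ ≤ 2 * R * C := by
  unfold segB
  rw [norm_smul]
  have h1 := norm_sub_lt hq.2.1 hq.2.2
  have h2 : ‖∫ s in (0 : ℝ)..1, H (q.1, q.2.1, q.2.1 + s * (q.2.2 - q.2.1))‖ ≤ C * |1 - 0| := by
    refine intervalIntegral.norm_integral_le_of_norm_le_const fun s hs => hC _ (pt_mem hq ?_)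
    rw [uIoc_of_le zero_le_one] at hs
    exact Ioc_subset_Icc_self hs
  rw [sub_zero, abs_one, mul_one] at h2
  exact mul_le_mul h1 h2 (norm_nonneg _) ((norm_nonneg _).trans h1)
theorem norm_segA_le {C : ℝ} (hC : ∀ q ∈ Dm O c R, ‖H q‖ ≤ C) {q : Λ × ℂ × ℂ} (hq : q ∈ Dm O c R) :
    ‖segA H q‖ ≤ 2 * R * C :=
  norm_segB_le (H := fun r => H (sw r)) (fun _ hr => hC _ (sw_mem hr)) (sw_mem hq)

theorem norm_segB_sub_le (hH : ContinuousOn H (Dm O c R)) (hH' : ContinuousOn H' (Dm O c R))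
    {C : ℝ} (hC : ∀ q ∈ Dm O c R, ‖H q - H' q‖ ≤ C) {q : Λ × ℂ × ℂ} (hq : q ∈ Dm O c R) :
    ‖segB H q - segB H' q‖ ≤ 2 * R * C := by
  have e : segB H q - segB H' q = segB (fun r => H r - H' r) q := by
    unfold segB
    rw [← smul_sub, intervalIntegral.integral_sub (integrable_seg hH hq) (integrable_seg hH' hq)]
  rw [e]
  exact norm_segB_le hC hq
theorem norm_segA_sub_le (hH : ContinuousOn H (Dm O c R)) (hH' : ContinuousOn H' (Dm O c R))
    {C : ℝ} (hC : ∀ q ∈ Dm O c R, ‖H q - H' q‖ ≤ C) {q : Λ × ℂ × ℂ} (hq : q ∈ Dm O c R) :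
    ‖segA H q - segA H' q‖ ≤ 2 * R * C :=
  norm_segB_sub_le (H := fun r => H (sw r)) (H' := fun r => H' (sw r))
    (hH.comp differentiable_sw.continuous.continuousOn fun _ hr => sw_mem hr)
    (hH'.comp differentiable_sw.continuous.continuousOn fun _ hr => sw_mem hr)
    (fun _ hr => hC _ (sw_mem hr)) (sw_mem hq)

end Crest.Agent.R266
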