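import Crest.Agent.R266.ManC

/-!
# Row 266: a union of plaques is a manifold
-/

set_option autoImplicit false
set_option linter.unusedSectionVars false
set_option linter.unusedVariables false

open MeasureTheory Metric Set Filter Topology Complex
open scoped ContDiff Manifold Real
open Crest.AlgGeometry.HolSplit

noncomputable section

namespace Crest.Agent.R266

namespace PAtlas
variable {n n₁ n₂ : ℕ} {Y : Type} [TopologicalSpace Y] [ChartedSpace (Model n) Y]
  [IsManifold (mI n) ω Y] {𝒜 : PAtlas Y n₁ n₂}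

/-- the chart of a slice -/
theorem slice_chart (𝒜 : PAtlas Y n₁ n₂) (S : Set Y) (a : S)
    (hS : ∀ᶠ x in 𝓝 (a : Y), x ∈ S ↔ (𝒜.chart a x).2 = (𝒜.chart a a).2) :
    ∃ φ : OpenPartialHomeomorph S (Model n₁), a ∈ φ.source ∧
      (∀ x : S, φ x = (𝒜.chart a x).1) ∧ (∀ x ∈ φ.source, (x : Y) ∈ (𝒜.chart a).source) ∧
      ∀ u ∈ φ.target, (u, (𝒜.chart a a).2) ∈ (𝒜.chart a).target ∧
        ((φ.symm u : S) : Y) = (𝒜.chart a).symm (u, (𝒜.chart a a).2) := by
  classical
  set e := 𝒜.chart a with he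
  set c := (e a).2 with hc
  obtain ⟨W, hW, hWo, haW⟩ := _root_.eventually_nhds_iff.1
    (hS.and (e.open_source.mem_nhds (𝒜.mem a)))
  have hpair : ∀ x : S, (x : Y) ∈ W → ((e x).1, c) = e x := fun x hx =>
    Prod.ext rfl ((hW x hx).1.1 x.2).symm
  have hmem : ∀ u : Model n₁, (u, c) ∈ e.target → e.symm (u, c) ∈ W → e.symm (u, c) ∈ S :=
    fun u h1 h2 => (hW _ h2).1.2 (by rw [e.right_inv h1])
  let g : Model n₁ → S := fun u => if h : e.symm (u, c) ∈ S then ⟨_, h⟩ else a
  have hg : ∀ u : Model n₁, (u, c) ∈ e.target → e.symm (u, c) ∈ W →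
      (g u : Y) = e.symm (u, c) := fun u h1 h2 => by
    simp only [g]
    rw [dif_pos (hmem u h1 h2)]
  have hι : Continuous fun u : Model n₁ => ((u, c) : MM n₁ n₂) :=
    continuous_id.prodMk continuous_const
  refine ⟨{ toFun := fun x => (e x).1
            invFun := g
            source := Subtype.val ⁻¹' W
            target := {u | (u, c) ∈ e.target ∧ e.symm (u, c) ∈ W}
            map_source' := fun x hx => ?_
            map_target' := fun u hu => ?_
            left_inv' := fun x hx => ?_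
            right_inv' := fun u hu => ?_
            open_source := hWo.preimage continuous_subtype_val
            open_target := (e.isOpen_inter_preimage_symm hWo).preimage hι
            continuousOn_toFun := ?_
            continuousOn_invFun := ?_ }, haW, fun x => rfl, fun x hx => (hW x hx).2,
          fun u hu => ⟨hu.1, hg u hu.1 hu.2⟩⟩
  · have hx' : (x : Y) ∈ W := hx
    refine ⟨?_, ?_⟩
    · rw [hpair x hx']
      exact e.map_source (hW x hx').2
    · rw [hpair x hx', e.left_inv (hW x hx').2]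
      exact hx'
  · change (g u : Y) ∈ W
    rw [hg u hu.1 hu.2]
    exact hu.2
  · have hx' : (x : Y) ∈ W := hx
    have h1 : ((e x).1, c) ∈ e.target := by
      rw [hpair x hx']
      exact e.map_source (hW x hx').2
    have h2 : e.symm ((e x).1, c) = x := by rw [hpair x hx', e.left_inv (hW x hx').2]
    exact Subtype.ext ((hg _ h1 (h2.symm ▸ hx')).trans h2)
  · rw [hg u hu.1 hu.2, e.right_inv hu.1]
  · exact continuous_fst.comp_continuousOn
      (e.continuousOn.comp continuous_subtype_val.continuousOn fun x hx => (hW x hx).2)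
  · rw [IsInducing.subtypeVal.continuousOn_iff]
    exact (e.continuousOn_symm.comp hι.continuousOn fun u hu => hu.1).congr
      fun u hu => hg u hu.1 hu.2

theorem exists_slice_manifold (hc : 𝒜.Compat n) (S : Set Y)
    (hS : ∀ a ∈ S, ∀ᶠ x in 𝓝 a, x ∈ S ↔ (𝒜.chart a x).2 = (𝒜.chart a a).2) :
    ∃ (_ : ChartedSpace (Model n₁) S) (_ : IsManifold (mI n₁) ω S),
      ContMDiff (mI n₁) (mI n) ω (Subtype.val : S → Y) ∧
      ∀ r : Y → S, ContMDiff (mI n) (mI n) ω (fun x => (r x : Y)) →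
        ContMDiff (mI n) (mI n₁) ω r := by
  choose φ hφa hφ hφs hφt using fun a : S => slice_chart 𝒜 S a (hS a a.2)
  let cs : ChartedSpace (Model n₁) S :=
    { atlas := range φ
      chartAt := φ
      mem_chart_source := hφa
      chart_mem_atlas := fun a => ⟨a, rfl⟩ }
  have hι : ∀ c : Model n₂, ContMDiff 𝓘(ℂ, Model n₁) 𝓘(ℂ, MM n₁ n₂) ω
      fun u : Model n₁ => ((u, c) : MM n₁ n₂) := fun c =>
    contMDiff_iff_contDiff.2 (contDiff_id.prodMk contDiff_const)
  have hfst : ContMDiff 𝓘(ℂ, MM n₁ n₂) 𝓘(ℂ, Model n₁) ω (Prod.fst : MM n₁ n₂ → Model n₁) :=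
    contMDiff_iff_contDiff.2 contDiff_fst
  have hM : IsManifold (mI n₁) ω S := by
    refine isManifold_of_contDiffOn (mI n₁) ω S ?_
    rintro _ _ ⟨a, rfl⟩ ⟨b, rfl⟩
    rw [← contMDiffOn_iff_contDiffOn]
    have h1 : ContMDiffOn 𝓘(ℂ, Model n₁) (mI n) ω
        (fun u : Model n₁ => (𝒜.chart a).symm (u, (𝒜.chart a a).2))
        ((mI n₁).symm ⁻¹' ((φ a).symm ≫ₕ φ b).source ∩ range (mI n₁)) :=
      (hc a).2.comp (hι _).contMDiffOn fun u hu => (hφt a u hu.1.1).1
    have h2 : ContMDiffOn 𝓘(ℂ, Model n₁) 𝓘(ℂ, MM n₁ n₂) ω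
        (fun u : Model n₁ => 𝒜.chart b ((𝒜.chart a).symm (u, (𝒜.chart a a).2)))
        ((mI n₁).symm ⁻¹' ((φ a).symm ≫ₕ φ b).source ∩ range (mI n₁)) :=
      (hc b).1.comp h1 fun u hu => by
        have h3 : (((φ a).symm u : S) : Y) ∈ (𝒜.chart b).source := hφs b _ hu.1.2
        rw [(hφt a u hu.1.1).2] at h3
        exact h3
    refine (hfst.comp_contMDiffOn h2).congr fun u hu => ?_
    change φ b ((φ a).symm u) = _
    rw [hφ b, (hφt a u hu.1.1).2]
    rfl
  refine ⟨cs, hM, fun a => ?_, fun r hr y => ?_⟩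
  · have h1 : ContMDiffAt (mI n₁) 𝓘(ℂ, MM n₁ n₂) ω
        (fun x : S => ((φ a x, (𝒜.chart a a).2) : MM n₁ n₂)) a :=
      ((hι _) _).comp a (manC_chart (n := n₁) a)
    have h2 : ((φ a a, (𝒜.chart a a).2) : MM n₁ n₂) = 𝒜.chart a a := by rw [hφ a a]
    have h3 : ContMDiffAt (mI n₁) (mI n) ω
        ((𝒜.chart a).symm ∘ fun x : S => ((φ a x, (𝒜.chart a a).2) : MM n₁ n₂)) a :=
      ContMDiffAt.comp a (h2 ▸ hc.manC_symm a) h1
    refine h3.congr_of_eventuallyEq ?_
    filter_upwards [(φ a).open_source.mem_nhds (hφa a)] with x hx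
    have h4 := (hφt a _ ((φ a).map_source hx)).2
    rw [(φ a).left_inv hx] at h4
    exact h4
  · have hrc : Continuous r := IsInducing.subtypeVal.continuous_iff.2 hr.continuous
    have h1 : ContMDiffAt (mI n) 𝓘(ℂ, Model n₁) ω
        (fun z => (𝒜.chart (r y) (r z)).1) y :=
      (hfst _).comp y (ContMDiffAt.comp y (hc.manC_chart (r y)) (hr y))
    have h2 : ContMDiffAt (mI n) (mI n₁) ω
        ((φ (r y)).symm ∘ fun z => (𝒜.chart (r y) (r z)).1) y := by
      refine ContMDiffAt.comp y ?_ h1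
      rw [← hφ (r y) (r y)]
      exact manC_chart_symm (n := n₁) (r y)
    refine h2.congr_of_eventuallyEq ?_
    filter_upwards [hrc.continuousAt.preimage_mem_nhds
      ((φ (r y)).open_source.mem_nhds (hφa (r y)))] with z hz
    change r z = (φ (r y)).symm (𝒜.chart (r y) (r z)).1
    rw [← hφ (r y) (r z), (φ (r y)).left_inv hz]

end PAtlas

end Crest.Agent.R266
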