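import Crest.Agent.R266.Wave
import Crest.Agent.R266.LinODE

/-!
# Row 266: existence of solutions of the diagonal Cauchy problem
-/

set_option autoImplicit false
set_option linter.unusedSectionVars false
set_option linter.unusedVariables false

open MeasureTheory Metric Set Filter Topology Complex
open scoped ContDiff Manifold Real
open Crest.AlgGeometry.HolSplit

noncomputable section

namespace Crest.Agent.R266

variable {E : Type*} [NormedAddCommGroup E] [NormedSpace ℂ E] [FiniteDimensional ℂ E]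
  {P : E → E →L[ℂ] E} {F : ℂ × ℂ → E} {t : ℂ}

namespace SolEx
variable {A U V W : Type*} [NormedAddCommGroup A] [NormedSpace ℂ A] [NormedAddCommGroup U]
  [NormedSpace ℂ U] [NormedAddCommGroup V] [NormedSpace ℂ V] [NormedAddCommGroup W]
  [NormedSpace ℂ W] {a : A}

theorem app {L : A → U →L[ℂ] V} {u : A → U} (hL : AnalyticAt ℂ L a) (hu : AnalyticAt ℂ u a) :
    AnalyticAt ℂ (fun r => L r (u r)) a :=
  ((ContinuousLinearMap.id ℂ (U →L[ℂ] V)).analyticAt_bilinear _).comp₂ hL hu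

theorem comp {L : A → V →L[ℂ] W} {K : A → U →L[ℂ] V} (hL : AnalyticAt ℂ L a)
    (hK : AnalyticAt ℂ K a) : AnalyticAt ℂ (fun r => (L r).comp (K r)) a :=
  ((ContinuousLinearMap.compL ℂ U V W).analyticAt_bilinear _).comp₂ hL hK

theorem lin (B : U →L[ℂ] V →L[ℂ] W) {u : A → U} (hu : AnalyticAt ℂ u a) :
    AnalyticAt ℂ (fun r => B (u r)) a := (B.analyticAt _).comp hu

theorem flip {L : A → U →L[ℂ] V →L[ℂ] W} {v : A → V} (hL : AnalyticAt ℂ L a)
    (hv : AnalyticAt ℂ v a) : AnalyticAt ℂ (fun r => (L r).flip (v r)) a := by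
  have h := comp (lin (V := V →L[ℂ] W) (ContinuousLinearMap.apply ℂ W) hv) hL
  exact h

end SolEx

theorem exists_parAt (hP : ProjAt P (F (t, t))) (hF : WaveAt P F (t, t)) {σ : ℂ → E}
    (hσ : AnalyticAt ℂ σ t) :
    ∃ ξ : ℂ × ℂ → E, ParAt P F ξ (t, t) ∧ ∀ᶠ s in 𝓝 t, ξ (s, s) = P (F (s, s)) (σ s) := by
  have := FiniteDimensional.complete ℂ E
  have hPF : AnalyticAt ℂ (fun r => P (F r)) (t, t) := hP.1.comp hF.1
  have hD : AnalyticAt ℂ (fun r => fderiv ℂ P (F r)) (t, t) := hP.1.fderiv.comp hF.1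
  have hv : AnalyticAt ℂ (db F) (t, t) := SolEx.app hF.1.fderiv analyticAt_const
  obtain ⟨η, h1, h2, h3⟩ := exists_linB (L := fun r => -fderiv ℂ P (F r) (db F r) -
      ((fderiv ℂ P (F r)).flip (db F r)).comp (P (F r)))
    ((SolEx.app hD hv).neg.sub (SolEx.comp (SolEx.flip hD hv) hPF)) hσ
  refine ⟨fun r => P (F r) (η r), ⟨SolEx.app hPF h1, ?_⟩, h3.mono fun s hs => congrArg _ hs⟩
  filter_upwards [hF.1.continuousAt.eventually hP.eventually, hF.1.eventually_analyticAt,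
    h1.eventually_analyticAt, hF.2, h2] with r hr a1 a2 hw hr2
  refine ⟨hr.idem _, ?_⟩
  have e1 := (hr.1.differentiableAt.hasFDerivAt.comp r a1.differentiableAt.hasFDerivAt).clm_apply
    a2.differentiableAt.hasFDerivAt
  have e2 : db (fun r => P (F r) (η r)) r =
      P (F r) (db η r) + fderiv ℂ P (F r) (db F r) (η r) := by
    rw [db, show fderiv ℂ (fun r => P (F r) (η r)) r = _ from e1.fderiv]
    rfl
  have e3 := hr.fderiv_idem (P (F r) (η r)) (db F r)
  rw [hw.2, map_zero, zero_add] at e3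
  rw [e2, hr2, map_add, hr.idem]
  simp only [sub_apply, neg_apply, ContinuousLinearMap.comp_apply, ContinuousLinearMap.flip_apply,
    map_sub, map_neg, e3]
  abel

theorem exists_coAt (hP : ProjAt P (F (t, t))) (hF : WaveAt P F (t, t)) {θ : ℂ → E →L[ℂ] ℂ}
    (hθ : AnalyticAt ℂ θ t) :
    ∃ ϑ : ℂ × ℂ → E →L[ℂ] ℂ, CoAt P F ϑ (t, t) ∧
      ∀ᶠ s in 𝓝 t, ∀ X, ϑ (s, s) X = θ s (X - P (F (s, s)) X) := by
  have := FiniteDimensional.complete ℂ E
  have hPF : AnalyticAt ℂ (fun r => coP P (F r)) (t, t) := hP.coP.1.comp hF.1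
  have hD : AnalyticAt ℂ (fun r => fderiv ℂ P (F r)) (t, t) := hP.1.fderiv.comp hF.1
  have hu : AnalyticAt ℂ (da F) (t, t) := SolEx.app hF.1.fderiv analyticAt_const
  obtain ⟨φ, h1, h2, h3⟩ := exists_linA (L := fun r => (ContinuousLinearMap.compL ℂ E E ℂ).flip
      (fderiv ℂ P (F r) (da F r) - (coP P (F r)).comp ((fderiv ℂ P (F r)).flip (da F r))))
    (SolEx.app analyticAt_const
      ((SolEx.app hD hu).sub (SolEx.comp hPF (SolEx.flip hD hu)))) hθ
  refine ⟨fun r => (φ r).comp (coP P (F r)), ⟨SolEx.comp h1 hPF, ?_⟩,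
    h3.mono fun s hs X => by rw [← hs]; rfl⟩
  filter_upwards [hF.1.continuousAt.eventually hP.eventually, hF.1.eventually_analyticAt,
    h1.eventually_analyticAt, h2] with r hr a1 a2 hr2
  refine ⟨fun X => by simp [coP, hr.idem], fun η hη => ?_⟩
  have e1 := a2.differentiableAt.hasFDerivAt.clm_comp
    (hr.coP.1.differentiableAt.hasFDerivAt.comp r a1.differentiableAt.hasFDerivAt)
  have e2 : da (fun r => (φ r).comp (coP P (F r))) r η =
      φ r (fderiv ℂ (coP P) (F r) (da F r) η) + da φ r (coP P (F r) η) := by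
    rw [da, show fderiv ℂ (fun r => (φ r).comp (coP P (F r))) r = _ from e1.fderiv]
    rfl
  rw [e2, hr2, fderiv_coP]
  simp [coP, hη]
  abel

theorem exists_sol {γ σ σ' : ℂ → E} {θ : ℂ → E →L[ℂ] ℂ} (hP : ProjAt P (γ t))
    (hγ : AnalyticAt ℂ γ t) (hσ : AnalyticAt ℂ σ t) (hσ' : AnalyticAt ℂ σ' t)
    (hθ : AnalyticAt ℂ θ t) : ∃ F ξ ξ' ϑ, Sol P γ σ σ' θ t F ξ ξ' ϑ := by
  obtain ⟨F, hF, hd⟩ := exists_waveAt hP hγ
  have hP' : ProjAt P (F (t, t)) := hd.self_of_nhds ▸ hP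
  obtain ⟨ξ, h1, h2⟩ := exists_parAt hP' hF hσ
  obtain ⟨ξ', h3, h4⟩ := exists_parAt hP' hF hσ'
  obtain ⟨ϑ, h5, h6⟩ := exists_coAt hP' hF hθ
  refine ⟨F, ξ, ξ', ϑ, hP, hF, h1, h3, h5, hd, ?_, ?_, ?_⟩
  · filter_upwards [hd, h2] with s e h using e ▸ h
  · filter_upwards [hd, h4] with s e h using e ▸ h
  · filter_upwards [hd, h6] with s e h using e ▸ h

end Crest.Agent.R266
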