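import Crest.Agent.R266.SolU

/-!
# Row 266: elementary properties of solutions
-/

set_option autoImplicit false
set_option linter.unusedSectionVars false
set_option linter.unusedVariables false

open MeasureTheory Metric Set Filter Topology Complex
open scoped ContDiff Manifold Real
open Crest.AlgGeometry.HolSplit

noncomputable section

namespace Crest.Agent.R266

variable {E : Type*} [NormedAddCommGroup E] [NormedSpace ℂ E] [FiniteDimensional ℂ E]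
  {P : E → E →L[ℂ] E} {γ σ σ' : ℂ → E} {θ : ℂ → E →L[ℂ] ℂ} {t : ℂ}
  {F ξ ξ' : ℂ × ℂ → E} {ϑ : ℂ × ℂ → E →L[ℂ] ℂ}

theorem Sol.eventually (h : Sol P γ σ σ' θ t F ξ ξ' ϑ) :
    ∀ᶠ s in 𝓝 t, Sol P γ σ σ' θ s F ξ ξ' ϑ := by
  have : CompleteSpace E := FiniteDimensional.complete ℂ E
  have hd : Tendsto (fun s : ℂ => (s, s)) (𝓝 t) (𝓝 (t, t)) :=
    (by fun_prop : Continuous fun s : ℂ => (s, s)).tendsto t
  have h1 : ∀ᶠ s in 𝓝 t, ProjAt P (F (s, s)) := by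
    have h2 := h.proj
    rw [← h.dF.self_of_nhds] at h2
    exact hd.eventually (h.wave.1.continuousAt.eventually h2.eventually)
  filter_upwards [h1, h.dF, hd.eventually (h.wave.1.eventually_analyticAt.and h.wave.2.eventually_nhds),
    hd.eventually (h.par.1.eventually_analyticAt.and h.par.2.eventually_nhds),
    hd.eventually (h.par'.1.eventually_analyticAt.and h.par'.2.eventually_nhds),
    hd.eventually (h.co.1.eventually_analyticAt.and h.co.2.eventually_nhds),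
    h.dF.eventually_nhds, h.dξ.eventually_nhds, h.dξ'.eventually_nhds, h.dϑ.eventually_nhds]
    with s a1 a2 a3 a4 a5 a6 a7 a8 a9 a10
  exact ⟨a2 ▸ a1, a3, a4, a5, a6, a7, a8, a9, a10⟩

theorem Sol.congr {γ₁ σ₁ σ₁' : ℂ → E} {θ₁ : ℂ → E →L[ℂ] ℂ} (h : Sol P γ σ σ' θ t F ξ ξ' ϑ)
    (hγ : γ₁ =ᶠ[𝓝 t] γ) (hσ : σ₁ =ᶠ[𝓝 t] σ) (hσ' : σ₁' =ᶠ[𝓝 t] σ') (hθ : θ₁ =ᶠ[𝓝 t] θ) :
    Sol P γ₁ σ₁ σ₁' θ₁ t F ξ ξ' ϑ := by
  refine ⟨hγ.eq_of_nhds ▸ h.proj, h.wave, h.par, h.par', h.co, ?_, ?_, ?_, ?_⟩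
  · filter_upwards [h.dF, hγ] with s a1 a2
    rw [a1, a2]
  · filter_upwards [h.dξ, hγ, hσ] with s a1 a2 a3
    rw [a1, a2, a3]
  · filter_upwards [h.dξ', hγ, hσ'] with s a1 a2 a3
    rw [a1, a2, a3]
  · filter_upwards [h.dϑ, hγ, hθ] with s a1 a2 a3 X
    rw [a1, a2, a3]

theorem Sol.analyticAt (h : Sol P γ σ σ' θ t F ξ ξ' ϑ) :
    AnalyticAt ℂ (Sfun P F ξ ξ' ϑ) (t, t) := by
  have : CompleteSpace E := FiniteDimensional.complete ℂ E
  have h2 := h.proj.1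
  rw [← h.dF.self_of_nhds] at h2
  exact ((ContinuousLinearMap.id ℂ (E →L[ℂ] ℂ)).analyticAt_bilinear _).comp₂ h.co.1
    (analyticAt_Nij h2 h.wave.1 h.par.1 h.par'.1)

theorem Sol.diag (h : Sol P γ σ σ' θ t F ξ ξ' ϑ) :
    Sfun P F ξ ξ' ϑ (t, t) = θ t (Nij P (γ t) (P (γ t) (σ t)) (P (γ t) (σ' t))) := by
  rw [Sfun, h.dϑ.self_of_nhds, h.dF.self_of_nhds, h.dξ.self_of_nhds, h.dξ'.self_of_nhds,
    h.proj.P_Nij, sub_zero]

theorem Sol.zero_line (h : Sol P γ σ σ' θ t F ξ ξ' ϑ) (h0 : σ t = 0) :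
    ∀ᶠ β in 𝓝 t, Sfun P F ξ ξ' ϑ (t, β) = 0 := by
  have : CompleteSpace E := FiniteDimensional.complete ℂ E
  have hl : Tendsto (fun β : ℂ => (t, β)) (𝓝 t) (𝓝 (t, t)) :=
    (by fun_prop : Continuous fun β : ℂ => (t, β)).tendsto t
  have hP := h.proj
  rw [← h.dF.self_of_nhds] at hP
  have hc : ContinuousAt (fun r => 2 * (‖fderiv ℂ P (F r)‖ * ‖db F r‖)) (t, t) :=
    continuousAt_const.mul ((hP.1.fderiv.continuousAt.comp h.wave.1.continuousAt).norm.mul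
      (h.wave.1.fderiv.continuousAt.clm_apply continuousAt_const).norm)
  have hb := hc.eventually (gt_mem_nhds (lt_add_one _))
  have hd := hl.eventually h.par.1.eventually_analyticAt
  have hder : ∀ᶠ β in 𝓝 t, HasDerivAt (fun β => ξ (t, β)) (db ξ (t, β)) β := hd.mono fun β hβ =>
    hβ.differentiableAt.hasFDerivAt.comp_hasDerivAt β
      ((hasDerivAt_const β t).prodMk (hasDerivAt_id β))
  have hz := eventually_zero_of_ode (y := fun β => ξ (t, β)) (t := t)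
    (M := 2 * (‖fderiv ℂ P (F (t, t))‖ * ‖db F (t, t)‖) + 1)
    (hder.mono fun β hβ => hβ.differentiableAt) ?_ ?_
  · filter_upwards [hz] with β hβ
    rw [Sfun, hβ, Nij_zero_left, map_zero]
  · filter_upwards [hder, hl.eventually hb, hl.eventually (ParAt.ode hP h.wave h.par)]
      with β a1 a2 a3
    rw [a1.deriv, a3, Gam]
    refine (norm_sub_le _ _).trans (le_trans ?_ (mul_le_mul_of_nonneg_right a2.le (norm_nonneg _)))
    have b1 := (fderiv ℂ P (F (t, β))).le_opNorm₂ (db F (t, β)) (ξ (t, β))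
    have b2 := (fderiv ℂ P (F (t, β))).le_opNorm₂ (ξ (t, β)) (db F (t, β))
    linarith
  · rw [h.dξ.self_of_nhds, h0, map_zero]

end Crest.Agent.R266
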