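import Crest.Agent.R266.Uniq

/-!
# Row 266: invariance of solutions under changes of coordinates
-/

set_option autoImplicit false
set_option linter.unusedSectionVars false
set_option linter.unusedVariables false

open MeasureTheory Metric Set Filter Topology Complex
open scoped ContDiff Manifold Real
open Crest.AlgGeometry.HolSplit

noncomputable section

namespace Crest.Agent.R266

variable {E : Type*} [NormedAddCommGroup E] [NormedSpace ℂ E] [FiniteDimensional ℂ E]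
  {P P' : E → E →L[ℂ] E} {γ σ σ' : ℂ → E} {θ : ℂ → E →L[ℂ] ℂ} {t : ℂ}
  {F ξ ξ' : ℂ × ℂ → E} {ϑ : ℂ × ℂ → E →L[ℂ] ℂ}

/-- derivative of the compatibility relation `dτ ∘ P = P' ∘ dτ` -/
theorem fderiv_compat {τ : E → E} {y : E} (hP : AnalyticAt ℂ P y) (hP' : AnalyticAt ℂ P' (τ y))
    (hτ : AnalyticAt ℂ τ y)
    (hc : ∀ᶠ z in 𝓝 y, ∀ v, fderiv ℂ τ z (P z v) = P' (τ z) (fderiv ℂ τ z v)) (X v : E) :
    fderiv ℂ (fderiv ℂ τ) y X (P y v) + fderiv ℂ τ y (fderiv ℂ P y X v)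
      = fderiv ℂ P' (τ y) (fderiv ℂ τ y X) (fderiv ℂ τ y v)
        + P' (τ y) (fderiv ℂ (fderiv ℂ τ) y X v) := by
  have : CompleteSpace E := FiniteDimensional.complete ℂ E
  have hτ1 : HasFDerivAt τ (fderiv ℂ τ y) y := hτ.differentiableAt.hasFDerivAt
  have hτ2 : HasFDerivAt (fderiv ℂ τ) (fderiv ℂ (fderiv ℂ τ) y) y :=
    hτ.fderiv.differentiableAt.hasFDerivAt
  have hP1 : HasFDerivAt P (fderiv ℂ P y) y := hP.differentiableAt.hasFDerivAt
  have hP2 : HasFDerivAt (fun z => P' (τ z)) ((fderiv ℂ P' (τ y)).comp (fderiv ℂ τ y)) y :=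
    hP'.differentiableAt.hasFDerivAt.comp y hτ1
  have h1 := hτ2.clm_apply (hP1.clm_apply (hasFDerivAt_const v y))
  have h2 := hP2.clm_apply (hτ2.clm_apply (hasFDerivAt_const v y))
  have he : (fun z => fderiv ℂ τ z (P z v)) =ᶠ[𝓝 y] fun z => P' (τ z) (fderiv ℂ τ z v) := by
    filter_upwards [hc] with z hz using hz v
  have h3 := DFunLike.congr_fun ((h2.congr_of_eventuallyEq he).unique h1) X
  simp only [_root_.add_apply, ContinuousLinearMap.comp_apply,
    ContinuousLinearMap.flip_apply, _root_.zero_apply, map_zero, zero_add] at h3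
  rw [add_comm, ← h3, add_comm]

/-- the O'Neill tensor is a tensor -/
theorem Nij_chart {τ : E → E} {y : E} (hP : ProjAt P y) (hP' : ProjAt P' (τ y))
    (hτ : AnalyticAt ℂ τ y)
    (hc : ∀ᶠ z in 𝓝 y, ∀ v, fderiv ℂ τ z (P z v) = P' (τ z) (fderiv ℂ τ z v)) {u u' : E}
    (hu : P y u = u) (hu' : P y u' = u') :
    Nij P' (τ y) (fderiv ℂ τ y u) (fderiv ℂ τ y u') = fderiv ℂ τ y (Nij P y u u') := by
  have h1 := fderiv_compat hP.1 hP'.1 hτ hc u u'
  have h2 := fderiv_compat hP.1 hP'.1 hτ hc u' u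
  have hs : fderiv ℂ (fderiv ℂ τ) y u' u = fderiv ℂ (fderiv ℂ τ) y u u' :=
    (hτ.contDiffAt.isSymmSndFDerivAt (n := ω) le_top).eq u' u
  rw [hu'] at h1
  rw [hu, hs] at h2
  have h3 : Gam P' (τ y) (fderiv ℂ τ y u') (fderiv ℂ τ y u) = fderiv ℂ τ y (Gam P y u' u) := by
    unfold Gam
    rw [map_sub]
    have e1 := eq_sub_of_add_eq h1.symm
    have e2 := eq_sub_of_add_eq h2.symm
    rw [e1, e2]
    abel
  unfold Nij
  rw [h3, map_sub, hc.self_of_nhds]

end Crest.Agent.R266
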