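import Crest.Agent.R266.SolT

/-!
# Row 266: change of chart
-/

set_option autoImplicit false
set_option linter.unusedSectionVars false
set_option linter.unusedVariables false

open MeasureTheory Metric Set Filter Topology Complex
open scoped ContDiff Manifold Real
open Crest.AlgGeometry.HolSplit

noncomputable section

namespace Crest.Agent.R266

variable {E : Type*} [NormedAddCommGroup E] [NormedSpace ℂ E] [FiniteDimensional ℂ E]
  {P P' : E → E →L[ℂ] E} {γ σ σ' : ℂ → E} {θ : ℂ → E →L[ℂ] ℂ} {t : ℂ}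
  {F ξ ξ' : ℂ × ℂ → E} {ϑ : ℂ × ℂ → E →L[ℂ] ℂ}

namespace T2

/-- the chart change is good at `y` -/
structure Good (P P' : E → E →L[ℂ] E) (τ τ' : E → E) (y : E) : Prop where
  hP : ProjAt P y
  hP' : ProjAt P' (τ y)
  hτ : AnalyticAt ℂ τ y
  hτ' : AnalyticAt ℂ τ' (τ y)
  hl : ∀ᶠ z in 𝓝 y, τ' (τ z) = z
  hr : ∀ᶠ z in 𝓝 (τ y), τ (τ' z) = z
  hc : ∀ᶠ z in 𝓝 y, ∀ v, fderiv ℂ τ z (P z v) = P' (τ z) (fderiv ℂ τ z v)

variable {τ τ' : E → E} {y : E} {z : ℂ × ℂ}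

theorem projAt_ev (h : ProjAt P y) : ∀ᶠ x in 𝓝 y, ProjAt P x := by
  have : CompleteSpace E := FiniteDimensional.complete ℂ E
  filter_upwards [h.1.eventually_analyticAt, h.2.eventually_nhds] with x h1 h2 using ⟨h1, h2⟩

theorem Good.ev (h : Good P P' τ τ' y) : ∀ᶠ x in 𝓝 y, Good P P' τ τ' x := by
  have : CompleteSpace E := FiniteDimensional.complete ℂ E
  have c := h.hτ.continuousAt
  filter_upwards [projAt_ev h.hP, c.eventually (projAt_ev h.hP'), h.hτ.eventually_analyticAt,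
    c.eventually h.hτ'.eventually_analyticAt, h.hl.eventually_nhds,
    c.eventually h.hr.eventually_nhds, h.hc.eventually_nhds] with x h1 h2 h3 h4 h5 h6 h7
  exact ⟨h1, h2, h3, h4, h5, h6, h7⟩

theorem Good.l (h : Good P P' τ τ' y) (X : E) : fderiv ℂ τ' (τ y) (fderiv ℂ τ y X) = X := by
  have h1 := (h.hτ'.differentiableAt.hasFDerivAt.comp y h.hτ.differentiableAt.hasFDerivAt).unique
    ((hasFDerivAt_id y).congr_of_eventuallyEq h.hl)
  exact DFunLike.congr_fun h1 X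

theorem Good.r (h : Good P P' τ τ' y) (X : E) : fderiv ℂ τ y (fderiv ℂ τ' (τ y) X) = X := by
  have h0 : HasFDerivAt τ (fderiv ℂ τ y) (τ' (τ y)) := by
    rw [h.hl.self_of_nhds]
    exact h.hτ.differentiableAt.hasFDerivAt
  have h1 := (h0.comp (τ y) h.hτ'.differentiableAt.hasFDerivAt).unique
    ((hasFDerivAt_id (τ y)).congr_of_eventuallyEq h.hr)
  exact DFunLike.congr_fun h1 X

theorem Good.c (h : Good P P' τ τ' y) (v : E) :
    P' (τ y) (fderiv ℂ τ y v) = fderiv ℂ τ y (P y v) := (h.hc.self_of_nhds v).symm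

theorem Good.symm (h : Good P P' τ τ' y) (u v : E) :
    fderiv ℂ (fderiv ℂ τ) y u v = fderiv ℂ (fderiv ℂ τ) y v u :=
  have : CompleteSpace E := FiniteDimensional.complete ℂ E
  (h.hτ.contDiffAt.isSymmSndFDerivAt (n := ω) le_top).eq u v

theorem fderiv_F (h : Good P P' τ τ' (F z)) (hF : AnalyticAt ℂ F z) (w : ℂ × ℂ) :
    fderiv ℂ (fun r => τ (F r)) z w = fderiv ℂ τ (F z) (fderiv ℂ F z w) :=
  DFunLike.congr_fun
    (h.hτ.differentiableAt.hasFDerivAt.comp z hF.differentiableAt.hasFDerivAt).fderiv w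

theorem hasFDerivAt_dτ (h : Good P P' τ τ' (F z)) (hF : AnalyticAt ℂ F z) :
    HasFDerivAt (fun r => fderiv ℂ τ (F r))
      ((fderiv ℂ (fderiv ℂ τ) (F z)).comp (fderiv ℂ F z)) z :=
  have : CompleteSpace E := FiniteDimensional.complete ℂ E
  h.hτ.fderiv.differentiableAt.hasFDerivAt.comp z hF.differentiableAt.hasFDerivAt

theorem wave (h : Good P P' τ τ' (F z)) (hF : WaveAt P F z) :
    WaveAt P' (fun r => τ (F r)) z := by
  have : CompleteSpace E := FiniteDimensional.complete ℂ E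
  refine ⟨h.hτ.comp hF.1, ?_⟩
  filter_upwards [hF.1.continuousAt.eventually h.ev, hF.1.eventually_analyticAt, hF.2]
    with r h1 h2 h3
  simp only [da, db] at h3 ⊢
  rw [fderiv_F h1 h2, fderiv_F h1 h2, h1.c, h1.c, h3.1, h3.2, map_zero]
  exact ⟨rfl, rfl⟩

theorem par (h : Good P P' τ τ' (F z)) (hF : WaveAt P F z) (hξ : ParAt P F ξ z) :
    ParAt P' (fun r => τ (F r)) (fun r => fderiv ℂ τ (F r) (ξ r)) z := by
  have : CompleteSpace E := FiniteDimensional.complete ℂ E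
  refine ⟨((ContinuousLinearMap.id ℂ (E →L[ℂ] E)).analyticAt_bilinear _).comp₂
    (h.hτ.fderiv.comp hF.1) hξ.1, ?_⟩
  filter_upwards [hF.1.continuousAt.eventually h.ev, hF.1.eventually_analyticAt, hF.2,
    hξ.1.eventually_analyticAt, hξ.2] with r h1 h2 h3 h4 h5
  refine ⟨by rw [h1.c, h5.1], ?_⟩
  have h6 := DFunLike.congr_fun
    ((hasFDerivAt_dτ h1 h2).clm_apply h4.differentiableAt.hasFDerivAt).fderiv (0, 1)
  have h7 := fderiv_compat h1.hP.1 h1.hP'.1 h1.hτ h1.hc (ξ r) (db F r)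
  have h8 := congrArg (fderiv ℂ τ (F r)) h5.2
  simp only [_root_.add_apply, ContinuousLinearMap.comp_apply, ContinuousLinearMap.flip_apply]
    at h6
  rw [h3.2, map_zero, zero_add, h1.symm] at h7
  rw [map_add, map_zero, h7, ← h1.c] at h8
  simp only [db] at h8 ⊢
  rw [h6, fderiv_F h1 h2, map_add, ← h8]
  abel

theorem co {ϑ : ℂ × ℂ → E →L[ℂ] ℂ} (h : Good P P' τ τ' (F z)) (hF : WaveAt P F z)
    (hϑ : CoAt P F ϑ z) :
    CoAt P' (fun r => τ (F r)) (fun r => (ϑ r).comp (fderiv ℂ τ' (τ (F r)))) z := by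
  have : CompleteSpace E := FiniteDimensional.complete ℂ E
  have ha : AnalyticAt ℂ (fun r => (ϑ r).comp (fderiv ℂ τ' (τ (F r)))) z :=
    ((ContinuousLinearMap.compL ℂ E E ℂ).analyticAt_bilinear _).comp₂ hϑ.1
      (h.hτ'.fderiv.comp (f := fun r => τ (F r)) (h.hτ.comp hF.1))
  refine ⟨ha, ?_⟩
  filter_upwards [(hF.1.continuousAt.eventually h.ev).eventually_nhds, hF.1.eventually_analyticAt,
    hF.2, ha.eventually_analyticAt, hϑ.2] with r h0 h2 h3 h4 h5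
  have h1 := h0.self_of_nhds
  have k : ∀ X, ((ϑ r).comp (fderiv ℂ τ' (τ (F r)))) (P' (τ (F r)) X) = 0 := fun X => by
    rw [ContinuousLinearMap.comp_apply, ← h1.r X, h1.c, h1.l, h5.1]
  refine ⟨k, fun η₁ hη₁ => ?_⟩
  obtain ⟨η, rfl⟩ : ∃ η, fderiv ℂ τ (F r) η = η₁ := ⟨_, h1.r η₁⟩
  have hη : P (F r) η = 0 := by rw [← h1.l (P (F r) η), ← h1.c, hη₁, map_zero]
  have he : ϑ =ᶠ[𝓝 r] fun r => ((ϑ r).comp (fderiv ℂ τ' (τ (F r)))).comp (fderiv ℂ τ (F r)) := by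
    filter_upwards [h0] with x hx
    ext X
    simp only [ContinuousLinearMap.comp_apply, hx.l]
  have h6 := DFunLike.congr_fun (DFunLike.congr_fun ((h4.differentiableAt.hasFDerivAt.clm_comp
    (hasFDerivAt_dτ h1 h2)).congr_of_eventuallyEq he).fderiv (1, 0)) η
  have h7 := congrArg ((ϑ r).comp (fderiv ℂ τ' (τ (F r))))
    (fderiv_compat h1.hP.1 h1.hP'.1 h1.hτ h1.hc η (da F r))
  have h8 := h5.2 η hη
  rw [h3.1, map_add, map_add, k, add_zero, h1.symm, ContinuousLinearMap.comp_apply (ϑ r) _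
    (fderiv ℂ τ (F r) _), h1.l] at h7
  simp only [_root_.add_apply, ContinuousLinearMap.comp_apply, ContinuousLinearMap.flip_apply,
    ContinuousLinearMap.compL_apply, da] at h6 h7 h8 ⊢
  rw [fderiv_F h1 h2]
  linear_combination h8 - h6 - h7

end T2

open T2

theorem Sol.chart {τ τ' : E → E} {γ₁ σ₁ σ₁' : ℂ → E} {θ₁ : ℂ → E →L[ℂ] ℂ}
    (h : Sol P γ σ σ' θ t F ξ ξ' ϑ) (hP' : ProjAt P' (τ (γ t)))
    (hτ : AnalyticAt ℂ τ (γ t)) (hτ' : AnalyticAt ℂ τ' (τ (γ t)))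
    (hl : ∀ᶠ z in 𝓝 (γ t), τ' (τ z) = z) (hr : ∀ᶠ z in 𝓝 (τ (γ t)), τ (τ' z) = z)
    (hc : ∀ᶠ z in 𝓝 (γ t), ∀ v, fderiv ℂ τ z (P z v) = P' (τ z) (fderiv ℂ τ z v))
    (hγ : ∀ᶠ s in 𝓝 t, γ₁ s = τ (γ s))
    (hσ : ∀ᶠ s in 𝓝 t, σ₁ s = fderiv ℂ τ (γ s) (σ s))
    (hσ' : ∀ᶠ s in 𝓝 t, σ₁' s = fderiv ℂ τ (γ s) (σ' s))
    (hθ : ∀ᶠ s in 𝓝 t, ∀ X, θ s X = θ₁ s (fderiv ℂ τ (γ s) X)) :
    ∃ F₁ ξ₁ ξ₁' ϑ₁, Sol P' γ₁ σ₁ σ₁' θ₁ t F₁ ξ₁ ξ₁' ϑ₁ ∧
      Sfun P' F₁ ξ₁ ξ₁' ϑ₁ =ᶠ[𝓝 (t, t)] Sfun P F ξ ξ' ϑ := by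
  have h0 : F (t, t) = γ t := h.dF.self_of_nhds
  have g0 : Good P P' τ τ' (F (t, t)) := by
    rw [h0]
    exact ⟨h.proj, hP', hτ, hτ', hl, hr, hc⟩
  have g1 := h.wave.1.continuousAt.eventually g0.ev
  have g2 : ∀ᶠ s in 𝓝 t, Good P P' τ τ' (γ s) := by
    have c : ContinuousAt (fun s : ℂ => (s, s)) t := by fun_prop
    filter_upwards [c.eventually g1, h.dF] with s h1 h2
    rwa [← h2]
  refine ⟨fun r => τ (F r), fun r => fderiv ℂ τ (F r) (ξ r), fun r => fderiv ℂ τ (F r) (ξ' r),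
    fun r => (ϑ r).comp (fderiv ℂ τ' (τ (F r))), ⟨?_, T2.wave g0 h.wave, T2.par g0 h.wave h.par,
      T2.par g0 h.wave h.par', T2.co g0 h.wave h.co, ?_, ?_, ?_, ?_⟩, ?_⟩
  · rwa [hγ.self_of_nhds]
  · filter_upwards [h.dF, hγ] with s h1 h2
    rw [h1, h2]
  · filter_upwards [h.dF, hγ, h.dξ, hσ, g2] with s h1 h2 h3 h4 h5
    rw [h1, h2, h3, h4, h5.c]
  · filter_upwards [h.dF, hγ, h.dξ', hσ', g2] with s h1 h2 h3 h4 h5
    rw [h1, h2, h3, h4, h5.c]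
  · filter_upwards [h.dF, hγ, h.dϑ, hθ, g2] with s h1 h2 h3 h4 h5 X
    rw [ContinuousLinearMap.comp_apply, h1, h2, h3, h4, map_sub, ← h5.c, h5.r]
  · filter_upwards [g1, h.par.2, h.par'.2] with r h1 h2 h3
    simp only [Sfun]
    rw [Nij_chart h1.hP h1.hP' h1.hτ h1.hc h2.1 h3.1, ContinuousLinearMap.comp_apply, h1.l]

end Crest.Agent.R266
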