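import Crest.Agent.R266.Uniq

/-!
# Row 266: reparametrisation
-/

set_option autoImplicit false
set_option linter.unusedSectionVars false
set_option linter.unusedVariables false

open MeasureTheory Metric Set Filter Topology Complex
open scoped ContDiff Manifold Real
open Crest.AlgGeometry.HolSplit

noncomputable section

namespace Crest.Agent.R266

variable {E : Type*} [NormedAddCommGroup E] [NormedSpace ℂ E] [FiniteDimensional ℂ E]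
  {P P' : E → E →L[ℂ] E} {γ σ σ' : ℂ → E} {θ : ℂ → E →L[ℂ] ℂ} {t : ℂ}
  {F ξ ξ' : ℂ × ℂ → E} {ϑ : ℂ × ℂ → E →L[ℂ] ℂ}

namespace T3Aux
variable {V : Type*} [NormedAddCommGroup V] [NormedSpace ℂ V]

theorem hasFDerivAt_pp {φ : ℂ → ℂ} {q : ℂ × ℂ} (h1 : DifferentiableAt ℂ φ q.1)
    (h2 : DifferentiableAt ℂ φ q.2) :
    HasFDerivAt (fun q : ℂ × ℂ => (φ q.1, φ q.2))
      (((fderiv ℂ φ q.1).comp (ContinuousLinearMap.fst ℂ ℂ ℂ)).prod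
        ((fderiv ℂ φ q.2).comp (ContinuousLinearMap.snd ℂ ℂ ℂ))) q :=
  (h1.hasFDerivAt.comp q hasFDerivAt_fst).prodMk (h2.hasFDerivAt.comp q hasFDerivAt_snd)

theorem da_pp {φ : ℂ → ℂ} {G : ℂ × ℂ → V} {q : ℂ × ℂ} (h1 : DifferentiableAt ℂ φ q.1)
    (h2 : DifferentiableAt ℂ φ q.2) (hG : DifferentiableAt ℂ G (φ q.1, φ q.2)) :
    da (fun q : ℂ × ℂ => G (φ q.1, φ q.2)) q = deriv φ q.1 • da G (φ q.1, φ q.2) := by
  have h := (hG.hasFDerivAt.comp q (hasFDerivAt_pp h1 h2)).fderiv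
  unfold da
  rw [show (fun q : ℂ × ℂ => G (φ q.1, φ q.2)) = G ∘ fun q : ℂ × ℂ => (φ q.1, φ q.2) from rfl, h,
    ← map_smul]
  simp

theorem db_pp {φ : ℂ → ℂ} {G : ℂ × ℂ → V} {q : ℂ × ℂ} (h1 : DifferentiableAt ℂ φ q.1)
    (h2 : DifferentiableAt ℂ φ q.2) (hG : DifferentiableAt ℂ G (φ q.1, φ q.2)) :
    db (fun q : ℂ × ℂ => G (φ q.1, φ q.2)) q = deriv φ q.2 • db G (φ q.1, φ q.2) := by
  have h := (hG.hasFDerivAt.comp q (hasFDerivAt_pp h1 h2)).fderiv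
  unfold db
  rw [show (fun q : ℂ × ℂ => G (φ q.1, φ q.2)) = G ∘ fun q : ℂ × ℂ => (φ q.1, φ q.2) from rfl, h,
    ← map_smul]
  simp

theorem analyticAt_pp {φ : ℂ → ℂ} {s₀ : ℂ} (hφ : AnalyticAt ℂ φ s₀) :
    AnalyticAt ℂ (fun q : ℂ × ℂ => (φ q.1, φ q.2)) (s₀, s₀) :=
  (AnalyticAt.comp (g := φ) (f := fun q : ℂ × ℂ => q.1) (x := (s₀, s₀)) hφ analyticAt_fst).prod
    (AnalyticAt.comp (g := φ) (f := fun q : ℂ × ℂ => q.2) (x := (s₀, s₀)) hφ analyticAt_snd)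

theorem analyticAt_comp_pp {φ : ℂ → ℂ} {s₀ : ℂ} (hφ : AnalyticAt ℂ φ s₀) {G : ℂ × ℂ → V}
    (hG : AnalyticAt ℂ G (φ s₀, φ s₀)) :
    AnalyticAt ℂ (fun q : ℂ × ℂ => G (φ q.1, φ q.2)) (s₀, s₀) :=
  AnalyticAt.comp (g := G) (f := fun q : ℂ × ℂ => (φ q.1, φ q.2)) (x := (s₀, s₀)) hG
    (analyticAt_pp hφ)

theorem eventually_dab_pp [CompleteSpace V] {φ : ℂ → ℂ} {s₀ : ℂ} (hφ : AnalyticAt ℂ φ s₀)
    {G : ℂ × ℂ → V} (hG : AnalyticAt ℂ G (φ s₀, φ s₀)) :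
    ∀ᶠ q in 𝓝 ((s₀, s₀) : ℂ × ℂ),
      da (fun q : ℂ × ℂ => G (φ q.1, φ q.2)) q = deriv φ q.1 • da G (φ q.1, φ q.2) ∧
      db (fun q : ℂ × ℂ => G (φ q.1, φ q.2)) q = deriv φ q.2 • db G (φ q.1, φ q.2) := by
  have hT : Tendsto (fun q : ℂ × ℂ => (φ q.1, φ q.2)) (𝓝 (s₀, s₀)) (𝓝 (φ s₀, φ s₀)) :=
    (analyticAt_pp hφ).continuousAt
  have h1 : ∀ᶠ q in 𝓝 ((s₀, s₀) : ℂ × ℂ), AnalyticAt ℂ φ q.1 :=
    (continuous_fst.tendsto (s₀, s₀)).eventually hφ.eventually_analyticAt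
  have h2 : ∀ᶠ q in 𝓝 ((s₀, s₀) : ℂ × ℂ), AnalyticAt ℂ φ q.2 :=
    (continuous_snd.tendsto (s₀, s₀)).eventually hφ.eventually_analyticAt
  filter_upwards [h1, h2, hT.eventually hG.eventually_analyticAt] with q a b c
  exact ⟨da_pp a.differentiableAt b.differentiableAt c.differentiableAt,
    db_pp a.differentiableAt b.differentiableAt c.differentiableAt⟩

theorem da_smul_snd {κ : ℂ → ℂ} {G : ℂ × ℂ → V} {q : ℂ × ℂ} (h : DifferentiableAt ℂ κ q.2)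
    (hG : DifferentiableAt ℂ G q) :
    da (fun q : ℂ × ℂ => κ q.2 • G q) q = κ q.2 • da G q := by
  have h1 : HasFDerivAt (fun q : ℂ × ℂ => κ q.2)
      ((fderiv ℂ κ q.2).comp (ContinuousLinearMap.snd ℂ ℂ ℂ)) q :=
    h.hasFDerivAt.comp q hasFDerivAt_snd
  have h2 := (h1.smul hG.hasFDerivAt).fderiv
  unfold da
  rw [show (fun q : ℂ × ℂ => κ q.2 • G q) = (fun q : ℂ × ℂ => κ q.2) • G from rfl, h2]
  simp

end T3Aux

open T3Aux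

theorem ParAt.reparam_pp {φ : ℂ → ℂ} {s₀ : ℂ} (hφ : AnalyticAt ℂ φ s₀)
    (hF : AnalyticAt ℂ F (φ s₀, φ s₀)) (h : ParAt P F ξ (φ s₀, φ s₀)) :
    ParAt P (fun q => F (φ q.1, φ q.2)) (fun q => ξ (φ q.1, φ q.2)) (s₀, s₀) := by
  have : CompleteSpace E := FiniteDimensional.complete ℂ E
  have hT : Tendsto (fun q : ℂ × ℂ => (φ q.1, φ q.2)) (𝓝 (s₀, s₀)) (𝓝 (φ s₀, φ s₀)) :=
    (analyticAt_pp hφ).continuousAt
  refine ⟨analyticAt_comp_pp hφ h.1, ?_⟩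
  filter_upwards [eventually_dab_pp hφ hF, eventually_dab_pp hφ h.1, hT.eventually h.2]
    with q a b c
  refine ⟨c.1, ?_⟩
  rw [a.2, b.2, map_smul, map_smul, ← smul_add, c.2, smul_zero]

theorem Sol.reparam {φ : ℂ → ℂ} {s₀ : ℂ} (hφ : AnalyticAt ℂ φ s₀)
    (h : Sol P γ σ σ' θ (φ s₀) F ξ ξ' ϑ) :
    Sol P (fun s => γ (φ s)) (fun s => σ (φ s)) (fun s => σ' (φ s)) (fun s => θ (φ s)) s₀
      (fun q => F (φ q.1, φ q.2)) (fun q => ξ (φ q.1, φ q.2)) (fun q => ξ' (φ q.1, φ q.2))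
      (fun q => ϑ (φ q.1, φ q.2)) := by
  have : CompleteSpace E := FiniteDimensional.complete ℂ E
  have hT : Tendsto (fun q : ℂ × ℂ => (φ q.1, φ q.2)) (𝓝 (s₀, s₀)) (𝓝 (φ s₀, φ s₀)) :=
    (analyticAt_pp hφ).continuousAt
  have hT1 : Tendsto φ (𝓝 s₀) (𝓝 (φ s₀)) := hφ.continuousAt
  refine ⟨h.proj, ⟨analyticAt_comp_pp hφ h.wave.1, ?_⟩, h.par.reparam_pp hφ h.wave.1,
    h.par'.reparam_pp hφ h.wave.1, ⟨analyticAt_comp_pp hφ h.co.1, ?_⟩, hT1.eventually h.dF,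
    hT1.eventually h.dξ, hT1.eventually h.dξ', hT1.eventually h.dϑ⟩
  · filter_upwards [eventually_dab_pp hφ h.wave.1, hT.eventually h.wave.2] with q a c
    rw [a.1, a.2, map_smul, map_smul, c.1, c.2, smul_zero]
    exact ⟨rfl, rfl⟩
  · filter_upwards [eventually_dab_pp hφ h.wave.1, eventually_dab_pp hφ h.co.1,
      hT.eventually h.co.2] with q a b c
    refine ⟨c.1, fun η hη => ?_⟩
    rw [a.1, b.1, map_smul, map_smul, smul_apply, c.2 η hη, smul_neg]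

theorem Sol.scale {κ : ℂ → ℂ} (hκ : AnalyticAt ℂ κ t) (h : Sol P γ σ σ' θ t F ξ ξ' ϑ) :
    Sol P γ σ σ' (fun s => κ s • θ s) t F ξ ξ' (fun q => κ q.2 • ϑ q) := by
  have : CompleteSpace E := FiniteDimensional.complete ℂ E
  have hκ2 : AnalyticAt ℂ (fun q : ℂ × ℂ => κ q.2) (t, t) :=
    AnalyticAt.comp (g := κ) (f := fun q : ℂ × ℂ => q.2) (x := (t, t)) hκ analyticAt_snd
  have h2 : ∀ᶠ q in 𝓝 ((t, t) : ℂ × ℂ), AnalyticAt ℂ κ q.2 :=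
    (continuous_snd.tendsto (t, t)).eventually hκ.eventually_analyticAt
  refine ⟨h.proj, h.wave, h.par, h.par', ⟨hκ2.smul h.co.1, ?_⟩, h.dF, h.dξ, h.dξ', ?_⟩
  · filter_upwards [h2, h.co.1.eventually_analyticAt, h.co.2] with q a b c
    refine ⟨fun X => ?_, fun η hη => ?_⟩
    · rw [smul_apply, c.1 X, smul_zero]
    · rw [da_smul_snd a.differentiableAt b.differentiableAt, smul_apply,
        smul_apply, c.2 η hη, smul_neg]
  · filter_upwards [h.dϑ] with s hs X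
    rw [smul_apply, smul_apply, hs X]

end Crest.Agent.R266
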