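import Crest.Agent.R266.KAlg

/-!
# Row 266: Stokes formula for one-parameter families of discs
-/

set_option autoImplicit false
set_option linter.unusedSectionVars false
set_option linter.unusedVariables false

open MeasureTheory Metric Set Filter Topology Complex
open scoped ContDiff Manifold Real
open Crest.AlgGeometry.HolSplit

noncomputable section

namespace Crest.Agent.R266

variable {A : Type*} [NormedAddCommGroup A] [NormedSpace ℝ A] [NormedSpace ℂ A]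
  [IsScalarTower ℝ ℂ A] {G : A → Bil A}

namespace Stk

theorem cont_int {X : Type*} [TopologicalSpace X] {f : X → ℝ → ℝ} (hf : Continuous f.uncurry)
    (a b : ℝ) : Continuous fun x => ∫ t in a..b, f x t :=
  intervalIntegral.continuous_parametric_intervalIntegral_of_continuous' hf a b

theorem swap2 {F : ℝ → ℝ → ℝ} (hF : Continuous F.uncurry) (a b c d : ℝ) :
    ∫ x in a..b, ∫ y in c..d, F x y = ∫ y in c..d, ∫ x in a..b, F x y :=
  intervalIntegral_intervalIntegral_swap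
    ((hF.continuousOn.integrableOn_compact (isCompact_uIcc.prod isCompact_uIcc)).mono_set
      (prod_mono uIoc_subset_uIcc uIoc_subset_uIcc))

theorem sub2 {F H : ℝ → ℝ → ℝ} (hF : Continuous F.uncurry) (hH : Continuous H.uncurry)
    (a b c d : ℝ) : ∫ x in a..b, ∫ y in c..d, (F x y - H x y) =
      (∫ x in a..b, ∫ y in c..d, F x y) - ∫ x in a..b, ∫ y in c..d, H x y := by
  rw [← intervalIntegral.integral_sub ((cont_int hF c d).intervalIntegrable a b)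
    ((cont_int hH c d).intervalIntegrable a b)]
  congr 1
  funext x
  exact intervalIntegral.integral_sub ((hF.uncurry_left x).intervalIntegrable c d)
    ((hH.uncurry_left x).intervalIntegrable c d)

theorem exists_ext {F : ℝ × ℝ × ℝ → ℝ} {T : ℝ} (hT : 0 ≤ T)
    (hF : ContinuousOn F (Icc (0 : ℝ) 1 ×ˢ Icc (0 : ℝ) T ×ˢ Icc (0 : ℝ) 1)) :
    ∃ F' : ℝ × ℝ × ℝ → ℝ, Continuous F' ∧
      ∀ r ∈ Icc (0 : ℝ) 1, ∀ θ ∈ Icc (0 : ℝ) T, ∀ l ∈ Icc (0 : ℝ) 1, F' (r, θ, l) = F (r, θ, l) := by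
  refine ⟨fun p => F (projIcc 0 1 zero_le_one p.1, projIcc 0 T hT p.2.1,
    projIcc 0 1 zero_le_one p.2.2), hF.comp_continuous (by fun_prop) fun p =>
      ⟨Subtype.prop _, Subtype.prop _, Subtype.prop _⟩, fun r hr θ hθ l hl => ?_⟩
  simp only [projIcc_of_mem _ hr, projIcc_of_mem _ hθ, projIcc_of_mem _ hl]

theorem abstract {a b d : ℝ × ℝ × ℝ → ℝ} {T : ℝ} (hT : 0 ≤ T)
    (ha : ∀ p ∈ Icc (0 : ℝ) 1 ×ˢ Icc (0 : ℝ) T ×ˢ Icc (0 : ℝ) 1, ContDiffAt ℝ 1 a p)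
    (hb : ∀ p ∈ Icc (0 : ℝ) 1 ×ˢ Icc (0 : ℝ) T ×ˢ Icc (0 : ℝ) 1, ContDiffAt ℝ 1 b p)
    (hd : ∀ p ∈ Icc (0 : ℝ) 1 ×ˢ Icc (0 : ℝ) T ×ˢ Icc (0 : ℝ) 1, ContDiffAt ℝ 1 d p)
    (h : ∀ p ∈ Icc (0 : ℝ) 1 ×ˢ Icc (0 : ℝ) T ×ˢ Icc (0 : ℝ) 1,
      fderiv ℝ a p (1, 0, 0) - fderiv ℝ b p (0, 1, 0) + fderiv ℝ d p (0, 0, 1) = 0)
    (hper : ∀ r l, b (r, T, l) = b (r, 0, l)) (h0 : ∀ θ l, a (0, θ, l) = 0) :
    (∫ r in (0 : ℝ)..1, ∫ θ in (0 : ℝ)..T, d (r, θ, 1)) -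
      (∫ r in (0 : ℝ)..1, ∫ θ in (0 : ℝ)..T, d (r, θ, 0)) =
      -∫ l in (0 : ℝ)..1, ∫ θ in (0 : ℝ)..T, a (1, θ, l) := by
  have hc : ∀ {f : ℝ × ℝ × ℝ → ℝ} (v : ℝ × ℝ × ℝ),
      (∀ p ∈ Icc (0 : ℝ) 1 ×ˢ Icc (0 : ℝ) T ×ˢ Icc (0 : ℝ) 1, ContDiffAt ℝ 1 f p) →
      ContinuousOn (fun p => fderiv ℝ f p v) (Icc (0 : ℝ) 1 ×ˢ Icc (0 : ℝ) T ×ˢ Icc (0 : ℝ) 1) :=
    fun v hf p hp => (((hf p hp).continuousAt_fderiv one_ne_zero).clm_apply
      continuousAt_const).continuousWithinAt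
  obtain ⟨A', hA, eA⟩ := exists_ext hT (hc (1, 0, 0) ha)
  obtain ⟨B', hB, eB⟩ := exists_ext hT (hc (0, 1, 0) hb)
  obtain ⟨d', hd', ed⟩ := exists_ext hT fun p hp => (hd p hp).continuousAt.continuousWithinAt
  have u1 : uIcc (0 : ℝ) 1 = Icc 0 1 := uIcc_of_le zero_le_one
  have uT : uIcc (0 : ℝ) T = Icc 0 T := uIcc_of_le hT
  have c2 : ∀ {F H : ℝ → ℝ → ℝ}, (∀ r ∈ Icc (0 : ℝ) 1, ∀ θ ∈ Icc (0 : ℝ) T, F r θ = H r θ) →
      ∫ r in (0 : ℝ)..1, ∫ θ in (0 : ℝ)..T, F r θ = ∫ r in (0 : ℝ)..1, ∫ θ in (0 : ℝ)..T, H r θ :=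
    fun hh => intervalIntegral.integral_congr fun r hr => intervalIntegral.integral_congr
      fun θ hθ => hh r (u1 ▸ hr) θ (uT ▸ hθ)
  have m0 : (0 : ℝ) ∈ Icc (0 : ℝ) 1 := left_mem_Icc.2 zero_le_one
  have m1 : (1 : ℝ) ∈ Icc (0 : ℝ) 1 := right_mem_Icc.2 zero_le_one
  have fD : ∀ r ∈ Icc (0 : ℝ) 1, ∀ θ ∈ Icc (0 : ℝ) T, d' (r, θ, 1) - d' (r, θ, 0) =
      (∫ l in (0 : ℝ)..1, B' (r, θ, l)) - ∫ l in (0 : ℝ)..1, A' (r, θ, l) := by
    intro r hr θ hθ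
    rw [ed r hr θ hθ 1 m1, ed r hr θ hθ 0 m0, ← intervalIntegral.integral_sub
      (Continuous.intervalIntegrable (by fun_prop) _ _)
      (Continuous.intervalIntegrable (by fun_prop) _ _)]
    refine (intervalIntegral.integral_eq_sub_of_hasDerivAt (f := fun l => d (r, θ, l))
      (fun l hl => ?_) (Continuous.intervalIntegrable (by fun_prop) _ _)).symm
    rw [u1] at hl
    have h1 := ((hd (r, θ, l) ⟨hr, hθ, hl⟩).differentiableAt one_ne_zero).hasFDerivAt.comp_hasDerivAt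
      l ((hasDerivAt_const l r).prodMk ((hasDerivAt_const l θ).prodMk (hasDerivAt_id l)))
    have h2 := h (r, θ, l) ⟨hr, hθ, hl⟩
    rw [eA r hr θ hθ l hl, eB r hr θ hθ l hl]
    exact h1.congr_deriv (by linarith)
  have fB : ∀ r ∈ Icc (0 : ℝ) 1, ∀ l ∈ Icc (0 : ℝ) 1, ∫ θ in (0 : ℝ)..T, B' (r, θ, l) = 0 := by
    intro r hr l hl
    rw [intervalIntegral.integral_eq_sub_of_hasDerivAt (f := fun θ => b (r, θ, l))
      (fun θ hθ => ?_) (Continuous.intervalIntegrable (by fun_prop) _ _), hper, sub_self]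
    rw [uT] at hθ
    rw [eB r hr θ hθ l hl]
    exact ((hb (r, θ, l) ⟨hr, hθ, hl⟩).differentiableAt one_ne_zero).hasFDerivAt.comp_hasDerivAt
      θ ((hasDerivAt_const θ r).prodMk ((hasDerivAt_id θ).prodMk (hasDerivAt_const θ l)))
  have fA : ∀ l ∈ Icc (0 : ℝ) 1, ∀ θ ∈ Icc (0 : ℝ) T,
      ∫ r in (0 : ℝ)..1, A' (r, θ, l) = a (1, θ, l) := by
    intro l hl θ hθ
    rw [intervalIntegral.integral_eq_sub_of_hasDerivAt (f := fun r => a (r, θ, l))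
      (fun r hr => ?_) (Continuous.intervalIntegrable (by fun_prop) _ _), h0, sub_zero]
    rw [u1] at hr
    rw [eA r hr θ hθ l hl]
    exact ((ha (r, θ, l) ⟨hr, hθ, hl⟩).differentiableAt one_ne_zero).hasFDerivAt.comp_hasDerivAt
      r ((hasDerivAt_id r).prodMk (hasDerivAt_const r (θ, l)))
  have iB : ∫ r in (0 : ℝ)..1, ∫ θ in (0 : ℝ)..T, ∫ l in (0 : ℝ)..1, B' (r, θ, l) = 0 := by
    rw [intervalIntegral.integral_congr (g := fun _ => 0), intervalIntegral.integral_zero]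
    intro r hr
    simp only
    rw [swap2 (F := fun θ l => B' (r, θ, l)) (by fun_prop),
      intervalIntegral.integral_congr (g := fun _ => 0) fun l hl => fB r (u1 ▸ hr) l (u1 ▸ hl),
      intervalIntegral.integral_zero]
  have iA : ∫ r in (0 : ℝ)..1, ∫ θ in (0 : ℝ)..T, ∫ l in (0 : ℝ)..1, A' (r, θ, l) =
      ∫ l in (0 : ℝ)..1, ∫ θ in (0 : ℝ)..T, a (1, θ, l) := by
    have e1 : ∀ r, ∫ θ in (0 : ℝ)..T, ∫ l in (0 : ℝ)..1, A' (r, θ, l) =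
        ∫ l in (0 : ℝ)..1, ∫ θ in (0 : ℝ)..T, A' (r, θ, l) := fun r =>
      swap2 (F := fun θ l => A' (r, θ, l)) (by fun_prop) _ _ _ _
    have e2 : ∀ l, ∫ r in (0 : ℝ)..1, ∫ θ in (0 : ℝ)..T, A' (r, θ, l) =
        ∫ θ in (0 : ℝ)..T, ∫ r in (0 : ℝ)..1, A' (r, θ, l) := fun l =>
      swap2 (F := fun r θ => A' (r, θ, l)) (by fun_prop) _ _ _ _
    simp only [e1]
    rw [swap2 (F := fun r l => ∫ θ in (0 : ℝ)..T, A' (r, θ, l))
      (cont_int (f := fun (p : ℝ × ℝ) θ => A' (p.1, θ, p.2)) (by fun_prop) _ _)]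
    simp only [e2]
    exact c2 fA
  rw [← c2 fun r hr θ hθ => ed r hr θ hθ 1 m1, ← c2 fun r hr θ hθ => ed r hr θ hθ 0 m0,
    ← sub2 (F := fun r θ => d' (r, θ, 1)) (H := fun r θ => d' (r, θ, 0)) (by fun_prop)
      (by fun_prop), c2 fD, sub2 (F := fun r θ => ∫ l in (0 : ℝ)..1, B' (r, θ, l))
      (H := fun r θ => ∫ l in (0 : ℝ)..1, A' (r, θ, l))
      (cont_int (f := fun (p : ℝ × ℝ) l => B' (p.1, p.2, l)) (by fun_prop) _ _)
      (cont_int (f := fun (p : ℝ × ℝ) l => A' (p.1, p.2, l)) (by fun_prop) _ _), iA, iB, zero_sub]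

end Stk

/-- `c (r, θ, l)` is a family (parameter `l`) of discs in polar coordinates -/
theorem stokes_cube {c : ℝ × ℝ × ℝ → A} (hc : ContDiff ℝ 2 c)
    (hG : ∀ p ∈ Icc (0 : ℝ) 1 ×ˢ Icc (0 : ℝ) (2 * π) ×ˢ Icc (0 : ℝ) 1, KAt G (c p))
    (hper : ∀ r θ l, c (r, θ + 2 * π, l) = c (r, θ, l)) (h0 : ∀ θ l, c (0, θ, l) = c (0, 0, l)) :
    (∫ r in (0 : ℝ)..1, ∫ θ in (0 : ℝ)..2 * π,
        om G (c (r, θ, 1)) (fderiv ℝ c (r, θ, 1) (1, 0, 0)) (fderiv ℝ c (r, θ, 1) (0, 1, 0)))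
      - (∫ r in (0 : ℝ)..1, ∫ θ in (0 : ℝ)..2 * π,
        om G (c (r, θ, 0)) (fderiv ℝ c (r, θ, 0) (1, 0, 0)) (fderiv ℝ c (r, θ, 0) (0, 1, 0)))
      = ∫ l in (0 : ℝ)..1, ∫ θ in (0 : ℝ)..2 * π,
        om G (c (1, θ, l)) (fderiv ℝ c (1, θ, l) (0, 0, 1)) (fderiv ℝ c (1, θ, l) (0, 1, 0)) := by
  have hT : (0 : ℝ) ≤ 2 * π := by positivity
  have h := Stk.abstract hT
    (fun p hp => (hG p hp).contDiffAt_om_comp hc.contDiffAt (0, 1, 0) (0, 0, 1))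
    (fun p hp => (hG p hp).contDiffAt_om_comp hc.contDiffAt (1, 0, 0) (0, 0, 1))
    (fun p hp => (hG p hp).contDiffAt_om_comp hc.contDiffAt (1, 0, 0) (0, 1, 0))
    (fun p hp => (hG p hp).closed_comp hc.contDiffAt _ _ _) (fun r l => ?_) (fun θ l => ?_)
  · rw [h, ← intervalIntegral.integral_neg]
    refine intervalIntegral.integral_congr fun l hl => ?_
    rw [← intervalIntegral.integral_neg]
    refine intervalIntegral.integral_congr fun θ hθ => ?_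
    rw [uIcc_of_le zero_le_one] at hl
    rw [uIcc_of_le hT] at hθ
    exact ((hG (1, θ, l) ⟨right_mem_Icc.2 zero_le_one, hθ, hl⟩).om_anti _ _).symm
  · have e : (fun p : ℝ × ℝ × ℝ => c (p + (0, 2 * π, 0))) = c := by
      funext p
      simpa [Prod.add_def] using hper p.1 p.2.1 p.2.2
    have e1 : fderiv ℝ c (r, 2 * π, l) = fderiv ℝ c (r, 0, l) := by
      conv_rhs => rw [← e, fderiv_comp_add_right]
      simp
    have e2 : c (r, 2 * π, l) = c (r, 0, l) := by simpa using hper r 0 l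
    simp only [e1, e2]
  · have h1 := (hc.differentiable (by norm_num) (0, θ, l)).hasFDerivAt.comp_hasDerivAt
      θ ((hasDerivAt_const θ (0 : ℝ)).prodMk ((hasDerivAt_id θ).prodMk (hasDerivAt_const θ l)))
    have h2 : HasDerivAt (fun θ : ℝ => c (0, θ, l)) 0 θ := by
      rw [show (fun θ : ℝ => c (0, θ, l)) = fun _ => c (0, 0, l) from funext fun θ => h0 θ l]
      exact hasDerivAt_const _ _
    simp only [h1.unique h2, om, smul_zero, map_zero, zero_apply]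

end Crest.Agent.R266
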