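import Crest.Agent.R266.Chain2
import Crest.Agent.R266.Ident

/-!
# Row 266: holonomy tubes of uniform size around discs of bounded area
-/

set_option autoImplicit false
set_option linter.unusedSectionVars false
set_option linter.unusedVariables false

open MeasureTheory Metric Set Filter Topology Complex
open scoped ContDiff Manifold Real
open Crest.AlgGeometry.HolSplit

noncomputable section

namespace Crest.Agent.R266

namespace PAtlas.Boxes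
variable {X : Type*} [MetricSpace X] [CompactSpace X] {n₁ n₂ : ℕ} {𝒜 : PAtlas X n₁ n₂}
  (β : 𝒜.Boxes) (𝒦 : 𝒜.Kae)
variable (B : Type*) [NormedAddCommGroup B] [NormedSpace ℂ B]

/-- one step of holonomy inside a box moves close points to close points -/
theorem tube_near {η' : ℝ} (hη' : 0 < η') : ∃ η > 0, ∀ j ∈ β.J, ∀ x ∈ β.box j β.δ,
    ∀ x' ∈ β.box j β.δ, (𝒜.chart j x).2 = (𝒜.chart j x').2 → ∀ y, dist y x < η →
      𝒜.MixOK j x' y ∧ dist (𝒜.mix j x' y) x' < η' := by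
  have hδ := β.δ_pos
  obtain ⟨η₂, h₂, H₂⟩ := β.exists_near' hη'
  obtain ⟨η, h, H⟩ := β.exists_near (s := β.δ) (s' := 2 * β.δ) (by linarith) (by linarith) h₂
  refine ⟨η, h, fun j hj x hx x' hx' e y hy => ?_⟩
  obtain ⟨y₁, y₂⟩ := H j hj x hx y hy
  obtain ⟨m₁, m₂⟩ := β.mixOK_box hj (s := 2 * β.δ) (by linarith)
    (β.box_mono j (by linarith) hx') y₁
  refine ⟨m₁, H₂ j hj x' (β.box_mono j (by linarith) hx') _ (β.box_mono j (by linarith) m₂) ?_⟩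
  refine lt_of_le_of_lt ?_ y₂
  rw [chart_mix m₁, Prod.norm_def]
  refine max_le (by simp) ?_
  rw [Prod.snd_sub, ← e]
  exact norm_snd_le (𝒜.chart j y - 𝒜.chart j x)

variable {β B} in
/-- transport of a transversal along a preconnected set mapped into one box -/
theorem tube_step {η η' : ℝ} {j : X} (H : ∀ x ∈ β.box j β.δ, ∀ x' ∈ β.box j β.δ,
      (𝒜.chart j x).2 = (𝒜.chart j x').2 → ∀ y, dist y x < η →
        𝒜.MixOK j x' y ∧ dist (𝒜.mix j x' y) x' < η')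
    {M : ℂ × B → X} {b₀ : B} {U : Set B} {K : Set ℂ} (hK : IsPreconnected K)
    (hM : ∀ z ∈ K, 𝒜.PT M (z, b₀)) (hb : ∀ z ∈ K, M (z, b₀) ∈ β.box j β.δ) {z z' : ℂ}
    (hz : z ∈ K) (hz' : z' ∈ K) {g : B → X} (hg : ∀ b ∈ U, 𝒜.T2 g b)
    (he : g =ᶠ[𝓝 b₀] fun b => M (z, b)) (hd : ∀ b ∈ U, dist (g b) (M (z, b₀)) < η) :
    (∀ b ∈ U, 𝒜.T2 (fun b => 𝒜.mix j (M (z', b₀)) (g b)) b) ∧
      ((fun b => 𝒜.mix j (M (z', b₀)) (g b)) =ᶠ[𝓝 b₀] fun b => M (z', b)) ∧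
      ∀ b ∈ U, 𝒜.MixOK j (M (z', b₀)) (g b) ∧
        dist (𝒜.mix j (M (z', b₀)) (g b)) (M (z', b₀)) < η' := by
  have hs : ∀ z ∈ K, M (z, b₀) ∈ (𝒜.chart j).source := fun z hz => β.box_source (hb z hz)
  have e := T1.snd_eq (f := fun r => M (r, b₀)) hK (fun a ha => (hM a ha).t1) hs hz hz'
  have h := fun b hb' => H _ (hb z hz) _ (hb z' hz') e (g b) (hd b hb')
  refine ⟨fun b hb' => ?_, ?_, h⟩
  · have hc : 𝒜.Hol (fun _ : ℂ => M (z', b₀)) 0 := ⟨continuousAt_const, analyticAt_const⟩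
    exact (pt_mix hc (hg b hb').1 (h b hb').1).t2
  · have c : Tendsto (fun b : B => (z', b)) (𝓝 b₀) (𝓝 (z', b₀)) :=
      (continuous_const.prodMk continuous_id).tendsto' _ _ rfl
    filter_upwards [c.eventually (PT.eq_mix_of_preconnected hK hM hs hz hz'), he] with b h₁ h₂
    rw [h₁, h₂]

/-- tube around a disc tangent to the first foliation -/
theorem tube₁ (a : ℝ) {η₁ : ℝ} (hη₁ : 0 < η₁) :
    ∃ η > 0, ∀ (M : ℂ × B → X) (b₀ : B) (g : B → X) (U : Set B), IsOpen U → IsPreconnected U →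
      b₀ ∈ U → (∀ z ∈ closedBall (0 : ℂ) 1, 𝒜.PT M (z, b₀)) → 𝒦.area (fun z => M (z, b₀)) ≤ a →
      (∃ j ∈ β.J, ∀ z ∈ sphere (0 : ℂ) 1, M (z, b₀) ∈ β.box j β.δ) →
      (∀ b ∈ U, 𝒜.T2 g b) → (g =ᶠ[𝓝 b₀] fun b => M (1, b)) → (∀ b ∈ U, dist (g b) (g b₀) < η) →
      ∃ M' : ℂ × B → X, ∀ z ∈ closedBall (0 : ℂ) 1, M' =ᶠ[𝓝 (z, b₀)] M ∧
        ∀ b ∈ U, 𝒜.PT M' (z, b) ∧ dist (M' (z, b)) (M (z, b₀)) < η₁ := by
  classical
  obtain ⟨N, hN⟩ := β.exists_chain 𝒦 a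
  choose! φ hφ Hφ using fun (η' : ℝ) (h : 0 < η') => β.tube_near h
  have hpos : ∀ k, 0 < φ^[k] η₁ := fun k => by
    induction k with
    | zero => exact hη₁
    | succ k ih => rw [Function.iterate_succ_apply']; exact hφ _ ih
  refine ⟨φ^[N + 1] η₁, hpos _, fun M b₀ g U hU hUc hb₀ hM ha hj hg he hd => ?_⟩
  have key := hN (fun z => M (z, b₀)) (fun z hz => (hM z hz).t1.1) ha hj
    (fun i z => i ≤ N → ∃ g : B → X, (∀ b ∈ U, 𝒜.T2 g b) ∧ (g =ᶠ[𝓝 b₀] fun b => M (z, b)) ∧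
      ∀ b ∈ U, dist (g b) (M (z, b₀)) < φ^[N + 1 - i] η₁)
    (fun _ => ⟨g, hg, he, fun b hb => by
      have h := hd b hb
      rwa [he.self_of_nhds] at h⟩)
    (fun i z z' K j hP hj hK hK' hb hz hz' hi => by
      obtain ⟨g, h₁, h₂, h₃⟩ := hP (by omega)
      rw [show N + 1 - i = N + 1 - (i + 1) + 1 by omega, Function.iterate_succ_apply'] at h₃
      obtain ⟨k₁, k₂, k₃⟩ := tube_step (Hφ _ (hpos _) j hj) hK (fun z hz => hM z (hK' hz)) hb hz hz'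
        h₁ h₂ h₃
      exact ⟨_, k₁, k₂, fun b hb => (k₃ b hb).2⟩)
  refine ⟨fun q => if h : ∃ g : B → X, (∀ b ∈ U, 𝒜.T2 g b) ∧ g =ᶠ[𝓝 b₀] fun b => M (q.1, b)
    then h.choose q.2 else M q, fun z hz => ?_⟩
  obtain ⟨g, h₁, h₂, h₃⟩ := key z hz le_rfl
  rw [Nat.add_sub_cancel_left, Function.iterate_one] at h₃
  obtain ⟨j, hj, hjz⟩ := β.cover (M (z, b₀))
  have hjz' : M (z, b₀) ∈ β.box j β.δ := β.box_mono j β.δ_pos.le hjz
  have c : Tendsto (fun r : ℂ => (r, b₀)) (𝓝 z) (𝓝 (z, b₀)) :=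
    (continuous_id.prodMk continuous_const).tendsto' _ _ rfl
  obtain ⟨ε, hε, hb⟩ := Metric.eventually_nhds_iff_ball.1 ((c.eventually (hM z hz).eventually).and
    (c.eventually ((hM z hz).1.eventually_mem ((β.isOpen_box j β.δ).mem_nhds hjz'))))
  have st := fun z' (hz' : z' ∈ ball z ε) => tube_step (Hφ _ hη₁ j hj)
    (convex_ball z ε).isPreconnected (fun r hr => (hb r hr).1) (fun r hr => (hb r hr).2)
    (mem_ball_self hε) hz' h₁ h₂ h₃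
  have loc : ∀ q : ℂ × B, q.1 ∈ ball z ε → q.2 ∈ U →
      (if h : ∃ g : B → X, (∀ b ∈ U, 𝒜.T2 g b) ∧ g =ᶠ[𝓝 b₀] fun b => M (q.1, b)
        then h.choose q.2 else M q) = 𝒜.mix j (M (q.1, b₀)) (g q.2) := fun q q₁ q₂ => by
    have h : ∃ g : B → X, (∀ b ∈ U, 𝒜.T2 g b) ∧ g =ᶠ[𝓝 b₀] fun b => M (q.1, b) :=
      ⟨_, (st _ q₁).1, (st _ q₁).2.1⟩
    rw [dif_pos h]
    exact (Hol.eventuallyEq_of_preconnected hUc (fun b hb => (h.choose_spec.1 b hb).1)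
      (fun b hb => ((st _ q₁).1 b hb).1) hb₀ (h.choose_spec.2.trans (st _ q₁).2.1.symm)
      q₂).self_of_nhds
  have ev : ∀ b ∈ U, ∀ᶠ q : ℂ × B in 𝓝 (z, b), q.1 ∈ ball z ε ∧ q.2 ∈ U := fun b hb =>
    (continuousAt_fst.eventually_mem (ball_mem_nhds z hε)).and
      (continuousAt_snd.eventually_mem (hU.mem_nhds hb))
  refine ⟨?_, fun b hb => ⟨?_, ?_⟩⟩
  · filter_upwards [ev b₀ hb₀, (hM z hz).eq_mix (β.box_source hjz'),
      (continuousAt_snd (p := (z, b₀))).eventually h₂] with q q₁ q₂ q₃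
    rw [loc q q₁.1 q₁.2, q₃, ← q₂]
  · refine (pt_mix (hM z hz).t1.1 (h₁ b hb).1 ((st z (mem_ball_self hε)).2.2 b hb).1).congr ?_
    filter_upwards [ev b hb] with q q₁
    exact loc q q₁.1 q₁.2
  · exact lt_of_eq_of_lt (congrArg (dist · (M (z, b₀))) (loc (z, b) (mem_ball_self hε) hb))
      ((st z (mem_ball_self hε)).2.2 b hb).2

/-- tube around a disc tangent to the second foliation -/
theorem tube₂ (a : ℝ) {η₁ : ℝ} (hη₁ : 0 < η₁) :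
    ∃ η > 0, ∀ (M : B × ℂ → X) (b₀ : B) (f : B → X) (U : Set B), IsOpen U → IsPreconnected U →
      b₀ ∈ U → (∀ z ∈ closedBall (0 : ℂ) 1, 𝒜.PT M (b₀, z)) → 𝒦.area (fun z => M (b₀, z)) ≤ a →
      (∃ j ∈ β.J, ∀ z ∈ sphere (0 : ℂ) 1, M (b₀, z) ∈ β.box j β.δ) →
      (∀ b ∈ U, 𝒜.T1 f b) → (f =ᶠ[𝓝 b₀] fun b => M (b, 1)) → (∀ b ∈ U, dist (f b) (f b₀) < η) →
      ∃ M' : B × ℂ → X, ∀ z ∈ closedBall (0 : ℂ) 1, M' =ᶠ[𝓝 (b₀, z)] M ∧
        ∀ b ∈ U, 𝒜.PT M' (b, z) ∧ dist (M' (b, z)) (M (b₀, z)) < η₁ := by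
  obtain ⟨β', e₁, e₂, e₃⟩ := β.exists_swap
  obtain ⟨𝒦', h𝒦⟩ := 𝒦.exists_swap
  obtain ⟨η, hη, H⟩ := β'.tube₁ 𝒦' B a hη₁
  refine ⟨η, hη, fun M b₀ f U hU hUc hb₀ hM ha hj hf he hd => ?_⟩
  obtain ⟨M', hM'⟩ := H (fun q => M (q.2, q.1)) b₀ f U hU hUc hb₀
    (fun z hz => pt_swap.2 (hM z hz))
    (le_of_eq_of_le (setIntegral_congr_fun measurableSet_ball fun z hz =>
      h𝒦 _ z (hM z (ball_subset_closedBall hz)).t2.1) ha)
    (by simpa only [e₁, e₂, e₃] using hj) (fun b hb => t2_swap.2 (hf b hb)) he hd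
  refine ⟨fun q => M' (q.2, q.1), fun z hz => ⟨?_, fun b hb =>
    ⟨pt_swap.1 ((hM' z hz).2 b hb).1, ((hM' z hz).2 b hb).2⟩⟩⟩
  exact (continuous_swap.tendsto' (b₀, z) _ rfl).eventually (hM' z hz).1

end PAtlas.Boxes

end Crest.Agent.R266
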