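import Crest.Agent.R266.Defs

/-!
# Row 266: projection fields; local uniqueness for Cauchy problems
-/

set_option autoImplicit false
set_option linter.unusedSectionVars false
set_option linter.unusedVariables false

open MeasureTheory Metric Set Filter Topology Complex
open scoped ContDiff Manifold Real
open Crest.AlgGeometry.HolSplit

noncomputable section

namespace Crest.Agent.R266

section
variable {E : Type*} [NormedAddCommGroup E] [NormedSpace ℂ E] {P : E → E →L[ℂ] E} {y : E}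

theorem ProjAt.eventually [CompleteSpace E] (h : ProjAt P y) : ∀ᶠ z in 𝓝 y, ProjAt P z :=
  h.1.eventually_analyticAt.and h.2.eventually_nhds
theorem ProjAt.idem (h : ProjAt P y) (v : E) : P y (P y v) = P y v := h.2.self_of_nhds v
/-- derivative of `P² = P` -/
theorem ProjAt.fderiv_idem (h : ProjAt P y) (v ξ : E) :
    fderiv ℂ P y v (P y ξ) + P y (fderiv ℂ P y v ξ) = fderiv ℂ P y v ξ := by
  have hP := h.1.differentiableAt.hasFDerivAt
  have h1 := hP.clm_apply (hasFDerivAt_const ξ y)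
  have h2 := hP.clm_apply h1
  have h3 : (fun z => P z (P z ξ)) =ᶠ[𝓝 y] fun z => P z ξ := h.2.mono fun z hz => hz ξ
  have h4 := (h2.congr_of_eventuallyEq h3.symm).unique h1
  have h5 := congrArg (fun L => L v) h4
  simpa [add_comm] using h5
theorem ProjAt.coP (h : ProjAt P y) : ProjAt (coP P) y := by
  refine ⟨analyticAt_const.sub h.1, h.2.mono fun z hz v => ?_⟩
  simp [R266.coP, hz v]
theorem fderiv_coP (v : E) : fderiv ℂ (coP P) y v = - fderiv ℂ P y v := by
  have : fderiv ℂ (coP P) y = - fderiv ℂ P y := fderiv_const_sub _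
  rw [this]; rfl
theorem ProjAt.P_Nij (h : ProjAt P y) (ξ ξ' : E) : P y (Nij P y ξ ξ') = 0 := by
  rw [Nij, map_sub, h.idem, sub_self]
theorem Nij_zero_left (ξ' : E) : Nij P y 0 ξ' = 0 := by
  simp [Nij, Gam]
/-- `Nij` along analytic maps is analytic -/
theorem analyticAt_Nij [CompleteSpace E] {A : Type*} [NormedAddCommGroup A] [NormedSpace ℂ A]
    {F ξ ξ' : A → E} {a : A} (hP : AnalyticAt ℂ P (F a)) (hF : AnalyticAt ℂ F a)
    (hξ : AnalyticAt ℂ ξ a) (hξ' : AnalyticAt ℂ ξ' a) :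
    AnalyticAt ℂ (fun r => Nij P (F r) (ξ r) (ξ' r)) a := by
  have app : ∀ {L : A → E →L[ℂ] E} {u : A → E}, AnalyticAt ℂ L a → AnalyticAt ℂ u a →
      AnalyticAt ℂ (fun r => L r (u r)) a := fun hL hu =>
    ((ContinuousLinearMap.id ℂ (E →L[ℂ] E)).analyticAt_bilinear _).comp₂ hL hu
  have app2 : ∀ {L : A → E →L[ℂ] E →L[ℂ] E} {u : A → E}, AnalyticAt ℂ L a → AnalyticAt ℂ u a →
      AnalyticAt ℂ (fun r => L r (u r)) a := fun hL hu =>
    ((ContinuousLinearMap.id ℂ (E →L[ℂ] E →L[ℂ] E)).analyticAt_bilinear _).comp₂ hL hu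
  have h1 : AnalyticAt ℂ (fun r => fderiv ℂ P (F r)) a := hP.fderiv.comp hF
  have h2 : AnalyticAt ℂ (fun r => Gam P (F r) (ξ' r) (ξ r)) a :=
    (app (app2 h1 hξ) hξ').sub (app (app2 h1 hξ') hξ)
  exact h2.sub (app (hP.comp hF) h2)
end

variable {V W : Type*} [NormedAddCommGroup V] [NormedSpace ℂ V] [NormedAddCommGroup W]
  [NormedSpace ℂ W]

/-- local uniqueness for a hyperbolic system with Cauchy data on the diagonal -/
theorem eventually_zero_of_cauchy {p : ℂ × ℂ → V} {q : ℂ × ℂ → W} {t : ℂ} {M : ℝ}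
    (hp : ∀ᶠ r in 𝓝 (t, t), DifferentiableAt ℂ p r) (hq : ∀ᶠ r in 𝓝 (t, t), DifferentiableAt ℂ q r)
    (hb : ∀ᶠ r in 𝓝 (t, t), ‖db p r‖ ≤ M * (‖p r‖ + ‖q r‖))
    (ha : ∀ᶠ r in 𝓝 (t, t), ‖da q r‖ ≤ M * (‖p r‖ + ‖q r‖))
    (hd : ∀ᶠ s in 𝓝 t, p (s, s) = 0 ∧ q (s, s) = 0) :
    ∀ᶠ r in 𝓝 (t, t), p r = 0 ∧ q r = 0 := by
  obtain ⟨R₁, hR₁, h₁⟩ := nhds_basis_closedBall.eventually_iff.1 (hp.and (hq.and (hb.and ha)))
  obtain ⟨R₂, hR₂, h₂⟩ := nhds_basis_closedBall.eventually_iff.1 hd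
  have hM : 0 < |M| + 1 := by positivity
  set R := min (min R₁ R₂) (1 / (8 * (|M| + 1))) with hR
  have hR0 : 0 < R := lt_min (lt_min hR₁ hR₂) (by positivity)
  have hRM : 8 * R * |M| ≤ 1 := by
    have h1 : R ≤ 1 / (8 * (|M| + 1)) := min_le_right _ _
    rw [le_div_iff₀ (by positivity)] at h1
    nlinarith
  have hK : ∀ a ∈ closedBall t R, ∀ b ∈ closedBall t R, (a, b) ∈ closedBall (t, t) R := by
    intro a ha b hb
    rw [← closedBall_prod_same]
    exact ⟨ha, hb⟩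
  have h₁' := fun r (hr : r ∈ closedBall (t, t) R) =>
    h₁ (closedBall_subset_closedBall ((min_le_left _ _).trans (min_le_left _ _)) hr)
  have h₂' := fun s (hs : s ∈ closedBall t R) =>
    h₂ (closedBall_subset_closedBall ((min_le_left _ _).trans (min_le_right _ _)) hs)
  have hc : ContinuousOn (fun r => ‖p r‖ + ‖q r‖) (closedBall (t, t) R) := fun r hr =>
    ((h₁' r hr).1.continuousAt.norm.add (h₁' r hr).2.1.continuousAt.norm).continuousWithinAt
  obtain ⟨⟨a, b⟩, hr₀, hmax⟩ := (isCompact_closedBall (t, t) R).exists_isMaxOn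
    ⟨_, mem_closedBall_self hR0.le⟩ hc
  set S := ‖p (a, b)‖ + ‖q (a, b)‖ with hS
  have hS0 : 0 ≤ S := by positivity
  have hab : a ∈ closedBall t R ∧ b ∈ closedBall t R := by
    rw [← closedBall_prod_same] at hr₀
    exact hr₀
  have hbd : ∀ r ∈ closedBall (t, t) R, M * (‖p r‖ + ‖q r‖) ≤ |M| * S := fun r hr =>
    mul_le_mul (le_abs_self M) (hmax hr) (by positivity) (abs_nonneg _)
  have hdist : ‖b - a‖ ≤ 2 * R := by
    have := dist_triangle_right b a t
    rw [dist_eq_norm] at this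
    linarith [mem_closedBall.1 hab.1, mem_closedBall.1 hab.2]
  have e1 : ‖p (a, b) - p (a, a)‖ ≤ |M| * S * ‖b - a‖ := by
    refine (convex_closedBall t R).norm_image_sub_le_of_norm_hasDerivWithin_le
      (f := fun x => p (a, x)) (f' := fun x => db p (a, x)) (fun x hx => ?_)
      (fun x hx => (h₁' _ (hK a hab.1 x hx)).2.2.1.trans (hbd _ (hK a hab.1 x hx))) hab.1 hab.2
    exact ((h₁' _ (hK a hab.1 x hx)).1.hasFDerivAt.comp_hasDerivAt x
      ((hasDerivAt_const x a).prodMk (hasDerivAt_id x))).hasDerivWithinAt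
  have e2 : ‖q (a, b) - q (b, b)‖ ≤ |M| * S * ‖a - b‖ := by
    refine (convex_closedBall t R).norm_image_sub_le_of_norm_hasDerivWithin_le
      (f := fun x => q (x, b)) (f' := fun x => da q (x, b)) (fun x hx => ?_)
      (fun x hx => (h₁' _ (hK x hx b hab.2)).2.2.2.trans (hbd _ (hK x hx b hab.2))) hab.2 hab.1
    exact ((h₁' _ (hK x hx b hab.2)).2.1.hasFDerivAt.comp_hasDerivAt x
      ((hasDerivAt_id x).prodMk (hasDerivAt_const x b))).hasDerivWithinAt
  rw [(h₂' a hab.1).1, sub_zero] at e1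
  rw [(h₂' b hab.2).2, sub_zero, norm_sub_rev] at e2
  have e3 : |M| * S * ‖b - a‖ ≤ |M| * S * (2 * R) :=
    mul_le_mul_of_nonneg_left hdist (by positivity)
  have e4 : 8 * R * |M| * S ≤ 1 * S := mul_le_mul_of_nonneg_right hRM hS0
  have e5 : S ≤ 0 := by linarith
  filter_upwards [closedBall_mem_nhds (t, t) hR0] with r hr
  have e6 : ‖p r‖ + ‖q r‖ ≤ S := hmax hr
  have := norm_nonneg (p r)
  have := norm_nonneg (q r)
  exact ⟨norm_le_zero_iff.1 (by linarith), norm_le_zero_iff.1 (by linarith)⟩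

/-- local uniqueness for an ordinary differential inequality -/
theorem eventually_zero_of_ode {y : ℂ → V} {t : ℂ} {M : ℝ}
    (hy : ∀ᶠ s in 𝓝 t, DifferentiableAt ℂ y s) (hb : ∀ᶠ s in 𝓝 t, ‖deriv y s‖ ≤ M * ‖y s‖)
    (h0 : y t = 0) : ∀ᶠ s in 𝓝 t, y s = 0 := by
  obtain ⟨R₁, hR₁, h₁⟩ := nhds_basis_closedBall.eventually_iff.1 (hy.and hb)
  have hM : 0 < |M| + 1 := by positivity
  set R := min R₁ (1 / (2 * (|M| + 1))) with hR
  have hR0 : 0 < R := lt_min hR₁ (by positivity)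
  have hRM : 2 * R * |M| ≤ 1 := by
    have h1 : R ≤ 1 / (2 * (|M| + 1)) := min_le_right _ _
    rw [le_div_iff₀ (by positivity)] at h1
    nlinarith
  have h₁' := fun s (hs : s ∈ closedBall t R) =>
    h₁ (closedBall_subset_closedBall (min_le_left _ _) hs)
  have hc : ContinuousOn (fun s => ‖y s‖) (closedBall t R) := fun s hs =>
    (h₁' s hs).1.continuousAt.norm.continuousWithinAt
  obtain ⟨a, ha, hmax⟩ := (isCompact_closedBall t R).exists_isMaxOn
    ⟨_, mem_closedBall_self hR0.le⟩ hc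
  have e1 : ‖y a - y t‖ ≤ |M| * ‖y a‖ * ‖a - t‖ :=
    (convex_closedBall t R).norm_image_sub_le_of_norm_deriv_le (fun x hx => (h₁' x hx).1)
      (fun x hx => (h₁' x hx).2.trans
        (mul_le_mul (le_abs_self M) (hmax hx) (norm_nonneg _) (abs_nonneg _)))
      (mem_closedBall_self hR0.le) ha
  rw [h0, sub_zero] at e1
  have e3 : |M| * ‖y a‖ * ‖a - t‖ ≤ |M| * ‖y a‖ * R :=
    mul_le_mul_of_nonneg_left (mem_closedBall_iff_norm.1 ha) (by positivity)
  have e4 : 2 * R * |M| * ‖y a‖ ≤ 1 * ‖y a‖ := mul_le_mul_of_nonneg_right hRM (norm_nonneg _)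
  filter_upwards [closedBall_mem_nhds t hR0] with s hs
  have e6 : ‖y s‖ ≤ ‖y a‖ := hmax hs
  exact norm_le_zero_iff.1 (by linarith)

end Crest.Agent.R266
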