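import Crest.Agent.R266.SolEx
import Crest.Agent.R266.SolP
import Crest.Agent.R266.SolT2
import Crest.Agent.R266.SolT3
import Crest.Agent.R266.Liou2

/-!
# Row 266: vanishing of the O'Neill tensor along a rational curve
-/

set_option autoImplicit false
set_option linter.unusedSectionVars false
set_option linter.unusedVariables false

open MeasureTheory Metric Set Filter Topology Complex
open scoped ContDiff Manifold Real
open Crest.AlgGeometry.HolSplit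

noncomputable section

namespace Crest.Agent.R266

namespace SAtlas
variable {X : Type*} [TopologicalSpace X] {n N : ℕ} (𝒮 : SAtlas X n N)

theorem HolC.analyticAt {𝒮 : SAtlas X n N} {g : ℂ → X} {t : ℂ} (h : 𝒮.HolC g t) {p : X}
    (hp : g t ∈ (𝒮.chart p).source) : AnalyticAt ℂ (fun s => 𝒮.chart p (g s)) t := by
  have h1 := (𝒮.trans (g t) p (g t) (𝒮.mem _) hp).comp_of_eq h.2 rfl
  refine h1.congr ?_
  filter_upwards [h.1.eventually ((𝒮.chart (g t)).open_source.mem_nhds (𝒮.mem _))] with s hs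
  simp only [Function.comp, (𝒮.chart (g t)).left_inv hs]

theorem eventually_symm_mem {p q x : X} (hp : x ∈ (𝒮.chart p).source)
    (hq : x ∈ (𝒮.chart q).source) :
    ∀ᶠ z in 𝓝 (𝒮.chart p x), z ∈ (𝒮.chart p).target ∧
      (𝒮.chart p).symm z ∈ (𝒮.chart q).source := by
  have h1 := (𝒮.chart p).open_target.mem_nhds ((𝒮.chart p).map_source hp)
  have h2 : ContinuousAt (𝒮.chart p).symm (𝒮.chart p x) :=
    (𝒮.chart p).continuousAt_symm ((𝒮.chart p).map_source hp)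
  have h3 : (𝒮.chart q).source ∈ 𝓝 ((𝒮.chart p).symm (𝒮.chart p x)) := by
    rw [(𝒮.chart p).left_inv hp]
    exact (𝒮.chart q).open_source.mem_nhds hq
  filter_upwards [h1, h2.eventually h3] with z a b using ⟨a, b⟩

theorem eventually_compat {p q x : X} (hp : x ∈ (𝒮.chart p).source) (hq : x ∈ (𝒮.chart q).source) :
    ∀ᶠ z in 𝓝 (𝒮.chart p x), ∀ v,
      fderiv ℂ (fun y => 𝒮.chart q ((𝒮.chart p).symm y)) z (𝒮.P p z v)
        = 𝒮.P q (𝒮.chart q ((𝒮.chart p).symm z))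
          (fderiv ℂ (fun y => 𝒮.chart q ((𝒮.chart p).symm y)) z v) := by
  filter_upwards [𝒮.eventually_symm_mem hp hq] with z hz v
  have := 𝒮.compat p q _ ((𝒮.chart p).map_target hz.1) hz.2 v
  rwa [(𝒮.chart p).right_inv hz.1] at this

/-- solutions in two charts have the same scalar function -/
theorem sfun_chart {g : ℂ → X} {t : ℂ} (hg : ContinuousAt g t) (σ σ' : X → ℂ → Model n)
    (θ : X → ℂ → Model n →L[ℂ] ℂ)
    (hco : ∀ p q t, g t ∈ (𝒮.chart p).source → g t ∈ (𝒮.chart q).source →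
      σ q t = 𝒮.D p q (g t) (σ p t) ∧ σ' q t = 𝒮.D p q (g t) (σ' p t) ∧
        ∀ v, θ p t v = θ q t (𝒮.D p q (g t) v))
    {p q : X} (hp : g t ∈ (𝒮.chart p).source) (hq : g t ∈ (𝒮.chart q).source)
    {F ξ ξ' F₁ ξ₁ ξ₁' : ℂ × ℂ → Model n} {ϑ ϑ₁ : ℂ × ℂ → Model n →L[ℂ] ℂ}
    (h : Sol (𝒮.P p) (fun s => 𝒮.chart p (g s)) (σ p) (σ' p) (θ p) t F ξ ξ' ϑ)
    (h₁ : Sol (𝒮.P q) (fun s => 𝒮.chart q (g s)) (σ q) (σ' q) (θ q) t F₁ ξ₁ ξ₁' ϑ₁) :
    Sfun (𝒮.P q) F₁ ξ₁ ξ₁' ϑ₁ =ᶠ[𝓝 (t, t)] Sfun (𝒮.P p) F ξ ξ' ϑ := by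
  have e : 𝒮.chart q ((𝒮.chart p).symm (𝒮.chart p (g t))) = 𝒮.chart q (g t) := by
    rw [(𝒮.chart p).left_inv hp]
  have hev : ∀ᶠ s in 𝓝 t, g s ∈ (𝒮.chart p).source ∧ g s ∈ (𝒮.chart q).source :=
    (hg.eventually ((𝒮.chart p).open_source.mem_nhds hp)).and
      (hg.eventually ((𝒮.chart q).open_source.mem_nhds hq))
  obtain ⟨F₂, ξ₂, ξ₂', ϑ₂, h₂, h₃⟩ := Sol.chart (P' := 𝒮.P q)
    (τ := fun y => 𝒮.chart q ((𝒮.chart p).symm y))
    (τ' := fun y => 𝒮.chart p ((𝒮.chart q).symm y))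
    (γ₁ := fun s => 𝒮.chart q (g s)) (σ₁ := σ q) (σ₁' := σ' q) (θ₁ := θ q) h
    (by rw [e]; exact h₁.proj) (𝒮.trans p q _ hp hq) (by rw [e]; exact 𝒮.trans q p _ hq hp)
    (by
      filter_upwards [𝒮.eventually_symm_mem hp hq] with z hz
      rw [(𝒮.chart q).left_inv hz.2, (𝒮.chart p).right_inv hz.1])
    (by
      rw [e]
      filter_upwards [𝒮.eventually_symm_mem hq hp] with z hz
      rw [(𝒮.chart p).left_inv hz.2, (𝒮.chart q).right_inv hz.1])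
    (𝒮.eventually_compat hp hq)
    (by
      filter_upwards [hev] with s hs
      rw [(𝒮.chart p).left_inv hs.1])
    (by filter_upwards [hev] with s hs using (hco p q s hs.1 hs.2).1)
    (by filter_upwards [hev] with s hs using (hco p q s hs.1 hs.2).2.1)
    (by filter_upwards [hev] with s hs using (hco p q s hs.1 hs.2).2.2)
  exact (h₁.unique h₂).trans h₃

/-- `σ p`, `σ' p`, `θ p` are the expressions in chart `p` of two vector fields and a covector field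
along the curve; `σ` vanishes at infinity and `θ` has a pole of order at most `m` there. -/
theorem vanish {g₀ g₁ : ℂ → X} (hg : 𝒮.Curve g₀ g₁) (σ σ' : X → ℂ → Model n)
    (θ : X → ℂ → Model n →L[ℂ] ℂ) (m : ℕ) (σi σi' : ℂ → Model n) (θi : ℂ → Model n →L[ℂ] ℂ)
    (han : ∀ p t, g₀ t ∈ (𝒮.chart p).source →
      AnalyticAt ℂ (σ p) t ∧ AnalyticAt ℂ (σ' p) t ∧ AnalyticAt ℂ (θ p) t)
    (hco : ∀ p q t, g₀ t ∈ (𝒮.chart p).source → g₀ t ∈ (𝒮.chart q).source →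
      σ q t = 𝒮.D p q (g₀ t) (σ p t) ∧ σ' q t = 𝒮.D p q (g₀ t) (σ' p t) ∧
        ∀ v, θ p t v = θ q t (𝒮.D p q (g₀ t) v))
    (hi : AnalyticAt ℂ σi 0 ∧ AnalyticAt ℂ σi' 0 ∧ AnalyticAt ℂ θi 0) (h0 : σi 0 = 0)
    (hglue : ∀ᶠ z in 𝓝[≠] (0 : ℂ), σ (g₁ 0) z⁻¹ = σi z ∧ σ' (g₁ 0) z⁻¹ = σi' z ∧
      θ (g₁ 0) z⁻¹ = (z⁻¹) ^ m • θi z)
    {p : X} {t : ℂ} (hp : g₀ t ∈ (𝒮.chart p).source) :
    θ p t (Nij (𝒮.P p) (𝒮.chart p (g₀ t)) (𝒮.P p (𝒮.chart p (g₀ t)) (σ p t))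
      (𝒮.P p (𝒮.chart p (g₀ t)) (σ' p t))) = 0 := by
  have hex : ∀ q s, g₀ s ∈ (𝒮.chart q).source → ∃ F ξ ξ' ϑ,
      Sol (𝒮.P q) (fun r => 𝒮.chart q (g₀ r)) (σ q) (σ' q) (θ q) s F ξ ξ' ϑ := fun q s hq =>
    exists_sol (𝒮.proj q _ ((𝒮.chart q).map_source hq)) ((hg.hol₀ s).analyticAt hq)
      (han q s hq).1 (han q s hq).2.1 (han q s hq).2.2
  choose F ξ ξ' ϑ hS using fun s => hex (g₀ s) s (𝒮.mem _)
  set T : ℂ → ℂ × ℂ → ℂ := fun s => Sfun (𝒮.P (g₀ s)) (F s) (ξ s) (ξ' s) (ϑ s) with hT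
  have claim : ∀ (q : X) (s : ℂ), g₀ s ∈ (𝒮.chart q).source → ∀ F₁ ξ₁ ξ₁' ϑ₁,
      Sol (𝒮.P q) (fun r => 𝒮.chart q (g₀ r)) (σ q) (σ' q) (θ q) s F₁ ξ₁ ξ₁' ϑ₁ →
      T s =ᶠ[𝓝 (s, s)] Sfun (𝒮.P q) F₁ ξ₁ ξ₁' ϑ₁ := fun q s hq F₁ ξ₁ ξ₁' ϑ₁ h₁ =>
    𝒮.sfun_chart (hg.hol₀ s).1 σ σ' θ hco hq (𝒮.mem _) h₁ (hS s)
  obtain ⟨G, η, η', ϑi, hG⟩ := exists_sol (P := 𝒮.P (g₁ 0))
    (γ := fun r => 𝒮.chart (g₁ 0) (g₁ r))
    (𝒮.proj _ _ ((𝒮.chart (g₁ 0)).map_source (𝒮.mem _))) (hg.hol₁ 0).2 hi.1 hi.2.1 hi.2.2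
  have key := liouville_diag T (Sfun (𝒮.P (g₁ 0)) G η η' ϑi) m (fun s => (hS s).analyticAt)
    (fun t₀ => by
      filter_upwards [(hS t₀).eventually, (hg.hol₀ t₀).1.eventually
        ((𝒮.chart (g₀ t₀)).open_source.mem_nhds (𝒮.mem _))] with s h1 h2
      exact claim _ s h2 _ _ _ _ h1)
    hG.analyticAt (hG.zero_line h0) (by
      have hsrc := (hg.hol₁ 0).1.eventually ((𝒮.chart (g₁ 0)).open_source.mem_nhds (𝒮.mem _))
      have hgl := eventually_eventually_nhdsWithin.2 hglue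
      filter_upwards [nhdsWithin_le_nhds hG.eventually, nhdsWithin_le_nhds hsrc, hgl,
        self_mem_nhdsWithin] with z h1 h2 h3 hz
      have hz0 : z ≠ 0 := hz
      have hzi : z⁻¹ ≠ 0 := inv_ne_zero hz0
      rw [isOpen_compl_singleton.nhdsWithin_eq hz] at h3
      have hinv : AnalyticAt ℂ (fun s : ℂ => s⁻¹) z⁻¹ := analyticAt_id.inv hzi
      have h1' : Sol (𝒮.P (g₁ 0)) (fun r => 𝒮.chart (g₁ 0) (g₁ r)) σi σi' θi
          ((fun s : ℂ => s⁻¹) z⁻¹) G η η' ϑi := by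
        simpa only [inv_inv] using h1
      have h4 := (h1'.reparam hinv).scale (κ := fun s => s ^ m) (analyticAt_id.pow m)
      have htend : Tendsto (fun s : ℂ => s⁻¹) (𝓝 z⁻¹) (𝓝 z) := by
        simpa only [inv_inv] using hinv.continuousAt.tendsto
      have h5 := htend.eventually h3
      have h6 : ∀ᶠ s in 𝓝 z⁻¹, s ≠ 0 := isOpen_ne.mem_nhds hzi
      have h7 := h4.congr (γ₁ := fun r => 𝒮.chart (g₁ 0) (g₀ r)) (σ₁ := σ (g₁ 0))
        (σ₁' := σ' (g₁ 0)) (θ₁ := θ (g₁ 0))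
        (by
          filter_upwards [h6] with s hs
          rw [hg.glue _ (inv_ne_zero hs), inv_inv])
        (by filter_upwards [h5] with s hs using by simpa only [inv_inv] using hs.1)
        (by filter_upwards [h5] with s hs using by simpa only [inv_inv] using hs.2.1)
        (by filter_upwards [h5] with s hs using by simpa only [inv_inv] using hs.2.2)
      refine (claim (g₁ 0) z⁻¹ (by rw [← hg.glue z hz0]; exact h2) _ _ _ _ h7).trans ?_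
      exact Eventually.of_forall (fun q => rfl)) t
  obtain ⟨F₁, ξ₁, ξ₁', ϑ₁, h₁⟩ := hex p t hp
  rw [← h₁.diag, ← (claim p t hp _ _ _ _ h₁).self_of_nhds, key]

end SAtlas

end Crest.Agent.R266
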