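import Crest.Agent.R266.Vanish
import Crest.Agent.R266.Proj2

/-!
# Row 266: polynomial variations of a rational curve
-/

set_option autoImplicit false
set_option linter.unusedSectionVars false
set_option linter.unusedVariables false

open MeasureTheory Metric Set Filter Topology Complex
open scoped ContDiff Manifold Real
open Crest.AlgGeometry.HolSplit

noncomputable section

namespace Crest.Agent.R266

/-- the polynomial `z ^ d • evT w a z⁻¹` -/
def evI {N d : ℕ} (w : HV N) (a : Fin d → HV N) (z : ℂ) : HV N :=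
  w + ∑ k : Fin d, z ^ (d - (k : ℕ)) • a k

theorem evI_zero {N d : ℕ} (w : HV N) (a : Fin d → HV N) : evI w a 0 = w := by
  have : ∀ k : Fin d, (0 : ℂ) ^ (d - (k : ℕ)) • a k = 0 := fun k => by
    rw [zero_pow (Nat.sub_ne_zero_of_lt k.2), zero_smul]
  simp only [evI, this, Finset.sum_const_zero, add_zero]

theorem evI_eq {N d : ℕ} (w : HV N) (a : Fin d → HV N) {z : ℂ} (hz : z ≠ 0) :
    evI w a z = z ^ d • evT w a z⁻¹ := by
  rw [evI, evT, ev, smul_add, Finset.smul_sum, smul_smul, ← mul_pow, mul_inv_cancel₀ hz, one_pow,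
    one_smul, add_comm]
  congr 1
  refine Finset.sum_congr rfl fun k _ => ?_
  rw [smul_smul, pow_sub₀ z hz k.2.le, inv_pow]

theorem evI_eq' {N d : ℕ} (a : Fin d → HV N) {z : ℂ} (hz : z ≠ 0) :
    evI 0 a z = z ^ d • ev a z⁻¹ := by
  rw [evI_eq 0 a hz, evT, smul_zero, add_zero]

theorem analyticAt_evI {N d : ℕ} (w : HV N) (a : Fin d → HV N) (z : ℂ) :
    AnalyticAt ℂ (evI w a) z := by
  unfold evI
  exact analyticAt_const.add (Finset.analyticAt_fun_sum _ fun k _ =>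
    (analyticAt_id.pow _).smul analyticAt_const)

theorem vp_analyticAt_ev {N d : ℕ} (a : Fin d → HV N) (z : ℂ) : AnalyticAt ℂ (ev a) z := by
  unfold ev
  exact Finset.analyticAt_fun_sum _ fun k _ => (analyticAt_id.pow _).smul analyticAt_const

theorem vp_analyticAt_evT {N d : ℕ} (w : HV N) (a : Fin d → HV N) (z : ℂ) :
    AnalyticAt ℂ (evT w a) z := by
  unfold evT
  exact (vp_analyticAt_ev a z).add ((analyticAt_id.pow _).smul analyticAt_const)

namespace SAtlas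
variable {X : Type*} [TopologicalSpace X] {n N : ℕ} (𝒮 : SAtlas X n N)

/-- if `q, q'` are tangent to the space of polynomial lifts, the O'Neill tensor vanishes on the
vectors they define at `t = 0` -/
theorem vanish_poly {g₀ g₁ : ℂ → X} (hg : 𝒮.Curve g₀ g₁) {d : ℕ} {w : HV N} {a q q' : Fin d → HV N}
    (hw : 𝒮.On (g₁ 0) w) (ha : ∀ t, 𝒮.On (g₀ t) (evT w a t)) (hq : 𝒮.TanP w a q)
    (hq' : 𝒮.TanP w a q') {p : X} (hp : g₀ 0 ∈ (𝒮.chart p).source) :
    Nij (𝒮.P p) (𝒮.chart p (g₀ 0))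
      (𝒮.P p (𝒮.chart p (g₀ 0)) (𝒮.vec p (g₀ 0) (evT w a 0) (ev q 0)))
      (𝒮.P p (𝒮.chart p (g₀ 0)) (𝒮.vec p (g₀ 0) (evT w a 0) (ev q' 0))) = 0 := by
  refine eq_zero_of_cov hp (ha 0) fun i j => ?_
  have hOn : ∀ z, 𝒮.On (g₁ z) (evI w a z) := fun z => by
    by_cases hz : z = 0
    · subst hz; rw [evI_zero]; exact hw
    · rw [evI_eq w a hz, hg.glue z hz]; exact (ha _).smul (pow_ne_zero d hz)
  have hTan : ∀ {r : Fin d → HV N}, 𝒮.TanP w a r → ∀ z, 𝒮.Tan (g₁ z) (evI 0 r z) := by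
    intro r hr z
    by_cases hz : z = 0
    · subst hz; rw [evI_zero]; exact tan_zero
    · rw [evI_eq' r hz, hg.glue z hz]; exact (hr _ _ (ha _)).smul _
  have hc : ContinuousAt g₁ 0 := (hg.hol₁ 0).1
  have hm : g₁ 0 ∈ (𝒮.chart (g₁ 0)).source := 𝒮.mem _
  refine 𝒮.vanish hg (fun p t => 𝒮.vec p (g₀ t) (evT w a t) (ev q t))
    (fun p t => 𝒮.vec p (g₀ t) (evT w a t) (ev q' t))
    (fun p t => 𝒮.cov p (g₀ t) (evT w a t) i j) (d * 2)
    (fun z => 𝒮.vec (g₁ 0) (g₁ z) (evI w a z) (evI 0 q z))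
    (fun z => 𝒮.vec (g₁ 0) (g₁ z) (evI w a z) (evI 0 q' z))
    (fun z => 𝒮.cov (g₁ 0) (g₁ z) (evI w a z) i j) ?_ ?_ ?_ ?_ ?_ hp
  · intro p t ht
    have h1 := (hg.hol₀ t).analyticAt ht
    exact ⟨analyticAt_vec (hg.hol₀ t).1 ht h1 (vp_analyticAt_evT w a t) (vp_analyticAt_ev q t)
        (Eventually.of_forall ha) (Eventually.of_forall fun s => hq s _ (ha s)),
      analyticAt_vec (hg.hol₀ t).1 ht h1 (vp_analyticAt_evT w a t) (vp_analyticAt_ev q' t)
        (Eventually.of_forall ha) (Eventually.of_forall fun s => hq' s _ (ha s)),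
      analyticAt_cov (hg.hol₀ t).1 ht h1 (vp_analyticAt_evT w a t) (Eventually.of_forall ha) i j⟩
  · intro p p' t h h'
    exact ⟨vec_chart h h' (ha t) (hq t _ (ha t)), vec_chart h h' (ha t) (hq' t _ (ha t)),
      fun v => cov_chart h h' (ha t) i j v⟩
  · have h1 := (hg.hol₁ 0).analyticAt hm
    exact ⟨analyticAt_vec hc hm h1 (analyticAt_evI w a 0) (analyticAt_evI 0 q 0)
        (Eventually.of_forall hOn) (Eventually.of_forall (hTan hq)),
      analyticAt_vec hc hm h1 (analyticAt_evI w a 0) (analyticAt_evI 0 q' 0)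
        (Eventually.of_forall hOn) (Eventually.of_forall (hTan hq')),
      analyticAt_cov hc hm h1 (analyticAt_evI w a 0) (Eventually.of_forall hOn) i j⟩
  · change 𝒮.vec (g₁ 0) (g₁ 0) (evI w a 0) (evI 0 q 0) = 0
    rw [evI_zero 0 q]
    exact vec_zero hm (hOn 0)
  · have h1 : ∀ᶠ z in 𝓝[≠] (0 : ℂ), g₁ z ∈ (𝒮.chart (g₁ 0)).source :=
      nhdsWithin_le_nhds (hc.eventually ((𝒮.chart (g₁ 0)).open_source.mem_nhds hm))
    filter_upwards [h1, self_mem_nhdsWithin] with z hs hz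
    have hz' : z ≠ 0 := hz
    rw [hg.glue z hz'] at hs
    simp only [hg.glue z hz', evI_eq w a hz', evI_eq' q hz', evI_eq' q' hz']
    refine ⟨(vec_smul hs (ha _) (hq _ _ (ha _)) (pow_ne_zero d hz')).symm,
      (vec_smul hs (ha _) (hq' _ _ (ha _)) (pow_ne_zero d hz')).symm, ?_⟩
    rw [cov_smul hs (ha _), smul_smul, ← pow_mul, ← mul_pow, inv_mul_cancel₀ hz', one_pow, one_smul]

end SAtlas

end Crest.Agent.R266
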