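import Crest.Agent.R266.WaveA

/-!
# Row 266: existence of product type surfaces with given diagonal, constraints
-/

set_option autoImplicit false
set_option linter.unusedSectionVars false
set_option linter.unusedVariables false

open MeasureTheory Metric Set Filter Topology Complex
open scoped ContDiff Manifold Real
open Crest.AlgGeometry.HolSplit

noncomputable section

namespace Crest.Agent.R266

variable {E Λ : Type*} [NormedAddCommGroup E] [NormedSpace ℂ E] [FiniteDimensional ℂ E]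
  [NormedAddCommGroup Λ] [NormedSpace ℂ Λ] [FiniteDimensional ℂ Λ] {P : E → E →L[ℂ] E} {y₀ : E}

namespace WaveAux

theorem an_apply {A G H : Type*} [NormedAddCommGroup A] [NormedSpace ℂ A] [NormedAddCommGroup G]
    [NormedSpace ℂ G] [NormedAddCommGroup H] [NormedSpace ℂ H] {c : A → G →L[ℂ] H} {u : A → G}
    {x : A} (hc : AnalyticAt ℂ c x) (hu : AnalyticAt ℂ u x) : AnalyticAt ℂ (fun r => c r (u r)) x :=
  ((ContinuousLinearMap.id ℂ (G →L[ℂ] H)).analyticAt_bilinear (c x, u x)).comp₂ hc hu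

/-- derivative of `P (F r) (u r)` -/
theorem fderiv_PF {A : Type*} [NormedAddCommGroup A] [NormedSpace ℂ A] {F u : A → E} {x : A}
    (hP : DifferentiableAt ℂ P (F x)) (hF : DifferentiableAt ℂ F x) (hu : DifferentiableAt ℂ u x)
    (w : A) : fderiv ℂ (fun r => P (F r) (u r)) x w =
      fderiv ℂ P (F x) (fderiv ℂ F x w) (u x) + P (F x) (fderiv ℂ u x w) := by
  have h := (hP.hasFDerivAt.comp x hF.hasFDerivAt).clm_apply hu.hasFDerivAt
  have h' : fderiv ℂ (fun r => P (F r) (u r)) x = _ := h.fderiv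
  rw [h']
  simp [add_comm]

theorem fderiv_fderiv_apply {A : Type*} [NormedAddCommGroup A] [NormedSpace ℂ A] {F : A → E} {x : A}
    (hF : AnalyticAt ℂ F x) (w w' : A) :
    fderiv ℂ (fun r => fderiv ℂ F r w) x w' = fderiv ℂ (fderiv ℂ F) x w' w := by
  have : CompleteSpace E := FiniteDimensional.complete ℂ E
  have h := hF.fderiv.differentiableAt.hasFDerivAt.clm_apply (hasFDerivAt_const w x)
  rw [h.fderiv]
  simp

theorem da_db {F : ℂ × ℂ → E} {x : ℂ × ℂ} (hF : AnalyticAt ℂ F x) :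
    da (db F) x = db (da F) x := by
  unfold da db
  rw [fderiv_fderiv_apply hF, fderiv_fderiv_apply hF]
  exact hF.contDiffAt.isSymmSndFDerivAt_of_omega _ _

theorem fderiv_slice {A B : Type*} [NormedAddCommGroup A] [NormedSpace ℂ A] [NormedAddCommGroup B]
    [NormedSpace ℂ B] {F : A × B → E} {l : A} {x : B} (hF : DifferentiableAt ℂ F (l, x)) (w : B) :
    fderiv ℂ (fun r => F (l, r)) x w = fderiv ℂ F (l, x) (0, w) := by
  have h := hF.hasFDerivAt.comp x (hasFDerivAt_prodMk_right (𝕜 := ℂ) l x)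
  have h' : fderiv ℂ (fun r => F (l, r)) x = _ := h.fderiv
  rw [h']
  simp

/-- the constraints are propagated -/
theorem core {F u v : ℂ × ℂ → E} {R : ℝ} (hR : 0 < R)
    (hF : AnalyticOnNhd ℂ F (ball 0 R ×ˢ ball 0 R)) (hu : AnalyticOnNhd ℂ u (ball 0 R ×ˢ ball 0 R))
    (hv : AnalyticOnNhd ℂ v (ball 0 R ×ˢ ball 0 R))
    (h : ∀ q ∈ ball (0 : ℂ) R ×ˢ ball (0 : ℂ) R, ProjAt P (F q) ∧ da F q = u q ∧
      db u q = Gam P (F q) (u q) (v q) ∧ da v q = Gam P (F q) (u q) (v q))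
    (hd : ∀ t ∈ ball (0 : ℂ) R, db F (t, t) = v (t, t) ∧ P (F (t, t)) (u (t, t)) = u (t, t) ∧
      P (F (t, t)) (v (t, t)) = 0) :
    ∀ q ∈ ball (0 : ℂ) R ×ˢ ball (0 : ℂ) R,
      db F q = v q ∧ P (F q) (u q) = u q ∧ P (F q) (v q) = 0 := by
  have : CompleteSpace E := FiniteDimensional.complete ℂ E
  set D : Set (ℂ × ℂ) := ball (0 : ℂ) R ×ˢ ball (0 : ℂ) R with hD
  have hDo : IsOpen D := isOpen_ball.prod isOpen_ball
  have hDc : IsPreconnected D := ((convex_ball _ _).prod (convex_ball _ _)).isPreconnected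
  have hdb : AnalyticOnNhd ℂ (db F) D := fun q hq =>
    an_apply (hF q hq).fderiv analyticAt_const
  -- step 1
  have h1 : ∀ q ∈ D, db F q = v q := by
    rintro ⟨a, b⟩ ⟨ha, hb⟩
    have key : ∀ s ∈ ball (0 : ℂ) R, HasDerivAt (fun s => db F (s, b) - v (s, b)) 0 s := by
      intro s hs
      have hm : (s, b) ∈ D := ⟨hs, hb⟩
      have hw := ((hdb _ hm).differentiableAt.sub (hv _ hm).differentiableAt).hasFDerivAt
      have hl : HasDerivAt (fun s : ℂ => (s, b)) ((1, 0) : ℂ × ℂ) s :=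
        (hasDerivAt_id s).prodMk (hasDerivAt_const s b)
      have h2 := hw.comp_hasDerivAt s hl
      have e : fderiv ℂ (db F - v) (s, b) (1, 0) = 0 := by
        rw [fderiv_sub (hdb _ hm).differentiableAt (hv _ hm).differentiableAt]
        change da (db F) (s, b) - da v (s, b) = 0
        rw [da_db (hF _ hm), (h _ hm).2.2.2, ← (h _ hm).2.2.1, sub_eq_zero]
        unfold db
        have : da F =ᶠ[𝓝 (s, b)] u := by
          filter_upwards [hDo.mem_nhds hm] with r hr using (h r hr).2.1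
        rw [this.fderiv_eq]
      rw [e] at h2
      exact h2
    have := isOpen_ball.is_const_of_deriv_eq_zero (convex_ball (0 : ℂ) R).isPreconnected
      (fun s hs => (key s hs).differentiableAt.differentiableWithinAt)
      (fun s hs => (key s hs).deriv) ha hb
    rw [(hd b hb).1, sub_self, sub_eq_zero] at this
    exact this
  -- step 2
  have hPF : ∀ q ∈ D, AnalyticAt ℂ (fun r => P (F r)) q := fun q hq =>
    AnalyticAt.comp (g := P) (f := F) (h q hq).1.1 (hF q hq)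
  have hp : AnalyticOnNhd ℂ (fun r => u r - P (F r) (u r)) D := fun q hq =>
    (hu q hq).sub (an_apply (hPF q hq) (hu q hq))
  have hq : AnalyticOnNhd ℂ (fun r => P (F r) (v r)) D := fun q hq =>
    an_apply (hPF q hq) (hv q hq)
  have e1 : ∀ r ∈ D, db (fun r => u r - P (F r) (u r)) r =
      - fderiv ℂ P (F r) (v r) (u r - P (F r) (u r)) - fderiv ℂ P (F r) (u r) (P (F r) (v r)) := by
    intro r hr
    obtain ⟨a1, a2, a3, a4⟩ := h r hr
    unfold db
    rw [fderiv_fun_sub (hu r hr).differentiableAt (an_apply (hPF r hr) (hu r hr)).differentiableAt,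
      sub_apply, fderiv_PF a1.1.differentiableAt (hF r hr).differentiableAt
        (hu r hr).differentiableAt]
    change db u r - (fderiv ℂ P (F r) (db F r) (u r) + P (F r) (db u r)) = _
    rw [a3, h1 r hr]
    have i1 := a1.fderiv_idem (v r) (u r)
    have i2 := a1.fderiv_idem (u r) (v r)
    simp only [Gam, map_sub]
    rw [← sub_eq_zero]
    have j1 := sub_eq_zero.2 i1
    have j2 := sub_eq_zero.2 i2
    calc _ = (fderiv ℂ P (F r) (u r) (P (F r) (v r)) + P (F r) (fderiv ℂ P (F r) (u r) (v r)) -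
          fderiv ℂ P (F r) (u r) (v r)) - (fderiv ℂ P (F r) (v r) (P (F r) (u r)) +
          P (F r) (fderiv ℂ P (F r) (v r) (u r)) - fderiv ℂ P (F r) (v r) (u r)) := by abel
      _ = 0 := by rw [j1, j2, sub_zero]
  have e2 : ∀ r ∈ D, da (fun r => P (F r) (v r)) r =
      fderiv ℂ P (F r) (v r) (u r - P (F r) (u r)) + fderiv ℂ P (F r) (u r) (P (F r) (v r)) := by
    intro r hr
    obtain ⟨a1, a2, a3, a4⟩ := h r hr
    unfold da
    rw [fderiv_PF a1.1.differentiableAt (hF r hr).differentiableAt (hv r hr).differentiableAt]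
    change fderiv ℂ P (F r) (da F r) (v r) + P (F r) (da v r) = _
    rw [a4, a2]
    have i1 := a1.fderiv_idem (v r) (u r)
    have i2 := a1.fderiv_idem (u r) (v r)
    simp only [Gam, map_sub]
    rw [← sub_eq_zero]
    have j1 := sub_eq_zero.2 i1
    have j2 := sub_eq_zero.2 i2
    calc _ = (fderiv ℂ P (F r) (v r) (P (F r) (u r)) +
          P (F r) (fderiv ℂ P (F r) (v r) (u r)) - fderiv ℂ P (F r) (v r) (u r)) -
          (fderiv ℂ P (F r) (u r) (P (F r) (v r)) + P (F r) (fderiv ℂ P (F r) (u r) (v r)) -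
          fderiv ℂ P (F r) (u r) (v r)) := by abel
      _ = 0 := by rw [j1, j2, sub_zero]
  have h0 : ((0 : ℂ), (0 : ℂ)) ∈ D := ⟨mem_ball_self hR, mem_ball_self hR⟩
  have hDn : ∀ᶠ r in 𝓝 ((0 : ℂ), (0 : ℂ)), r ∈ D := hDo.mem_nhds h0
  have hdP : AnalyticAt ℂ (fun r => fderiv ℂ P (F r)) (0, 0) :=
    AnalyticAt.comp (g := fderiv ℂ P) (f := F) (h _ h0).1.1.fderiv (hF _ h0)
  have c1 := (an_apply hdP (hu _ h0)).continuousAt.norm
  have c2 := (an_apply hdP (hv _ h0)).continuousAt.norm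
  set M := ‖fderiv ℂ P (F (0, 0)) (u (0, 0))‖ + ‖fderiv ℂ P (F (0, 0)) (v (0, 0))‖ + 1 with hM
  have b1 : ∀ᶠ r in 𝓝 ((0 : ℂ), (0 : ℂ)), ‖fderiv ℂ P (F r) (u r)‖ ≤ M :=
    c1.eventually (eventually_le_nhds (by
      have := norm_nonneg (fderiv ℂ P (F (0, 0)) (v (0, 0))); linarith))
  have b2 : ∀ᶠ r in 𝓝 ((0 : ℂ), (0 : ℂ)), ‖fderiv ℂ P (F r) (v r)‖ ≤ M :=
    c2.eventually (eventually_le_nhds (by
      have := norm_nonneg (fderiv ℂ P (F (0, 0)) (u (0, 0))); linarith))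
  have bd : ∀ (L L' : E →L[ℂ] E) (x y : E), ‖L‖ ≤ M → ‖L'‖ ≤ M →
      ‖L x‖ + ‖L' y‖ ≤ M * (‖x‖ + ‖y‖) := by
    intro L L' x y hL hL'
    rw [mul_add]
    exact add_le_add ((L.le_opNorm x).trans (by gcongr)) ((L'.le_opNorm y).trans (by gcongr))
  have hz := eventually_zero_of_cauchy (p := fun r => u r - P (F r) (u r))
    (q := fun r => P (F r) (v r)) (t := 0) (M := M)
    (hDn.mono fun r hr => (hp r hr).differentiableAt)
    (hDn.mono fun r hr => (hq r hr).differentiableAt)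
    (by
      filter_upwards [hDn, b1, b2] with r hr k1 k2
      rw [e1 r hr]
      refine (norm_sub_le _ _).trans ?_
      rw [norm_neg]
      exact bd _ _ _ _ k2 k1)
    (by
      filter_upwards [hDn, b1, b2] with r hr k1 k2
      rw [e2 r hr]
      exact (norm_add_le _ _).trans (bd _ _ _ _ k2 k1))
    (by
      filter_upwards [isOpen_ball.mem_nhds (mem_ball_self hR : (0 : ℂ) ∈ ball (0 : ℂ) R)] with s hs
      exact ⟨by rw [(hd s hs).2.1, sub_self], (hd s hs).2.2⟩)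
  have z1 := hp.eqOn_zero_of_preconnected_of_eventuallyEq_zero hDc h0 (hz.mono fun r hr => hr.1)
  have z2 := hq.eqOn_zero_of_preconnected_of_eventuallyEq_zero hDc h0 (hz.mono fun r hr => hr.2)
  intro r hr
  exact ⟨h1 r hr, (sub_eq_zero.1 (z1 hr)).symm, z2 hr⟩

end WaveAux

open WaveAux in
theorem exists_wave (hP : ProjAt P y₀) {V : Set E} (hV : V ∈ 𝓝 y₀) :
    ∃ ε > 0, ∀ (O : Set Λ) (f : Λ × ℂ → E), IsOpen O →
      AnalyticOnNhd ℂ f (O ×ˢ ball 0 2) →
      (∀ q ∈ O ×ˢ ball (0 : ℂ) 2, f q ∈ ball y₀ ε ∧ ‖fderiv ℂ f q (0, 1)‖ ≤ ε) →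
      ∃ F : Λ × ℂ × ℂ → E, AnalyticOnNhd ℂ F (Dm O 0 2) ∧
        (∀ q ∈ Dm O (0 : ℂ) 2, F q ∈ V ∧
          P (F q) (fderiv ℂ F q (0, 1, 0)) = fderiv ℂ F q (0, 1, 0) ∧
          P (F q) (fderiv ℂ F q (0, 0, 1)) = 0) ∧
        ∀ l ∈ O, ∀ t ∈ ball (0 : ℂ) 2, F (l, t, t) = f (l, t) := by
  have : CompleteSpace E := FiniteDimensional.complete ℂ E
  obtain ⟨ε, hε, H⟩ := exists_wave_system (Λ := Λ) hP (V := V ∩ {y | ProjAt P y})
    (inter_mem hV hP.eventually)
  refine ⟨ε, hε, fun O f hO hf hb => ?_⟩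
  obtain ⟨F, u, v, hF, hu, hv, h, hd⟩ := H O f hO hf hb
  refine ⟨F, hF, ?_, fun l hl t ht => (hd l hl t ht).1⟩
  rintro ⟨l, x⟩ ⟨hl, hx⟩
  have sl : ∀ {G : Λ × ℂ × ℂ → E}, AnalyticOnNhd ℂ G (Dm O 0 2) →
      AnalyticOnNhd ℂ (fun r => G (l, r)) (ball 0 2 ×ˢ ball 0 2) := fun {G} hG r hr =>
    AnalyticAt.comp (g := G) (f := fun r => (l, r)) (hG (l, r) ⟨hl, hr⟩)
      (analyticAt_const.prod analyticAt_id)
  have key := core (P := P) (F := fun r => F (l, r)) (u := fun r => u (l, r))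
    (v := fun r => v (l, r)) (R := 2) two_pos (sl hF) (sl hu) (sl hv)
    (fun r hr => by
      have hm : (l, r) ∈ Dm O (0 : ℂ) 2 := ⟨hl, hr⟩
      obtain ⟨a1, a2, a3, a4⟩ := h _ hm
      unfold da db
      rw [fderiv_slice (hF _ hm).differentiableAt, fderiv_slice (hu _ hm).differentiableAt,
        fderiv_slice (hv _ hm).differentiableAt]
      exact ⟨a1.2, a2, a3, a4⟩)
    (fun t ht => by
      have hm : (l, t, t) ∈ Dm O (0 : ℂ) 2 := ⟨hl, ht, ht⟩
      obtain ⟨a1, a2, -, -⟩ := h _ hm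
      obtain ⟨b1, b2, b3⟩ := hd l hl t ht
      have hP' : ProjAt P (f (l, t)) := b1 ▸ a1.2
      refine ⟨?_, by rw [b1, b2, hP'.idem], by rw [b1, b3, map_sub, hP'.idem, sub_self]⟩
      have d1 : HasDerivAt (fun s : ℂ => F (l, s, s)) (fderiv ℂ F (l, t, t) (0, 1, 1)) t :=
        (hF _ hm).differentiableAt.hasFDerivAt.comp_hasDerivAt t
          ((hasDerivAt_const t l).prodMk ((hasDerivAt_id t).prodMk (hasDerivAt_id t)))
      have d2 : HasDerivAt (fun s : ℂ => f (l, s)) (fderiv ℂ f (l, t) (0, 1)) t :=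
        (hf (l, t) ⟨hl, ht⟩).differentiableAt.hasFDerivAt.comp_hasDerivAt t
          ((hasDerivAt_const t l).prodMk (hasDerivAt_id t))
      have d3 : (fun s : ℂ => f (l, s)) =ᶠ[𝓝 t] fun s : ℂ => F (l, s, s) := by
        filter_upwards [isOpen_ball.mem_nhds ht] with s hs using (hd l hl s hs).1.symm
      have d4 := (d1.congr_of_eventuallyEq d3).unique d2
      have d5 : ((0, 1, 1) : Λ × ℂ × ℂ) = (0, 1, 0) + (0, 0, 1) := by simp
      rw [d5, map_add, a2, b2] at d4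
      unfold db
      rw [fderiv_slice (hF _ hm).differentiableAt, b3]
      exact eq_sub_of_add_eq' d4)
  have hm : (l, x) ∈ Dm O (0 : ℂ) 2 := ⟨hl, hx⟩
  obtain ⟨k1, k2, k3⟩ := key x hx
  unfold db at k1
  rw [fderiv_slice (hF _ hm).differentiableAt] at k1
  obtain ⟨a1, a2, -, -⟩ := h _ hm
  refine ⟨a1.1, ?_, ?_⟩
  · rw [a2]; exact k2
  · rw [k1]; exact k3

/-- germ version without parameters -/
theorem exists_waveAt {γ : ℂ → E} {t : ℂ} (hP : ProjAt P (γ t)) (hγ : AnalyticAt ℂ γ t) :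
    ∃ F : ℂ × ℂ → E, WaveAt P F (t, t) ∧ ∀ᶠ s in 𝓝 t, F (s, s) = γ s := by
  have : CompleteSpace E := FiniteDimensional.complete ℂ E
  obtain ⟨ε, hε, H⟩ := exists_wave (Λ := ℂ) hP (V := univ) univ_mem
  set M := ‖deriv γ t‖ + 1 with hM
  have hM0 : 0 < M := by positivity
  have ev : ∀ᶠ z in 𝓝 t, AnalyticAt ℂ γ z ∧ γ z ∈ ball (γ t) ε ∧ ‖deriv γ z‖ ≤ M :=
    hγ.eventually_analyticAt.and ((hγ.continuousAt.eventually (ball_mem_nhds _ hε)).and
      (hγ.deriv.continuousAt.norm.eventually (eventually_le_nhds (by linarith))))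
  obtain ⟨δ, hδ, hδ'⟩ := Metric.eventually_nhds_iff_ball.1 ev
  set k : ℝ := min (δ / 2) (ε / M) with hk
  have hk0 : 0 < k := lt_min (by positivity) (by positivity)
  have hk1 : k ≤ δ / 2 := min_le_left _ _
  have hk2 : k * M ≤ ε := by
    have : k ≤ ε / M := min_le_right _ _
    rwa [le_div_iff₀ hM0] at this
  have hkc : (k : ℂ) ≠ 0 := by exact_mod_cast hk0.ne'
  have hmem : ∀ s ∈ ball (0 : ℂ) 2, t + k * s ∈ ball t δ := by
    intro s hs
    rw [mem_ball_zero_iff] at hs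
    rw [mem_ball, dist_eq_norm, add_sub_cancel_left, norm_mul, Complex.norm_real,
      Real.norm_of_nonneg hk0.le]
    nlinarith
  have hlin : ∀ q : ℂ × ℂ, HasFDerivAt (fun q : ℂ × ℂ => t + k * q.2)
      ((k : ℂ) • ContinuousLinearMap.snd ℂ ℂ ℂ) q := fun q =>
    (hasFDerivAt_snd.const_mul (k : ℂ)).const_add t
  obtain ⟨F, hF, h, hd⟩ := H univ (fun q => γ (t + k * q.2)) isOpen_univ
    (fun q hq => AnalyticAt.comp (g := γ) (f := fun q : ℂ × ℂ => t + k * q.2)
      (hδ' _ (hmem _ hq.2)).1 (analyticAt_const.add (analyticAt_const.mul analyticAt_snd)))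
    (fun q hq => by
      obtain ⟨a1, a2, a3⟩ := hδ' _ (hmem _ hq.2)
      refine ⟨a2, ?_⟩
      have d := a1.differentiableAt.hasFDerivAt.comp q (hlin q)
      have d' : fderiv ℂ (fun q : ℂ × ℂ => γ (t + k * q.2)) q = _ := d.fderiv
      rw [d']
      have e : ((fderiv ℂ γ (t + k * q.2)).comp ((k : ℂ) • ContinuousLinearMap.snd ℂ ℂ ℂ)) (0, 1) =
          (k : ℂ) • deriv γ (t + k * q.2) := by
        simp
      rw [e, norm_smul, Complex.norm_real, Real.norm_of_nonneg hk0.le]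
      exact le_trans (by gcongr) hk2)
  set φ : ℂ × ℂ → ℂ × ℂ × ℂ := fun r => (0, (r.1 - t) * (k : ℂ)⁻¹, (r.2 - t) * (k : ℂ)⁻¹) with hφ
  have hφa : ∀ r, AnalyticAt ℂ φ r := fun r =>
    analyticAt_const.prod (((analyticAt_fst.sub analyticAt_const).mul analyticAt_const).prod
      ((analyticAt_snd.sub analyticAt_const).mul analyticAt_const))
  have hφt : φ (t, t) = (0, 0, 0) := by simp [hφ]
  have h0 : φ (t, t) ∈ Dm (univ : Set ℂ) (0 : ℂ) 2 := by
    rw [hφt]; exact ⟨mem_univ _, mem_ball_self two_pos, mem_ball_self two_pos⟩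
  have hev : ∀ᶠ r in 𝓝 (t, t), φ r ∈ Dm (univ : Set ℂ) (0 : ℂ) 2 :=
    (hφa _).continuousAt.eventually ((isOpen_Dm isOpen_univ).mem_nhds h0)
  have hφd : ∀ r w : ℂ × ℂ, fderiv ℂ φ r w = (k : ℂ)⁻¹ • (0, w) := by
    intro r w
    have d : HasFDerivAt φ _ r := (hasFDerivAt_const (0 : ℂ) r).prodMk
      ((((hasFDerivAt_fst (𝕜 := ℂ) (p := r)).sub_const t).mul_const (k : ℂ)⁻¹).prodMk
        (((hasFDerivAt_snd (𝕜 := ℂ) (p := r)).sub_const t).mul_const (k : ℂ)⁻¹))
    rw [d.fderiv]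
    ext <;> simp
  refine ⟨fun r => F (φ r), ⟨AnalyticAt.comp (g := F) (f := φ) (hF _ h0) (hφa _), ?_⟩, ?_⟩
  · filter_upwards [hev] with r hr
    obtain ⟨-, a2, a3⟩ := h _ hr
    have d : ∀ w, fderiv ℂ (fun r => F (φ r)) r w = (k : ℂ)⁻¹ • fderiv ℂ F (φ r) (0, w) := by
      intro w
      have d' : fderiv ℂ (fun r => F (φ r)) r = _ :=
        ((hF _ hr).differentiableAt.hasFDerivAt.comp r (hφa r).differentiableAt.hasFDerivAt).fderiv
      rw [d', ContinuousLinearMap.comp_apply, hφd, map_smul]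
    unfold da db
    rw [d, d, map_smul, map_smul, a2, a3, smul_zero]
    exact ⟨rfl, rfl⟩
  · have hc : ContinuousAt (fun s : ℂ => (s, s)) t := by fun_prop
    filter_upwards [hc.eventually hev] with s hs
    have := hd 0 (mem_univ _) _ hs.2.1
    change F (0, (s - t) * (k : ℂ)⁻¹, (s - t) * (k : ℂ)⁻¹) = γ s
    refine this.trans ?_
    change γ (t + k * ((s - t) * (k : ℂ)⁻¹)) = γ s
    congr 1
    field_simp
    ring

end Crest.Agent.R266
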