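import Crest.Agent.R266.Seg
import Crest.Agent.R266.Osgood
import Crest.Agent.R266.Uniq

/-!
# Row 266: existence of product type surfaces with given diagonal
-/

set_option autoImplicit false
set_option linter.unusedSectionVars false
set_option linter.unusedVariables false

open MeasureTheory Metric Set Filter Topology Complex
open scoped ContDiff Manifold Real
open Crest.AlgGeometry.HolSplit

noncomputable section

namespace Crest.Agent.R266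

variable {E Λ : Type*} [NormedAddCommGroup E] [NormedSpace ℂ E] [FiniteDimensional ℂ E]
  [NormedAddCommGroup Λ] [NormedSpace ℂ Λ] [FiniteDimensional ℂ Λ] {P : E → E →L[ℂ] E} {y₀ : E}

namespace WaveA

theorem consts (hP : ProjAt P y₀) {V : Set E} (hV : V ∈ 𝓝 y₀) :
    ∃ ρ > 0, ∃ C : ℝ, 1 ≤ C ∧ ball y₀ ρ ⊆ V ∧
      (∀ y ∈ ball y₀ ρ, AnalyticAt ℂ P y ∧ ‖P y‖ ≤ C ∧ ‖fderiv ℂ P y‖ ≤ C) ∧
      ∀ y ∈ ball y₀ ρ, ∀ y' ∈ ball y₀ ρ, ‖fderiv ℂ P y - fderiv ℂ P y'‖ ≤ C * ‖y - y'‖ := by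
  have := FiniteDimensional.complete ℂ E
  have h1 := hP.1.fderiv
  obtain ⟨K, t, ht, hK⟩ := (h1.contDiffAt (n := 1)).exists_lipschitzOnWith
  have h2 : ∀ᶠ y in 𝓝 y₀, ‖P y‖ < ‖P y₀‖ + 1 :=
    hP.1.continuousAt.norm.eventually (gt_mem_nhds (lt_add_one _))
  have h3 : ∀ᶠ y in 𝓝 y₀, ‖fderiv ℂ P y‖ < ‖fderiv ℂ P y₀‖ + 1 :=
    h1.continuousAt.norm.eventually (gt_mem_nhds (lt_add_one _))
  have h4 : ∀ᶠ y in 𝓝 y₀, y ∈ V ∧ y ∈ t ∧ AnalyticAt ℂ P y ∧ ‖P y‖ < ‖P y₀‖ + 1 ∧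
      ‖fderiv ℂ P y‖ < ‖fderiv ℂ P y₀‖ + 1 := by
    filter_upwards [hV, ht, hP.1.eventually_analyticAt, h2, h3] with y a b c d e
    exact ⟨a, b, c, d, e⟩
  obtain ⟨ρ, hρ, h⟩ := Metric.eventually_nhds_iff_ball.1 h4
  have k0 := K.2
  have n1 := norm_nonneg (P y₀)
  have n2 := norm_nonneg (fderiv ℂ P y₀)
  refine ⟨ρ, hρ, ‖P y₀‖ + ‖fderiv ℂ P y₀‖ + K + 1, by simp only [NNReal.val_eq_coe] at k0; linarith,
    fun y hy => (h y hy).1, fun y hy => ?_, fun y hy y' hy' => ?_⟩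
  · obtain ⟨-, -, a, b, c⟩ := h y hy
    simp only [NNReal.val_eq_coe] at k0
    exact ⟨a, by linarith, by linarith⟩
  · have := hK.dist_le_mul y (h y hy).2.1 y' (h y' hy').2.1
    rw [dist_eq_norm, dist_eq_norm] at this
    exact this.trans (mul_le_mul_of_nonneg_right (by linarith) (norm_nonneg _))

theorem bil_le (A : E →L[ℂ] E →L[ℂ] E) {a b : E} {C s t : ℝ} (hA : ‖A‖ ≤ C) (ha : ‖a‖ ≤ s)
    (hb : ‖b‖ ≤ t) : ‖A a b‖ ≤ C * s * t := by
  have h1 : 0 ≤ C := le_trans (norm_nonneg A) hA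
  have h2 := (norm_nonneg _).trans ha
  refine (A.le_opNorm₂ a b).trans ?_
  gcongr

theorem bil_sub_le (A A' : E →L[ℂ] E →L[ℂ] E) {a b a' b' : E} {C D M δ : ℝ} (hA : ‖A'‖ ≤ C)
    (hD : ‖A - A'‖ ≤ D) (ha : ‖a‖ ≤ M) (hb : ‖b‖ ≤ M) (ha' : ‖a'‖ ≤ M)
    (h1 : ‖a - a'‖ ≤ δ) (h2 : ‖b - b'‖ ≤ δ) :
    ‖A a b - A' a' b'‖ ≤ D * M * M + 2 * C * M * δ := by
  have e : A a b - A' a' b' = (A - A') a b + A' (a - a') b + A' a' (b - b') := by
    simp only [map_sub, _root_.sub_apply]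
    abel
  rw [e]
  refine norm_add₃_le.trans ?_
  linarith [bil_le (A - A') hD ha hb, bil_le A' hA h1 hb, bil_le A' hA ha' h2]

theorem fderiv_pa {φ : Λ × ℂ → E} {q : Λ × ℂ × ℂ} (h : DifferentiableAt ℂ φ (q.1, q.2.1)) :
    fderiv ℂ (fun q : Λ × ℂ × ℂ => φ (q.1, q.2.1)) q (0, 0, 1) = 0 := by
  have := h.hasFDerivAt.comp q
    (hasFDerivAt_fst.prodMk (hasFDerivAt_fst.comp q (hasFDerivAt_snd (𝕜 := ℂ) (p := q))))
  rw [HasFDerivAt.fderiv (f := fun q : Λ × ℂ × ℂ => φ (q.1, q.2.1)) this]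
  simp [Prod.mk_zero_zero]

theorem fderiv_pb {φ : Λ × ℂ → E} {q : Λ × ℂ × ℂ} (h : DifferentiableAt ℂ φ (q.1, q.2.2)) :
    fderiv ℂ (fun q : Λ × ℂ × ℂ => φ (q.1, q.2.2)) q (0, 1, 0) = 0 := by
  have := h.hasFDerivAt.comp q
    (hasFDerivAt_fst.prodMk (hasFDerivAt_snd.comp q (hasFDerivAt_snd (𝕜 := ℂ) (p := q))))
  rw [HasFDerivAt.fderiv (f := fun q : Λ × ℂ × ℂ => φ (q.1, q.2.2)) this]
  simp [Prod.mk_zero_zero]

/-- the surface determined by the first component -/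
def FF (f : Λ × ℂ → E) (w : Λ × ℂ × ℂ → E × E) (q : Λ × ℂ × ℂ) : E :=
  f (q.1, q.2.2) + segA (fun q => (w q).1) q

/-- the right hand side -/
def HH (P : E → E →L[ℂ] E) (f : Λ × ℂ → E) (w : Λ × ℂ × ℂ → E × E) (q : Λ × ℂ × ℂ) : E :=
  Gam P (FF f w q) (w q).1 (w q).2

end WaveA

open WaveA in
/-- the semilinear system `F_a = u`, `u_b = Γ(u,v)`, `v_a = Γ(u,v)` with data on the diagonal -/
theorem exists_wave_system (hP : ProjAt P y₀) {V : Set E} (hV : V ∈ 𝓝 y₀) :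
    ∃ ε > 0, ∀ (O : Set Λ) (f : Λ × ℂ → E), IsOpen O →
      AnalyticOnNhd ℂ f (O ×ˢ ball 0 2) →
      (∀ q ∈ O ×ˢ ball (0 : ℂ) 2, f q ∈ ball y₀ ε ∧ ‖fderiv ℂ f q (0, 1)‖ ≤ ε) →
      ∃ F u v : Λ × ℂ × ℂ → E, AnalyticOnNhd ℂ F (Dm O 0 2) ∧ AnalyticOnNhd ℂ u (Dm O 0 2) ∧
        AnalyticOnNhd ℂ v (Dm O 0 2) ∧
        (∀ q ∈ Dm O (0 : ℂ) 2, F q ∈ V ∧ fderiv ℂ F q (0, 1, 0) = u q ∧
          fderiv ℂ u q (0, 0, 1) = Gam P (F q) (u q) (v q) ∧
          fderiv ℂ v q (0, 1, 0) = Gam P (F q) (u q) (v q)) ∧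
        ∀ l ∈ O, ∀ t ∈ ball (0 : ℂ) 2, F (l, t, t) = f (l, t) ∧
          u (l, t, t) = P (f (l, t)) (fderiv ℂ f (l, t) (0, 1)) ∧
          v (l, t, t) = fderiv ℂ f (l, t) (0, 1) - P (f (l, t)) (fderiv ℂ f (l, t) (0, 1)) := by
  have := FiniteDimensional.complete ℂ E
  obtain ⟨ρ, hρ, C, hC, hV', hA, hL⟩ := consts hP hV
  obtain ⟨ε, hε, hε1, hε2⟩ : ∃ ε > 0, (4 * C + 9) * ε ≤ ρ ∧ 96 * C * (C + 2) * ((C + 2) * ε) ≤ 1 := by
    refine ⟨min (ρ / (4 * C + 9)) (1 / (96 * C * (C + 2) * (C + 2))), by positivity, ?_, ?_⟩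
    · rw [← le_div_iff₀' (by positivity)]
      exact min_le_left _ _
    · rw [← mul_assoc, ← le_div_iff₀' (by positivity)]
      exact min_le_right _ _
  refine ⟨ε, hε, fun O f hO hf hb => ?_⟩
  set M : ℝ := (C + 2) * ε with hM
  have M0 : 0 < M := by positivity
  have hM1 : 96 * C * M ≤ 1 := le_trans (by nlinarith [mul_pos (by linarith : 0 < C) M0]) hε2
  have hM2 : M ≤ 1 := by nlinarith
  have hW : IsOpen (O ×ˢ ball (0 : ℂ) 2) := hO.prod isOpen_ball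
  have hU : IsOpen (Dm O (0 : ℂ) 2) := isOpen_Dm hO
  set g : Λ × ℂ → E := fun x => fderiv ℂ f x (0, 1) with hg
  set φ : Λ × ℂ → E := fun x => P (f x) (g x) with hφ
  set ψ : Λ × ℂ → E := fun x => g x - φ x with hψ
  have fb : ∀ x ∈ O ×ˢ ball (0 : ℂ) 2, f x ∈ ball y₀ ρ := fun x hx =>
    ball_subset_ball (by nlinarith) (hb x hx).1
  have dg : ∀ x ∈ O ×ˢ ball (0 : ℂ) 2, DifferentiableAt ℂ g x := fun x hx =>
    (hf x hx).fderiv.differentiableAt.clm_apply (differentiableAt_const _)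
  have dφ : ∀ x ∈ O ×ˢ ball (0 : ℂ) 2, DifferentiableAt ℂ φ x := fun x hx =>
    ((hA _ (fb x hx)).1.differentiableAt.comp x (hf x hx).differentiableAt).clm_apply (dg x hx)
  have dψ : ∀ x ∈ O ×ˢ ball (0 : ℂ) 2, DifferentiableAt ℂ ψ x := fun x hx => (dg x hx).sub (dφ x hx)
  have bφ : ∀ x ∈ O ×ˢ ball (0 : ℂ) 2, ‖φ x‖ ≤ C * ε := fun x hx =>
    ((P (f x)).le_opNorm _).trans
      (mul_le_mul (hA _ (fb x hx)).2.1 (hb x hx).2 (norm_nonneg _) (by linarith))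
  have bψ : ∀ x ∈ O ×ˢ ball (0 : ℂ) 2, ‖ψ x‖ ≤ ε + C * ε := fun x hx =>
    (norm_sub_le _ _).trans (add_le_add (hb x hx).2 (bφ x hx))
  have ma : ∀ q ∈ Dm O (0 : ℂ) 2, (q.1, q.2.1) ∈ O ×ˢ ball (0 : ℂ) 2 := fun q hq => ⟨hq.1, hq.2.1⟩
  have mb : ∀ q ∈ Dm O (0 : ℂ) 2, (q.1, q.2.2) ∈ O ×ˢ ball (0 : ℂ) 2 := fun q hq => ⟨hq.1, hq.2.2⟩
  have da : ∀ {χ : Λ × ℂ → E}, (∀ x ∈ O ×ˢ ball (0 : ℂ) 2, DifferentiableAt ℂ χ x) →
      ∀ q ∈ Dm O (0 : ℂ) 2, DifferentiableAt ℂ (fun q : Λ × ℂ × ℂ => χ (q.1, q.2.1)) q :=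
    fun h q hq => (h _ (ma q hq)).comp q (by fun_prop)
  have db : ∀ {χ : Λ × ℂ → E}, (∀ x ∈ O ×ˢ ball (0 : ℂ) 2, DifferentiableAt ℂ χ x) →
      ∀ q ∈ Dm O (0 : ℂ) 2, DifferentiableAt ℂ (fun q : Λ × ℂ × ℂ => χ (q.1, q.2.2)) q :=
    fun h q hq => (h _ (mb q hq)).comp q (by fun_prop)
  have df : ∀ x ∈ O ×ˢ ball (0 : ℂ) 2, DifferentiableAt ℂ f x := fun x hx =>
    (hf x hx).differentiableAt
  set w₀ : Λ × ℂ × ℂ → E × E := fun q => (φ (q.1, q.2.1), ψ (q.1, q.2.2)) with hw₀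
  have d0 : DifferentiableOn ℂ w₀ (Dm O 0 2) := fun q hq =>
    ((da dφ q hq).prodMk (db dψ q hq)).differentiableWithinAt
  -- properties of admissible pairs
  have adm : ∀ w : Λ × ℂ × ℂ → E × E, DifferentiableOn ℂ w (Dm O 0 2) →
      (∀ q ∈ Dm O (0 : ℂ) 2, ‖w q - w₀ q‖ ≤ ε) →
      (∀ q ∈ Dm O (0 : ℂ) 2, ‖(w q).1‖ ≤ M ∧ ‖(w q).2‖ ≤ M) ∧
      (∀ q ∈ Dm O (0 : ℂ) 2, FF f w q ∈ ball y₀ ρ) ∧ DifferentiableOn ℂ (FF f w) (Dm O 0 2) ∧
      DifferentiableOn ℂ (HH P f w) (Dm O 0 2) := by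
    intro w hw hr
    have b1 : ∀ q ∈ Dm O (0 : ℂ) 2, ‖(w q).1‖ ≤ M ∧ ‖(w q).2‖ ≤ M := fun q hq => by
      have e1 := (norm_fst_le _).trans (hr q hq)
      have e2 := (norm_snd_le _).trans (hr q hq)
      have e3 := norm_sub_norm_le (w q).1 (φ (q.1, q.2.1))
      have e4 := norm_sub_norm_le (w q).2 (ψ (q.1, q.2.2))
      have e5 := bφ _ (ma q hq)
      have e6 := bψ _ (mb q hq)
      simp only [Prod.fst_sub, Prod.snd_sub, hw₀] at e1 e2
      constructor <;> nlinarith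
    have b2 : ∀ q ∈ Dm O (0 : ℂ) 2, FF f w q ∈ ball y₀ ρ := fun q hq => by
      have e1 := norm_segA_le (H := fun q => (w q).1) (fun q hq => (b1 q hq).1) hq
      have e2 := (hb _ (mb q hq)).1
      rw [mem_ball, dist_eq_norm] at e2 ⊢
      rw [FF, add_sub_right_comm]
      refine (norm_add_le _ _).trans_lt ?_
      nlinarith
    have d1 : DifferentiableOn ℂ (FF f w) (Dm O 0 2) :=
      DifferentiableOn.add (fun q hq => (db df q hq).differentiableWithinAt)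
        (differentiableOn_segA hO hw.fst)
    have d2 : DifferentiableOn ℂ (fun q => fderiv ℂ P (FF f w q)) (Dm O 0 2) := fun q hq =>
      (hA _ (b2 q hq)).1.fderiv.differentiableAt.comp_differentiableWithinAt q (d1 q hq)
    exact ⟨b1, b2, d1, ((d2.clm_apply hw.snd).clm_apply hw.fst).sub
      ((d2.clm_apply hw.fst).clm_apply hw.snd)⟩
  obtain ⟨w, hw, hr, hfix⟩ := exists_fixed hU w₀ ε hε.le
    (fun w q => w₀ q + (segB (HH P f w) q, segA (HH P f w) q)) d0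
    (fun w hw hr => by
      obtain ⟨b1, b2, -, d2⟩ := adm w hw hr
      refine ⟨d0.add ((differentiableOn_segB hO d2).prodMk (differentiableOn_segA hO d2)),
        fun q hq => ?_⟩
      have bH : ∀ q ∈ Dm O (0 : ℂ) 2, ‖HH P f w q‖ ≤ 2 * (C * M * M) := fun q hq => by
        have := bil_le _ (hA _ (b2 q hq)).2.2 (b1 q hq).1 (b1 q hq).2
        have := bil_le _ (hA _ (b2 q hq)).2.2 (b1 q hq).2 (b1 q hq).1
        refine (norm_sub_le _ _).trans ?_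
        linarith
      have e : 2 * 2 * (2 * (C * M * M)) ≤ ε := by
        calc 2 * 2 * (2 * (C * M * M)) = 8 * C * (C + 2) * M * ε := by rw [hM]; ring
          _ ≤ 1 * ε := by
              refine mul_le_mul_of_nonneg_right (le_trans ?_ hε2) hε.le
              have : 0 ≤ C * (C + 2) * M := by positivity
              linarith
          _ = ε := one_mul _
      rw [add_sub_cancel_left, Prod.norm_mk]
      exact max_le ((norm_segB_le bH hq).trans e) ((norm_segA_le bH hq).trans e))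
    (fun w w' hw hr hw' hr' δ hδ q hq => by
      obtain ⟨b1, b2, -, d2⟩ := adm w hw hr
      obtain ⟨b1', b2', -, d2'⟩ := adm w' hw' hr'
      have δ0 : 0 ≤ δ := (norm_nonneg _).trans (hδ q hq)
      have c1 : ∀ q ∈ Dm O (0 : ℂ) 2, ‖(w q).1 - (w' q).1‖ ≤ δ := fun q hq =>
        (norm_fst_le (w q - w' q)).trans (hδ q hq)
      have c2 : ∀ q ∈ Dm O (0 : ℂ) 2, ‖(w q).2 - (w' q).2‖ ≤ δ := fun q hq =>
        (norm_snd_le (w q - w' q)).trans (hδ q hq)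
      have bH : ∀ q ∈ Dm O (0 : ℂ) 2, ‖HH P f w q - HH P f w' q‖ ≤
          2 * (C * (2 * 2 * δ) * M * M + 2 * C * M * δ) := fun q hq => by
        have e1 : ‖fderiv ℂ P (FF f w q) - fderiv ℂ P (FF f w' q)‖ ≤ C * (2 * 2 * δ) := by
          refine (hL _ (b2 q hq) _ (b2' q hq)).trans
            (mul_le_mul_of_nonneg_left ?_ (by linarith))
          rw [FF, FF, add_sub_add_left_eq_sub]
          exact norm_segA_sub_le hw.fst.continuousOn hw'.fst.continuousOn c1 hq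
        have := bil_sub_le _ _ (hA _ (b2' q hq)).2.2 e1 (b1 q hq).1 (b1 q hq).2 (b1' q hq).1
          (c1 q hq) (c2 q hq)
        have := bil_sub_le _ _ (hA _ (b2' q hq)).2.2 e1 (b1 q hq).2 (b1 q hq).1 (b1' q hq).2
          (c2 q hq) (c1 q hq)
        rw [HH, HH, Gam, Gam, sub_sub_sub_comm]
        refine (norm_sub_le _ _).trans ?_
        linarith
      have e : 2 * 2 * (2 * (C * (2 * 2 * δ) * M * M + 2 * C * M * δ)) ≤ δ / 2 := by
        have e1 : 0 ≤ C * M * δ := by positivity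
        have e2 : C * M * δ * M ≤ C * M * δ := mul_le_of_le_one_right e1 hM2
        have e3 : 96 * C * M * δ ≤ δ := mul_le_of_le_one_left δ0 hM1
        nlinarith
      rw [add_sub_add_left_eq_sub, Prod.mk_sub_mk, Prod.norm_mk]
      exact max_le ((norm_segB_sub_le d2.continuousOn d2'.continuousOn bH hq).trans e)
        ((norm_segA_sub_le d2.continuousOn d2'.continuousOn bH hq).trans e))
  obtain ⟨b1, b2, d1, d2⟩ := adm w hw hr
  have f1 : ∀ q ∈ Dm O (0 : ℂ) 2, (w q).1 = φ (q.1, q.2.1) + segB (HH P f w) q := fun q hq =>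
    (congrArg Prod.fst (hfix q hq)).symm
  have f2 : ∀ q ∈ Dm O (0 : ℂ) 2, (w q).2 = ψ (q.1, q.2.2) + segA (HH P f w) q := fun q hq =>
    (congrArg Prod.snd (hfix q hq)).symm
  refine ⟨FF f w, fun q => (w q).1, fun q => (w q).2, analyticOnNhd_of_differentiableOn hU d1,
    analyticOnNhd_of_differentiableOn hU hw.fst, analyticOnNhd_of_differentiableOn hU hw.snd,
    fun q hq => ⟨hV' (b2 q hq), ?_, ?_, ?_⟩, fun l hl t ht => ?_⟩
  · have e : FF f w = fun q => f (q.1, q.2.2) + segA (fun q => (w q).1) q := rfl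
    rw [e, fderiv_fun_add (db df q hq)
      ((differentiableOn_segA hO hw.fst).differentiableAt (hU.mem_nhds hq)),
      _root_.add_apply, fderiv_pb (df _ (mb q hq)), fderiv_segA hO hw.fst hq, zero_add]
  · rw [Filter.EventuallyEq.fderiv_eq (f := fun q => φ (q.1, q.2.1) + segB (HH P f w) q)
      (Filter.eventually_of_mem (hU.mem_nhds hq) f1), fderiv_fun_add (da dφ q hq)
      ((differentiableOn_segB hO d2).differentiableAt (hU.mem_nhds hq)),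
      _root_.add_apply, fderiv_pa (dφ _ (ma q hq)), fderiv_segB hO d2 hq, zero_add, HH]
  · rw [Filter.EventuallyEq.fderiv_eq (f := fun q => ψ (q.1, q.2.2) + segA (HH P f w) q)
      (Filter.eventually_of_mem (hU.mem_nhds hq) f2), fderiv_fun_add (db dψ q hq)
      ((differentiableOn_segA hO d2).differentiableAt (hU.mem_nhds hq)),
      _root_.add_apply, fderiv_pb (dψ _ (mb q hq)), fderiv_segA hO d2 hq, zero_add, HH]
  · have hq : (l, t, t) ∈ Dm O (0 : ℂ) 2 := ⟨hl, ht, ht⟩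
    refine ⟨?_, ?_, ?_⟩
    · rw [FF, segA_diag, add_zero]
    · beta_reduce
      rw [f1 _ hq, segB_diag, add_zero]
    · beta_reduce
      rw [f2 _ hq, segA_diag, add_zero]

end Crest.Agent.R266
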